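/-
R182, module BND (helper658): the logarithmic law for zero-weight moves.
-/
import Mathlib

set_option autoImplicit false

open Filter Topology

namespace Crest.Agent.R182.Bnd

variable {G : Type*} [Group G]

/-- a length function on a group -/
structure IsLen (len : G → ℝ) : Prop where
  one : len 1 = 0
  inv : ∀ g, len g⁻¹ = len g
  mul : ∀ g h, len (g * h) ≤ len g + len h

theorem IsLen.nonneg {len : G → ℝ} (h : IsLen len) (g : G) : 0 ≤ len g := by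
  have h1 := h.mul g g⁻¹
  rw [mul_inv_cancel, h.one, h.inv] at h1
  linarith

/-- A crossed homomorphism `δ` over a character `χ` with weight `ω`. -/
structure Crossed (len ω : G → ℝ) (χ δ : G → ℂ) (c A : ℝ) : Prop where
  c_nonneg : 0 ≤ c
  A_nonneg : 0 ≤ A
  ω_mul : ∀ g h, ω (g * h) = ω g + ω h
  χ_norm : ∀ g, ‖χ g‖ = Real.exp (ω g)
  δ_mul : ∀ g h, δ (g * h) = δ g + χ g * δ h
  ω_le : ∀ g, |ω g| ≤ c * len g
  δ_le : ∀ g, ‖δ g‖ ≤ A * Real.exp (c * len g)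

/-- uniform quasi-isometry in the displacement form -/
structure SelfQI (len : G → ℝ) (Ψ : G → G) (K : ℝ) : Prop where
  lip : ∀ x y, len ((Ψ x)⁻¹ * Ψ (x * y)) ≤ K * len y + K
  onto : ∀ x y, ∃ z, len z ≤ K * len y + K ∧ len (y⁻¹ * ((Ψ x)⁻¹ * Ψ (x * z))) ≤ K

/-- descent along the powers of `b` -/
def Descent (ω : G → ℝ) (b : G) (Ψ : G → G) (η C₁ : ℝ) : Prop :=
  ∀ (x : G) (k : ℕ), ω (Ψ (x * b ^ k)) ≤ ω (Ψ x) - η * k + C₁

/-- a chain of sets `{1} = Z 0, …, Z r = C` along which conjugation by `b⁻ᵏ` is bounded modulo the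
previous term. -/
structure Chain (len : G → ℝ) (b : G) (Z : ℕ → Set G) (r : ℕ) : Prop where
  zero : ∀ v ∈ Z 0, v = 1
  step : ∀ i < r, ∀ v ∈ Z (i + 1), ∃ R : ℝ, ∀ k : ℕ, ∃ y y' : G, len y ≤ R ∧ y' ∈ Z i ∧
    (b ^ k)⁻¹ * v * b ^ k = y * y'

section Limit

variable {len ω : G → ℝ} {χ δ : G → ℂ} {c A : ℝ}

theorem Crossed.δ_diff (h : Crossed len ω χ δ c A) (g k : G) :
    ‖δ k - δ g‖ ≤ Real.exp (ω g) * (A * Real.exp (c * len (g⁻¹ * k))) := by
  have h1 : δ k = δ g + χ g * δ (g⁻¹ * k) := by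
    rw [← h.δ_mul, mul_inv_cancel_left]
  rw [h1, add_sub_cancel_left, norm_mul, h.χ_norm]
  exact mul_le_mul_of_nonneg_left (h.δ_le _) (Real.exp_pos _).le

theorem Crossed.ω_diff (h : Crossed len ω χ δ c A) (g k : G) :
    ω k ≤ ω g + c * len (g⁻¹ * k) := by
  have h1 : ω k = ω g + ω (g⁻¹ * k) := by
    rw [← h.ω_mul, mul_inv_cancel_left]
  rw [h1]
  have := (abs_le.1 (h.ω_le (g⁻¹ * k))).2
  linarith

/-- The limit function: all that is used later. -/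
structure LimFun (ω : G → ℝ) (δ : G → ℂ) (b : G) (Ψ : G → G) (f : G → ℂ) (Cf : ℝ) : Prop where
  close : ∀ x, ‖f x - δ (Ψ x)‖ ≤ Cf * Real.exp (ω (Ψ x))
  inv : ∀ x, f (x * b) = f x

theorem exists_limFun (h : Crossed len ω χ δ c A) (b : G) {K η C₁ : ℝ} (hη : 0 < η) :
    ∃ Cf : ℝ, 0 ≤ Cf ∧ ∀ Ψ : G → G, SelfQI len Ψ K → Descent ω b Ψ η C₁ →
      ∃ f : G → ℂ, LimFun ω δ b Ψ f Cf := by
  set A₁ : ℝ := A * Real.exp (c * (K * len b + K)) with hA₁
  set r : ℝ := Real.exp (-η) with hr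
  have hr1 : r < 1 := by rw [hr]; exact Real.exp_lt_one_iff.2 (by linarith)
  have hA₁0 : 0 ≤ A₁ := mul_nonneg h.A_nonneg (Real.exp_pos _).le
  refine ⟨A₁ * Real.exp C₁ / (1 - r), by
    have : 0 < 1 - r := by linarith
    positivity, fun Ψ hΨ hD => ?_⟩
  have hstep : ∀ x : G, ∀ k : ℕ, dist (δ (Ψ (x * b ^ k))) (δ (Ψ (x * b ^ (k + 1)))) ≤
      (A₁ * Real.exp C₁ * Real.exp (ω (Ψ x))) * r ^ k := by
    intro x k
    rw [dist_comm, dist_eq_norm]
    refine (h.δ_diff _ _).trans ?_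
    have h1 : len ((Ψ (x * b ^ k))⁻¹ * Ψ (x * b ^ (k + 1))) ≤ K * len b + K := by
      have := hΨ.lip (x * b ^ k) b
      rwa [mul_assoc x, ← pow_succ] at this
    have h2 : Real.exp (ω (Ψ (x * b ^ k))) ≤ Real.exp (ω (Ψ x)) * (r ^ k * Real.exp C₁) := by
      rw [hr, ← Real.exp_nat_mul, ← Real.exp_add, ← Real.exp_add]
      refine Real.exp_le_exp.2 ((hD x k).trans_eq ?_)
      ring
    have h3 : A * Real.exp (c * len ((Ψ (x * b ^ k))⁻¹ * Ψ (x * b ^ (k + 1)))) ≤ A₁ := by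
      rw [hA₁]
      refine mul_le_mul_of_nonneg_left (Real.exp_le_exp.2 ?_) h.A_nonneg
      exact mul_le_mul_of_nonneg_left h1 h.c_nonneg
    calc _ ≤ (Real.exp (ω (Ψ x)) * (r ^ k * Real.exp C₁)) * A₁ :=
          mul_le_mul h2 h3 (mul_nonneg h.A_nonneg (Real.exp_pos _).le) (by positivity)
      _ = _ := by ring
  have hlim : ∀ x : G, ∃ l : ℂ, Tendsto (fun k : ℕ => δ (Ψ (x * b ^ k))) atTop (𝓝 l) := fun x =>
    cauchySeq_tendsto_of_complete (cauchySeq_of_le_geometric r _ hr1 (hstep x))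
  choose f hf using hlim
  refine ⟨f, ?_, ?_⟩
  · intro x
    have h1 := dist_le_of_le_geometric_of_tendsto₀ r _ hr1 (hstep x) (hf x)
    rw [pow_zero, mul_one, dist_comm, dist_eq_norm] at h1
    refine h1.trans_eq ?_
    ring
  · intro x
    have h1 := (hf x).comp (tendsto_add_atTop_nat 1)
    refine tendsto_nhds_unique (hf (x * b)) (h1.congr fun k => ?_)
    show δ (Ψ (x * b ^ (k + 1))) = δ (Ψ (x * b * b ^ k))
    rw [mul_assoc, ← pow_succ']

variable {b : G} {Ψ : G → G} {f : G → ℂ} {Cf : ℝ}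

theorem LimFun.inv_pow (hf : LimFun ω δ b Ψ f Cf) (x : G) (k : ℕ) : f (x * b ^ k) = f x := by
  induction k with
  | zero => simp
  | succ k ih => rw [pow_succ, ← mul_assoc, hf.inv, ih]

/-- modulus of continuity of the limit function -/
theorem LimFun.diff (hl : IsLen len) (h : Crossed len ω χ δ c A) {K : ℝ}
    (hCf : 0 ≤ Cf) (hΨ : SelfQI len Ψ K) (hf : LimFun ω δ b Ψ f Cf) (x y : G) :
    ‖f (x * y) - f x‖ ≤ (2 * Cf + A) * Real.exp (ω (Ψ x)) * Real.exp (c * (K * len y + K)) := by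
  have hlen : len ((Ψ x)⁻¹ * Ψ (x * y)) ≤ K * len y + K := hΨ.lip x y
  have hlen' : c * len ((Ψ x)⁻¹ * Ψ (x * y)) ≤ c * (K * len y + K) :=
    mul_le_mul_of_nonneg_left hlen h.c_nonneg
  have hpos : 0 ≤ c * (K * len y + K) :=
    (mul_nonneg h.c_nonneg (hl.nonneg _)).trans hlen'
  have h1 : ‖f (x * y) - δ (Ψ (x * y))‖ ≤
      Cf * (Real.exp (ω (Ψ x)) * Real.exp (c * (K * len y + K))) := by
    refine (hf.close (x * y)).trans (mul_le_mul_of_nonneg_left ?_ hCf)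
    rw [← Real.exp_add]
    refine Real.exp_le_exp.2 ((h.ω_diff (Ψ x) (Ψ (x * y))).trans ?_)
    linarith
  have h2 : ‖δ (Ψ (x * y)) - δ (Ψ x)‖ ≤
      Real.exp (ω (Ψ x)) * (A * Real.exp (c * (K * len y + K))) := by
    refine (h.δ_diff _ _).trans (mul_le_mul_of_nonneg_left ?_ (Real.exp_pos _).le)
    exact mul_le_mul_of_nonneg_left (Real.exp_le_exp.2 hlen') h.A_nonneg
  have h3 : ‖f x - δ (Ψ x)‖ ≤ Cf * (Real.exp (ω (Ψ x)) * Real.exp (c * (K * len y + K))) := by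
    refine (hf.close x).trans (mul_le_mul_of_nonneg_left ?_ hCf)
    exact le_mul_of_one_le_right (Real.exp_pos _).le (Real.one_le_exp hpos)
  have h4 : f (x * y) - f x = (f (x * y) - δ (Ψ (x * y))) + (δ (Ψ (x * y)) - δ (Ψ x))
      - (f x - δ (Ψ x)) := by ring
  rw [h4]
  calc _ ≤ ‖f (x * y) - δ (Ψ (x * y))‖ + ‖δ (Ψ (x * y)) - δ (Ψ x)‖ + ‖f x - δ (Ψ x)‖ :=
        (norm_sub_le _ _).trans (add_le_add_left (norm_add_le _ _) _)
    _ ≤ _ := add_le_add (add_le_add h1 h2) h3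
    _ = _ := by ring

/-- invariance under one more step of the chain -/
theorem LimFun.inv_step (hl : IsLen len) (h : Crossed len ω χ δ c A) {K η C₁ : ℝ}
    (hη : 0 < η) (hCf : 0 ≤ Cf) (hK : 0 ≤ K)
    (hΨ : SelfQI len Ψ K) (hD : Descent ω b Ψ η C₁) (hf : LimFun ω δ b Ψ f Cf)
    {V : Set G} (hV : ∀ y ∈ V, ∀ x, f (x * y) = f x) {v : G} {R : ℝ}
    (hv : ∀ k : ℕ, ∃ y y' : G, len y ≤ R ∧ y' ∈ V ∧ (b ^ k)⁻¹ * v * b ^ k = y * y') (x : G) :
    f (x * v) = f x := by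
  have hb : ∀ k : ℕ, ‖f (x * v) - f x‖ ≤
      ((2 * Cf + A) * Real.exp (c * (K * R + K)) * Real.exp (ω (Ψ x) + C₁)) *
        (Real.exp (-η)) ^ k := by
    intro k
    obtain ⟨y, y', hy, hy', he⟩ := hv k
    have h1 : f (x * v) = f (x * b ^ k * y) := by
      rw [← hf.inv_pow (x * v) k]
      have h2 : x * v * b ^ k = x * b ^ k * y * y' := by
        have h3 : v * b ^ k = b ^ k * (y * y') := by rw [← he]; group
        rw [mul_assoc, h3]; group
      rw [h2, hV y' hy']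
    rw [h1, ← hf.inv_pow x k]
    refine (hf.diff hl h hCf hΨ (x * b ^ k) y).trans ?_
    have h2 : Real.exp (ω (Ψ (x * b ^ k))) ≤ Real.exp (ω (Ψ x) + C₁) * (Real.exp (-η)) ^ k := by
      rw [← Real.exp_nat_mul, ← Real.exp_add]
      refine Real.exp_le_exp.2 ((hD x k).trans_eq ?_)
      ring
    have h3 : Real.exp (c * (K * len y + K)) ≤ Real.exp (c * (K * R + K)) := by
      refine Real.exp_le_exp.2 (mul_le_mul_of_nonneg_left ?_ h.c_nonneg)
      have := mul_le_mul_of_nonneg_left hy hK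
      linarith
    have hA : 0 ≤ 2 * Cf + A := by have := h.A_nonneg; positivity
    calc _ ≤ (2 * Cf + A) * (Real.exp (ω (Ψ x) + C₁) * (Real.exp (-η)) ^ k) *
          Real.exp (c * (K * R + K)) := by gcongr
      _ = _ := by ring
  have h0 : Tendsto (fun k : ℕ => ((2 * Cf + A) * Real.exp (c * (K * R + K)) *
      Real.exp (ω (Ψ x) + C₁)) * (Real.exp (-η)) ^ k) atTop (𝓝 (_ * 0)) :=
    (tendsto_pow_atTop_nhds_zero_of_lt_one (Real.exp_pos _).le
      (Real.exp_lt_one_iff.2 (by linarith))).const_mul _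
  rw [mul_zero] at h0
  have h1 : ‖f (x * v) - f x‖ ≤ 0 := ge_of_tendsto' h0 hb
  exact sub_eq_zero.1 (norm_le_zero_iff.1 h1)


end Limit

section Main

variable {len ω : G → ℝ} {χ δ : G → ℂ} {c A : ℝ}

/-- pairs of deep points with distant `δ` -/
def Deep (ω : G → ℝ) (δ : G → ℂ) : Prop :=
  ∀ T : ℝ, ∃ y y' : G, ω y ≤ -T ∧ ω y' ≤ -T ∧ 1 ≤ ‖δ y - δ y'‖

/-- decomposition `z = e c` of bounded elements, with logarithmic conjugation growth of `e` under
`N0`, in terms of a size function `sz`. -/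
def Dec (len sz : G → ℝ) (C N0 : Set G) : Prop :=
  ∀ R : ℝ, ∃ CR : ℝ, ∀ z, len z ≤ R → ∃ e c : G, z = e * c ∧ c ∈ C ∧
    ∀ v ∈ N0, len (v * e * v⁻¹) ≤ CR * Real.log (2 + sz v)


end Main

end Crest.Agent.R182.Bnd
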