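import Mathlib
import Crest.Agent.R182.GromovDefs
import Crest.Agent.R182.GromovFinal
import Crest.Agent.R182.GromovCompact

-- ▼ part R182/GromovWalk
section

/-!
R182, module GROMOV, block GW (helper203): the random walk of a finite family of group elements,
harmonic functions along it, second and fourth moments, and the Hellinger comparison inequality.
-/

set_option autoImplicit false
set_option linter.unusedSectionVars false
set_option linter.unusedSimpArgs false

namespace Crest.Agent.R182.Gromov.Walk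

open Function

variable {G : Type*} [Group G] {ι : Type*} [Fintype ι]

/-- Finite support. -/
def FS (f : G → ℝ) : Prop := (support f).Finite

lemma FS.summable {f : G → ℝ} (hf : FS f) : Summable f := summable_of_hasFiniteSupport hf

lemma FS.mono {f g : G → ℝ} (hf : FS f) (h : ∀ x, f x = 0 → g x = 0) : FS g :=
  Set.Finite.subset hf (fun x hx => by
    simp only [mem_support] at hx ⊢
    exact fun h0 => hx (h x h0))

lemma FS.mul_left {f : G → ℝ} (hf : FS f) (g : G → ℝ) : FS (fun x => g x * f x) :=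
  hf.mono (fun x hx => by simp [hx])

lemma FS.mul_right {f : G → ℝ} (hf : FS f) (g : G → ℝ) : FS (fun x => f x * g x) :=
  hf.mono (fun x hx => by simp [hx])

lemma FS.add {f g : G → ℝ} (hf : FS f) (hg : FS g) : FS (fun x => f x + g x) :=
  Set.Finite.subset (Set.Finite.union hf hg) (fun x hx => by
    by_contra h
    simp only [Set.mem_union, mem_support, not_or, not_not] at h
    exact hx (by simp [h.1, h.2]))

lemma FS.sub {f g : G → ℝ} (hf : FS f) (hg : FS g) : FS (fun x => f x - g x) :=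
  Set.Finite.subset (Set.Finite.union hf hg) (fun x hx => by
    by_contra h
    simp only [Set.mem_union, mem_support, not_or, not_not] at h
    exact hx (by simp [h.1, h.2]))

lemma FS.sum {κ : Type*} {s : Finset κ} {f : κ → G → ℝ} (hf : ∀ i ∈ s, FS (f i)) :
    FS (fun x => ∑ i ∈ s, f i x) := by
  classical
  refine Set.Finite.subset (Set.Finite.biUnion (s.finite_toSet) (fun i hi => hf i hi)) ?_
  intro x hx
  by_contra h
  simp only [Set.mem_iUnion, mem_support, not_exists] at h
  apply hx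
  apply Finset.sum_eq_zero
  intro i hi
  by_contra h0
  exact h i hi h0

lemma FS.const_mul {f : G → ℝ} (hf : FS f) (c : ℝ) : FS (fun x => c * f x) :=
  hf.mono (fun x hx => by simp [hx])

lemma FS.comp_inj {f : G → ℝ} (hf : FS f) {φ : G → G} (hφ : Injective φ) :
    FS (fun x => f (φ x)) :=
  Set.Finite.preimage (s := support f) (f := φ) hφ.injOn hf

lemma FS.comp_left {f : G → ℝ} (hf : FS f) (y : G) : FS (fun x => f (y * x)) :=
  hf.comp_inj (mul_right_injective y)

lemma FS.comp_right {f : G → ℝ} (hf : FS f) (y : G) : FS (fun x => f (x * y)) :=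
  hf.comp_inj (mul_left_injective y)

lemma tsum_left (f : G → ℝ) (y : G) : ∑' x, f (y * x) = ∑' x, f x :=
  (Equiv.mulLeft y).tsum_eq f

lemma tsum_right (f : G → ℝ) (y : G) : ∑' x, f (x * y) = ∑' x, f x :=
  (Equiv.mulRight y).tsum_eq f

lemma tsum_cs {u v : G → ℝ} (hu : FS u) (hv : FS v) :
    (∑' x, u x * v x) ^ 2 ≤ (∑' x, u x ^ 2) * ∑' x, v x ^ 2 := by
  classical
  set F : Finset G := hu.toFinset ∪ hv.toFinset with hF
  have hu0 : ∀ x ∉ F, u x = 0 := by
    intro x hx
    by_contra h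
    exact hx (Finset.mem_union.2 (Or.inl ((Set.Finite.mem_toFinset hu).2 h)))
  have hv0 : ∀ x ∉ F, v x = 0 := by
    intro x hx
    by_contra h
    exact hx (Finset.mem_union.2 (Or.inr ((Set.Finite.mem_toFinset hv).2 h)))
  rw [tsum_eq_sum (s := F) (fun x hx => by simp [hu0 x hx]),
    tsum_eq_sum (s := F) (fun x hx => by simp [hu0 x hx]),
    tsum_eq_sum (s := F) (fun x hx => by simp [hv0 x hx])]
  exact Finset.sum_mul_sq_le_sq_mul_sq F u v

variable [Nonempty ι]

/-- `avg F` is the average of a finite family. -/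
noncomputable def avg (F : ι → ℝ) : ℝ := (Fintype.card ι : ℝ)⁻¹ * ∑ i, F i

lemma card_pos' : (0 : ℝ) < Fintype.card ι := by
  exact_mod_cast Fintype.card_pos

lemma card_ne' : (Fintype.card ι : ℝ) ≠ 0 := (card_pos' (ι := ι)).ne'

lemma avg_const (c : ℝ) : avg (fun _ : ι => c) = c := by
  have := card_ne' (ι := ι)
  simp [avg]

lemma avg_add (F H : ι → ℝ) : avg (fun i => F i + H i) = avg F + avg H := by
  simp [avg, Finset.sum_add_distrib, mul_add]

lemma avg_sub (F H : ι → ℝ) : avg (fun i => F i - H i) = avg F - avg H := by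
  simp [avg, Finset.sum_sub_distrib, mul_sub]

lemma avg_smul (c : ℝ) (F : ι → ℝ) : avg (fun i => c * F i) = c * avg F := by
  simp only [avg, ← Finset.mul_sum]; ring

lemma avg_mono {F H : ι → ℝ} (h : ∀ i, F i ≤ H i) : avg F ≤ avg H := by
  unfold avg
  exact mul_le_mul_of_nonneg_left (Finset.sum_le_sum fun i _ => h i)
    (inv_nonneg.mpr (card_pos' (ι := ι)).le)

lemma avg_nonneg {F : ι → ℝ} (h : ∀ i, 0 ≤ F i) : 0 ≤ avg F := by
  unfold avg
  exact mul_nonneg (inv_nonneg.mpr (card_pos' (ι := ι)).le) (Finset.sum_nonneg fun i _ => h i)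

lemma le_card_mul_avg {F : ι → ℝ} (h : ∀ i, 0 ≤ F i) (i : ι) :
    F i ≤ Fintype.card ι * avg F := by
  have h1 : F i ≤ ∑ j, F j := Finset.single_le_sum (fun j _ => h j) (Finset.mem_univ i)
  have h2 : (Fintype.card ι : ℝ) * avg F = ∑ j, F j := by
    unfold avg
    rw [← mul_assoc, mul_inv_cancel₀ (card_ne' (ι := ι)), one_mul]
  rw [h2]; exact h1

lemma avg_comm {κ : Type*} [Fintype κ] [Nonempty κ] (F : ι → κ → ℝ) :
    avg (fun i => avg (fun j => F i j)) = avg (fun j => avg (fun i => F i j)) := by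
  simp only [avg, Finset.mul_sum]
  rw [Finset.sum_comm]
  refine Finset.sum_congr rfl fun j _ => Finset.sum_congr rfl fun i _ => by ring

/-- The law of the random walk with step law uniform on the family `a`. -/
noncomputable def walk (a : ι → G) : ℕ → G → ℝ
  | 0, x => by classical exact if x = 1 then 1 else 0
  | n + 1, x => avg fun i => walk a n ((a i)⁻¹ * x)

lemma walk_zero (a : ι → G) (x : G) [Decidable (x = 1)] :
    walk a 0 x = if x = 1 then 1 else 0 := by
  unfold walk
  split_ifs <;> simp_all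

lemma walk_succ (a : ι → G) (n : ℕ) (x : G) :
    walk a (n + 1) x = avg fun i => walk a n ((a i)⁻¹ * x) := rfl

lemma walk_succ' (a : ι → G) (n : ℕ) (x : G) :
    walk a (n + 1) x = avg fun i => walk a n (x * (a i)⁻¹) := by
  classical
  induction n generalizing x with
  | zero =>
    rw [walk_succ]
    congr 1
    ext i
    rw [walk_zero, walk_zero]
    congr 1
    rw [inv_mul_eq_one, mul_inv_eq_one]
    exact propext eq_comm
  | succ n ih =>
    rw [walk_succ]
    simp_rw [ih]
    rw [avg_comm]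
    congr 1
    ext j
    rw [← ih, walk_succ]
    congr 1
    ext i
    rw [mul_assoc]

lemma walk_nonneg (a : ι → G) (n : ℕ) (x : G) : 0 ≤ walk a n x := by
  classical
  induction n generalizing x with
  | zero => rw [walk_zero]; split_ifs <;> norm_num
  | succ n ih => exact avg_nonneg fun i => ih _

lemma walk_fs (a : ι → G) (n : ℕ) : FS (walk a n) := by
  classical
  induction n with
  | zero =>
    refine Set.Finite.subset (Set.finite_singleton (1 : G)) ?_
    intro x hx
    by_contra h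
    apply hx
    rw [walk_zero, if_neg (by simpa using h)]
  | succ n ih =>
    have : FS (fun x => ∑ i : ι, walk a n ((a i)⁻¹ * x)) :=
      FS.sum (fun i _ => ih.comp_left _)
    exact this.const_mul _

/-- Expectation of `f (X n)`. -/
noncomputable def E (a : ι → G) (n : ℕ) (f : G → ℝ) : ℝ := ∑' x, walk a n x * f x

lemma E_summable (a : ι → G) (n : ℕ) (f : G → ℝ) : Summable fun x => walk a n x * f x :=
  ((walk_fs a n).mul_right f).summable

lemma E_add (a : ι → G) (n : ℕ) (f g : G → ℝ) :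
    E a n (fun x => f x + g x) = E a n f + E a n g := by
  unfold E
  rw [← (E_summable a n f).tsum_add (E_summable a n g)]
  exact tsum_congr fun x => by ring

lemma E_sub (a : ι → G) (n : ℕ) (f g : G → ℝ) :
    E a n (fun x => f x - g x) = E a n f - E a n g := by
  unfold E
  rw [← (E_summable a n f).tsum_sub (E_summable a n g)]
  exact tsum_congr fun x => by ring

lemma E_smul (a : ι → G) (n : ℕ) (c : ℝ) (f : G → ℝ) :
    E a n (fun x => c * f x) = c * E a n f := by
  unfold E
  rw [← tsum_mul_left]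
  exact tsum_congr fun x => by ring

lemma E_mono (a : ι → G) (n : ℕ) {f g : G → ℝ} (h : ∀ x, f x ≤ g x) : E a n f ≤ E a n g :=
  (E_summable a n f).tsum_le_tsum (fun x => mul_le_mul_of_nonneg_left (h x) (walk_nonneg a n x))
    (E_summable a n g)

lemma E_nonneg (a : ι → G) (n : ℕ) {f : G → ℝ} (h : ∀ x, 0 ≤ f x) : 0 ≤ E a n f :=
  tsum_nonneg fun x => mul_nonneg (walk_nonneg a n x) (h x)

lemma E_avg {κ : Type*} [Fintype κ] [Nonempty κ] (a : ι → G) (n : ℕ) (f : κ → G → ℝ) :
    E a n (fun x => avg fun i => f i x) = avg fun i => E a n (f i) := by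
  unfold E avg
  rw [Finset.mul_sum]
  have : ∀ x, walk a n x * ((Fintype.card κ : ℝ)⁻¹ * ∑ i, f i x)
      = ∑ i, (Fintype.card κ : ℝ)⁻¹ * (walk a n x * f i x) := by
    intro x
    rw [Finset.mul_sum, Finset.mul_sum]
    exact Finset.sum_congr rfl fun i _ => by ring
  rw [tsum_congr this, Summable.tsum_finsetSum]
  · exact Finset.sum_congr rfl fun i _ => tsum_mul_left
  · intro i _
    exact (E_summable a n (f i)).mul_left _

lemma E_zero (a : ι → G) (f : G → ℝ) : E a 0 f = f 1 := by
  classical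
  unfold E
  rw [tsum_eq_single (1 : G)]
  · rw [walk_zero, if_pos rfl, one_mul]
  · intro x hx
    rw [walk_zero, if_neg hx, zero_mul]

lemma tsum_avg {κ : Type*} [Fintype κ] [Nonempty κ] (f : κ → G → ℝ) (hf : ∀ i, FS (f i)) :
    ∑' x, avg (fun i => f i x) = avg fun i => ∑' x, f i x := by
  unfold avg
  rw [tsum_mul_left, Summable.tsum_finsetSum]
  intro i _
  exact (hf i).summable


lemma E_succ (a : ι → G) (n : ℕ) (f : G → ℝ) :
    E a (n + 1) f = E a n (fun x => avg fun i => f (x * a i)) := by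
  rw [E_avg]
  unfold E
  have h1 : ∀ x, walk a (n + 1) x * f x
      = avg fun i => walk a n (x * (a i)⁻¹) * f x := by
    intro x
    rw [walk_succ', mul_comm, ← avg_smul]
    congr 1; ext i; ring
  rw [tsum_congr h1, tsum_avg]
  · congr 1
    ext i
    rw [← tsum_right _ (a i)]
    exact tsum_congr fun x => by simp
  · intro i
    exact ((walk_fs a n).comp_right _).mul_right _

lemma E_const (a : ι → G) (n : ℕ) (c : ℝ) : E a n (fun _ => c) = c := by
  induction n with
  | zero => rw [E_zero]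
  | succ n ih => rw [E_succ, show (fun _ : G => avg fun _ : ι => c) = fun _ => c from
      funext fun _ => avg_const c, ih]

lemma walk_sum (a : ι → G) (n : ℕ) : ∑' x, walk a n x = 1 := by
  have := E_const a n 1
  simpa [E] using this

/-- Harmonic functions (right random walk). -/
def Harm (a : ι → G) (h : G → ℝ) : Prop := ∀ x, avg (fun i => h (x * a i)) = h x

lemma Harm.comp_left {a : ι → G} {h : G → ℝ} (hh : Harm a h) (y : G) :
    Harm a (fun x => h (y * x)) := fun x => by
  have := hh (y * x)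
  simpa [mul_assoc] using this

lemma Harm.E_eq {a : ι → G} {h : G → ℝ} (hh : Harm a h) (n : ℕ) : E a n h = h 1 := by
  induction n with
  | zero => rw [E_zero]
  | succ n ih => rw [E_succ, show (fun x : G => avg fun i : ι => h (x * a i)) = h from
      funext fun x => hh x, ih]

lemma Harm.E_left {a : ι → G} {h : G → ℝ} (hh : Harm a h) (n : ℕ) (y : G) :
    E a n (fun x => h (y * x)) = h y := by
  rw [(hh.comp_left y).E_eq, mul_one]

/-- `LipB a L h`: the increments of `h` along the family are bounded by `L`. -/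
def LipB (a : ι → G) (L : ℝ) (h : G → ℝ) : Prop := ∀ x i, |h (x * a i) - h x| ≤ L

lemma LipB.comp_left {a : ι → G} {L : ℝ} {h : G → ℝ} (hh : LipB a L h) (y : G) :
    LipB a L (fun x => h (y * x)) := fun x i => by
  have := hh (y * x) i
  simpa [mul_assoc] using this

lemma Harm.sum_diff {a : ι → G} {h : G → ℝ} (hh : Harm a h) (x : G) :
    avg (fun i => h (x * a i) - h x) = 0 := by
  rw [avg_sub, hh x, avg_const, sub_self]

lemma Harm.E_sq_succ {a : ι → G} {h : G → ℝ} (hh : Harm a h) (n : ℕ) :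
    E a (n + 1) (fun x => h x ^ 2) = E a n (fun x => h x ^ 2)
      + E a n (fun x => avg fun i => (h (x * a i) - h x) ^ 2) := by
  rw [E_succ, ← E_add]
  congr 1
  ext x
  have h1 : ∀ i, h (x * a i) ^ 2
      = (h x ^ 2 + 2 * h x * (h (x * a i) - h x)) + (h (x * a i) - h x) ^ 2 := fun i => by ring
  simp_rw [h1]
  rw [avg_add, avg_add, avg_const, avg_smul, hh.sum_diff, mul_zero, add_zero]

lemma Harm.E_sq {a : ι → G} {h : G → ℝ} (hh : Harm a h) (n : ℕ) :
    E a n (fun x => h x ^ 2) = h 1 ^ 2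
      + ∑ k ∈ Finset.range n, E a k (fun x => avg fun i => (h (x * a i) - h x) ^ 2) := by
  induction n with
  | zero => simp [E_zero]
  | succ n ih => rw [hh.E_sq_succ, ih, Finset.sum_range_succ, add_assoc]

lemma Harm.E_sq_le {a : ι → G} {h : G → ℝ} {L : ℝ} (hh : Harm a h) (hL : LipB a L h)
    (h1 : h 1 = 0) (n : ℕ) : E a n (fun x => h x ^ 2) ≤ n * L ^ 2 := by
  rw [hh.E_sq, h1]
  have : ∀ k ∈ Finset.range n,
      E a k (fun x => avg fun i => (h (x * a i) - h x) ^ 2) ≤ L ^ 2 := by
    intro k _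
    calc _ ≤ E a k (fun _ => L ^ 2) := by
            apply E_mono
            intro x
            calc _ ≤ avg (fun _ : ι => L ^ 2) := by
                    apply avg_mono
                    intro i
                    have := hL x i
                    rw [← sq_abs]
                    exact pow_le_pow_left₀ (abs_nonneg _) this 2
              _ = L ^ 2 := avg_const _
      _ = L ^ 2 := E_const a k _
  calc _ ≤ (0 : ℝ) ^ 2 + ∑ k ∈ Finset.range n, L ^ 2 := by
            gcongr with k hk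
            exact this k hk
    _ = n * L ^ 2 := by simp

lemma Harm.E_four_le {a : ι → G} {h : G → ℝ} {L : ℝ} (hh : Harm a h) (hL : LipB a L h)
    (h1 : h 1 = 0) (n : ℕ) : E a n (fun x => h x ^ 4) ≤ 4 * n ^ 2 * L ^ 4 := by
  induction n with
  | zero => simp [E_zero, h1]
  | succ n ih =>
    have key : E a (n + 1) (fun x => h x ^ 4)
        ≤ E a n (fun x => h x ^ 4 + (8 * L ^ 2 * h x ^ 2 + 3 * L ^ 4)) := by
      rw [E_succ]
      apply E_mono
      intro x
      have e1 : ∀ i, h (x * a i) ^ 4 ≤ (h x ^ 4 + 4 * h x ^ 3 * (h (x * a i) - h x))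
          + (8 * L ^ 2 * h x ^ 2 + 3 * L ^ 4) := by
        intro i
        have hd := hL x i
        set t := h (x * a i) - h x with ht
        have hx : h (x * a i) = h x + t := by rw [ht]; ring
        rw [hx]
        have ht2 : t ^ 2 ≤ L ^ 2 := by
          rw [← sq_abs]; exact pow_le_pow_left₀ (abs_nonneg _) hd 2
        have ht2' : 0 ≤ t ^ 2 := sq_nonneg t
        have hL2 : 0 ≤ L ^ 2 := sq_nonneg L
        have e2 : (h x + t) ^ 4 = h x ^ 4 + 4 * h x ^ 3 * t + 6 * h x ^ 2 * t ^ 2
            + t ^ 2 * (4 * h x * t) + (t ^ 2) ^ 2 := by ring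
        have e3 : 4 * h x * t ≤ 2 * h x ^ 2 + 2 * t ^ 2 := by nlinarith [sq_nonneg (h x - t)]
        have e4 : t ^ 2 * (4 * h x * t) ≤ t ^ 2 * (2 * h x ^ 2 + 2 * t ^ 2) :=
          mul_le_mul_of_nonneg_left e3 ht2'
        have e5 : t ^ 2 * h x ^ 2 ≤ L ^ 2 * h x ^ 2 :=
          mul_le_mul_of_nonneg_right ht2 (sq_nonneg _)
        have e6 : (t ^ 2) ^ 2 ≤ (L ^ 2) ^ 2 := pow_le_pow_left₀ ht2' ht2 2
        rw [e2]
        nlinarith
      calc avg (fun i => h (x * a i) ^ 4)
          ≤ avg (fun i => (h x ^ 4 + 4 * h x ^ 3 * (h (x * a i) - h x))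
            + (8 * L ^ 2 * h x ^ 2 + 3 * L ^ 4)) := avg_mono e1
        _ = _ := by
          rw [avg_add, avg_add, avg_const, avg_const, avg_smul, hh.sum_diff, mul_zero, add_zero]
    have h2 := hh.E_sq_le hL h1 n
    rw [E_add, E_add, E_smul, E_const] at key
    have h3 : 8 * L ^ 2 * E a n (fun x => h x ^ 2) ≤ 8 * L ^ 2 * (n * L ^ 2) :=
      mul_le_mul_of_nonneg_left h2 (by positivity)
    have hn : (0 : ℝ) ≤ n := Nat.cast_nonneg n
    have hL4 : 0 ≤ L ^ 4 := by positivity
    calc _ ≤ 4 * (n : ℝ) ^ 2 * L ^ 4 + (8 * L ^ 2 * (n * L ^ 2) + 3 * L ^ 4) := by linarith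
      _ ≤ 4 * ((n + 1 : ℕ) : ℝ) ^ 2 * L ^ 4 := by
        push_cast
        nlinarith

/-- Hellinger distance squared of the law and its left translate. -/
noncomputable def D (a : ι → G) (n : ℕ) (y : G) : ℝ :=
  ∑' x, (Real.sqrt (walk a n (y⁻¹ * x)) - Real.sqrt (walk a n x)) ^ 2

lemma sqrt_fs {f : G → ℝ} (hf : FS f) : FS (fun x => Real.sqrt (f x)) :=
  hf.mono fun x hx => by simp [hx]



lemma D_mul (a : ι → G) (n : ℕ) (y z : G) :
    D a n (y * z) ≤ 2 * D a n y + 2 * D a n z := by
  have hs := sqrt_fs (walk_fs a n)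
  set w := fun x => Real.sqrt (walk a n x) with hw
  have e1 : D a n z = ∑' x, (w (z⁻¹ * (y⁻¹ * x)) - w (y⁻¹ * x)) ^ 2 := by
    unfold D
    rw [← tsum_left _ (y⁻¹)]
  have e2 : D a n y = ∑' x, (w (y⁻¹ * x) - w x) ^ 2 := rfl
  have e3 : D a n (y * z) = ∑' x, (w (z⁻¹ * (y⁻¹ * x)) - w x) ^ 2 := by
    unfold D
    exact tsum_congr fun x => by simp [hw, mul_assoc]
  have f1 : FS fun x => (w (z⁻¹ * (y⁻¹ * x)) - w (y⁻¹ * x)) ^ 2 := by
    have : FS fun x => w (z⁻¹ * (y⁻¹ * x)) - w (y⁻¹ * x) :=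
      ((hs.comp_left z⁻¹).comp_left y⁻¹).sub (hs.comp_left y⁻¹)
    exact this.mono fun x hx => by simp [hx]
  have f2 : FS fun x => (w (y⁻¹ * x) - w x) ^ 2 := by
    have : FS fun x => w (y⁻¹ * x) - w x := (hs.comp_left y⁻¹).sub hs
    exact this.mono fun x hx => by simp [hx]
  have f3 : FS fun x => (w (z⁻¹ * (y⁻¹ * x)) - w x) ^ 2 := by
    have : FS fun x => w (z⁻¹ * (y⁻¹ * x)) - w x :=
      ((hs.comp_left z⁻¹).comp_left y⁻¹).sub hs
    exact this.mono fun x hx => by simp [hx]
  rw [e1, e2, e3, ← tsum_mul_left, ← tsum_mul_left,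
    ← (f2.const_mul 2).summable.tsum_add (f1.const_mul 2).summable]
  apply f3.summable.tsum_le_tsum _ ((f2.const_mul 2).summable.add (f1.const_mul 2).summable)
  intro x
  nlinarith [sq_nonneg ((w (z⁻¹ * (y⁻¹ * x)) - w (y⁻¹ * x)) - (w (y⁻¹ * x) - w x))]


/-- Comparison of expectations of `f` and of its left translate. -/
lemma diff_sq_le (a : ι → G) (n : ℕ) (y : G) (f : G → ℝ) :
    (E a n (fun x => f (y * x)) - E a n f) ^ 2
      ≤ D a n y * (2 * (E a n (fun x => f (y * x) ^ 2) + E a n (fun x => f x ^ 2))) := by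
  have hw := walk_fs a n
  set p := fun x => walk a n (y⁻¹ * x) with hp
  set r := fun x => walk a n x with hr
  have hpf : FS p := hw.comp_left _
  have hrf : FS r := hw
  have hp0 : ∀ x, 0 ≤ p x := fun x => walk_nonneg a n _
  have hr0 : ∀ x, 0 ≤ r x := fun x => walk_nonneg a n _
  have e1 : E a n (fun x => f (y * x)) = ∑' x, p x * f x := by
    unfold E
    rw [← tsum_left _ (y⁻¹)]
    exact tsum_congr fun x => by simp [hp]
  have e2 : E a n (fun x => f (y * x) ^ 2) = ∑' x, p x * f x ^ 2 := by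
    unfold E
    rw [← tsum_left _ (y⁻¹)]
    exact tsum_congr fun x => by simp [hp]
  have e3 : E a n f = ∑' x, r x * f x := rfl
  have e4 : E a n (fun x => f x ^ 2) = ∑' x, r x * f x ^ 2 := rfl
  have e5 : (∑' x, p x * f x) - ∑' x, r x * f x
      = ∑' x, (Real.sqrt (p x) - Real.sqrt (r x)) * ((Real.sqrt (p x) + Real.sqrt (r x)) * f x) := by
    rw [← (hpf.mul_right f).summable.tsum_sub (hrf.mul_right f).summable]
    refine tsum_congr fun x => ?_
    have h1 := Real.mul_self_sqrt (hp0 x)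
    have h2 := Real.mul_self_sqrt (hr0 x)
    have h3 : (Real.sqrt (p x) - Real.sqrt (r x)) * (Real.sqrt (p x) + Real.sqrt (r x))
        = p x - r x := by
      linear_combination h1 - h2
    rw [← mul_assoc, h3]; ring
  have fu : FS fun x => Real.sqrt (p x) - Real.sqrt (r x) := (sqrt_fs hpf).sub (sqrt_fs hrf)
  have fv : FS fun x => (Real.sqrt (p x) + Real.sqrt (r x)) * f x :=
    ((sqrt_fs hpf).add (sqrt_fs hrf)).mul_right f
  rw [e1, e2, e3, e4, e5]
  refine (tsum_cs fu fv).trans ?_
  have hD : D a n y = ∑' x, (Real.sqrt (p x) - Real.sqrt (r x)) ^ 2 := rfl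
  rw [hD]
  apply mul_le_mul_of_nonneg_left _ (tsum_nonneg fun _ => sq_nonneg _)
  have s1 := (hpf.mul_right fun x => f x ^ 2).summable
  have s2 := (hrf.mul_right fun x => f x ^ 2).summable
  rw [← s1.tsum_add s2, ← tsum_mul_left]
  have fv2 : FS fun x => ((Real.sqrt (p x) + Real.sqrt (r x)) * f x) ^ 2 :=
    fv.mono fun x hx => by simp [hx]
  apply fv2.summable.tsum_le_tsum _ ((s1.add s2).mul_left 2)
  intro x
  have h1 := Real.mul_self_sqrt (hp0 x)
  have h2 := Real.mul_self_sqrt (hr0 x)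
  have h3 : (Real.sqrt (p x) + Real.sqrt (r x)) ^ 2 ≤ 2 * (p x + r x) := by
    nlinarith [sq_nonneg (Real.sqrt (p x) - Real.sqrt (r x))]
  calc ((Real.sqrt (p x) + Real.sqrt (r x)) * f x) ^ 2
      = (Real.sqrt (p x) + Real.sqrt (r x)) ^ 2 * f x ^ 2 := by ring
    _ ≤ (2 * (p x + r x)) * f x ^ 2 := mul_le_mul_of_nonneg_right h3 (sq_nonneg _)
    _ = 2 * (p x * f x ^ 2 + r x * f x ^ 2) := by ring

end Crest.Agent.R182.Gromov.Walk
private theorem rz_badcea1bbb : type_of% @_root_.Crest.Agent.R182.Gromov.Walk.walk.eq_def := @_root_.Crest.Agent.R182.Gromov.Walk.walk.eq_def -- L142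
end

-- ▼ part R182/GromovExist
section

set_option autoImplicit false
set_option linter.unusedSectionVars false

namespace Crest.Agent.R182.Gromov.Exist

open Crest.Agent.R182.Gromov Crest.Agent.R182.Gromov.Walk Function

variable {G : Type*} [Group G] {ι : Type*} [Fintype ι] [Nonempty ι]

/-- scalar product of functions on `G`. -/
noncomputable def ip (u v : G → ℝ) : ℝ := ∑' x, u x * v x

/-- left translation. -/
def tr (g : G) (u : G → ℝ) : G → ℝ := fun x => u (g⁻¹ * x)

/-- the family of steps is symmetric. -/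
def SymFam (a : ι → G) : Prop := ∀ F : G → ℝ, avg (fun i => F (a i)⁻¹) = avg (fun i => F (a i))

/-- lazy convolution operator. -/
noncomputable def Q (a : ι → G) (u : G → ℝ) : G → ℝ :=
  fun x => (u x + avg fun i => tr (a i) u x) / 2

lemma tr_fs {u : G → ℝ} (hu : FS u) (g : G) : FS (tr g u) := hu.comp_left _

lemma Q_fs {a : ι → G} {u : G → ℝ} (hu : FS u) : FS (Q a u) := by
  have h1 : FS (fun x => ∑ i : ι, tr (a i) u x) := FS.sum (fun i _ => tr_fs hu _)
  have h2 : FS (fun x => u x + (Fintype.card ι : ℝ)⁻¹ * ∑ i : ι, tr (a i) u x) :=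
    hu.add (h1.const_mul _)
  exact h2.mono fun x hx => by
    show (u x + avg fun i => tr (a i) u x) / 2 = 0
    have : u x + (avg fun i => tr (a i) u x) = 0 := hx
    rw [this]; simp

lemma ip_comm (u v : G → ℝ) : ip u v = ip v u := tsum_congr fun _ => mul_comm _ _

lemma ip_summable {u v : G → ℝ} (hv : FS v) : Summable fun x => u x * v x :=
  (hv.mul_left u).summable

lemma ip_sub_left {u v w : G → ℝ} (hw : FS w) :
    ip (fun x => u x - v x) w = ip u w - ip v w := by
  unfold ip
  rw [← (ip_summable hw).tsum_sub (ip_summable hw)]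
  exact tsum_congr fun x => by ring

lemma ip_add_left {u v w : G → ℝ} (hw : FS w) :
    ip (fun x => u x + v x) w = ip u w + ip v w := by
  unfold ip
  rw [← (ip_summable hw).tsum_add (ip_summable hw)]
  exact tsum_congr fun x => by ring

lemma ip_smul_left (c : ℝ) (u w : G → ℝ) : ip (fun x => c * u x) w = c * ip u w := by
  unfold ip
  rw [← tsum_mul_left]
  exact tsum_congr fun x => by ring

lemma ip_avg_left {κ : Type*} [Fintype κ] [Nonempty κ] {u : κ → G → ℝ} {w : G → ℝ} (hw : FS w) :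
    ip (fun x => avg fun i => u i x) w = avg fun i => ip (u i) w := by
  unfold ip
  rw [← tsum_avg (fun i x => u i x * w x) (fun i => hw.mul_left _)]
  refine tsum_congr fun x => ?_
  rw [mul_comm, ← avg_smul]
  congr 1; ext i; ring

lemma ip_self_nonneg (u : G → ℝ) : 0 ≤ ip u u := tsum_nonneg fun _ => mul_self_nonneg _

lemma ip_cs {u v : G → ℝ} (hu : FS u) (hv : FS v) : ip u v ^ 2 ≤ ip u u * ip v v := by
  have h := tsum_cs hu hv
  simp only [sq] at h ⊢
  exact h

lemma ip_tr (g : G) (u v : G → ℝ) : ip (tr g u) (tr g v) = ip u v := by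
  unfold ip tr
  exact tsum_left (fun x => u x * v x) g⁻¹

lemma tr_one (u : G → ℝ) : tr (1 : G) u = u := by ext x; simp [tr]

lemma tr_mul (g h : G) (u : G → ℝ) : tr (g * h) u = tr g (tr h u) := by
  ext x; simp [tr, mul_assoc]

lemma ip_tr_left (g : G) (u v : G → ℝ) : ip (tr g u) v = ip u (tr g⁻¹ v) := by
  rw [← ip_tr g u (tr g⁻¹ v), ← tr_mul, mul_inv_cancel, tr_one]

lemma ip_Q_left {a : ι → G} {u v : G → ℝ} (hv : FS v) :
    ip (Q a u) v = (ip u v + avg fun i => ip (tr (a i) u) v) / 2 := by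
  have h1 : Q a u = fun x => (2 : ℝ)⁻¹ * (u x + avg fun i => tr (a i) u x) := by
    ext x; simp only [Q]; ring
  rw [h1, ip_smul_left, ip_add_left hv, ip_avg_left hv]
  ring

lemma ip_Q {a : ι → G} (ha : SymFam a) {u v : G → ℝ} (hu : FS u) (hv : FS v) :
    ip (Q a u) v = ip u (Q a v) := by
  rw [ip_comm u (Q a v), ip_Q_left hv, ip_Q_left hu, ip_comm v u]
  congr 2
  have h1 := ha (fun g => ip (tr g u) v)
  rw [← h1]
  congr 1
  ext i
  rw [ip_tr_left, inv_inv, ip_comm]

lemma sq_sub_tr {u : G → ℝ} (hu : FS u) (g : G) :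
    ip (fun x => u x - tr g u x) (fun x => u x - tr g u x) = 2 * ip u u - 2 * ip (tr g u) u := by
  have h1 := hu.sub (tr_fs hu g)
  rw [ip_sub_left h1, ip_comm u, ip_comm (tr g u), ip_sub_left hu, ip_sub_left (tr_fs hu g),
    ip_tr, ip_comm u (tr g u)]
  ring

lemma sq_add_tr {u : G → ℝ} (hu : FS u) (g : G) :
    ip (fun x => u x + tr g u x) (fun x => u x + tr g u x) = 2 * ip u u + 2 * ip (tr g u) u := by
  have h1 := hu.add (tr_fs hu g)
  rw [ip_add_left h1, ip_comm u, ip_comm (tr g u), ip_add_left hu, ip_add_left (tr_fs hu g),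
    ip_tr, ip_comm u (tr g u)]
  ring

lemma avg_sub_tr {a : ι → G} {u : G → ℝ} (hu : FS u) :
    (avg fun i => ip (fun x => u x - tr (a i) u x) (fun x => u x - tr (a i) u x))
      = 4 * (ip u u - ip (Q a u) u) := by
  simp_rw [sq_sub_tr hu]
  rw [avg_sub, avg_const, avg_smul, ip_Q_left hu]
  ring

lemma ip_Q_self_nonneg {a : ι → G} {u : G → ℝ} (hu : FS u) : 0 ≤ ip (Q a u) u := by
  have h1 : (avg fun i => ip (fun x => u x + tr (a i) u x) (fun x => u x + tr (a i) u x))
      = 4 * ip (Q a u) u := by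
    simp_rw [sq_add_tr hu]
    rw [avg_add, avg_const, avg_smul, ip_Q_left hu]
    ring
  have h2 : 0 ≤ (avg fun i => ip (fun x => u x + tr (a i) u x) (fun x => u x + tr (a i) u x)) :=
    avg_nonneg fun i => ip_self_nonneg _
  linarith

/-- law of the lazy walk. -/
noncomputable def lz (a : ι → G) : ℕ → G → ℝ
  | 0 => walk a 0
  | n + 1 => Q a (lz a n)

lemma lz_fs (a : ι → G) (n : ℕ) : FS (lz a n) := by
  induction n with
  | zero => exact walk_fs a 0
  | succ n ih => exact Q_fs ih

lemma lz_nonneg (a : ι → G) (n : ℕ) (x : G) : 0 ≤ lz a n x := by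
  induction n generalizing x with
  | zero => exact walk_nonneg a 0 x
  | succ n ih =>
    show 0 ≤ (lz a n x + avg fun i => tr (a i) (lz a n) x) / 2
    have : 0 ≤ avg fun i => tr (a i) (lz a n) x := avg_nonneg fun i => ih _
    have := ih x
    positivity

lemma tsum_tr (u : G → ℝ) (g : G) : ∑' x, tr g u x = ∑' x, u x := tsum_left u g⁻¹

lemma lz_sum (a : ι → G) (n : ℕ) : ∑' x, lz a n x = 1 := by
  induction n with
  | zero => exact walk_sum a 0
  | succ n ih =>
    have h1 : ∀ x, lz a (n + 1) x = (2 : ℝ)⁻¹ * (lz a n x + avg fun i => tr (a i) (lz a n) x) := by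
      intro x; show (lz a n x + avg fun i => tr (a i) (lz a n) x) / 2 = _; ring
    have hf : FS (fun x => avg fun i => tr (a i) (lz a n) x) := by
      have h1 : FS (fun x => ∑ i : ι, tr (a i) (lz a n) x) := FS.sum (fun i _ => tr_fs (lz_fs a n) _)
      exact h1.const_mul _
    rw [tsum_congr h1, tsum_mul_left, (lz_fs a n).summable.tsum_add hf.summable, ih,
      tsum_avg _ (fun i => tr_fs (lz_fs a n) _)]
    simp_rw [tsum_tr, ih]
    rw [avg_const]; norm_num

/-- return probabilities. -/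
noncomputable def p (a : ι → G) (n : ℕ) : ℝ := ip (lz a n) (lz a 0)

lemma ip_lz {a : ι → G} (ha : SymFam a) (i j : ℕ) : ip (lz a i) (lz a j) = p a (i + j) := by
  induction j generalizing i with
  | zero => rfl
  | succ j ih =>
    have h1 : ip (lz a i) (lz a (j + 1)) = ip (lz a (i + 1)) (lz a j) :=
      (ip_Q ha (lz_fs a i) (lz_fs a j)).symm
    rw [h1, ih]
    congr 1; omega

lemma p_even {a : ι → G} (ha : SymFam a) (k : ℕ) : p a (2 * k) = ip (lz a k) (lz a k) := by
  rw [ip_lz ha]; congr 1; omega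

lemma p_nonneg {a : ι → G} (ha : SymFam a) (n : ℕ) : 0 ≤ p a n := by
  obtain ⟨k, rfl | rfl⟩ := Nat.even_or_odd' n
  · rw [p_even ha]; exact ip_self_nonneg _
  · have h1 := ip_Q_self_nonneg (a := a) (lz_fs a k)
    have h2 : ip (lz a (k + 1)) (lz a k) = p a (2 * k + 1) := by
      rw [ip_lz ha]; congr 1; omega
    rw [← h2]; exact h1

lemma p_zero (a : ι → G) : p a 0 = 1 := by
  classical
  unfold p ip
  show ∑' x, walk a 0 x * walk a 0 x = 1
  rw [tsum_eq_single (1 : G)]
  · rw [walk_zero, if_pos rfl]; norm_num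
  · intro x hx
    rw [walk_zero, if_neg hx]; norm_num

/-- energies. -/
noncomputable def en (a : ι → G) (n : ℕ) : ℝ := p a n - p a (n + 1)

lemma diff_fs (a : ι → G) (k : ℕ) : FS (fun x => lz a k x - lz a (k + 1) x) :=
  (lz_fs a k).sub (lz_fs a (k + 1))

lemma ip_diff {a : ι → G} (ha : SymFam a) (j k : ℕ) :
    ip (fun x => lz a j x - lz a (j + 1) x) (fun x => lz a k x - lz a (k + 1) x)
      = en a (j + k) - en a (j + k + 1) := by
  rw [ip_sub_left (diff_fs a k), ip_comm (lz a j), ip_comm (lz a (j + 1)),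
    ip_sub_left (lz_fs a j), ip_sub_left (lz_fs a (j + 1)), ip_lz ha, ip_lz ha, ip_lz ha,
    ip_lz ha]
  unfold en
  rw [show k + j = j + k by omega, show k + 1 + j = j + k + 1 by omega,
    show k + (j + 1) = j + k + 1 by omega, show k + 1 + (j + 1) = j + k + 1 + 1 by omega]

lemma Q_diff (a : ι → G) (k : ℕ) :
    Q a (fun x => lz a k x - lz a (k + 1) x) = fun x => lz a (k + 1) x - lz a (k + 2) x := by
  ext x
  show (lz a k x - lz a (k + 1) x + avg fun i => (lz a k ((a i)⁻¹ * x) - lz a (k + 1) ((a i)⁻¹ * x))) / 2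
    = (lz a k x + avg fun i => lz a k ((a i)⁻¹ * x)) / 2
      - (lz a (k + 1) x + avg fun i => lz a (k + 1) ((a i)⁻¹ * x)) / 2
  rw [avg_sub]; ring

lemma en_anti {a : ι → G} (ha : SymFam a) (n : ℕ) : en a (n + 1) ≤ en a n := by
  obtain ⟨k, rfl | rfl⟩ := Nat.even_or_odd' n
  · have h1 := ip_diff ha k k
    have h2 := ip_self_nonneg (fun x => lz a k x - lz a (k + 1) x)
    rw [h1, show k + k = 2 * k by omega] at h2
    linarith
  · have h1 := ip_Q_self_nonneg (a := a) (diff_fs a k)
    rw [Q_diff, ip_diff ha (k + 1) k, show k + 1 + k = 2 * k + 1 by omega] at h1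
    linarith

lemma en_even {a : ι → G} (ha : SymFam a) (k : ℕ) :
    (avg fun i => ip (fun x => lz a k x - tr (a i) (lz a k) x)
      (fun x => lz a k x - tr (a i) (lz a k) x)) = 4 * en a (2 * k) := by
  rw [avg_sub_tr (lz_fs a k)]
  have h2 : ip (Q a (lz a k)) (lz a k) = p a (2 * k + 1) := by
    show ip (lz a (k + 1)) (lz a k) = _
    rw [ip_lz ha]; congr 1; omega
  rw [h2, ← p_even ha]; rfl

lemma en_even_nonneg {a : ι → G} (ha : SymFam a) (k : ℕ) : 0 ≤ en a (2 * k) := by
  have h1 := en_even ha k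
  have h2 : 0 ≤ avg fun i => ip (fun x => lz a k x - tr (a i) (lz a k) x)
      (fun x => lz a k x - tr (a i) (lz a k) x) := avg_nonneg fun i => ip_self_nonneg _
  linarith

lemma en_nonneg {a : ι → G} (ha : SymFam a) (n : ℕ) : 0 ≤ en a n := by
  obtain ⟨k, rfl | rfl⟩ := Nat.even_or_odd' n
  · exact en_even_nonneg ha k
  · have h1 := en_even_nonneg ha (k + 1)
    have h2 := en_anti ha (2 * k + 1)
    rw [show 2 * (k + 1) = 2 * k + 1 + 1 by ring] at h1
    linarith

lemma en_le {a : ι → G} (ha : SymFam a) (n : ℕ) : (n : ℝ) * en a n ≤ 1 := by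
  have h1 : ∀ m, ∑ j ∈ Finset.range m, en a j = p a 0 - p a m := by
    intro m
    induction m with
    | zero => simp
    | succ m ih => rw [Finset.sum_range_succ, ih]; unfold en; ring
  have hanti : Antitone (en a) := antitone_nat_of_succ_le (en_anti ha)
  have h2 : ∑ j ∈ Finset.range n, en a n ≤ ∑ j ∈ Finset.range n, en a j :=
    Finset.sum_le_sum fun j hj => hanti (Finset.mem_range.1 hj).le
  rw [Finset.sum_const, Finset.card_range, nsmul_eq_mul, h1, p_zero] at h2
  have := p_nonneg ha n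
  linarith

/-- squared distance between a law and its translate. -/
noncomputable def dst (a : ι → G) (k : ℕ) (g : G) : ℝ :=
  ip (fun x => lz a k x - tr g (lz a k) x) (fun x => lz a k x - tr g (lz a k) x)

lemma dst_mul (a : ι → G) (k : ℕ) (g h : G) :
    dst a k (g * h) ≤ 2 * dst a k g + 2 * dst a k h := by
  set u := lz a k with hu
  have hfs : FS u := lz_fs a k
  have e1 : dst a k h = ip (fun x => tr g u x - tr (g * h) u x)
      (fun x => tr g u x - tr (g * h) u x) := by
    unfold dst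
    rw [← hu, ← ip_tr g]
    have : tr g (fun x => u x - tr h u x) = fun x => tr g u x - tr (g * h) u x := by
      rw [tr_mul]; rfl
    rw [this]
  have f1 : FS (fun x => u x - tr g u x) := hfs.sub (tr_fs hfs g)
  have f2 : FS (fun x => tr g u x - tr (g * h) u x) := (tr_fs hfs g).sub (tr_fs hfs _)
  have f3 : FS (fun x => u x - tr (g * h) u x) := hfs.sub (tr_fs hfs _)
  rw [e1]
  unfold dst ip
  rw [← hu, ← tsum_mul_left, ← tsum_mul_left,
    ← ((f1.mul_left _).const_mul 2).summable.tsum_add ((f2.mul_left _).const_mul 2).summable]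
  apply (f3.mul_left _).summable.tsum_le_tsum _
    (((f1.mul_left _).const_mul 2).summable.add ((f2.mul_left _).const_mul 2).summable)
  intro x
  nlinarith [sq_nonneg ((u x - tr g u x) - (tr g u x - tr (g * h) u x))]

lemma dst_inv (a : ι → G) (k : ℕ) (g : G) : dst a k g⁻¹ = dst a k g := by
  unfold dst
  rw [sq_sub_tr (lz_fs a k), sq_sub_tr (lz_fs a k), ip_tr_left, inv_inv,
    ip_comm (tr g (lz a k)) (lz a k)]

lemma dst_one (a : ι → G) (k : ℕ) : dst a k 1 = 0 := by
  unfold dst
  rw [tr_one]; simp [ip]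

lemma dst_nonneg (a : ι → G) (k : ℕ) (g : G) : 0 ≤ dst a k g := ip_self_nonneg _

lemma dst_le {a : ι → G} (ha : SymFam a) (hgen : Subgroup.closure (Set.range a) = ⊤) (g : G) :
    ∃ C : ℝ, ∀ k, dst a k g ≤ C * en a (2 * k) := by
  have hg : g ∈ Subgroup.closure (Set.range a) := by rw [hgen]; trivial
  induction hg using Subgroup.closure_induction with
  | mem x hx =>
    obtain ⟨i, rfl⟩ := hx
    refine ⟨Fintype.card ι * 4, fun k => ?_⟩
    have h1 := le_card_mul_avg (F := fun i => dst a k (a i)) (fun i => dst_nonneg a k _) i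
    have h2 := en_even ha k
    have h3 : (avg fun i => dst a k (a i)) = 4 * en a (2 * k) := h2
    rw [h3] at h1
    linarith
  | one => exact ⟨0, fun k => by rw [dst_one]; simp⟩
  | mul x y _ _ hx hy =>
    obtain ⟨C1, h1⟩ := hx
    obtain ⟨C2, h2⟩ := hy
    refine ⟨2 * C1 + 2 * C2, fun k => ?_⟩
    have h3 := dst_mul a k x y
    have h4 := h1 k
    have h5 := h2 k
    linarith
  | inv x _ hx =>
    obtain ⟨C1, h1⟩ := hx
    exact ⟨C1, fun k => by rw [dst_inv]; exact h1 k⟩

lemma card_mul_p_le {a : ι → G} (ha : SymFam a) (k : ℕ) (F : Finset G) :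
    F.card * p a (2 * k) ≤ 1 + ∑ x ∈ F, dst a k x := by
  classical
  set u := lz a k with hu
  have hfs : FS u := lz_fs a k
  have h0 : ∀ x, 0 ≤ u x := lz_nonneg a k
  have h1 : ∑ x ∈ F, ip (tr x u) u ≤ 1 := by
    unfold ip
    rw [← Summable.tsum_finsetSum (fun x _ => (hfs.mul_left _).summable)]
    have h2 : ∀ y, ∑ x ∈ F, tr x u y * u y ≤ u y := by
      intro y
      rw [← Finset.sum_mul]
      have h3 : ∑ x ∈ F, tr x u y ≤ 1 := by
        have e : (fun x => tr x u y) = fun x => u (((Equiv.inv G).trans (Equiv.mulRight y)) x) := by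
          ext x; simp [tr]
        have hs : Summable (fun x => tr x u y) := by
          rw [e]
          exact ((Equiv.inv G).trans (Equiv.mulRight y)).summable_iff.2 hfs.summable
        have h4 : ∑ x ∈ F, tr x u y ≤ ∑' x, tr x u y := hs.sum_le_tsum F (fun x _ => h0 _)
        have h5 : ∑' x, tr x u y = 1 := by
          rw [e, ((Equiv.inv G).trans (Equiv.mulRight y)).tsum_eq u]
          exact lz_sum a k
        linarith
      calc (∑ x ∈ F, tr x u y) * u y ≤ 1 * u y := mul_le_mul_of_nonneg_right h3 (h0 y)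
        _ = u y := one_mul _
    have hs1 : FS (fun y => ∑ x ∈ F, tr x u y * u y) := by
      apply FS.sum
      intro x _
      exact hfs.mul_left _
    calc ∑' y, ∑ x ∈ F, tr x u y * u y ≤ ∑' y, u y := hs1.summable.tsum_le_tsum h2 hfs.summable
      _ = 1 := lz_sum a k
  have h2 : ∀ x ∈ F, ip (tr x u) u = p a (2 * k) - dst a k x / 2 := by
    intro x _
    unfold dst
    rw [sq_sub_tr hfs, p_even ha]; ring
  rw [Finset.sum_congr rfl h2, Finset.sum_sub_distrib, Finset.sum_const, nsmul_eq_mul] at h1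
  have h3 : ∑ x ∈ F, dst a k x / 2 ≤ ∑ x ∈ F, dst a k x :=
    Finset.sum_le_sum fun x _ => by have := dst_nonneg a k x; linarith
  linarith

lemma p_anti {a : ι → G} (ha : SymFam a) : Antitone (p a) :=
  antitone_nat_of_succ_le fun n => by
    have := en_nonneg ha n
    unfold en at this
    linarith

lemma p_small [Infinite G] {a : ι → G} (ha : SymFam a)
    (hgen : Subgroup.closure (Set.range a) = ⊤) {ε : ℝ} (hε : 0 < ε) :
    ∃ k, p a (2 * k) < ε := by
  obtain ⟨N, hN⟩ := exists_nat_gt (2 / ε)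
  have hN0 : 0 < (N : ℝ) := lt_trans (by positivity) hN
  obtain ⟨F, hF⟩ := Infinite.exists_subset_card_eq G N
  choose C hC using fun g => dst_le ha hgen g
  -- the sum of the dst is ≤ (∑ C) en
  set D : ℝ := ∑ x ∈ F, |C x| with hD
  have hDn : 0 ≤ D := Finset.sum_nonneg fun _ _ => abs_nonneg _
  obtain ⟨k, hk⟩ := exists_nat_gt D
  refine ⟨k, ?_⟩
  have hk0 : 0 < (k : ℝ) := lt_of_le_of_lt hDn hk
  have h1 := card_mul_p_le ha k F
  have h2 : ∑ x ∈ F, dst a k x ≤ D * en a (2 * k) := by
    rw [hD, Finset.sum_mul]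
    refine Finset.sum_le_sum fun x _ => (hC x k).trans ?_
    exact mul_le_mul_of_nonneg_right (le_abs_self _) (en_nonneg ha _)
  have h3 := en_le ha (2 * k)
  have h4 : D * en a (2 * k) ≤ 1 := by
    have h5 : D * en a (2 * k) ≤ (2 * k : ℕ) * en a (2 * k) := by
      refine mul_le_mul_of_nonneg_right ?_ (en_nonneg ha _)
      push_cast; linarith
    linarith
  rw [hF] at h1
  have h6 : (N : ℝ) * p a (2 * k) ≤ 2 := by linarith
  have h7 : p a (2 * k) ≤ 2 / N := by
    rw [le_div_iff₀ hN0]; linarith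
  have h8 : 2 / (N : ℝ) < ε := by
    rw [div_lt_iff₀ hN0]
    rw [div_lt_iff₀ hε] at hN
    linarith
  linarith

lemma lz_supp {a : ι → G} {l : G → ℕ} {C d : ℕ} (hl : PolyLen l C d) {M : ℕ}
    (hM : ∀ i, l (a i) ≤ M) (k : ℕ) (x : G) (hx : lz a k x ≠ 0) : l x ≤ k * M := by
  classical
  induction k generalizing x with
  | zero =>
    have h1 : x = 1 := by
      by_contra h
      apply hx
      show walk a 0 x = 0
      rw [walk_zero, if_neg h]
    rw [h1, hl.one]; simp
  | succ k ih =>
    by_contra hcon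
    apply hx
    have h1 : lz a k x = 0 := by
      by_contra h
      have := ih x h
      apply hcon
      calc l x ≤ k * M := this
        _ ≤ (k + 1) * M := Nat.mul_le_mul_right _ (by omega)
    have h2 : ∀ i, tr (a i) (lz a k) x = 0 := by
      intro i
      by_contra h
      have h3 := ih _ h
      apply hcon
      have h4 : x = a i * ((a i)⁻¹ * x) := by group
      calc l x = l (a i * ((a i)⁻¹ * x)) := by rw [← h4]
        _ ≤ l (a i) + l ((a i)⁻¹ * x) := hl.mul _ _
        _ ≤ M + k * M := add_le_add (hM i) h3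
        _ = (k + 1) * M := by ring
    show (lz a k x + avg fun i => tr (a i) (lz a k) x) / 2 = 0
    simp_rw [h1, h2]
    rw [avg_const]; norm_num

lemma p_lower {a : ι → G} (ha : SymFam a) {l : G → ℕ} {C d : ℕ} (hl : PolyLen l C d) {M : ℕ}
    (hM : ∀ i, l (a i) ≤ M) (k : ℕ) : 1 ≤ p a (2 * k) * (C * (k * M + 1) ^ d : ℕ) := by
  classical
  set B : Finset G := (hl.fin (k * M)).toFinset with hB
  have hcard : B.card ≤ C * (k * M + 1) ^ d := by
    have := hl.card (k * M)
    rwa [Set.ncard_eq_toFinset_card _ (hl.fin (k * M))] at this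
  have h0 : ∀ x ∉ B, lz a k x = 0 := by
    intro x hx
    by_contra h
    apply hx
    rw [hB, Set.Finite.mem_toFinset]
    exact lz_supp hl hM k x h
  have h1 : ∑ x ∈ B, lz a k x = 1 := by
    rw [← lz_sum a k, tsum_eq_sum (s := B) h0]
  have h2 : p a (2 * k) = ∑ x ∈ B, lz a k x ^ 2 := by
    rw [p_even ha]
    unfold ip
    rw [tsum_eq_sum (s := B) (fun x hx => by rw [h0 x hx, zero_mul])]
    exact Finset.sum_congr rfl fun x _ => by ring
  have h3 := Finset.sum_mul_sq_le_sq_mul_sq B (fun x => lz a k x) (fun _ => 1)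
  simp only [mul_one, one_pow, Finset.sum_const, nsmul_eq_mul] at h3
  rw [h1, one_pow, ← h2] at h3
  refine h3.trans (mul_le_mul_of_nonneg_left ?_ (p_nonneg ha _))
  exact_mod_cast hcard

/-- the key spectral statement: small defect relative to the energy. -/
lemma exists_good_scale [Infinite G] {a : ι → G} (ha : SymFam a)
    (hgen : Subgroup.closure (Set.range a) = ⊤) {l : G → ℕ} {C d : ℕ} (hl : PolyLen l C d)
    {ε : ℝ} (hε : 0 < ε) (hε1 : ε < 1) :
    ∃ k, 0 < en a (2 * k) ∧ en a (2 * k) - en a (2 * k + 1) ≤ ε * en a (2 * k) := by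
  by_contra hcon
  push Not at hcon
  have hstep : ∀ k, en a (2 * (k + 1)) ≤ (1 - ε) * en a (2 * k) := by
    intro k
    have h1 := en_anti ha (2 * k + 1)
    have h2 := en_anti ha (2 * k)
    rw [show 2 * (k + 1) = 2 * k + 1 + 1 by ring]
    rcases (en_nonneg ha (2 * k)).lt_or_eq with h | h
    · have h3 := hcon k h
      linarith
    · rw [← h] at h2 ⊢
      linarith
  have hgeom : ∀ k, en a (2 * k) ≤ (1 - ε) ^ k * en a 0 := by
    intro k
    induction k with
    | zero => simp
    | succ k ih =>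
      have h1 := hstep k
      have h2 : (1 - ε) * en a (2 * k) ≤ (1 - ε) * ((1 - ε) ^ k * en a 0) :=
        mul_le_mul_of_nonneg_left ih (by linarith)
      rw [pow_succ]
      linarith
  have hen0 : en a 0 ≤ 1 := by
    unfold en
    rw [p_zero]
    have := p_nonneg ha 1
    simp only [zero_add]
    linarith
  -- telescoping
  have htel : ∀ k m, p a (2 * k) - p a (2 * (k + m)) ≤ 2 / ε * ((1 - ε) ^ k - (1 - ε) ^ (k + m)) := by
    intro k m
    induction m with
    | zero => simp
    | succ m ih =>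
      have h1 : p a (2 * (k + m)) - p a (2 * (k + (m + 1))) =
          en a (2 * (k + m)) + en a (2 * (k + m) + 1) := by
        unfold en
        rw [show 2 * (k + (m + 1)) = 2 * (k + m) + 1 + 1 by ring]; ring
      have h2 := en_anti ha (2 * (k + m))
      have h3 := hgeom (k + m)
      have h4 : (1 - ε) ^ (k + m) * en a 0 ≤ (1 - ε) ^ (k + m) * 1 :=
        mul_le_mul_of_nonneg_left hen0 (pow_nonneg (by linarith) _)
      have h5 : 2 / ε * ((1 - ε) ^ k - (1 - ε) ^ (k + (m + 1))) =
          2 / ε * ((1 - ε) ^ k - (1 - ε) ^ (k + m)) + 2 * (1 - ε) ^ (k + m) := by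
        rw [← add_assoc, pow_succ]; field_simp; ring
      rw [h5]
      linarith
  have hpk : ∀ k, p a (2 * k) ≤ 2 / ε * (1 - ε) ^ k := by
    intro k
    by_contra h
    push Not at h
    obtain ⟨m, hm⟩ := p_small ha hgen (sub_pos.2 h)
    have h1 := htel k m
    have h2 : p a (2 * (k + m)) ≤ p a (2 * m) := p_anti ha (by omega)
    have h3 : 0 ≤ 2 / ε * (1 - ε) ^ (k + m) :=
      mul_nonneg (by positivity) (pow_nonneg (by linarith) _)
    rw [mul_sub] at h1
    linarith
  -- contradiction with polynomial lower bound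
  obtain ⟨M, hM⟩ : ∃ M, ∀ i, l (a i) ≤ M :=
    ⟨Finset.univ.sup fun i => l (a i), fun i => Finset.le_sup (f := fun i => l (a i)) (Finset.mem_univ i)⟩
  have hr : Filter.Tendsto (fun n : ℕ => (n : ℝ) ^ d / ((1 - ε)⁻¹) ^ n) Filter.atTop (nhds 0) :=
    tendsto_pow_const_div_const_pow_of_one_lt d (one_lt_inv_iff₀.2 ⟨by linarith, by linarith⟩)
  set K : ℝ := 2 / ε * (1 - ε)⁻¹ * (C * (M + 1) ^ d) + 1 with hK
  have h1ε : 0 < 1 - ε := by linarith
  have hKpos : 0 < K := by positivity
  have h2 := (hr.eventually (gt_mem_nhds (show (0 : ℝ) < 1 / K by positivity))).and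
    (Filter.eventually_ge_atTop 1)
  obtain ⟨n, hn, hn1⟩ := h2.exists
  obtain ⟨k, rfl⟩ : ∃ k, n = k + 1 := ⟨n - 1, by omega⟩
  have h3 := p_lower ha hl hM k
  have h4 := hpk k
  have h5 : ((C * (k * M + 1) ^ d : ℕ) : ℝ) ≤ C * (M + 1) ^ d * ((k + 1 : ℕ) : ℝ) ^ d := by
    have h6 : ((k : ℝ) * M + 1) ≤ (M + 1) * (k + 1) := by
      have : (0 : ℝ) ≤ k := Nat.cast_nonneg k
      have : (0 : ℝ) ≤ M := Nat.cast_nonneg M
      nlinarith
    push_cast
    calc (C : ℝ) * (k * M + 1) ^ d ≤ C * ((M + 1) * (k + 1)) ^ d := by gcongr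
      _ = C * (M + 1) ^ d * (k + 1) ^ d := by rw [mul_pow]; ring
  have h6 : 1 ≤ 2 / ε * (1 - ε) ^ k * (C * (M + 1) ^ d * ((k + 1 : ℕ) : ℝ) ^ d) := by
    calc (1 : ℝ) ≤ p a (2 * k) * (C * (k * M + 1) ^ d : ℕ) := h3
      _ ≤ (2 / ε * (1 - ε) ^ k) * (C * (M + 1) ^ d * ((k + 1 : ℕ) : ℝ) ^ d) := by
          apply mul_le_mul h4 h5 (Nat.cast_nonneg _)
          positivity
  have h7 : ((k + 1 : ℕ) : ℝ) ^ d / ((1 - ε)⁻¹) ^ (k + 1) = ((k + 1 : ℕ) : ℝ) ^ d * (1 - ε) ^ (k + 1) := by
    rw [inv_pow, div_inv_eq_mul]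
  rw [h7] at hn
  have h8 : 2 / ε * (1 - ε) ^ k * (C * (M + 1) ^ d * ((k + 1 : ℕ) : ℝ) ^ d) =
      (2 / ε * (1 - ε)⁻¹ * (C * (M + 1) ^ d)) * (((k + 1 : ℕ) : ℝ) ^ d * (1 - ε) ^ (k + 1)) := by
    rw [pow_succ]; field_simp
  rw [h8] at h6
  have h9 : (2 / ε * (1 - ε)⁻¹ * (C * (M + 1) ^ d)) * (((k + 1 : ℕ) : ℝ) ^ d * (1 - ε) ^ (k + 1))
      ≤ K * (((k + 1 : ℕ) : ℝ) ^ d * (1 - ε) ^ (k + 1)) := by
    apply mul_le_mul_of_nonneg_right _ (by positivity)
    rw [hK]; linarith
  have h10 : K * (((k + 1 : ℕ) : ℝ) ^ d * (1 - ε) ^ (k + 1)) < K * (1 / K) :=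
    mul_lt_mul_of_pos_left hn hKpos
  rw [mul_one_div_cancel hKpos.ne'] at h10
  linarith

/-- approximate harmonic functions. -/
lemma exists_approx [Infinite G] {a : ι → G} (ha : SymFam a)
    (hgen : Subgroup.closure (Set.range a) = ⊤) {l : G → ℕ} {C d : ℕ} (hl : PolyLen l C d)
    {ε : ℝ} (hε : 0 < ε) (hε1 : ε < 1) :
    ∃ f : G → ℝ, f 1 = 0 ∧ LipB a 1 f ∧ (∃ i, f (a i) = 1) ∧
      ∀ x, |avg (fun i => f (x * a i)) - f x| ≤ ε := by
  obtain ⟨k, hk, hk2⟩ := exists_good_scale ha hgen hl (ε := ε ^ 2) (by positivity) (by nlinarith)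
  set u := lz a k with hu
  have hfs : FS u := lz_fs a k
  have htr : ∀ g, FS (fun x => u x - tr g u x) := fun g => hfs.sub (tr_fs hfs g)
  obtain ⟨i0, hi0⟩ := Finite.exists_max (fun i => dst a k (a i))
  set m := dst a k (a i0) with hm
  have hm4 : 4 * en a (2 * k) ≤ m := by
    rw [← en_even ha k]
    calc (avg fun i => dst a k (a i)) ≤ avg (fun _ : ι => m) := avg_mono hi0
      _ = m := avg_const _
  have hmpos : 0 < m := by linarith
  set w : G → ℝ := fun x => u x - tr (a i0) u x with hw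
  have hwf : FS w := htr _
  have hww : ip w w = m := rfl
  refine ⟨fun g => ip (fun x => u x - tr g u x) w / m, ?_, ?_, ⟨i0, ?_⟩, ?_⟩
  · show ip (fun x => u x - tr 1 u x) w / m = 0
    rw [tr_one]
    simp [ip]
  · intro g i
    have h1 : ip (fun x => u x - tr (g * a i) u x) w / m - ip (fun x => u x - tr g u x) w / m
        = ip (tr g (fun x => u x - tr (a i) u x)) w / m := by
      rw [← sub_div, ← ip_sub_left hwf]
      congr 2
      ext x
      rw [tr_mul]
      simp only [tr]
      ring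
    show |ip (fun x => u x - tr (g * a i) u x) w / m - ip (fun x => u x - tr g u x) w / m| ≤ 1
    rw [h1, abs_div, abs_of_pos hmpos, div_le_one hmpos]
    have h2 := ip_cs (tr_fs (htr (a i)) g) hwf
    rw [ip_tr, hww] at h2
    have h3 : ip (fun x => u x - tr (a i) u x) (fun x => u x - tr (a i) u x) ≤ m := hi0 i
    have h4 : ip (tr g (fun x => u x - tr (a i) u x)) w ^ 2 ≤ m ^ 2 := by
      refine h2.trans ?_
      rw [sq]
      exact mul_le_mul_of_nonneg_right h3 hmpos.le
    exact abs_le_of_sq_le_sq h4 hmpos.le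
  · show ip w w / m = 1
    rw [hww, div_self hmpos.ne']
  · intro g
    have h1 : (avg fun i => ip (fun x => u x - tr (g * a i) u x) w / m)
        - ip (fun x => u x - tr g u x) w / m
        = 2 * ip (tr g (fun x => lz a k x - lz a (k + 1) x)) w / m := by
      have e1 : (avg fun i => ip (fun x => u x - tr (g * a i) u x) w / m)
          = (avg fun i => ip (fun x => u x - tr (g * a i) u x) w) / m := by
        have : (fun i => ip (fun x => u x - tr (g * a i) u x) w / m)
            = fun i => m⁻¹ * ip (fun x => u x - tr (g * a i) u x) w := by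
          ext i; ring
        rw [this, avg_smul]; ring
      rw [e1, ← sub_div, ← ip_avg_left hwf, ← ip_sub_left hwf, ← ip_smul_left]
      congr 2
      ext x
      show (avg fun i => (u x - tr (g * a i) u x)) - (u x - tr g u x)
        = 2 * (lz a k (g⁻¹ * x) - (lz a k (g⁻¹ * x) + avg fun i => tr (a i) (lz a k) (g⁻¹ * x)) / 2)
      rw [avg_sub, avg_const]
      simp only [tr, ← hu, mul_inv_rev, mul_assoc]
      ring
    show |(avg fun i => ip (fun x => u x - tr (g * a i) u x) w / m)
        - ip (fun x => u x - tr g u x) w / m| ≤ ε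
    rw [h1]
    have h2 := ip_cs (tr_fs (diff_fs a k) g) hwf
    rw [ip_tr, hww, ip_diff ha, show k + k = 2 * k by omega] at h2
    apply abs_le_of_sq_le_sq _ hε.le
    rw [div_pow, mul_pow, div_le_iff₀ (by positivity)]
    calc 2 ^ 2 * ip (tr g (fun x => lz a k x - lz a (k + 1) x)) w ^ 2
        ≤ 2 ^ 2 * ((en a (2 * k) - en a (2 * k + 1)) * m) := by gcongr
      _ ≤ 2 ^ 2 * ((ε ^ 2 * en a (2 * k)) * m) := by gcongr
      _ = ε ^ 2 * ((4 * en a (2 * k)) * m) := by ring
      _ ≤ ε ^ 2 * (m * m) := by gcongr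
      _ = ε ^ 2 * m ^ 2 := by ring

lemma lip_bound {a : ι → G} (hgen : Subgroup.closure (Set.range a) = ⊤) (g : G) :
    ∃ R : ℝ, ∀ f : G → ℝ, LipB a 1 f → ∀ x, |f (x * g) - f x| ≤ R := by
  have hg : g ∈ Subgroup.closure (Set.range a) := by rw [hgen]; trivial
  induction hg using Subgroup.closure_induction with
  | mem x hx =>
    obtain ⟨i, rfl⟩ := hx
    exact ⟨1, fun f hf x => hf x i⟩
  | one => exact ⟨0, fun f hf x => by simp⟩
  | mul x y _ _ hx hy =>
    obtain ⟨R1, h1⟩ := hx
    obtain ⟨R2, h2⟩ := hy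
    refine ⟨R1 + R2, fun f hf z => ?_⟩
    have h3 := h1 f hf z
    have h4 := h2 f hf (z * x)
    rw [← mul_assoc]
    calc |f (z * x * y) - f z| = |(f (z * x * y) - f (z * x)) + (f (z * x) - f z)| := by ring_nf
      _ ≤ |f (z * x * y) - f (z * x)| + |f (z * x) - f z| := abs_add_le _ _
      _ ≤ R1 + R2 := by linarith
  | inv x _ hx =>
    obtain ⟨R1, h1⟩ := hx
    refine ⟨R1, fun f hf z => ?_⟩
    have h3 := h1 f hf (z * x⁻¹)
    rw [inv_mul_cancel_right, abs_sub_comm] at h3
    exact h3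

/-- **Existence of a non-constant Lipschitz harmonic function.** -/
theorem exists_harm [Infinite G] {a : ι → G} (ha : SymFam a)
    (hgen : Subgroup.closure (Set.range a) = ⊤) {l : G → ℕ} {C d : ℕ} (hl : PolyLen l C d) :
    ∃ h : G → ℝ, Harm a h ∧ LipB a 1 h ∧ h 1 = 0 ∧ ∃ x, h x ≠ 0 := by
  have hex : ∀ n : ℕ, ∃ f : G → ℝ, f 1 = 0 ∧ LipB a 1 f ∧ (∃ i, f (a i) = 1) ∧
      ∀ x, |avg (fun i => f (x * a i)) - f x| ≤ 1 / ((n : ℝ) + 2) := by
    intro n
    refine exists_approx ha hgen hl (by positivity) ?_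
    rw [div_lt_one (by positivity)]
    have : (0 : ℝ) ≤ n := Nat.cast_nonneg n
    linarith
  choose f hf1 hfL hfi hfd using hex
  let U : Ultrafilter ℕ := Filter.hyperfilter ℕ
  have hU : (U : Filter ℕ) ≤ Filter.atTop := Nat.hyperfilter_le_atTop
  have hlim : ∀ x, ∃ y, Filter.Tendsto (fun n => f n x) U (nhds y) := by
    intro x
    obtain ⟨R, hR⟩ := lip_bound hgen x
    have hb : ∀ n, f n x ∈ Set.Icc (-R) R := by
      intro n
      have := hR (f n) (hfL n) 1
      rw [one_mul, hf1, sub_zero] at this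
      exact abs_le.1 this
    have hmem : Set.Icc (-R) R ∈ U.map (fun n => f n x) :=
      Filter.Eventually.of_forall (f := (U : Filter ℕ)) hb
    obtain ⟨y, _, hy⟩ := isCompact_Icc.ultrafilter_le_nhds' _ hmem
    exact ⟨y, hy⟩
  choose h hh using hlim
  refine ⟨h, ?_, ?_, ?_, ?_⟩
  · intro x
    have h1 : Filter.Tendsto (fun n => avg (fun i => f n (x * a i)) - f n x) U
        (nhds (avg (fun i => h (x * a i)) - h x)) := by
      refine Filter.Tendsto.sub ?_ (hh x)
      unfold avg
      exact Filter.Tendsto.const_mul _ (tendsto_finsetSum _ fun i _ => hh _)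
    have h2 : Filter.Tendsto (fun n => avg (fun i => f n (x * a i)) - f n x) U (nhds 0) := by
      rw [tendsto_zero_iff_abs_tendsto_zero]
      have h3 : Filter.Tendsto (fun n : ℕ => 1 / ((n : ℝ) + 2)) U (nhds 0) := by
        have h4 : Filter.Tendsto (fun n : ℕ => 1 / ((n : ℝ) + 2)) Filter.atTop (nhds 0) := by
          have h5 : Filter.Tendsto (fun n : ℕ => ((n : ℝ) + 2)) Filter.atTop Filter.atTop :=
            Filter.tendsto_atTop_add_const_right _ _ tendsto_natCast_atTop_atTop
          have h6 := h5.inv_tendsto_atTop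
          refine h6.congr fun n => ?_
          simp [one_div]
        exact h4.mono_left hU
      exact squeeze_zero (fun n => abs_nonneg _) (fun n => hfd n x) h3
    have := tendsto_nhds_unique h1 h2
    linarith
  · intro x i
    have h1 : Filter.Tendsto (fun n => |f n (x * a i) - f n x|) U
        (nhds |h (x * a i) - h x|) := ((hh _).sub (hh _)).abs
    exact le_of_tendsto h1 (Filter.Eventually.of_forall fun n => hfL n x i)
  · have h1 : Filter.Tendsto (fun n => f n 1) U (nhds 0) := by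
      simp_rw [hf1]; exact tendsto_const_nhds
    exact tendsto_nhds_unique (hh 1) h1
  · by_contra hcon
    push Not at hcon
    have h1 : ∀ i, ∀ᶠ n in (U : Filter ℕ), f n (a i) ≠ 1 := by
      intro i
      have h2 := hh (a i)
      rw [hcon] at h2
      have h3 := h2.eventually (gt_mem_nhds (show (0 : ℝ) < 1 by norm_num))
      exact h3.mono fun n hn => hn.ne
    have h2 := (Filter.eventually_all.2 h1)
    obtain ⟨n, hn⟩ := h2.exists
    obtain ⟨i, hi⟩ := hfi n
    exact hn i hi

end Crest.Agent.R182.Gromov.Exist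
end

-- ▼ part R182/GromovEntropy
section

/-!
R182, module GROMOV, block GE (helper203): entropy of the random walk and the Hellinger estimate
`D a n (a i) ≤ K / (n + 1)` for infinitely many `n` in a group of polynomial growth.
-/

set_option autoImplicit false
set_option linter.unusedSectionVars false
set_option linter.unusedSimpArgs false

namespace Crest.Agent.R182.Gromov.Ent

open Function Crest.Agent.R182.Gromov.Walk

variable {G : Type*} [Group G] {ι : Type*} [Fintype ι] [Nonempty ι]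

/-- Pointwise entropy inequality. -/
lemma pointwise (p : ι → ℝ) (hp : ∀ i, 0 ≤ p i) :
    avg (fun i => (Real.sqrt (p i) - Real.sqrt (avg p)) ^ 2)
      ≤ Real.negMulLog (avg p) - avg (fun i => Real.negMulLog (p i)) := by
  set r := avg p with hr
  have hr0 : 0 ≤ r := avg_nonneg hp
  have e1 : ∀ i, (Real.sqrt (p i) - Real.sqrt r) ^ 2
      = p i + (r - 2 * (Real.sqrt (p i) * Real.sqrt r)) := by
    intro i
    have h1 := Real.sq_sqrt (hp i)
    have h2 := Real.sq_sqrt hr0
    linear_combination h1 + h2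
  have e2 : avg (fun i => (Real.sqrt (p i) - Real.sqrt r) ^ 2)
      = avg (fun i => 2 * p i - 2 * (Real.sqrt (p i) * Real.sqrt r)) := by
    have ea : avg (fun i => (Real.sqrt (p i) - Real.sqrt r) ^ 2)
        = r + (r - 2 * avg (fun i => Real.sqrt (p i) * Real.sqrt r)) := by
      simp_rw [e1]
      rw [avg_add, avg_sub, avg_const, avg_smul]
    have eb : avg (fun i => 2 * p i - 2 * (Real.sqrt (p i) * Real.sqrt r))
        = 2 * r - 2 * avg (fun i => Real.sqrt (p i) * Real.sqrt r) := by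
      rw [avg_sub, avg_smul, avg_smul]
    rw [ea, eb]
    ring
  rw [e2]
  rcases hr0.eq_or_lt with h0 | hpos
  · have hp0 : ∀ i, p i = 0 := by
      intro i
      have := le_card_mul_avg hp i
      rw [← hr, ← h0, mul_zero] at this
      exact le_antisymm this (hp i)
    have : (fun i => 2 * p i - 2 * (Real.sqrt (p i) * Real.sqrt r)) = fun _ : ι => (0 : ℝ) := by
      ext i; simp [hp0 i]
    rw [this, avg_const]
    have h2 : (fun i => Real.negMulLog (p i)) = fun _ : ι => (0 : ℝ) := by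
      ext i; simp [hp0 i]
    rw [h2, avg_const, ← h0]
    simp
  · have e3 : Real.negMulLog r = avg (fun i => -(Real.log r) * p i) := by
      rw [avg_smul, ← hr, Real.negMulLog]; ring
    rw [e3, ← avg_sub]
    apply avg_mono
    intro i
    rcases (hp i).eq_or_lt with hi | hi
    · rw [← hi]; simp
    · have hs : 0 < Real.sqrt (r / p i) := Real.sqrt_pos.mpr (div_pos hpos hi)
      have h1 := Real.log_le_sub_one_of_pos hs
      rw [Real.log_sqrt (div_pos hpos hi).le, Real.log_div hpos.ne' hi.ne'] at h1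
      have h2 : p i * Real.sqrt (r / p i) = Real.sqrt (p i) * Real.sqrt r := by
        rw [Real.sqrt_div hr0]
        have h3 := Real.mul_self_sqrt (hp i)
        have h4 : Real.sqrt (p i) ≠ 0 := (Real.sqrt_pos.mpr hi).ne'
        field_simp
        rw [sq, h3]
      have h5 : p i * ((Real.log r - Real.log (p i)) / 2) ≤ p i * (Real.sqrt (r / p i) - 1) :=
        mul_le_mul_of_nonneg_left h1 (hp i)
      rw [mul_sub, h2] at h5
      rw [Real.negMulLog]
      nlinarith

/-- Entropy of the walk. -/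
noncomputable def H (a : ι → G) (n : ℕ) : ℝ := ∑' x, Real.negMulLog (walk a n x)

lemma nml_fs {f : G → ℝ} (hf : FS f) : FS (fun x => Real.negMulLog (f x)) :=
  hf.mono fun x hx => by simp [hx]

lemma H_succ_sub (a : ι → G) (n : ℕ) :
    avg (fun i => ∑' x, (Real.sqrt (walk a n ((a i)⁻¹ * x))
        - Real.sqrt (walk a (n + 1) x)) ^ 2) ≤ H a (n + 1) - H a n := by
  have hw := walk_fs a n
  have hw1 := walk_fs a (n + 1)
  have f1 : ∀ i, FS fun x => (Real.sqrt (walk a n ((a i)⁻¹ * x))
        - Real.sqrt (walk a (n + 1) x)) ^ 2 := by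
    intro i
    have : FS fun x => Real.sqrt (walk a n ((a i)⁻¹ * x)) - Real.sqrt (walk a (n + 1) x) :=
      (sqrt_fs (hw.comp_left _)).sub (sqrt_fs hw1)
    exact this.mono fun x hx => by simp [hx]
  rw [← tsum_avg _ f1]
  have f2 : ∀ i, FS fun x => Real.negMulLog (walk a n ((a i)⁻¹ * x)) := fun i =>
    nml_fs (hw.comp_left _)
  have e1 : H a n = ∑' x, avg (fun i => Real.negMulLog (walk a n ((a i)⁻¹ * x))) := by
    rw [tsum_avg _ f2]
    have : ∀ i, ∑' x, Real.negMulLog (walk a n ((a i)⁻¹ * x)) = H a n := by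
      intro i
      exact tsum_left (fun x => Real.negMulLog (walk a n x)) _
    simp_rw [this]
    rw [avg_const]
  have f3 : FS fun x => avg (fun i => Real.negMulLog (walk a n ((a i)⁻¹ * x))) := by
    have : FS (fun x => ∑ i : ι, Real.negMulLog (walk a n ((a i)⁻¹ * x))) :=
      FS.sum (fun i _ => f2 i)
    exact this.const_mul _
  have f4 : FS fun x => avg (fun i => (Real.sqrt (walk a n ((a i)⁻¹ * x))
        - Real.sqrt (walk a (n + 1) x)) ^ 2) := by
    have : FS (fun x => ∑ i : ι, (Real.sqrt (walk a n ((a i)⁻¹ * x))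
        - Real.sqrt (walk a (n + 1) x)) ^ 2) :=
      FS.sum (fun i _ => f1 i)
    exact this.const_mul _
  have f5 : FS fun x => Real.negMulLog (walk a (n + 1) x) := nml_fs hw1
  rw [e1, H, ← f5.summable.tsum_sub f3.summable]
  apply f4.summable.tsum_le_tsum _ (f5.summable.sub f3.summable)
  intro x
  have := pointwise (fun i => walk a n ((a i)⁻¹ * x)) (fun i => walk_nonneg a n _)
  rw [← walk_succ] at this
  exact this

lemma D_le (a : ι → G) {i₀ : ι} (h1 : a i₀ = 1) (n : ℕ) (i : ι) :
    D a n (a i) ≤ 4 * Fintype.card ι * (H a (n + 1) - H a n) := by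
  set T : ι → ℝ := fun i => ∑' x, (Real.sqrt (walk a n ((a i)⁻¹ * x))
        - Real.sqrt (walk a (n + 1) x)) ^ 2 with hT
  have hT0 : ∀ i, 0 ≤ T i := fun i => tsum_nonneg fun _ => sq_nonneg _
  have h2 : ∀ j, T j ≤ Fintype.card ι * (H a (n + 1) - H a n) := fun j =>
    (le_card_mul_avg hT0 j).trans
      (mul_le_mul_of_nonneg_left (H_succ_sub a n) (card_pos' (ι := ι)).le)
  have hw := walk_fs a n
  have hw1 := walk_fs a (n + 1)
  have f1 : ∀ i, FS fun x => (Real.sqrt (walk a n ((a i)⁻¹ * x))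
        - Real.sqrt (walk a (n + 1) x)) ^ 2 := by
    intro i
    have : FS fun x => Real.sqrt (walk a n ((a i)⁻¹ * x)) - Real.sqrt (walk a (n + 1) x) :=
      (sqrt_fs (hw.comp_left _)).sub (sqrt_fs hw1)
    exact this.mono fun x hx => by simp [hx]
  have f2 : FS fun x => (Real.sqrt (walk a n ((a i)⁻¹ * x)) - Real.sqrt (walk a n x)) ^ 2 := by
    have : FS fun x => Real.sqrt (walk a n ((a i)⁻¹ * x)) - Real.sqrt (walk a n x) :=
      (sqrt_fs (hw.comp_left _)).sub (sqrt_fs hw)
    exact this.mono fun x hx => by simp [hx]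
  have h3 : D a n (a i) ≤ 2 * T i + 2 * T i₀ := by
    rw [hT]
    simp only
    rw [← tsum_mul_left, ← tsum_mul_left,
      ← ((f1 i).const_mul 2).summable.tsum_add ((f1 i₀).const_mul 2).summable]
    apply f2.summable.tsum_le_tsum _
      (((f1 i).const_mul 2).summable.add ((f1 i₀).const_mul 2).summable)
    intro x
    rw [h1, inv_one, one_mul]
    nlinarith [sq_nonneg ((Real.sqrt (walk a n ((a i)⁻¹ * x)) - Real.sqrt (walk a (n + 1) x))
      + (Real.sqrt (walk a n x) - Real.sqrt (walk a (n + 1) x)))]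
  nlinarith [h2 i, h2 i₀]

lemma nml_le {w N : ℝ} (hw : 0 ≤ w) (hN : 0 < N) :
    Real.negMulLog w ≤ w * Real.log N + (N⁻¹ - w) := by
  rcases hw.eq_or_lt with h | h
  · rw [← h]; simp; positivity
  · have h1 := Real.log_le_sub_one_of_pos (x := (N * w)⁻¹) (by positivity)
    rw [Real.log_inv, Real.log_mul hN.ne' h.ne'] at h1
    have h2 := mul_le_mul_of_nonneg_left h1 hw
    have h3 : w * ((N * w)⁻¹ - 1) = N⁻¹ - w := by
      field_simp
    rw [h3] at h2
    rw [Real.negMulLog]
    nlinarith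

lemma H_le (a : ι → G) (n : ℕ) (F : Finset G) (hF : ∀ x ∉ F, walk a n x = 0) :
    H a n ≤ Real.log F.card := by
  have hs : ∑ x ∈ F, walk a n x = 1 := by
    rw [← walk_sum a n, tsum_eq_sum (s := F) (fun x hx => hF x hx)]
  have hne : F.Nonempty := by
    rw [Finset.nonempty_iff_ne_empty]
    intro h
    rw [h] at hs
    simp at hs
  have hN : (0 : ℝ) < F.card := by exact_mod_cast hne.card_pos
  unfold H
  rw [tsum_eq_sum (s := F) (fun x hx => by simp [hF x hx])]
  calc ∑ x ∈ F, Real.negMulLog (walk a n x)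
      ≤ ∑ x ∈ F, (walk a n x * Real.log F.card + ((F.card : ℝ)⁻¹ - walk a n x)) :=
        Finset.sum_le_sum fun x _ => nml_le (walk_nonneg a n x) hN
    _ = Real.log F.card := by
      rw [Finset.sum_add_distrib, ← Finset.sum_mul, Finset.sum_sub_distrib, hs,
        Finset.sum_const, nsmul_eq_mul, mul_inv_cancel₀ hN.ne']
      ring

lemma walk_support {l : G → ℕ} {C d : ℕ} (hl : PolyLen l C d) (a : ι → G) {Λ : ℕ}
    (hΛ : ∀ i, l (a i) ≤ Λ) (n : ℕ) : ∀ x, walk a n x ≠ 0 → l x ≤ n * Λ := by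
  classical
  induction n with
  | zero =>
    intro x hx
    rw [walk_zero] at hx
    have : x = 1 := by
      by_contra h
      exact hx (if_neg h)
    rw [this, hl.one]; simp
  | succ n ih =>
    intro x hx
    rw [walk_succ] at hx
    have : ∃ i, walk a n ((a i)⁻¹ * x) ≠ 0 := by
      by_contra h
      push Not at h
      apply hx
      have : (fun i => walk a n ((a i)⁻¹ * x)) = fun _ => 0 := funext h
      rw [this, avg_const]
    obtain ⟨i, hi⟩ := this
    have h1 := ih _ hi
    have h2 : l x ≤ l (a i) + l ((a i)⁻¹ * x) := by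
      have := hl.mul (a i) ((a i)⁻¹ * x)
      rwa [mul_inv_cancel_left] at this
    have h3 := hΛ i
    calc l x ≤ l (a i) + l ((a i)⁻¹ * x) := h2
      _ ≤ Λ + n * Λ := by omega
      _ = (n + 1) * Λ := by ring

lemma H_le_log {l : G → ℕ} {C d : ℕ} (hl : PolyLen l C d) (a : ι → G) :
    ∃ A : ℝ, ∀ n : ℕ, H a n ≤ A + d * Real.log (n + 1) := by
  obtain ⟨Λ, hΛ⟩ : ∃ Λ : ℕ, ∀ i, l (a i) ≤ Λ :=
    ⟨Finset.univ.sup fun i => l (a i), fun i => Finset.le_sup (f := fun i => l (a i))
      (Finset.mem_univ i)⟩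
  refine ⟨Real.log (C * (Λ + 1) ^ d), fun n => ?_⟩
  set F := (hl.fin (n * Λ)).toFinset with hF
  have hF0 : ∀ x ∉ F, walk a n x = 0 := by
    intro x hx
    by_contra h
    apply hx
    rw [hF, Set.Finite.mem_toFinset]
    exact walk_support hl a hΛ n x h
  have h1 := H_le a n F hF0
  have h2 : F.card ≤ C * (n * Λ + 1) ^ d := by
    have := hl.card (n * Λ)
    rwa [Set.ncard_eq_toFinset_card _ (hl.fin (n * Λ))] at this
  have hFpos : (0 : ℝ) < F.card := by
    have : (1 : G) ∈ F := by
      rw [hF, Set.Finite.mem_toFinset]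
      simp [hl.one]
    exact_mod_cast Finset.card_pos.mpr ⟨1, this⟩
  have h3 : (F.card : ℝ) ≤ (C * (Λ + 1) ^ d) * (n + 1) ^ d := by
    have h4 : ((n * Λ + 1 : ℕ) : ℝ) ≤ (Λ + 1) * (n + 1) := by
      push_cast
      have : (0 : ℝ) ≤ n := Nat.cast_nonneg n
      have : (0 : ℝ) ≤ Λ := Nat.cast_nonneg Λ
      nlinarith
    calc (F.card : ℝ) ≤ ((C * (n * Λ + 1) ^ d : ℕ) : ℝ) := by exact_mod_cast h2
      _ = C * ((n * Λ + 1 : ℕ) : ℝ) ^ d := by push_cast; ring
      _ ≤ C * ((Λ + 1) * (n + 1)) ^ d := by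
        gcongr
      _ = _ := by rw [mul_pow]; ring
  have hC : (0 : ℝ) < C * (Λ + 1) ^ d := by
    by_contra h
    push Not at h
    have : (C * (Λ + 1) ^ d : ℝ) * (n + 1) ^ d ≤ 0 :=
      mul_nonpos_of_nonpos_of_nonneg h (by positivity)
    linarith
  calc H a n ≤ Real.log F.card := h1
    _ ≤ Real.log ((C * (Λ + 1) ^ d) * (n + 1) ^ d) := Real.log_le_log hFpos h3
    _ = Real.log (C * (Λ + 1) ^ d) + d * Real.log (n + 1) := by
      rw [Real.log_mul hC.ne' (by positivity), Real.log_pow]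

/-- A sequence with logarithmic growth has small increments infinitely often. -/
lemma exists_small_increment {u : ℕ → ℝ} {A : ℝ} {d : ℕ}
    (hu : ∀ n : ℕ, u n ≤ A + d * Real.log (n + 1)) (N : ℕ) :
    ∃ n ≥ N, u (n + 1) - u n ≤ (d + 1) / (n + 1) := by
  by_contra hcon
  push Not at hcon
  have h1 : ∀ k : ℕ, u N + (d + 1) * (Real.log ((N + k : ℕ) + 1) - Real.log (N + 1)) ≤ u (N + k) := by
    intro k
    induction k with
    | zero => simp
    | succ k ih =>
      have h2 := hcon (N + k) (by omega)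
      have h3 : Real.log (((N + (k + 1) : ℕ) : ℝ) + 1) - Real.log (((N + k : ℕ) : ℝ) + 1)
          ≤ 1 / (((N + k : ℕ) : ℝ) + 1) := by
        have hpos : (0 : ℝ) < ((N + k : ℕ) : ℝ) + 1 := by positivity
        rw [← Real.log_div (by positivity) hpos.ne']
        refine (Real.log_le_sub_one_of_pos (by positivity)).trans (le_of_eq ?_)
        push_cast
        field_simp
        ring
      have h4 : (d + 1 : ℝ) * (Real.log (((N + (k + 1) : ℕ) : ℝ) + 1)
          - Real.log (((N + k : ℕ) : ℝ) + 1)) ≤ (d + 1) / (((N + k : ℕ) : ℝ) + 1) := by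
        have := mul_le_mul_of_nonneg_left h3 (by positivity : (0 : ℝ) ≤ d + 1)
        rwa [mul_one_div] at this
      rw [← add_assoc N k 1]
      rw [← add_assoc N k 1] at h4
      linarith
  have h5 : ∀ k : ℕ, Real.log (((N + k : ℕ) : ℝ) + 1)
      ≤ A - u N + (d + 1) * Real.log (N + 1) := by
    intro k
    have h6 := (h1 k).trans (hu (N + k))
    linarith
  have h7 : Filter.Tendsto (fun k : ℕ => Real.log (((N + k : ℕ) : ℝ) + 1)) Filter.atTop
      Filter.atTop := by
    apply Real.tendsto_log_atTop.comp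
    apply Filter.tendsto_atTop_add_const_right
    apply tendsto_natCast_atTop_atTop.comp
    exact Filter.tendsto_atTop_mono (fun k => Nat.le_add_left k N) Filter.tendsto_id
  obtain ⟨k, hk⟩ := (h7.eventually (Filter.eventually_gt_atTop
    (A - u N + (d + 1) * Real.log (N + 1)))).exists
  exact absurd (h5 k) (not_le.mpr hk)

/-- Main estimate of block GE. -/
theorem exists_good {l : G → ℕ} {C d : ℕ} (hl : PolyLen l C d) (a : ι → G) {i₀ : ι}
    (h1 : a i₀ = 1) :
    ∃ K : ℝ, 0 < K ∧ ∀ N : ℕ, ∃ n ≥ N, ∀ i, D a n (a i) ≤ K / (n + 1) := by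
  obtain ⟨A, hA⟩ := H_le_log hl a
  refine ⟨4 * Fintype.card ι * (d + 1), by
    have := card_pos' (ι := ι)
    positivity, fun N => ?_⟩
  obtain ⟨n, hn, hsmall⟩ := exists_small_increment hA N
  refine ⟨n, hn, fun i => ?_⟩
  calc D a n (a i) ≤ 4 * Fintype.card ι * (H a (n + 1) - H a n) := D_le a h1 n i
    _ ≤ 4 * Fintype.card ι * ((d + 1) / (n + 1)) := by
      have := card_pos' (ι := ι)
      gcongr
    _ = 4 * Fintype.card ι * (d + 1) / (n + 1) := by ring

end Crest.Agent.R182.Gromov.Ent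
end

-- ▼ part R182/GromovForm
section

/-!
R182, module GROMOV, block GQ (helper203): the invariant quadratic form on Lipschitz harmonic
functions and finite-dimensionality.
-/

set_option autoImplicit false
set_option linter.unusedSectionVars false
set_option linter.unusedSimpArgs false

namespace Crest.Agent.R182.Gromov.Form

open Function Filter Topology Crest.Agent.R182.Gromov.Walk

variable {G : Type*} [Group G] {ι : Type*} [Fintype ι] [Nonempty ι]

/-- Lipschitz harmonic functions vanishing at the identity. -/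
def harmSub (a : ι → G) : Submodule ℝ (G → ℝ) where
  carrier := {h | Harm a h ∧ (∃ L, LipB a L h) ∧ h 1 = 0}
  zero_mem' := ⟨fun x => by simp [avg], ⟨0, fun x i => by simp⟩, rfl⟩
  add_mem' := by
    rintro h k ⟨h1, ⟨L, h2⟩, h3⟩ ⟨k1, ⟨M, k2⟩, k3⟩
    refine ⟨fun x => ?_, ⟨L + M, fun x i => ?_⟩, ?_⟩
    · have := avg_add (fun i => h (x * a i)) (fun i => k (x * a i))
      simp only [Pi.add_apply]
      rw [this, h1 x, k1 x]
    · have e : (h + k) (x * a i) - (h + k) x
          = (h (x * a i) - h x) + (k (x * a i) - k x) := by simp only [Pi.add_apply]; ring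
      rw [e]
      exact (abs_add_le _ _).trans (add_le_add (h2 x i) (k2 x i))
    · simp [h3, k3]
  smul_mem' := by
    rintro c h ⟨h1, ⟨L, h2⟩, h3⟩
    refine ⟨fun x => ?_, ⟨|c| * L, fun x i => ?_⟩, ?_⟩
    · have := avg_smul c (fun i => h (x * a i))
      simp only [Pi.smul_apply, smul_eq_mul]
      rw [this, h1 x]
    · have e : (c • h) (x * a i) - (c • h) x = c * (h (x * a i) - h x) := by
        simp only [Pi.smul_apply, smul_eq_mul]; ring
      rw [e, abs_mul]
      exact mul_le_mul_of_nonneg_left (h2 x i) (abs_nonneg c)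
    · simp [h3]

/-- The type of such functions, as a type synonym depending on an ultrafilter (which will give
the norm). -/
def HW (a : ι → G) (_ω : Ultrafilter ℕ) : Type _ := ↥(harmSub a)

variable {a : ι → G} {ω : Ultrafilter ℕ}

instance : AddCommGroup (HW a ω) := inferInstanceAs (AddCommGroup ↥(harmSub a))
instance : Module ℝ (HW a ω) := inferInstanceAs (Module ℝ ↥(harmSub a))

/-- The underlying function. -/
def fn (h : HW a ω) : G → ℝ := (show ↥(harmSub a) from h).1

lemma fn_harm (h : HW a ω) : Harm a (fn h) := (show ↥(harmSub a) from h).2.1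
lemma fn_lip (h : HW a ω) : ∃ L, LipB a L (fn h) := (show ↥(harmSub a) from h).2.2.1
lemma fn_one (h : HW a ω) : fn h 1 = 0 := (show ↥(harmSub a) from h).2.2.2

lemma fn_add (h k : HW a ω) (x : G) : fn (h + k) x = fn h x + fn k x := rfl
lemma fn_smul (c : ℝ) (h : HW a ω) (x : G) : fn (c • h) x = c * fn h x := rfl
lemma fn_zero (x : G) : fn (0 : HW a ω) x = 0 := rfl

lemma fn_sum {κ : Type*} (s : Finset κ) (f : κ → HW a ω) (x : G) :
    fn (∑ j ∈ s, f j) x = ∑ j ∈ s, fn (f j) x := by
  classical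
  induction s using Finset.induction_on with
  | empty => simp [fn_zero]
  | insert j s hj ih => rw [Finset.sum_insert hj, fn_add, ih, Finset.sum_insert hj]

lemma fn_ext {h k : HW a ω} (e : ∀ x, fn h x = fn k x) : h = k :=
  Subtype.ext (funext e)

/-- make an element -/
def mk (ω : Ultrafilter ℕ) (h : G → ℝ) (h1 : Harm a h) (h2 : ∃ L, LipB a L h) (h3 : h 1 = 0) :
    HW a ω := (⟨h, h1, h2, h3⟩ : ↥(harmSub a))

lemma fn_mk (h : G → ℝ) (h1 : Harm a h) (h2 : ∃ L, LipB a L h) (h3 : h 1 = 0) (x : G) :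
    fn (mk ω h h1 h2 h3) x = h x := rfl

lemma exists_lim (u : ℕ → ℝ) (hb : ∃ M, ∀ n, |u n| ≤ M) :
    ∃ x, Tendsto u (ω : Filter ℕ) (𝓝 x) := by
  obtain ⟨M, hM⟩ := hb
  have hc : IsCompact (Set.Icc (-M) M) := isCompact_Icc
  obtain ⟨x, _, hx⟩ := hc.ultrafilter_le_nhds (ω.map u) (by
    rw [Ultrafilter.coe_map, le_principal_iff]
    exact Filter.mem_map.2 (Filter.univ_mem' fun n => abs_le.mp (hM n)))
  exact ⟨x, hx⟩

noncomputable def Bn (a : ι → G) (n : ℕ) (h k : G → ℝ) : ℝ :=
  E a n (fun x => h x * k x) / (n + 1)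

lemma Bn_self_le {h : G → ℝ} {L : ℝ} (h1 : Harm a h) (h2 : LipB a L h) (h3 : h 1 = 0) (n : ℕ) :
    Bn a n h h ≤ L ^ 2 := by
  unfold Bn
  rw [div_le_iff₀ (by positivity)]
  have := h1.E_sq_le h2 h3 n
  have e : (fun x => h x * h x) = fun x => h x ^ 2 := by ext x; ring
  rw [e]
  nlinarith [sq_nonneg L]

lemma Bn_self_nonneg (h : G → ℝ) (n : ℕ) : 0 ≤ Bn a n h h :=
  div_nonneg (E_nonneg a n fun x => mul_self_nonneg _) (by positivity)

lemma Bn_abs_le (h k : G → ℝ) (n : ℕ) : |Bn a n h k| ≤ Bn a n h h + Bn a n k k := by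
  unfold Bn
  rw [← add_div, abs_div, abs_of_pos (by positivity : (0 : ℝ) < (n : ℝ) + 1)]
  apply div_le_div_of_nonneg_right _ (by positivity)
  rw [← E_add, abs_le]
  constructor
  · have := E_mono a n (f := fun x => -1 * (h x * h x + k x * k x)) (g := fun x => h x * k x)
      (fun x => by nlinarith [sq_nonneg (h x + k x), mul_self_nonneg (h x), mul_self_nonneg (k x)])
    rw [E_smul] at this
    linarith
  · exact E_mono a n (fun x => by
      nlinarith [sq_nonneg (h x - k x), mul_self_nonneg (h x), mul_self_nonneg (k x)])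

lemma Bn_bdd (h k : HW a ω) : ∃ M, ∀ n, |Bn a n (fn h) (fn k)| ≤ M := by
  obtain ⟨L, hL⟩ := fn_lip h
  obtain ⟨M, hM⟩ := fn_lip k
  refine ⟨L ^ 2 + M ^ 2, fun n => (Bn_abs_le _ _ n).trans (add_le_add ?_ ?_)⟩
  · exact Bn_self_le (fn_harm h) hL (fn_one h) n
  · exact Bn_self_le (fn_harm k) hM (fn_one k) n

/-- The limit form. -/
noncomputable def B (h k : HW a ω) : ℝ := limUnder (ω : Filter ℕ) fun n => Bn a n (fn h) (fn k)

lemma B_tendsto (h k : HW a ω) :
    Tendsto (fun n => Bn a n (fn h) (fn k)) (ω : Filter ℕ) (𝓝 (B h k)) :=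
  tendsto_nhds_limUnder (exists_lim _ (Bn_bdd h k))

lemma B_unique {h k : HW a ω} {x : ℝ}
    (hx : Tendsto (fun n => Bn a n (fn h) (fn k)) (ω : Filter ℕ) (𝓝 x)) : B h k = x :=
  tendsto_nhds_unique (B_tendsto h k) hx

lemma B_symm (h k : HW a ω) : B h k = B k h := by
  apply B_unique
  refine (B_tendsto k h).congr fun n => ?_
  unfold Bn
  congr 2; ext x; ring

lemma B_add_left (h h' k : HW a ω) : B (h + h') k = B h k + B h' k := by
  apply B_unique
  refine ((B_tendsto h k).add (B_tendsto h' k)).congr fun n => ?_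
  unfold Bn
  rw [← add_div, ← E_add]
  congr 2; ext x; rw [fn_add]; ring

lemma B_smul_left (c : ℝ) (h k : HW a ω) : B (c • h) k = c * B h k := by
  apply B_unique
  refine ((B_tendsto h k).const_mul c).congr fun n => ?_
  unfold Bn
  rw [← mul_div_assoc, ← E_smul]
  congr 2; ext x; rw [fn_smul]; ring

lemma B_self_nonneg (h : HW a ω) : 0 ≤ B h h :=
  ge_of_tendsto' (B_tendsto h h) fun n => Bn_self_nonneg _ n

/-- The translation action. -/
def trFun (g : G) (h : G → ℝ) : G → ℝ := fun x => h (g⁻¹ * x) - h g⁻¹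

def tr (ω : Ultrafilter ℕ) (g : G) (h : HW a ω) : HW a ω :=
  mk ω (trFun g (fn h))
    (fun x => by
      have := (fn_harm h) (g⁻¹ * x)
      unfold trFun
      rw [avg_sub, avg_const]
      simp only [mul_assoc] at this ⊢
      rw [this])
    (by
      obtain ⟨L, hL⟩ := fn_lip h
      refine ⟨L, fun x i => ?_⟩
      have := hL (g⁻¹ * x) i
      unfold trFun
      rw [mul_assoc] at this
      simpa using this)
    (by simp [trFun])

lemma fn_tr (g : G) (h : HW a ω) (x : G) : fn (tr ω g h) x = fn h (g⁻¹ * x) - fn h g⁻¹ := rfl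

lemma tr_mul (g k : G) (h : HW a ω) : tr ω (g * k) h = tr ω g (tr ω k h) := by
  apply fn_ext
  intro x
  simp only [fn_tr, mul_inv_rev, mul_assoc]
  ring

lemma tr_one (h : HW a ω) : tr ω 1 h = h := by
  apply fn_ext
  intro x
  simp [fn_tr, fn_one]

lemma tr_add (g : G) (h k : HW a ω) : tr ω g (h + k) = tr ω g h + tr ω g k := by
  apply fn_ext
  intro x
  simp only [fn_tr, fn_add]; ring

lemma tr_smul (g : G) (c : ℝ) (h : HW a ω) : tr ω g (c • h) = c • tr ω g h := by
  apply fn_ext
  intro x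
  simp only [fn_tr, fn_smul]; ring

/-- The standing hypotheses on the ultrafilter. -/
structure Good (a : ι → G) (ω : Ultrafilter ℕ) (K : ℝ) : Prop where
  le : (ω : Filter ℕ) ≤ atTop
  bd : ∀ᶠ n in (ω : Filter ℕ), ∀ i, D a n (a i) ≤ K / (n + 1)
  gen : Subgroup.closure (Set.range a) = ⊤
  pos : 0 < K

lemma tendsto_inv (hg : (ω : Filter ℕ) ≤ atTop) (c : ℝ) :
    Tendsto (fun n : ℕ => c / ((n : ℝ) + 1)) (ω : Filter ℕ) (𝓝 0) := by
  have h1 : Tendsto (fun n : ℕ => c * (1 / ((n : ℝ) + 1))) atTop (𝓝 (c * 0)) :=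
    tendsto_one_div_add_atTop_nhds_zero_nat.const_mul c
  rw [mul_zero] at h1
  refine (h1.mono_left hg).congr fun n => ?_
  rw [mul_one_div]

lemma E_tr_sq (h : HW a ω) (y : G) (n : ℕ) :
    E a n (fun x => fn h (y * x) ^ 2)
      = E a n (fun x => fn (tr ω y⁻¹ h) x * fn (tr ω y⁻¹ h) x) + fn h y ^ 2 := by
  have e1 : (fun x => fn (tr ω y⁻¹ h) x * fn (tr ω y⁻¹ h) x)
      = fun x => (fn h (y * x) ^ 2 - 2 * fn h y * fn h (y * x)) + fn h y ^ 2 := by
    ext x
    rw [fn_tr, inv_inv]; ring
  rw [e1, E_add, E_sub, E_smul, (fn_harm h).E_left, E_const]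
  ring

/-- Evaluation is bounded by the form. -/
lemma eval_sq_le_aux {K : ℝ} (hg : Good a ω K) (h : HW a ω) (i : ι) :
    fn h (a i) ^ 2 ≤ 2 * K * (B (tr ω (a i)⁻¹ h) (tr ω (a i)⁻¹ h) + B h h) := by
  set y := a i with hy
  set h' := tr ω y⁻¹ h with hh'
  have key : ∀ᶠ n in (ω : Filter ℕ), fn h y ^ 2
      ≤ 2 * K * (Bn a n (fn h') (fn h') + fn h y ^ 2 / ((n : ℝ) + 1) + Bn a n (fn h) (fn h)) := by
    filter_upwards [hg.bd] with n hn
    have hD := hn i
    have h1 := diff_sq_le a n y (fn h)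
    rw [(fn_harm h).E_left, (fn_harm h).E_eq, fn_one, sub_zero, E_tr_sq] at h1
    have e1 : (fun x => fn h x ^ 2) = fun x => fn h x * fn h x := by ext x; ring
    rw [e1] at h1
    have hpos : (0 : ℝ) < (n : ℝ) + 1 := by positivity
    set A1 := E a n (fun x => fn h' x * fn h' x) with hA1
    set A2 := E a n (fun x => fn h x * fn h x) with hA2
    have hA1' : 0 ≤ A1 := E_nonneg a n fun x => mul_self_nonneg _
    have hA2' : 0 ≤ A2 := E_nonneg a n fun x => mul_self_nonneg _
    calc fn h y ^ 2 ≤ D a n y * (2 * (A1 + fn h y ^ 2 + A2)) := h1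
      _ ≤ (K / (n + 1)) * (2 * (A1 + fn h y ^ 2 + A2)) := by
        apply mul_le_mul_of_nonneg_right hD
        positivity
      _ = 2 * K * (Bn a n (fn h') (fn h') + fn h y ^ 2 / ((n : ℝ) + 1) + Bn a n (fn h) (fn h)) := by
        unfold Bn
        rw [← hA1, ← hA2]
        field_simp
  have lim : Tendsto (fun n : ℕ => 2 * K * (Bn a n (fn h') (fn h') + fn h y ^ 2 / ((n : ℝ) + 1)
      + Bn a n (fn h) (fn h))) (ω : Filter ℕ) (𝓝 (2 * K * (B h' h' + 0 + B h h))) :=
    (((B_tendsto h' h').add (tendsto_inv hg.le _)).add (B_tendsto h h)).const_mul _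
  have := ge_of_tendsto lim key
  simpa using this

/-- Invariance of the quadratic form under generators. -/
lemma q_inv_gen {K : ℝ} (hg : Good a ω K) (h : HW a ω) (i : ι) :
    B (tr ω (a i)⁻¹ h) (tr ω (a i)⁻¹ h) = B h h := by
  set y := a i with hy
  set h' := tr ω y⁻¹ h with hh'
  obtain ⟨L, hL⟩ := fn_lip h
  obtain ⟨L', hL'⟩ := fn_lip h'
  -- the difference tends to zero
  set c := fn h y ^ 2 with hc
  set C1 : ℝ := K * (2 * (32 * L' ^ 4 + 8 * c ^ 2 + 4 * L ^ 4)) with hC1
  have hC1pos : 0 ≤ C1 := by have := hg.pos; positivity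
  have key : ∀ᶠ n in (ω : Filter ℕ),
      |Bn a n (fn h') (fn h') + c / ((n : ℝ) + 1) - Bn a n (fn h) (fn h)|
        ≤ Real.sqrt (C1 / ((n : ℝ) + 1)) := by
    filter_upwards [hg.bd] with n hn
    have hD := hn i
    have h1 := diff_sq_le a n y (fun x => fn h x ^ 2)
    rw [E_tr_sq] at h1
    have e1 : (fun x => fn h x ^ 2) = fun x => fn h x * fn h x := by ext x; ring
    rw [e1] at h1
    have hpos : (0 : ℝ) < (n : ℝ) + 1 := by positivity
    have hn0 : (0 : ℝ) ≤ n := Nat.cast_nonneg n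
    -- fourth moments
    have m1 : E a n (fun x => (fn h x * fn h x) ^ 2) ≤ 4 * n ^ 2 * L ^ 4 := by
      have := (fn_harm h).E_four_le hL (fn_one h) n
      have e : (fun x => (fn h x * fn h x) ^ 2) = fun x => fn h x ^ 4 := by ext x; ring
      rwa [e]
    have m2 : E a n (fun x => (fn h (y * x) ^ 2) ^ 2) ≤ 8 * (4 * n ^ 2 * L' ^ 4) + 8 * c ^ 2 := by
      have h4 := (fn_harm h').E_four_le hL' (fn_one h') n
      have : E a n (fun x => (fn h (y * x) ^ 2) ^ 2)
          ≤ E a n (fun x => 8 * (fn h' x ^ 4) + 8 * c ^ 2) := by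
        apply E_mono
        intro x
        have e : fn h (y * x) = fn h' x + fn h y := by rw [hh', fn_tr, inv_inv]; ring
        rw [e, hc]
        have s1 : (fn h' x + fn h y) ^ 2 ≤ 2 * (fn h' x ^ 2 + fn h y ^ 2) := by
          nlinarith [sq_nonneg (fn h' x - fn h y)]
        have s2 : ((fn h' x + fn h y) ^ 2) ^ 2 ≤ (2 * (fn h' x ^ 2 + fn h y ^ 2)) ^ 2 :=
          pow_le_pow_left₀ (sq_nonneg _) s1 2
        nlinarith [sq_nonneg (fn h' x ^ 2 - fn h y ^ 2)]
      rw [E_add, E_smul, E_const] at this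
      linarith
    set A1 := E a n (fun x => fn h' x * fn h' x) with hA1
    set A2 := E a n (fun x => fn h x * fn h x) with hA2
    have h5 : (A1 + c - A2) ^ 2 ≤ C1 * ((n : ℝ) + 1) := by
      calc (A1 + c - A2) ^ 2 ≤ D a n y * (2 * (E a n (fun x => (fn h (y * x) ^ 2) ^ 2)
              + E a n (fun x => (fn h x * fn h x) ^ 2))) := by
            have e3 : (fun x => (fn h x * fn h x) ^ 2) = fun x => (fn h x ^ 2) ^ 2 := by
              ext x; ring
            rw [e3]
            exact h1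
        _ ≤ (K / (n + 1)) * (2 * ((8 * (4 * n ^ 2 * L' ^ 4) + 8 * c ^ 2) + 4 * n ^ 2 * L ^ 4)) := by
            apply mul_le_mul hD _ _ (by have := hg.pos; positivity)
            · linarith
            · have t1 : 0 ≤ E a n (fun x => (fn h (y * x) ^ 2) ^ 2) :=
                E_nonneg a n fun x => sq_nonneg _
              have t2 : 0 ≤ E a n (fun x => (fn h x * fn h x) ^ 2) :=
                E_nonneg a n fun x => sq_nonneg _
              positivity
        _ ≤ (K / (n + 1)) * (2 * ((32 * L' ^ 4 + 8 * c ^ 2 + 4 * L ^ 4) * (n + 1) ^ 2)) := by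
            apply mul_le_mul_of_nonneg_left _ (by have := hg.pos; positivity)
            have u1 : (n : ℝ) ^ 2 ≤ (n + 1) ^ 2 := by nlinarith
            have u2 : (1 : ℝ) ≤ (n + 1) ^ 2 := by nlinarith
            have v1 : 0 ≤ L' ^ 4 := by positivity
            have v2 : 0 ≤ L ^ 4 := by positivity
            have v3 : 0 ≤ c ^ 2 := by positivity
            nlinarith [mul_le_mul_of_nonneg_right u1 v1, mul_le_mul_of_nonneg_right u1 v2,
              mul_le_mul_of_nonneg_right u2 v3]
        _ = C1 * ((n : ℝ) + 1) := by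
            rw [hC1]; field_simp
    have h6 : |(A1 + c - A2) / ((n : ℝ) + 1)| ≤ Real.sqrt (C1 / ((n : ℝ) + 1)) := by
      apply Real.abs_le_sqrt
      rw [div_pow, div_le_div_iff₀ (by positivity) (by positivity)]
      calc (A1 + c - A2) ^ 2 * ((n : ℝ) + 1) ≤ (C1 * ((n : ℝ) + 1)) * ((n : ℝ) + 1) :=
            mul_le_mul_of_nonneg_right h5 hpos.le
        _ = C1 * ((n : ℝ) + 1) ^ 2 := by ring
    have e2 : Bn a n (fn h') (fn h') + c / ((n : ℝ) + 1) - Bn a n (fn h) (fn h)
        = (A1 + c - A2) / ((n : ℝ) + 1) := by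
      unfold Bn
      rw [← hA1, ← hA2]
      ring
    rw [e2]; exact h6
  have l1 : Tendsto (fun n : ℕ => |Bn a n (fn h') (fn h') + c / ((n : ℝ) + 1)
      - Bn a n (fn h) (fn h)|) (ω : Filter ℕ) (𝓝 |B h' h' + 0 - B h h|) :=
    (((B_tendsto h' h').add (tendsto_inv hg.le _)).sub (B_tendsto h h)).abs
  have l2 : Tendsto (fun n : ℕ => Real.sqrt (C1 / ((n : ℝ) + 1))) (ω : Filter ℕ) (𝓝 0) := by
    have := (Real.continuous_sqrt.tendsto 0).comp (tendsto_inv hg.le C1)
    rw [Real.sqrt_zero] at this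
    exact this
  have h7 := le_of_tendsto_of_tendsto l1 l2 key
  have h8 : B h' h' + 0 - B h h = 0 := abs_nonpos_iff.mp h7
  linarith

lemma q_inv {K : ℝ} (hg : Good a ω K) (g : G) : ∀ h : HW a ω, B (tr ω g h) (tr ω g h) = B h h := by
  have hmem : g ∈ Subgroup.closure (Set.range a) := by rw [hg.gen]; trivial
  refine Subgroup.closure_induction (p := fun g _ => ∀ h : HW a ω,
    B (tr ω g h) (tr ω g h) = B h h) ?_ ?_ ?_ ?_ hmem
  · rintro _ ⟨i, rfl⟩ h
    have := q_inv_gen hg (tr ω (a i) h) i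
    rw [← tr_mul, inv_mul_cancel, tr_one] at this
    exact this.symm
  · intro h; rw [tr_one]
  · intro x y _ _ hx hy h
    rw [tr_mul, hx, hy]
  · intro x _ hx h
    have := hx (tr ω x⁻¹ h)
    rw [← tr_mul, mul_inv_cancel, tr_one] at this
    exact this.symm

lemma B_inv {K : ℝ} (hg : Good a ω K) (g : G) (h k : HW a ω) :
    B (tr ω g h) (tr ω g k) = B h k := by
  have h1 := q_inv hg g (h + k)
  rw [tr_add, B_add_left, B_add_left, B_symm _ (tr ω g h + tr ω g k),
    B_symm _ (tr ω g h + tr ω g k), B_add_left, B_add_left, B_symm _ (h + k), B_symm _ (h + k),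
    B_add_left, B_add_left, q_inv hg g h, q_inv hg g k, B_symm (tr ω g k) (tr ω g h),
    B_symm k h] at h1
  linarith

lemma eval_sq_le {K : ℝ} (hg : Good a ω K) (h : HW a ω) (i : ι) :
    fn h (a i) ^ 2 ≤ 4 * K * B h h := by
  have := eval_sq_le_aux hg h i
  rw [q_inv hg] at this
  linarith

lemma incr_eq (h : HW a ω) (x : G) (i : ι) :
    fn h (x * a i) - fn h x = fn (tr ω x⁻¹ h) (a i) := by
  rw [fn_tr, inv_inv]

lemma B_def {K : ℝ} (hg : Good a ω K) (h : HW a ω) (h0 : B h h = 0) : h = 0 := by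
  have h1 : ∀ x i, fn h (x * a i) = fn h x := by
    intro x i
    have h2 := eval_sq_le hg (tr ω x⁻¹ h) i
    rw [q_inv hg, h0, mul_zero, ← incr_eq] at h2
    have h3 : fn h (x * a i) - fn h x = 0 := by
      have := le_antisymm h2 (sq_nonneg _)
      exact pow_eq_zero_iff (two_ne_zero) |>.mp this
    linarith
  have h2 : ∀ g : G, ∀ x, fn h (x * g) = fn h x := by
    intro g
    have hmem : g ∈ Subgroup.closure (Set.range a) := by rw [hg.gen]; trivial
    refine Subgroup.closure_induction (p := fun g _ => ∀ x, fn h (x * g) = fn h x) ?_ ?_ ?_ ?_ hmem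
    · rintro _ ⟨i, rfl⟩ x; exact h1 x i
    · intro x; rw [mul_one]
    · intro u v _ _ hu hv x
      rw [← mul_assoc, hv, hu]
    · intro u _ hu x
      have := hu (x * u⁻¹)
      rw [inv_mul_cancel_right] at this
      exact this.symm
  apply fn_ext
  intro x
  have := h2 x 1
  rw [one_mul, fn_one] at this
  rw [this, fn_zero]

/-- The inner product. -/
@[reducible] noncomputable def core {K : ℝ} (hg : Good a ω K) : InnerProductSpace.Core ℝ (HW a ω) where
  inner h k := B h k
  conj_inner_symm h k := by simp [B_symm k h]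
  re_inner_nonneg h := by simpa using B_self_nonneg h
  add_left h h' k := B_add_left h h' k
  smul_left h k c := by simpa using B_smul_left c h k
  definite h h0 := B_def hg h h0

lemma sum_eval_sq_le {K : ℝ} (hg : Good a ω K) {m : ℕ} (e : Fin m → HW a ω)
    (he : ∀ j k, B (e j) (e k) = if j = k then 1 else 0) (i : ι) :
    ∑ j, fn (e j) (a i) ^ 2 ≤ 4 * K := by
  classical
  set c : Fin m → ℝ := fun j => fn (e j) (a i) with hc
  set v : HW a ω := ∑ j, c j • e j with hv
  have B_sum_left : ∀ (s : Finset (Fin m)) (w : HW a ω),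
      B (∑ j ∈ s, c j • e j) w = ∑ j ∈ s, c j * B (e j) w := by
    intro s w
    induction s using Finset.induction_on with
    | empty =>
      simp only [Finset.sum_empty]
      have := B_smul_left (0 : ℝ) (0 : HW a ω) w
      simpa using this
    | insert j s hj ih => rw [Finset.sum_insert hj, B_add_left, B_smul_left, ih, Finset.sum_insert hj]
  have h1 : fn v (a i) = ∑ j, c j ^ 2 := by
    rw [hv, fn_sum]
    exact Finset.sum_congr rfl fun j _ => by rw [fn_smul]; ring
  have h2 : B v v = ∑ j, c j ^ 2 := by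
    rw [hv, B_sum_left]
    refine Finset.sum_congr rfl fun j _ => ?_
    rw [B_symm, B_sum_left]
    simp_rw [he]
    simp
    ring
  have h3 := eval_sq_le hg v i
  rw [h1, h2] at h3
  set σ := ∑ j, c j ^ 2 with hσ
  have hσ0 : 0 ≤ σ := Finset.sum_nonneg fun j _ => sq_nonneg _
  rcases hσ0.eq_or_lt with h | h
  · rw [← h]; have := hg.pos; positivity
  · have : σ * σ ≤ (4 * K) * σ := by nlinarith
    exact le_of_mul_le_mul_right this h

lemma card_le {K : ℝ} (hg : Good a ω K) {m : ℕ} (e : Fin m → HW a ω)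
    (he : ∀ j k, B (e j) (e k) = if j = k then 1 else 0) : (m : ℝ) ≤ 4 * K := by
  classical
  have h1 : ∀ n : ℕ, ∑ j, Bn a n (fn (e j)) (fn (e j)) ≤ 4 * K := by
    intro n
    have e1 : ∀ j, E a n (fun x => fn (e j) x * fn (e j) x)
        = ∑ k ∈ Finset.range n, E a k (fun x => avg fun i => (fn (e j) (x * a i) - fn (e j) x) ^ 2) := by
      intro j
      have := (fn_harm (e j)).E_sq n
      rw [fn_one] at this
      have e : (fun x => fn (e j) x ^ 2) = fun x => fn (e j) x * fn (e j) x := by ext x; ring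
      rw [e] at this
      rw [this]; ring
    have e2 : ∀ k, ∑ j, E a k (fun x => avg fun i => (fn (e j) (x * a i) - fn (e j) x) ^ 2)
        ≤ 4 * K := by
      intro k
      have e3 : ∑ j, E a k (fun x => avg fun i => (fn (e j) (x * a i) - fn (e j) x) ^ 2)
          = E a k (fun x => avg fun i => ∑ j, (fn (e j) (x * a i) - fn (e j) x) ^ 2) := by
        have : ∀ s : Finset (Fin m),
            ∑ j ∈ s, E a k (fun x => avg fun i => (fn (e j) (x * a i) - fn (e j) x) ^ 2)
            = E a k (fun x => avg fun i => ∑ j ∈ s, (fn (e j) (x * a i) - fn (e j) x) ^ 2) := by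
          intro s
          induction s using Finset.induction_on with
          | empty => simp [E_const, avg_const]
          | insert j s hj ih =>
            rw [Finset.sum_insert hj, ih, ← E_add]
            congr 1
            ext x
            rw [← avg_add]
            congr 1
            ext i
            rw [Finset.sum_insert hj]
        exact this Finset.univ
      rw [e3]
      calc _ ≤ E a k (fun _ => 4 * K) := by
            apply E_mono
            intro x
            calc _ ≤ avg (fun _ : ι => 4 * K) := by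
                  apply avg_mono
                  intro i
                  simp_rw [incr_eq]
                  apply sum_eval_sq_le hg (fun j => tr ω x⁻¹ (e j))
                  intro j k
                  rw [B_inv hg]
                  exact he j k
              _ = 4 * K := avg_const _
        _ = 4 * K := E_const a k _
    unfold Bn
    rw [← Finset.sum_div, div_le_iff₀ (by positivity)]
    simp_rw [e1]
    rw [Finset.sum_comm]
    calc _ ≤ ∑ k ∈ Finset.range n, 4 * K := Finset.sum_le_sum fun k _ => e2 k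
      _ = n * (4 * K) := by simp
      _ ≤ 4 * K * ((n : ℝ) + 1) := by
        have := hg.pos
        nlinarith
  have h2 : Tendsto (fun n : ℕ => ∑ j, Bn a n (fn (e j)) (fn (e j))) (ω : Filter ℕ)
      (𝓝 (∑ j, B (e j) (e j))) := tendsto_finsetSum _ fun j _ => B_tendsto (e j) (e j)
  have h3 := le_of_tendsto' h2 h1
  simpa [he] using h3

end Crest.Agent.R182.Gromov.Form
end

-- ▼ part R182/GromovRep
section

/-!
R182, module GROMOV, block GQ, second part (helper203): finite dimension of the space of Lipschitz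
harmonic functions and the isometric representation on it.
-/

set_option autoImplicit false
set_option linter.unusedSectionVars false
set_option linter.unusedSimpArgs false
set_option linter.style.haveILetI false

universe u

namespace Crest.Agent.R182.Gromov.Form

open Function Filter Topology Crest.Agent.R182.Gromov.Walk

section
variable {G : Type*} [Group G] {ι : Type*} [Fintype ι] [Nonempty ι]
variable {a : ι → G} {ω : Ultrafilter ℕ}

theorem finite_dim {K : ℝ} (hg : Good a ω K) : Module.Finite ℝ (HW a ω) := by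
  classical
  have hr : Module.rank ℝ (HW a ω) ≤ (⌊4 * K⌋₊ : ℕ) := by
    apply rank_le
    intro s hs
    let c := core hg
    letI : NormedAddCommGroup (HW a ω) := c.toNormedAddCommGroup
    letI : InnerProductSpace ℝ (HW a ω) := InnerProductSpace.ofCore c.toCore
    let f : Fin s.card → HW a ω := fun j => (s.equivFin.symm j : HW a ω)
    have hf : LinearIndependent ℝ f := hs.comp _ s.equivFin.symm.injective
    have ho := InnerProductSpace.gramSchmidtNormed_orthonormal (𝕜 := ℝ) hf
    rw [orthonormal_iff_ite] at ho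
    have hc := card_le hg (fun j => InnerProductSpace.gramSchmidtNormed ℝ f j) (fun j k => by
      have := ho j k
      exact this)
    exact Nat.le_floor hc
  exact Module.rank_lt_aleph0_iff.mp (lt_of_le_of_lt hr (Cardinal.natCast_lt_aleph0))

/-- Translation as a linear equivalence. -/
def trEquiv (ω : Ultrafilter ℕ) (g : G) : HW a ω ≃ₗ[ℝ] HW a ω where
  toFun := tr ω g
  invFun := tr ω g⁻¹
  map_add' := tr_add g
  map_smul' := tr_smul g
  left_inv h := by rw [← tr_mul, inv_mul_cancel, tr_one]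
  right_inv h := by rw [← tr_mul, mul_inv_cancel, tr_one]

end

variable {G : Type u} [Group G] {ι : Type*} [Fintype ι] [Nonempty ι]
variable {a : ι → G} {ω : Ultrafilter ℕ}

lemma const_of_finite_range (hgen : Subgroup.closure (Set.range a) = ⊤)
    (hsym : ∀ i, ∃ j, a j = (a i)⁻¹) {h : G → ℝ} (hh : Harm a h) (x₀ : G)
    (hmax : ∀ x, h x ≤ h x₀) : ∀ x, h x = h x₀ := by
  have h1 : ∀ x, h x = h x₀ → ∀ i, h (x * a i) = h x₀ := by
    intro x hx i
    have e1 : avg (fun i => h x₀ - h (x * a i)) = 0 := by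
      rw [avg_sub, avg_const, hh x, hx, sub_self]
    have e2 := le_card_mul_avg (F := fun i => h x₀ - h (x * a i))
      (fun i => sub_nonneg.mpr (hmax _)) i
    rw [e1, mul_zero] at e2
    have := hmax (x * a i)
    linarith
  have h2 : ∀ g : G, (∀ x, h x = h x₀ → h (x * g) = h x₀) ∧
      (∀ x, h x = h x₀ → h (x * g⁻¹) = h x₀) := by
    intro g
    have hmem : g ∈ Subgroup.closure (Set.range a) := by rw [hgen]; trivial
    refine Subgroup.closure_induction (p := fun g _ => (∀ x, h x = h x₀ → h (x * g) = h x₀) ∧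
      (∀ x, h x = h x₀ → h (x * g⁻¹) = h x₀)) ?_ ?_ ?_ ?_ hmem
    · rintro _ ⟨i, rfl⟩
      refine ⟨fun x hx => h1 x hx i, fun x hx => ?_⟩
      obtain ⟨j, hj⟩ := hsym i
      rw [← hj]
      exact h1 x hx j
    · simp
    · rintro u v _ _ ⟨hu, hu'⟩ ⟨hv, hv'⟩
      refine ⟨fun x hx => ?_, fun x hx => ?_⟩
      · rw [← mul_assoc]; exact hv _ (hu _ hx)
      · rw [mul_inv_rev, ← mul_assoc]; exact hu' _ (hv' _ hx)
    · rintro u _ ⟨hu, hu'⟩
      exact ⟨hu', by simpa using hu⟩
  intro x
  have := (h2 (x₀⁻¹ * x)).1 x₀ rfl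
  rwa [mul_inv_cancel_left] at this

/-- The algebraic part: a vector fixed by a finite-index subgroup is a homomorphism there. -/
theorem hom_of_fixed (hgen : Subgroup.closure (Set.range a) = ⊤)
    (hsym : ∀ i, ∃ j, a j = (a i)⁻¹) (h : HW a ω) (hh : h ≠ 0) (G1 : Subgroup G)
    (hfi : G1.FiniteIndex) (htriv : ∀ g ∈ G1, tr ω g h = h) :
    ∃ f : G1 →* Multiplicative ℝ, f ≠ 1 := by
  classical
  have hadd : ∀ g ∈ G1, ∀ x, fn h (g * x) = fn h g + fn h x := by
    intro g hgm x
    have h2 := htriv g⁻¹ (G1.inv_mem hgm)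
    have h3 := congrArg (fun k => fn k x) h2
    simp only [fn_tr, inv_inv] at h3
    linarith
  let f : G1 →* Multiplicative ℝ :=
    { toFun := fun g => Multiplicative.ofAdd (fn h (g : G))
      map_one' := by simp [fn_one]
      map_mul' := fun g k => by
        rw [← ofAdd_add, Subgroup.coe_mul, hadd g g.2] }
  refine ⟨f, fun hf => hh ?_⟩
  have hzero : ∀ g ∈ G1, fn h g = 0 := by
    intro g hgm
    have := DFunLike.congr_fun hf (⟨g, hgm⟩ : G1)
    exact this
  -- `h` is invariant under left multiplication by `G1`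
  have hinv : ∀ g ∈ G1, ∀ x, fn h (g * x) = fn h x := by
    intro g hgm x
    rw [hadd g hgm, hzero g hgm, zero_add]
  have hfin : Finite (G ⧸ G1) := inferInstance
  let φ : G ⧸ G1 → ℝ := fun q => Quotient.liftOn' q (fun y => fn h y⁻¹) (by
    intro y z hyz
    have h1 : y⁻¹ * z ∈ G1 := QuotientGroup.leftRel_apply.mp hyz
    have h2 := hinv (y⁻¹ * z) h1 z⁻¹
    rwa [mul_inv_cancel_right] at h2)
  have hφ : ∀ y : G, φ (y : G ⧸ G1) = fn h y⁻¹ := fun y => rfl
  obtain ⟨q₀, hq₀⟩ := Finite.exists_max φ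
  obtain ⟨y₀, rfl⟩ := QuotientGroup.mk_surjective q₀
  have hmax : ∀ x, fn h x ≤ fn h y₀⁻¹ := by
    intro x
    have := hq₀ ((x⁻¹ : G) : G ⧸ G1)
    rwa [hφ, hφ, inv_inv] at this
  have hconst := const_of_finite_range hgen hsym (fn_harm h) y₀⁻¹ hmax
  apply fn_ext
  intro x
  rw [hconst x, ← hconst 1, fn_one, fn_zero]

/-- The analytic part, in abstract form. -/
theorem rep_of_core {V : Type u} [AddCommGroup V] [Module ℝ V] (c : InnerProductSpace.Core ℝ V)
    (hfd : Module.Finite ℝ V) (T : G → V ≃ₗ[ℝ] V) (T1 : ∀ x, T 1 x = x)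
    (Tmul : ∀ g h x, T (g * h) x = T g (T h x))
    (Tinner : ∀ g x y, c.inner (T g x) (T g y) = c.inner x y) :
    ∃ (W : Type u) (_ : NormedAddCommGroup W) (_ : InnerProductSpace ℝ W)
      (_ : FiniteDimensional ℝ W) (ρ : G →* (W ≃ₗᵢ[ℝ] W)) (e : W ≃ V),
      ∀ g x, e (ρ g x) = T g (e x) := by
  letI i1 : NormedAddCommGroup V := c.toNormedAddCommGroup
  letI i2 : InnerProductSpace ℝ V := InnerProductSpace.ofCore c.toCore
  let ρ : G →* (V ≃ₗᵢ[ℝ] V) :=
    { toFun := fun g => (T g).isometryOfInner (fun x y => Tinner g x y)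
      map_one' := LinearIsometryEquiv.ext fun x => T1 x
      map_mul' := fun g h => LinearIsometryEquiv.ext fun x => Tmul g h x }
  exact ⟨V, i1, i2, hfd, ρ, Equiv.refl V, fun g x => rfl⟩

theorem rep_of_good {K : ℝ} (hg : Good a ω K) (hsym : ∀ i, ∃ j, a j = (a i)⁻¹)
    (hne : ∃ h : HW a ω, h ≠ 0) :
    ∃ (W : Type u) (_ : NormedAddCommGroup W) (_ : InnerProductSpace ℝ W)
      (_ : FiniteDimensional ℝ W) (ρ : G →* (W ≃ₗᵢ[ℝ] W)),
      ∀ G1 : Subgroup G, G1.FiniteIndex → (∀ g ∈ G1, ρ g = 1) →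
        ∃ f : G1 →* Multiplicative ℝ, f ≠ 1 := by
  obtain ⟨W, i1, i2, i3, ρ, e, he⟩ := rep_of_core (G := G) (V := HW a ω) (core hg) (finite_dim hg)
    (fun g => trEquiv ω g) (fun x => tr_one x) (fun g h x => tr_mul g h x)
    (fun g x y => B_inv hg g x y)
  refine ⟨W, i1, i2, i3, ρ, fun G1 hfi htriv => ?_⟩
  obtain ⟨h, hh⟩ := hne
  refine hom_of_fixed hg.gen hsym h hh G1 hfi fun g hgm => ?_
  have h1 := he g (e.symm h)
  rw [htriv g hgm, Equiv.apply_symm_apply] at h1
  have h2 : e ((1 : W ≃ₗᵢ[ℝ] W) (e.symm h)) = h := by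
    rw [show (1 : W ≃ₗᵢ[ℝ] W) (e.symm h) = e.symm h from rfl, Equiv.apply_symm_apply]
  rw [h2] at h1
  exact h1.symm

end Crest.Agent.R182.Gromov.Form
end

-- ▼ part R182/GromovMain

set_option autoImplicit false

namespace Crest.Agent.R182.GromovMain

open Crest.GroupTheory Crest.Agent.R182.Gromov Crest.Agent.R182.GromovFinal

universe u

open Crest.Agent.R182.Gromov.Walk Crest.Agent.R182.Gromov.Exist
  Crest.Agent.R182.Gromov.Form in
theorem harmonicRep : HarmonicRep.{u} := by
  intro G _ _ hfg l C d hl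
  classical
  obtain ⟨S, hS, hSf⟩ := Group.fg_iff.1 hfg
  let T : Finset G := hSf.toFinset ∪ (hSf.toFinset.image fun x => x⁻¹) ∪ {1}
  have h1T : (1 : G) ∈ T := by simp [T]
  have hinvT : ∀ x ∈ T, x⁻¹ ∈ T := by
    intro x hx
    simp only [T, Finset.mem_union, Finset.mem_image, Finset.mem_singleton] at hx ⊢
    rcases hx with (hx | ⟨y, hy, rfl⟩) | rfl
    · exact Or.inl (Or.inr ⟨x, hx, rfl⟩)
    · left; left; rwa [inv_inv]
    · right; simp
  have hST : S ⊆ (T : Set G) := by
    intro x hx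
    simp only [T, Finset.coe_union, Finset.coe_image, Finset.coe_singleton, Set.Finite.coe_toFinset]
    exact Or.inl (Or.inl hx)
  let a : T → G := fun x => x
  have : Nonempty T := ⟨⟨1, h1T⟩⟩
  have hgen : Subgroup.closure (Set.range a) = ⊤ := by
    have : Set.range a = (T : Set G) := Subtype.range_coe
    rw [this, eq_top_iff, ← hS]
    exact Subgroup.closure_mono hST
  let inv : T ≃ T :=
    { toFun := fun x => ⟨(x : G)⁻¹, hinvT x x.2⟩
      invFun := fun x => ⟨(x : G)⁻¹, hinvT x x.2⟩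
      left_inv := fun x => Subtype.ext (inv_inv _)
      right_inv := fun x => Subtype.ext (inv_inv _) }
  have hsymF : SymFam a := by
    intro F
    unfold avg
    congr 1
    exact Equiv.sum_comp inv (fun i => F (a i))
  have hsym : ∀ i, ∃ j, a j = (a i)⁻¹ := fun i => ⟨inv i, rfl⟩
  obtain ⟨K, hK, hgood⟩ := Ent.exists_good hl a (i₀ := ⟨1, h1T⟩) rfl
  have hfreq : ∃ᶠ n in Filter.atTop, ∀ i, D a n (a i) ≤ K / (n + 1) := by
    rw [Filter.frequently_atTop]
    exact hgood
  have hne : (Filter.atTop ⊓ Filter.principal {n | ∀ i, D a n (a i) ≤ K / (n + 1)}).NeBot :=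
    Filter.frequently_iff_neBot.1 hfreq
  obtain ⟨ω, hω⟩ := Ultrafilter.exists_le
    (Filter.atTop ⊓ Filter.principal {n | ∀ i, D a n (a i) ≤ K / (n + 1)})
  have hg : Good a ω K :=
    { le := hω.trans inf_le_left
      bd := (hω.trans inf_le_right) (Filter.mem_principal_self _)
      gen := hgen
      pos := hK }
  obtain ⟨h, hh1, hh2, hh3, x, hx⟩ := exists_harm hsymF hgen hl
  refine rep_of_good hg hsym ⟨mk ω h hh1 ⟨1, hh2⟩ hh3, fun h0 => hx ?_⟩
  have h4 := congrArg (fun k => fn k x) h0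
  simpa [fn_mk, fn_zero] using h4

theorem compactPart : CompactPart.{u} := by
  intro G _ _ l C d hl W _ _ _ ρ
  exact Gromov.Compact.compact_part hl ρ

/-- **Gromov's theorem** (polycyclic version), for groups with a polynomial length function. -/
theorem gromov {G : Type u} [Group G] (hfg : Group.FG G) {l : G → ℕ} {C d : ℕ}
    (hl : PolyLen l C d) : IsVirtuallyPolycyclic G :=
  GromovFinal.gromov harmonicRep compactPart d G hfg l C hl

/-- **Gromov's theorem** in terms of word balls. -/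
theorem gromov_wordLength {G : Type u} [Group G] (S : Finset G)
    (hS : Subgroup.closure (S : Set G) = ⊤) (C d : ℕ)
    (h : ∀ n : ℕ, 1 ≤ n → {g : G | wordLength (S : Set G) g ≤ n}.ncard ≤ C * n ^ d) :
    IsVirtuallyPolycyclic G :=
  GromovFinal.gromov_wordLength harmonicRep compactPart S hS C d h

end Crest.Agent.R182.GromovMain
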