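/-
R182, module GROMOV, block GP: closure properties of (virtually) polycyclic groups.
-/
import Mathlib
import Crest.Prelude.Def_Polycyclic

set_option autoImplicit false

namespace Crest.Agent.R182.GromovPoly

open Crest.GroupTheory

/-- inductive version of "polycyclic subgroup". -/
inductive PC {G : Type*} [Group G] : Subgroup G → Prop
  | bot : PC ⊥
  | step (K L : Subgroup G) (hK : PC K) (hle : K ≤ L)
      (hn : ∀ h ∈ L, ∀ x ∈ K, h * x * h⁻¹ ∈ K) (g : G) (hg : g ∈ L)
      (hL : L = K ⊔ Subgroup.zpowers g) : PC L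

section basics

variable {G : Type*} [Group G]

theorem series_of_pc {L : Subgroup G} (h : PC L) :
    ∃ (n : ℕ) (H : Fin (n + 1) → Subgroup G), H 0 = ⊥ ∧ H (Fin.last n) = L ∧
      ∀ i : Fin n, H i.castSucc ≤ H i.succ ∧
        (∀ h ∈ H i.succ, ∀ x ∈ H i.castSucc, h * x * h⁻¹ ∈ H i.castSucc) ∧
        ∃ g ∈ H i.succ, H i.succ = H i.castSucc ⊔ Subgroup.zpowers g := by
  induction h with
  | bot => exact ⟨0, fun _ => ⊥, rfl, rfl, fun i => i.elim0⟩
  | step K L hK hle hn g hg hL ih =>
    obtain ⟨n, H, h0, hl, hs⟩ := ih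
    refine ⟨n + 1, Fin.snoc (α := fun _ => Subgroup G) H L, ?_, ?_, ?_⟩
    · have : (0 : Fin (n + 1 + 1)) = Fin.castSucc 0 := rfl
      rw [this, Fin.snoc_castSucc, h0]
    · rw [Fin.snoc_last]
    · intro i
      refine Fin.lastCases ?_ (fun j => ?_) i
      · rw [Fin.snoc_castSucc, Fin.succ_last, Fin.snoc_last, hl]
        exact ⟨hle, hn, g, hg, hL⟩
      · rw [Fin.snoc_castSucc, Fin.succ_castSucc, Fin.snoc_castSucc]
        exact hs j

theorem pc_of_series {n : ℕ} {H : Fin (n + 1) → Subgroup G} (h0 : H 0 = ⊥)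
    (hs : ∀ i : Fin n, H i.castSucc ≤ H i.succ ∧
        (∀ h ∈ H i.succ, ∀ x ∈ H i.castSucc, h * x * h⁻¹ ∈ H i.castSucc) ∧
        ∃ g ∈ H i.succ, H i.succ = H i.castSucc ⊔ Subgroup.zpowers g) (i : Fin (n + 1)) :
    PC (H i) := by
  induction i using Fin.induction with
  | zero => rw [h0]; exact PC.bot
  | succ i ih =>
    obtain ⟨h1, h2, g, hg, h3⟩ := hs i
    exact PC.step _ _ ih h1 h2 g hg h3

theorem isPolycyclic_iff_pc_top : IsPolycyclic G ↔ PC (⊤ : Subgroup G) := by
  constructor
  · rintro ⟨n, H, h0, hl, hs⟩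
    rw [← hl]
    exact pc_of_series h0 hs _
  · intro h
    exact series_of_pc h

theorem mem_sup_zpowers {K : Subgroup G} {g : G}
    (h : ∀ x, x ∈ K ↔ g * x * g⁻¹ ∈ K) {x : G} :
    x ∈ K ⊔ Subgroup.zpowers g ↔ ∃ k ∈ K, ∃ n : ℤ, x = k * g ^ n := by
  have hg : Subgroup.zpowers g ≤ Subgroup.normalizer (K : Set G) := by
    rw [Subgroup.zpowers_le, Subgroup.mem_normalizer_iff]
    exact h
  rw [← SetLike.mem_coe, Subgroup.coe_mul_of_right_le_normalizer_left _ _ hg, Set.mem_mul]
  constructor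
  · rintro ⟨k, hk, y, hy, rfl⟩
    obtain ⟨n, rfl⟩ := Subgroup.mem_zpowers_iff.1 hy
    exact ⟨k, hk, n, rfl⟩
  · rintro ⟨k, hk, n, rfl⟩
    exact ⟨k, hk, g ^ n, Subgroup.mem_zpowers_iff.2 ⟨n, rfl⟩, rfl⟩

theorem conj_iff_of_conj {K L : Subgroup G} (hn : ∀ h ∈ L, ∀ x ∈ K, h * x * h⁻¹ ∈ K) {g : G}
    (hg : g ∈ L) (x : G) : x ∈ K ↔ g * x * g⁻¹ ∈ K := by
  constructor
  · exact hn g hg x
  · intro hx
    have := hn g⁻¹ (L.inv_mem hg) _ hx
    simpa [mul_assoc] using this

theorem PC.map {G' : Type*} [Group G'] (f : G →* G') {L : Subgroup G} (h : PC L) :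
    PC (L.map f) := by
  induction h with
  | bot => rw [Subgroup.map_bot]; exact PC.bot
  | step K L hK hle hn g hg hL ih =>
    refine PC.step _ _ ih (Subgroup.map_mono hle) ?_ (f g) (Subgroup.mem_map_of_mem f hg) ?_
    · rintro _ ⟨h, hh, rfl⟩ _ ⟨x, hx, rfl⟩
      exact ⟨h * x * h⁻¹, hn h hh x hx, by simp⟩
    · rw [hL, Subgroup.map_sup, MonoidHom.map_zpowers]

theorem PC.inf {L : Subgroup G} (h : PC L) (M : Subgroup G) : PC (L ⊓ M) := by
  induction h with
  | bot => rw [bot_inf_eq]; exact PC.bot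
  | step K L hK hle hn g hg hL ih =>
    have hconj := conj_iff_of_conj hn hg
    -- the subgroup of exponents
    let A : AddSubgroup ℤ :=
      { carrier := {n | ∃ x ∈ M, ∃ k ∈ K, x = k * g ^ n}
        zero_mem' := ⟨1, M.one_mem, 1, K.one_mem, by simp⟩
        add_mem' := by
          rintro a b ⟨x, hx, k, hk, hxk⟩ ⟨y, hy, l, hl, hyl⟩
          refine ⟨x * y, M.mul_mem hx hy, k * (g ^ a * l * (g ^ a)⁻¹), ?_, ?_⟩
          · exact K.mul_mem hk (hn _ (L.zpow_mem hg a) l hl)
          · rw [hxk, hyl, zpow_add]; group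
        neg_mem' := by
          rintro a ⟨x, hx, k, hk, hxk⟩
          refine ⟨x⁻¹, M.inv_mem hx, g ^ (-a) * k⁻¹ * (g ^ (-a))⁻¹, ?_, ?_⟩
          · exact hn _ (L.zpow_mem hg (-a)) _ (K.inv_mem hk)
          · rw [hxk, mul_inv_rev]; group }
    obtain ⟨m, hm⟩ := Int.subgroup_cyclic A
    have hmA : m ∈ A := by
      rw [hm]; exact AddSubgroup.mem_closure_singleton.2 ⟨1, by simp⟩
    obtain ⟨y, hyM, k0, hk0, hy⟩ := hmA
    have hyL : y ∈ L := by
      rw [hy]; exact L.mul_mem (hle hk0) (L.zpow_mem hg m)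
    refine PC.step _ _ ih (inf_le_inf_right M hle) ?_ y ⟨hyL, hyM⟩ ?_
    · rintro h ⟨hh, hhM⟩ x ⟨hx, hxM⟩
      exact ⟨hn h hh x hx, M.mul_mem (M.mul_mem hhM hxM) (M.inv_mem hhM)⟩
    · apply le_antisymm
      · rintro x ⟨hxL, hxM⟩
        rw [hL] at hxL
        obtain ⟨k, hk, n, hxn⟩ := (mem_sup_zpowers hconj).1 hxL
        have hnA : n ∈ A := ⟨x, hxM, k, hk, hxn⟩
        rw [hm] at hnA
        obtain ⟨q, hq⟩ := AddSubgroup.mem_closure_singleton.1 hnA
        have hxy : x * (y ^ q)⁻¹ ∈ K ⊓ M := by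
          refine ⟨?_, M.mul_mem hxM (M.inv_mem (M.zpow_mem hyM q))⟩
          -- in the quotient: x = g^n, y^q = g^(mq)
          have key : ∀ r : ℤ, ∃ k' ∈ K, y ^ r = k' * g ^ (r * m) := by
            have hpos : ∀ r : ℕ, ∃ k' ∈ K, y ^ r = k' * g ^ ((r : ℤ) * m) := by
              intro r
              induction r with
              | zero => exact ⟨1, K.one_mem, by simp⟩
              | succ r ihr =>
                obtain ⟨k', hk', hr⟩ := ihr
                refine ⟨k' * (g ^ ((r : ℤ) * m) * k0 * (g ^ ((r : ℤ) * m))⁻¹),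
                  K.mul_mem hk' (hn _ (L.zpow_mem hg _) k0 hk0), ?_⟩
                rw [pow_succ, hr, hy]
                have : ((r + 1 : ℕ) : ℤ) * m = (r : ℤ) * m + m := by push_cast; ring
                rw [this, zpow_add]
                group
            intro r
            obtain ⟨r, rfl | rfl⟩ := r.eq_nat_or_neg
            · obtain ⟨k', hk', hr⟩ := hpos r
              exact ⟨k', hk', by rw [zpow_natCast, hr]⟩
            · obtain ⟨k', hk', hr⟩ := hpos r
              refine ⟨g ^ (-(r : ℤ) * m) * k'⁻¹ * (g ^ (-(r : ℤ) * m))⁻¹,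
                hn _ (L.zpow_mem hg _) _ (K.inv_mem hk'), ?_⟩
              rw [zpow_neg, zpow_natCast, hr, mul_inv_rev, neg_mul, zpow_neg]
              group
          obtain ⟨k', hk', hyq⟩ := key q
          have : x * (y ^ q)⁻¹ = k * (k')⁻¹ := by
            rw [hxn, hyq, ← hq, smul_eq_mul, mul_inv_rev]
            group
          rw [this]
          exact K.mul_mem hk (K.inv_mem hk')
        have : x = (x * (y ^ q)⁻¹) * y ^ q := by group
        rw [this]
        exact Subgroup.mul_mem_sup hxy (Subgroup.mem_zpowers_iff.2 ⟨q, rfl⟩)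
      · refine sup_le (inf_le_inf_right M hle) ?_
        rw [Subgroup.zpowers_le]
        exact ⟨hyL, hyM⟩

theorem PC.comap_of_le_range {G' : Type*} [Group G'] (f : G' →* G) (hf : Function.Injective f)
    {L : Subgroup G} (h : PC L) (hr : L ≤ f.range) : PC (L.comap f) := by
  induction h with
  | bot =>
    rw [show (⊥ : Subgroup G).comap f = ⊥ from (MonoidHom.ker_eq_bot_iff f).2 hf]
    exact PC.bot
  | step K L hK hle hn g hg hL ih =>
    obtain ⟨g', rfl⟩ := hr hg
    refine PC.step _ _ (ih (hle.trans hr)) (Subgroup.comap_mono hle) ?_ g' hg ?_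
    · intro h hh x hx
      rw [Subgroup.mem_comap] at hh hx ⊢
      simpa using hn _ hh _ hx
    · apply Subgroup.map_injective hf
      rw [Subgroup.map_sup, MonoidHom.map_zpowers, Subgroup.map_comap_eq_self hr,
        Subgroup.map_comap_eq_self (hle.trans hr), hL]

theorem PC.comap {G' : Type*} [Group G'] (f : G' →* G) (hf : Function.Injective f)
    {L : Subgroup G} (h : PC L) : PC (L.comap f) := by
  have h1 := (h.inf f.range).comap_of_le_range f hf inf_le_right
  have : (L ⊓ f.range).comap f = L.comap f := by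
    ext x
    simp [Subgroup.mem_comap]
  rwa [this] at h1

theorem isPolycyclic_subgroup_iff {H : Subgroup G} : IsPolycyclic H ↔ PC H := by
  rw [isPolycyclic_iff_pc_top]
  constructor
  · intro h
    have := h.map H.subtype
    rwa [← MonoidHom.range_eq_map, Subgroup.range_subtype] at this
  · intro h
    have := h.comap H.subtype H.subtype_injective
    rwa [show H.comap H.subtype = ⊤ from Subgroup.subgroupOf_self H] at this

theorem IsPolycyclic.subgroup (h : IsPolycyclic G) (H : Subgroup G) : IsPolycyclic H := by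
  rw [isPolycyclic_subgroup_iff]
  rw [isPolycyclic_iff_pc_top] at h
  simpa using h.inf H



theorem isPolycyclic_of_subsingleton [Subsingleton G] : IsPolycyclic G := by
  rw [isPolycyclic_iff_pc_top]
  rw [Subsingleton.elim (⊤ : Subgroup G) ⊥]
  exact PC.bot

/-- A subgroup `K` polycyclic and normalised by `g`: then `K ⊔ ⟨g⟩` is polycyclic. -/
theorem PC.sup_zpowers {K : Subgroup G} (hK : PC K) (g : G)
    (h : ∀ x, x ∈ K ↔ g * x * g⁻¹ ∈ K) : PC (K ⊔ Subgroup.zpowers g) := by
  refine PC.step K _ hK le_sup_left ?_ g (Subgroup.mem_sup_right (Subgroup.mem_zpowers g)) rfl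
  have hg : g ∈ Subgroup.normalizer (K : Set G) := Subgroup.mem_normalizer_iff.2 h
  have hle : K ⊔ Subgroup.zpowers g ≤ Subgroup.normalizer (K : Set G) :=
    sup_le Subgroup.le_normalizer (by rw [Subgroup.zpowers_le]; exact hg)
  intro y hy x hx
  exact (Subgroup.mem_normalizer_iff.1 (hle hy) x).1 hx

end basics

section virt

variable {G : Type*} [Group G]


theorem isVirtuallyPolycyclic_of_finite [Finite G] : IsVirtuallyPolycyclic G :=
  ⟨⊥, inferInstance, isPolycyclic_of_subsingleton⟩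

theorem isVirtuallyPolycyclic_iff :
    IsVirtuallyPolycyclic G ↔ ∃ P : Subgroup G, P.FiniteIndex ∧ PC P := by
  constructor
  · rintro ⟨P, h1, h2⟩
    exact ⟨P, h1, isPolycyclic_subgroup_iff.1 h2⟩
  · rintro ⟨P, h1, h2⟩
    exact ⟨P, h1, isPolycyclic_subgroup_iff.2 h2⟩

/-- finite index overgroups of virtually polycyclic groups are virtually polycyclic. -/
theorem isVirtuallyPolycyclic_of_finiteIndex (H : Subgroup G) (hH : H.FiniteIndex)
    (h : IsVirtuallyPolycyclic H) : IsVirtuallyPolycyclic G := by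
  rw [isVirtuallyPolycyclic_iff] at h ⊢
  obtain ⟨P, hP, hPC⟩ := h
  refine ⟨P.map H.subtype, ?_, hPC.map _⟩
  rw [Subgroup.finiteIndex_iff]
  have h1 := Subgroup.index_map_subtype (H := H) P
  rw [h1]
  exact Nat.mul_ne_zero hP.index_ne_zero hH.index_ne_zero

theorem IsVirtuallyPolycyclic.subgroup (h : IsVirtuallyPolycyclic G) (H : Subgroup G) :
    IsVirtuallyPolycyclic H := by
  rw [isVirtuallyPolycyclic_iff] at h ⊢
  obtain ⟨P, hP, hPC⟩ := h
  exact ⟨P.subgroupOf H, inferInstance, hPC.comap H.subtype H.subtype_injective⟩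



end virt

section fin

/-- homomorphisms from a finitely generated group to a finite group form a finite type. -/
theorem finite_monoidHom {K Q : Type*} [Group K] [Group Q] [hK : Group.FG K] [Finite Q] :
    Finite (K →* Q) := by
  obtain ⟨S, hS, hSf⟩ := Group.fg_iff.1 hK
  have : Finite S := hSf
  have : Function.Injective (fun (f : K →* Q) (s : S) => f s) := by
    intro f g hfg
    refine MonoidHom.eq_of_eqOn_dense hS ?_
    intro x hx
    exact congrFun hfg ⟨x, hx⟩
  exact Finite.of_injective _ this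

/-- in a finitely generated group every finite-index subgroup contains a characteristic finite
index subgroup. -/
theorem exists_characteristic {K : Type*} [Group K] [Group.FG K] (P : Subgroup K)
    [P.FiniteIndex] : ∃ C : Subgroup K, C.Characteristic ∧ C.FiniteIndex ∧ C ≤ P := by
  classical
  have : Finite (K →* Equiv.Perm (K ⧸ P)) := finite_monoidHom
  refine ⟨⨅ f : K →* Equiv.Perm (K ⧸ P), f.ker, ?_, ?_, ?_⟩
  · rw [Subgroup.characteristic_iff_le_comap]
    intro φ x hx
    rw [Subgroup.mem_comap, Subgroup.mem_iInf]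
    intro f
    rw [Subgroup.mem_iInf] at hx
    exact hx (f.comp φ.toMonoidHom)
  · exact Subgroup.finiteIndex_iInf fun f => inferInstance
  · refine (iInf_le _ (MulAction.toPermHom K (K ⧸ P))).trans ?_
    rw [← Subgroup.normalCore_eq_ker]
    exact Subgroup.normalCore_le P

end fin

section extZ

/-- (finitely generated virtually polycyclic)-by-`ℤ` is virtually polycyclic. -/
theorem isVirtuallyPolycyclic_of_ker {G : Type*} [Group G] (φ : G →* Multiplicative ℤ)
    (hφ : Function.Surjective φ) (hfg : Group.FG φ.ker)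
    (h : IsVirtuallyPolycyclic φ.ker) : IsVirtuallyPolycyclic G := by
  rw [isVirtuallyPolycyclic_iff] at h ⊢
  obtain ⟨P, hP, hPC⟩ := h
  obtain ⟨C, hC, hCf, hCP⟩ := exists_characteristic P
  have hCPC : PC C := by
    have := hPC.inf C
    rwa [inf_eq_right.2 hCP] at this
  obtain ⟨t, ht⟩ := hφ (Multiplicative.ofAdd 1)
  set C' : Subgroup G := C.map φ.ker.subtype with hC'
  have hnorm : C'.Normal := by
    rw [hC']
    exact inferInstance
  have hL : PC (C' ⊔ Subgroup.zpowers t) := by
    refine (hCPC.map φ.ker.subtype).sup_zpowers t ?_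
    intro x
    constructor
    · intro hx; exact hnorm.conj_mem x hx t
    · intro hx
      have := hnorm.conj_mem _ hx t⁻¹
      rwa [show t⁻¹ * (t * x * t⁻¹) * t⁻¹⁻¹ = x by group] at this
  refine ⟨C' ⊔ Subgroup.zpowers t, ?_, hL⟩
  have hsurj : Function.Surjective
      (fun q : φ.ker ⧸ C => (Quotient.liftOn' q
        (fun k => ((k : G) : G ⧸ (C' ⊔ Subgroup.zpowers t))) (by
          intro a b hab
          rw [QuotientGroup.leftRel_apply] at hab
          refine QuotientGroup.eq.2 (Subgroup.mem_sup_left ?_)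
          exact ⟨a⁻¹ * b, hab, by simp⟩))) := by
    intro q
    induction q using QuotientGroup.induction_on with
    | H g =>
      have hk : g * (t ^ (Multiplicative.toAdd (φ g)))⁻¹ ∈ φ.ker := by
        rw [MonoidHom.mem_ker, map_mul, map_inv, map_zpow, ht]
        rw [← ofAdd_zsmul]
        simp
      refine ⟨QuotientGroup.mk ⟨_, hk⟩, ?_⟩
      show ((g * (t ^ (Multiplicative.toAdd (φ g)))⁻¹ : G) :
        G ⧸ (C' ⊔ Subgroup.zpowers t)) = (g : G ⧸ (C' ⊔ Subgroup.zpowers t))
      refine QuotientGroup.eq.2 (Subgroup.mem_sup_right ?_)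
      rw [Subgroup.mem_zpowers_iff]
      exact ⟨Multiplicative.toAdd (φ g), by group⟩
  have : Finite (φ.ker ⧸ C) := Subgroup.finite_quotient_of_finiteIndex
  have := Finite.of_surjective _ hsurj
  exact Subgroup.finiteIndex_of_finite_quotient

end extZ

end Crest.Agent.R182.GromovPoly
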