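/-
R182, module GROMOV, block GM: Milnor's lemma.  The kernel of a homomorphism onto `ℤ` of a finitely
generated group of polynomial growth of degree `d + 1` is finitely generated and has growth of
degree `d`.
-/
import Mathlib
import Crest.Agent.R182.GromovDefs
import Crest.Agent.R182.GromovPoly

set_option autoImplicit false

namespace Crest.Agent.R182.GromovMilnor

open Crest.Agent.R182.Gromov

variable {G : Type*} [Group G]

theorem exists_lt_two_pow (C b D : ℕ) : ∃ m : ℕ, C * (m * b + 1) ^ D < 2 ^ m := by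
  have h1 := tendsto_pow_const_div_const_pow_of_one_lt D (r := (2 : ℝ)) (by norm_num)
  have hpos : (0 : ℝ) < 1 / (2 * ((C : ℝ) * (b + 1) ^ D + 1)) := by positivity
  have h2 := (h1.eventually (gt_mem_nhds hpos)).and (Filter.eventually_ge_atTop 1)
  obtain ⟨n, hn, hn1⟩ := h2.exists
  refine ⟨n - 1, ?_⟩
  obtain ⟨m, rfl⟩ : ∃ m, n = m + 1 := ⟨n - 1, by omega⟩
  simp only [Nat.add_sub_cancel]
  rw [div_lt_div_iff₀ (by positivity) (by positivity)] at hn
  have h3 : ((C : ℝ) * (m * b + 1) ^ D) < 2 ^ m := by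
    have h4 : ((m : ℝ) * b + 1) ≤ (m + 1) * (b + 1) := by
      have : (0 : ℝ) ≤ m := Nat.cast_nonneg m
      have : (0 : ℝ) ≤ b := Nat.cast_nonneg b
      nlinarith
    have h5 : ((m : ℝ) * b + 1) ^ D ≤ ((m : ℝ) + 1) ^ D * (b + 1) ^ D := by
      rw [← mul_pow]
      exact pow_le_pow_left₀ (by positivity) h4 D
    have h6 : ((m + 1 : ℕ) : ℝ) ^ D * (2 * (C * (b + 1) ^ D + 1)) < 1 * 2 ^ (m + 1) := hn
    push_cast at h6
    have h7 : (0 : ℝ) < ((m : ℝ) + 1) ^ D := by positivity
    have h8 : (C : ℝ) * (m * b + 1) ^ D ≤ C * (((m : ℝ) + 1) ^ D * (b + 1) ^ D) :=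
      mul_le_mul_of_nonneg_left h5 (Nat.cast_nonneg C)
    rw [pow_succ] at h6
    nlinarith
  exact_mod_cast h3

/-- conjugates of `e` by powers of `t`. -/
def cj (t e : G) (j : ℕ) : G := t ^ j * e * (t ^ j)⁻¹

/-- the products of distinct conjugates, in increasing order. -/
noncomputable def W (t e : G) : ℕ → Set G
  | 0 => {1}
  | m + 1 => W t e m ∪ (fun w => w * cj t e m) '' W t e m

theorem W_subset (t e : G) (m : ℕ) :
    W t e m ⊆ (Subgroup.closure (cj t e '' Set.Iio m) : Subgroup G) := by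
  induction m with
  | zero =>
    intro x hx
    rw [W, Set.mem_singleton_iff] at hx
    rw [hx]; exact Subgroup.one_mem _
  | succ m ih =>
    have hmono : (Subgroup.closure (cj t e '' Set.Iio m) : Subgroup G) ≤
        Subgroup.closure (cj t e '' Set.Iio (m + 1)) :=
      Subgroup.closure_mono (Set.image_mono (Set.Iio_subset_Iio (by omega)))
    rintro x (hx | ⟨w, hw, rfl⟩)
    · exact hmono (ih hx)
    · exact Subgroup.mul_mem _ (hmono (ih hw))
        (Subgroup.subset_closure ⟨m, by simp, rfl⟩)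

theorem W_finite (t e : G) (m : ℕ) : (W t e m).Finite := by
  induction m with
  | zero => exact Set.finite_singleton 1
  | succ m ih => exact ih.union (ih.image _)

theorem W_card (t e : G)
    (h : ∀ j, cj t e j ∉ (Subgroup.closure (cj t e '' Set.Iio j) : Subgroup G)) (m : ℕ) :
    (W t e m).ncard = 2 ^ m := by
  induction m with
  | zero => simp [W]
  | succ m ih =>
    rw [W, Set.ncard_union_eq ?_ (W_finite t e m) ((W_finite t e m).image _),
      Set.ncard_image_of_injective _ (mul_left_injective _), ih, pow_succ]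
    · ring
    · rw [Set.disjoint_left]
      rintro x hx ⟨w, hw, rfl⟩
      apply h m
      have h1 := W_subset t e m hx
      have h2 := W_subset t e m hw
      have h3 := Subgroup.mul_mem _ (Subgroup.inv_mem _ h2) h1
      simpa using h3

theorem W_len {l : G → ℕ} {C d : ℕ} (hl : PolyLen l C d) (t e : G) (m : ℕ) :
    ∀ w ∈ W t e m, l (w * t ^ m) ≤ m * (l e + l t) := by
  induction m with
  | zero =>
    intro w hw
    rw [W, Set.mem_singleton_iff] at hw
    simp [hw, hl.one]
  | succ m ih =>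
    rintro w (hw | ⟨v, hv, rfl⟩)
    · have h1 := ih w hw
      have h2 : w * t ^ (m + 1) = (w * t ^ m) * t := by rw [pow_succ, mul_assoc]
      rw [h2]
      refine (hl.mul _ _).trans ?_
      have : (m + 1) * (l e + l t) = m * (l e + l t) + (l e + l t) := by ring
      omega
    · have h1 := ih v hv
      have h2 : v * cj t e m * t ^ (m + 1) = (v * t ^ m) * (e * t) := by
        rw [cj, pow_succ]; group
      show l (v * cj t e m * t ^ (m + 1)) ≤ _
      rw [h2]
      refine (hl.mul _ _).trans ?_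
      have h3 := hl.mul e t
      have : (m + 1) * (l e + l t) = m * (l e + l t) + (l e + l t) := by ring
      omega

theorem exists_cj_mem {l : G → ℕ} {C d : ℕ} (hl : PolyLen l C d) (t e : G) :
    ∃ J, cj t e J ∈ (Subgroup.closure (cj t e '' Set.Iio J) : Subgroup G) := by
  by_contra h
  push Not at h
  obtain ⟨m, hm⟩ := exists_lt_two_pow C (l e + l t) d
  have h1 := W_card t e h m
  have h2 : (W t e m).ncard ≤ {g : G | l g ≤ m * (l e + l t)}.ncard := by
    refine Set.ncard_le_ncard_of_injOn (fun w => w * t ^ m) ?_ ?_ (hl.fin _)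
    · intro w hw
      exact W_len hl t e m w hw
    · intro a _ b _ hab
      exact mul_right_cancel hab
  have h3 := hl.card (m * (l e + l t))
  omega

theorem cj_add (t e : G) (i k : ℕ) : t ^ k * cj t e i * (t ^ k)⁻¹ = cj t e (i + k) := by
  rw [cj, cj, add_comm i k, pow_add]; group

theorem conj_mem_closure {S T : Set G} (g : G)
    (h : ∀ x ∈ S, g * x * g⁻¹ ∈ (Subgroup.closure T : Subgroup G)) {x : G}
    (hx : x ∈ (Subgroup.closure S : Subgroup G)) :
    g * x * g⁻¹ ∈ (Subgroup.closure T : Subgroup G) := by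
  have h1 : (Subgroup.closure S : Subgroup G) ≤
      (Subgroup.closure T : Subgroup G).comap (MulAut.conj g).toMonoidHom := by
    rw [Subgroup.closure_le]
    intro y hy
    exact h y hy
  exact h1 hx

theorem cj_mem_of_mem (t e : G) {J : ℕ}
    (hJ : cj t e J ∈ (Subgroup.closure (cj t e '' Set.Iio J) : Subgroup G)) (j : ℕ) :
    cj t e j ∈ (Subgroup.closure (cj t e '' Set.Iio J) : Subgroup G) := by
  induction j using Nat.strong_induction_on with
  | _ j ih =>
    rcases lt_or_ge j J with hj | hj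
    · exact Subgroup.subset_closure ⟨j, hj, rfl⟩
    · have h1 : cj t e j = t ^ (j - J) * cj t e J * (t ^ (j - J))⁻¹ := by
        rw [cj_add]; congr 1; omega
      rw [h1]
      refine conj_mem_closure _ ?_ hJ
      rintro _ ⟨i, hi, rfl⟩
      rw [cj_add]
      apply ih
      have : i < J := hi
      omega

/-- two-sided version with integer exponents. -/
theorem exists_finite_conj {l : G → ℕ} {C d : ℕ} (hl : PolyLen l C d) (t e : G) :
    ∃ F : Set G, F.Finite ∧ (∀ x ∈ F, ∃ j : ℤ, x = t ^ j * e * (t ^ j)⁻¹) ∧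
      ∀ j : ℤ, t ^ j * e * (t ^ j)⁻¹ ∈ (Subgroup.closure F : Subgroup G) := by
  obtain ⟨J, hJ⟩ := exists_cj_mem hl t e
  obtain ⟨K, hK⟩ := exists_cj_mem hl t⁻¹ e
  refine ⟨cj t e '' Set.Iio J ∪ cj t⁻¹ e '' Set.Iio K,
    ((Set.finite_Iio J).image _).union ((Set.finite_Iio K).image _), ?_, ?_⟩
  · rintro x (⟨j, _, rfl⟩ | ⟨j, _, rfl⟩)
    · exact ⟨j, by rw [cj, zpow_natCast]⟩
    · exact ⟨-(j : ℤ), by rw [cj, zpow_neg, zpow_natCast, inv_pow]⟩
  · intro j
    obtain ⟨n, rfl | rfl⟩ := j.eq_nat_or_neg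
    · have h1 := cj_mem_of_mem t e hJ n
      rw [cj] at h1
      rw [zpow_natCast]
      exact Subgroup.closure_mono Set.subset_union_left h1
    · have h1 := cj_mem_of_mem t⁻¹ e hK n
      rw [cj, inv_pow] at h1
      rw [zpow_neg, zpow_natCast]
      exact Subgroup.closure_mono Set.subset_union_right h1

theorem ker_fg {l : G → ℕ} {C d : ℕ} (hl : PolyLen l C d) (hfg : Group.FG G)
    (φ : G →* Multiplicative ℤ) (hφ : Function.Surjective φ) : Group.FG φ.ker := by
  obtain ⟨S, hS, hSf⟩ := Group.fg_iff.1 hfg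
  obtain ⟨t, ht⟩ := hφ (Multiplicative.ofAdd 1)
  let e : G → G := fun s => s * (t ^ (Multiplicative.toAdd (φ s)))⁻¹
  have hφt : ∀ n : ℤ, φ (t ^ n) = Multiplicative.ofAdd n := by
    intro n
    rw [map_zpow, ht, ← ofAdd_zsmul]; simp
  have he : ∀ s, φ (e s) = 1 := by
    intro s
    rw [map_mul, map_inv, hφt]; simp
  choose F hF1 hF2 hF3 using fun s => exists_finite_conj hl t (e s)
  let T : Set G := ⋃ s ∈ S, F s
  have hTf : T.Finite := hSf.biUnion fun s _ => hF1 s
  let N : Subgroup G := Subgroup.closure T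
  have hcj : ∀ s ∈ S, ∀ j : ℤ, t ^ j * e s * (t ^ j)⁻¹ ∈ N := by
    intro s hs j
    exact Subgroup.closure_mono (Set.subset_biUnion_of_mem hs) (hF3 s j)
  have heN : ∀ s ∈ S, e s ∈ N := by
    intro s hs
    simpa using hcj s hs 0
  have hconj : ∀ k : ℤ, ∀ x ∈ N, t ^ k * x * (t ^ k)⁻¹ ∈ N := by
    intro k x hx
    refine conj_mem_closure _ ?_ hx
    intro y hy
    simp only [T, Set.mem_iUnion] at hy
    obtain ⟨s, hs, hy⟩ := hy
    obtain ⟨j, rfl⟩ := hF2 s y hy
    have : t ^ k * (t ^ j * e s * (t ^ j)⁻¹) * (t ^ k)⁻¹ = t ^ (k + j) * e s * (t ^ (k + j))⁻¹ := by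
      rw [zpow_add]; group
    rw [this]
    exact hcj s hs _
  have htiff : ∀ x, x ∈ N ↔ t * x * t⁻¹ ∈ N := by
    intro x
    constructor
    · intro hx; simpa using hconj 1 x hx
    · intro hx
      have := hconj (-1) _ hx
      rwa [show t ^ (-1 : ℤ) * (t * x * t⁻¹) * (t ^ (-1 : ℤ))⁻¹ = x by group] at this
  have htop : N ⊔ Subgroup.zpowers t = ⊤ := by
    rw [eq_top_iff, ← hS, Subgroup.closure_le]
    intro s hs
    have : s = e s * t ^ (Multiplicative.toAdd (φ s)) := by simp [e]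
    rw [this]
    exact Subgroup.mul_mem_sup (heN s hs) (Subgroup.mem_zpowers_iff.2 ⟨_, rfl⟩)
  have hNle : N ≤ φ.ker := by
    rw [Subgroup.closure_le]
    intro y hy
    simp only [T, Set.mem_iUnion] at hy
    obtain ⟨s, hs, hy⟩ := hy
    obtain ⟨j, rfl⟩ := hF2 s y hy
    show _ ∈ φ.ker
    rw [MonoidHom.mem_ker, map_mul, map_mul, map_inv, he]
    simp
  have hker : φ.ker = N := by
    apply le_antisymm _ hNle
    intro g hg
    have h1 : g ∈ N ⊔ Subgroup.zpowers t := by rw [htop]; trivial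
    obtain ⟨n, hn, j, rfl⟩ := (GromovPoly.mem_sup_zpowers htiff).1 h1
    have h2 : φ n = 1 := hNle hn
    rw [MonoidHom.mem_ker, map_mul, h2, one_mul, hφt] at hg
    have h3 : j = 0 := by
      have := congrArg Multiplicative.toAdd hg
      simpa using this
    rw [h3]; simpa using hn
  rw [Group.fg_iff_subgroup_fg, hker]
  exact ⟨hTf.toFinset, by rw [Set.Finite.coe_toFinset]⟩

theorem ker_polyLen {l : G → ℕ} {C d : ℕ} (hl : PolyLen l C (d + 1))
    (φ : G →* Multiplicative ℤ) (hφ : Function.Surjective φ) :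
    ∃ C' : ℕ, PolyLen (fun k : φ.ker => l (k : G)) C' d := by
  obtain ⟨t, ht⟩ := hφ (Multiplicative.ofAdd 1)
  have h0 := hl.subgroup φ.ker
  refine ⟨C * (l t + 1) ^ (d + 1), ⟨h0.one, h0.mul, h0.inv, h0.fin, ?_⟩⟩
  intro n
  have h1 : ({k : φ.ker | l (k : G) ≤ n} ×ˢ (Set.Iic n : Set ℕ)).ncard ≤
      {g : G | l g ≤ n + n * l t}.ncard := by
    refine Set.ncard_le_ncard_of_injOn (fun p => (p.1 : G) * t ^ p.2) ?_ ?_ (hl.fin _)
    · rintro ⟨k, j⟩ ⟨hk, hj⟩
      have hk' : l (k : G) ≤ n := hk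
      have hj' : j ≤ n := hj
      show l ((k : G) * t ^ j) ≤ n + n * l t
      have h2 := hl.mul (k : G) (t ^ j)
      have h3 := hl.pow t j
      have h4 : j * l t ≤ n * l t := Nat.mul_le_mul_right _ hj'
      omega
    · rintro ⟨k, j⟩ _ ⟨k', j'⟩ _ h
      have h2 : (k : G) * t ^ j = (k' : G) * t ^ j' := h
      have h3 := congrArg φ h2
      rw [map_mul, map_mul, map_pow, map_pow, ht, (k.2 : φ k = 1), (k'.2 : φ k' = 1), one_mul,
        one_mul] at h3
      have h4 : j = j' := by
        have := congrArg Multiplicative.toAdd h3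
        rw [toAdd_pow, toAdd_pow] at this
        simpa using this
      subst h4
      have h5 : (k : G) = k' := mul_right_cancel h2
      rw [Subtype.ext h5]
  rw [Set.ncard_prod] at h1
  have h2 : (Set.Iic n : Set ℕ).ncard = n + 1 := by
    rw [Set.ncard_eq_toFinset_card']
    simp
  rw [h2] at h1
  have h3 := h1.trans (hl.card _)
  have h4 : C * (n + n * l t + 1) ^ (d + 1) ≤ (C * (l t + 1) ^ (d + 1) * (n + 1) ^ d) * (n + 1) := by
    have h5 : n + n * l t + 1 ≤ (l t + 1) * (n + 1) := by nlinarith [Nat.zero_le (l t)]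
    calc C * (n + n * l t + 1) ^ (d + 1) ≤ C * ((l t + 1) * (n + 1)) ^ (d + 1) :=
          Nat.mul_le_mul_left _ (Nat.pow_le_pow_left h5 _)
      _ = (C * (l t + 1) ^ (d + 1) * (n + 1) ^ d) * (n + 1) := by
          rw [mul_pow]; ring
  exact Nat.le_of_mul_le_mul_right (h3.trans h4) (Nat.succ_pos n)

end Crest.Agent.R182.GromovMilnor
private theorem rz_ca186f576b : type_of% @_root_.Crest.Agent.R182.GromovMilnor.W.eq_def := @_root_.Crest.Agent.R182.GromovMilnor.W.eq_def -- L48
private theorem rz_ba328f48ed : type_of% @_root_.Crest.Agent.R182.GromovMilnor.W.eq_1 := @_root_.Crest.Agent.R182.GromovMilnor.W.eq_1 -- L48
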