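import Mathlib
import Crest.Prelude.Def_QuasiIsometry
import Crest.Prelude.Def_WordHyperbolic

/-!
# Row 182, module QI1: word metric toolbox (author: helper506)
-/

set_option autoImplicit false

namespace Crest.Agent.R182.QI

open Crest.GroupTheory Crest.Geometry

section Word

variable {G : Type*} [Group G] {S : Set G}

/-- `IsWord S l`: every letter of `l` lies in `S` or has its inverse in `S`. -/
def IsWord (S : Set G) (l : List G) : Prop := ∀ x ∈ l, x ∈ S ∨ x⁻¹ ∈ S

lemma isWord_nil : IsWord S ([] : List G) := by intro x hx; simp at hx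

lemma isWord_cons {a : G} {l : List G} : IsWord S (a :: l) ↔ (a ∈ S ∨ a⁻¹ ∈ S) ∧ IsWord S l := by
  simp [IsWord]

lemma IsWord.append {l l' : List G} (h : IsWord S l) (h' : IsWord S l') : IsWord S (l ++ l') := by
  intro x hx
  rcases List.mem_append.mp hx with hx | hx
  · exact h x hx
  · exact h' x hx

lemma IsWord.inv {l : List G} (h : IsWord S l) : IsWord S ((l.map (·⁻¹)).reverse) := by
  intro x hx
  rw [List.mem_reverse, List.mem_map] at hx
  obtain ⟨y, hy, rfl⟩ := hx
  rcases h y hy with h1 | h1
  · right; simpa using h1
  · left; simpa using h1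

lemma exists_word (hS : Subgroup.closure S = ⊤) (g : G) : ∃ l : List G, IsWord S l ∧ l.prod = g := by
  have hg : g ∈ Subgroup.closure S := by rw [hS]; trivial
  induction hg using Subgroup.closure_induction with
  | mem x hx => exact ⟨[x], by simp [IsWord, hx], by simp⟩
  | one => exact ⟨[], isWord_nil, by simp⟩
  | mul x y _ _ hx hy =>
    obtain ⟨l, hl, rfl⟩ := hx
    obtain ⟨l', hl', rfl⟩ := hy
    exact ⟨l ++ l', hl.append hl', by simp⟩
  | inv x _ hx =>
    obtain ⟨l, hl, rfl⟩ := hx
    exact ⟨(l.map (·⁻¹)).reverse, hl.inv, by rw [List.prod_inv_reverse]⟩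

lemma wordLength_le {l : List G} (hl : IsWord S l) : wordLength S l.prod ≤ l.length :=
  Nat.sInf_le ⟨l, rfl, hl, rfl⟩

lemma wordLength_le' {l : List G} {g : G} {n : ℕ} (hl : IsWord S l) (hg : l.prod = g)
    (hn : l.length ≤ n) : wordLength S g ≤ n := by
  subst hg; exact (wordLength_le hl).trans hn

lemma wordLength_spec (hS : Subgroup.closure S = ⊤) (g : G) :
    ∃ l : List G, l.length = wordLength S g ∧ IsWord S l ∧ l.prod = g := by
  have hne : {n : ℕ | ∃ l : List G, l.length = n ∧ (∀ x ∈ l, x ∈ S ∨ x⁻¹ ∈ S) ∧ l.prod = g}.Nonempty := by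
    obtain ⟨l, hl, hg⟩ := exists_word hS g
    exact ⟨l.length, l, rfl, hl, hg⟩
  exact Nat.sInf_mem hne

@[simp] lemma wordLength_one : wordLength S (1 : G) = 0 := by
  have := wordLength_le (S := S) (l := []) isWord_nil
  simpa using this

lemma wordLength_eq_zero_iff (hS : Subgroup.closure S = ⊤) {g : G} : wordLength S g = 0 ↔ g = 1 := by
  constructor
  · intro h
    obtain ⟨l, hl, -, hg⟩ := wordLength_spec hS g
    rw [h] at hl
    rw [List.length_eq_zero_iff] at hl
    subst hl; simpa using hg.symm
  · rintro rfl; simp

lemma wordLength_mul_le (hS : Subgroup.closure S = ⊤) (g h : G) :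
    wordLength S (g * h) ≤ wordLength S g + wordLength S h := by
  obtain ⟨l, hl, hw, rfl⟩ := wordLength_spec hS g
  obtain ⟨l', hl', hw', rfl⟩ := wordLength_spec hS h
  rw [← hl, ← hl']
  exact wordLength_le' (hw.append hw') (by simp) (by simp)

lemma wordLength_inv_le (hS : Subgroup.closure S = ⊤) (g : G) :
    wordLength S g⁻¹ ≤ wordLength S g := by
  obtain ⟨l, hl, hw, rfl⟩ := wordLength_spec hS g
  rw [← hl]
  exact wordLength_le' hw.inv (by rw [List.prod_inv_reverse]) (by simp)

lemma wordLength_inv (hS : Subgroup.closure S = ⊤) (g : G) :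
    wordLength S g⁻¹ = wordLength S g :=
  le_antisymm (wordLength_inv_le hS g) (by simpa using wordLength_inv_le hS g⁻¹)

lemma wordLength_letter {s : G} (hs : s ∈ S ∨ s⁻¹ ∈ S) : wordLength S s ≤ 1 :=
  wordLength_le' (l := [s]) (by intro x hx; simp at hx; subst hx; exact hs) (by simp) (by simp)

lemma wordLength_list_prod_le (hS : Subgroup.closure S = ⊤) (l : List G) (c : ℕ)
    (h : ∀ x ∈ l, wordLength S x ≤ c) : wordLength S l.prod ≤ l.length * c := by
  induction l with
  | nil => simp
  | cons a l ih =>
    rw [List.prod_cons, List.length_cons]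
    have h1 := wordLength_mul_le hS a l.prod
    have h2 := h a (by simp)
    have h3 := ih (fun x hx => h x (by simp [hx]))
    calc _ ≤ c + l.length * c := by omega
      _ = (l.length + 1) * c := by ring

lemma wordLength_pow_le (hS : Subgroup.closure S = ⊤) (g : G) (n : ℕ) :
    wordLength S (g ^ n) ≤ n * wordLength S g := by
  have := wordLength_list_prod_le hS (List.replicate n g) (wordLength S g)
    (fun x hx => by rw [List.eq_of_mem_replicate hx])
  simpa using this

/-- comparing the word lengths of two generating sets -/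
lemma exists_wordLength_le {T : Set G} (hfin : S.Finite) (hS : Subgroup.closure S = ⊤)
    (hT : Subgroup.closure T = ⊤) :
    ∃ c : ℕ, ∀ g : G, wordLength T g ≤ c * wordLength S g := by
  classical
  refine ⟨hfin.toFinset.sup (wordLength T), fun g => ?_⟩
  obtain ⟨l, hl, hw, rfl⟩ := wordLength_spec hS g
  rw [← hl, mul_comm]
  apply wordLength_list_prod_le hT
  intro x hx
  rcases hw x hx with h | h
  · exact Finset.le_sup (f := wordLength T) (by simpa using h)
  · rw [← wordLength_inv hT]
    exact Finset.le_sup (f := wordLength T) (by simpa using h)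

/-- a group homomorphism is Lipschitz for word lengths -/
lemma exists_wordLength_map_le {H : Type*} [Group H] {T : Set H} (hfin : S.Finite)
    (hS : Subgroup.closure S = ⊤) (hT : Subgroup.closure T = ⊤) (φ : G →* H) :
    ∃ c : ℕ, ∀ g : G, wordLength T (φ g) ≤ c * wordLength S g := by
  classical
  refine ⟨hfin.toFinset.sup (fun g => wordLength T (φ g)), fun g => ?_⟩
  obtain ⟨l, hl, hw, rfl⟩ := wordLength_spec hS g
  rw [← hl, mul_comm, map_list_prod]
  refine (wordLength_list_prod_le hT _ _ ?_).trans_eq (by rw [List.length_map])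
  intro x hx
  obtain ⟨y, hy, rfl⟩ := List.mem_map.mp hx
  rcases hw y hy with h | h
  · exact Finset.le_sup (f := fun g => wordLength T (φ g)) (by simpa using h)
  · rw [← wordLength_inv hT, ← map_inv]
    exact Finset.le_sup (f := fun g => wordLength T (φ g)) (by simpa using h)

/-- an element of word length `n + 1` is a product of an element of length `n` and a letter -/
lemma exists_split (hS : Subgroup.closure S = ⊤) {g : G} {n m : ℕ} (h : wordLength S g = n + m) :
    ∃ a b : G, a * b = g ∧ wordLength S a = n ∧ wordLength S b = m := by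
  obtain ⟨l, hl, hw, rfl⟩ := wordLength_spec hS g
  have hab : (l.take n).prod * (l.drop n).prod = l.prod := by
    rw [← List.prod_append, List.take_append_drop]
  have h1 : wordLength S (l.take n).prod ≤ n :=
    wordLength_le' (S := S) (fun x hx => hw x (List.mem_of_mem_take hx)) rfl
      (by rw [List.length_take]; omega)
  have h2 : wordLength S (l.drop n).prod ≤ m :=
    wordLength_le' (S := S) (fun x hx => hw x (List.mem_of_mem_drop hx)) rfl
      (by rw [List.length_drop]; omega)
  have h3 := wordLength_mul_le hS (l.take n).prod (l.drop n).prod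
  rw [hab] at h3
  exact ⟨_, _, hab, by omega, by omega⟩

end Word

section Ball

variable {G : Type*} [Group G] (S : Finset G)

open Classical in
/-- closed word balls, as finsets, described as sets of products of words -/
noncomputable def ballF : ℕ → Finset G
  | 0 => {1}
  | (n + 1) => (ballF n ×ˢ (insert 1 (S ∪ S.image (·⁻¹)))).image (fun p => p.1 * p.2)

variable {S}

lemma mem_ballF_of_le (hS : Subgroup.closure (S : Set G) = ⊤) {g : G} {n : ℕ}
    (h : wordLength (S : Set G) g ≤ n) : g ∈ ballF S n := by
  classical
  induction n generalizing g with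
  | zero =>
    have := (wordLength_eq_zero_iff hS).mp (Nat.le_zero.mp h)
    simp [ballF, this]
  | succ n ih =>
    rcases Nat.lt_or_ge (wordLength (S : Set G) g) (n + 1) with h1 | h1
    · have h2 := ih (Nat.lt_succ_iff.mp h1)
      simp only [ballF, Finset.mem_image, Finset.mem_product]
      exact ⟨(g, 1), ⟨h2, Finset.mem_insert_self _ _⟩, by simp⟩
    · have h3 : wordLength (S : Set G) g = n + 1 := le_antisymm h h1
      obtain ⟨l, hl, hw, rfl⟩ := wordLength_spec hS g
      rw [h3] at hl
      have hne : l ≠ [] := by rintro rfl; simp at hl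
      have hd : l = l.dropLast ++ [l.getLast hne] := (List.dropLast_append_getLast hne).symm
      have ha : l.getLast hne ∈ l := List.getLast_mem hne
      have hb : wordLength (S : Set G) l.dropLast.prod ≤ n :=
        wordLength_le' (S := (S : Set G)) (fun x hx => hw x (List.mem_of_mem_dropLast hx)) rfl
          (by rw [List.length_dropLast, hl]; omega)
      have h4 := ih hb
      simp only [ballF, Finset.mem_image, Finset.mem_product]
      refine ⟨(l.dropLast.prod, l.getLast hne), ⟨h4, ?_⟩, ?_⟩
      · apply Finset.mem_insert_of_mem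
        rcases hw _ ha with h5 | h5
        · exact Finset.mem_union_left _ (by simpa using h5)
        · apply Finset.mem_union_right
          rw [Finset.mem_image]
          exact ⟨_, (by simpa using h5), inv_inv _⟩
      · show l.dropLast.prod * l.getLast hne = l.prod
        conv_rhs => rw [hd]
        rw [List.prod_append, List.prod_singleton]

lemma wordLength_le_of_mem_ballF (hS : Subgroup.closure (S : Set G) = ⊤) {g : G} {n : ℕ}
    (h : g ∈ ballF S n) : wordLength (S : Set G) g ≤ n := by
  classical
  induction n generalizing g with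
  | zero =>
    simp [ballF] at h
    subst h; simp
  | succ n ih =>
    simp only [ballF, Finset.mem_image, Finset.mem_product] at h
    obtain ⟨⟨a, b⟩, ⟨ha, hb⟩, rfl⟩ := h
    have h1 : wordLength (S : Set G) a ≤ n := ih ha
    have h2 : wordLength (S : Set G) b ≤ 1 := by
      rcases Finset.mem_insert.mp hb with rfl | hb
      · simp
      · rcases Finset.mem_union.mp hb with hb | hb
        · exact wordLength_letter (Or.inl (by simpa using hb))
        · rw [Finset.mem_image] at hb
          obtain ⟨c, hc, rfl⟩ := hb
          exact wordLength_letter (Or.inr (by simpa using hc))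
    exact (wordLength_mul_le hS a b).trans (by omega)

lemma mem_ballF (hS : Subgroup.closure (S : Set G) = ⊤) {g : G} {n : ℕ} :
    g ∈ ballF S n ↔ wordLength (S : Set G) g ≤ n :=
  ⟨wordLength_le_of_mem_ballF hS, mem_ballF_of_le hS⟩

lemma card_ballF_le (n : ℕ) : (ballF S n).card ≤ (2 * S.card + 1) ^ n := by
  classical
  induction n with
  | zero => simp [ballF]
  | succ n ih =>
    rw [ballF, pow_succ]
    refine Finset.card_image_le.trans ?_
    rw [Finset.card_product]
    refine Nat.mul_le_mul ih ?_
    refine (Finset.card_insert_le _ _).trans ?_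
    have h1 := Finset.card_union_le S (S.image (·⁻¹))
    have h2 : (S.image (·⁻¹)).card ≤ S.card := Finset.card_image_le
    omega

lemma ball_finite (hS : Subgroup.closure (S : Set G) = ⊤) (n : ℕ) :
    {g : G | wordLength (S : Set G) g ≤ n}.Finite := by
  have : {g : G | wordLength (S : Set G) g ≤ n} = (ballF S n : Set G) := by
    ext g; simp [mem_ballF hS]
  rw [this]; exact Finset.finite_toSet _

lemma ncard_ball_le (hS : Subgroup.closure (S : Set G) = ⊤) (n : ℕ) :
    {g : G | wordLength (S : Set G) g ≤ n}.ncard ≤ (2 * S.card + 1) ^ n := by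
  have : {g : G | wordLength (S : Set G) g ≤ n} = (ballF S n : Set G) := by
    ext g; simp [mem_ballF hS]
  rw [this, Set.ncard_coe_finset]; exact card_ballF_le n

end Ball

section Dist

variable {G : Type*} [Group G] {S : Set G}







lemma wordDist_mul_right (g h : G) : wordDist S g (g * h) = wordLength S h := by
  unfold wordDist; simp


/-- the word metric is (discretely) geodesic: intermediate points -/
lemma exists_between (hS : Subgroup.closure S = ⊤) (a b : G) (n m : ℕ)
    (h : wordLength S (a⁻¹ * b) = n + m) :
    ∃ c : G, wordDist S a c = n ∧ wordDist S c b = m := by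
  obtain ⟨x, y, hxy, hx, hy⟩ := exists_split hS h
  refine ⟨a * x, ?_, ?_⟩
  · rw [wordDist_mul_right, hx]
  · unfold wordDist
    have : (a * x)⁻¹ * b = y := by
      rw [mul_inv_rev, mul_assoc, ← hxy]; group
    rw [this, hy]


end Dist

end Crest.Agent.R182.QI
private theorem rz_3e71ed5222 : type_of% @_root_.Crest.Agent.R182.QI.ballF.eq_def := @_root_.Crest.Agent.R182.QI.ballF.eq_def -- L174
private theorem rz_ced4e3d815 : type_of% @_root_.Crest.Agent.R182.QI.ballF.eq_1 := @_root_.Crest.Agent.R182.QI.ballF.eq_1 -- L174
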