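import Crest.Agent.R182.QIBasic

/-!
# Row 182, module QI1 (second half): quasi-isometries of word metrics (author: helper506)

`nd S x y = wordLength S (x⁻¹ * y)` is the word distance as a natural number.
`QIMap T S F K`: `F : H → P` is a quasi-isometry with the natural constant `K`.
-/

set_option autoImplicit false

namespace Crest.Agent.R182.QI

open Crest.GroupTheory Crest.Geometry

section nd

variable {G : Type*} [Group G] {S : Set G}

/-- word distance with values in `ℕ` -/
noncomputable def nd (S : Set G) (x y : G) : ℕ := wordLength S (x⁻¹ * y)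

lemma wordDist_eq_nd (x y : G) : wordDist S x y = (nd S x y : ℝ) := rfl

@[simp] lemma nd_self (x : G) : nd S x x = 0 := by simp [nd]

lemma nd_comm (hS : Subgroup.closure S = ⊤) (x y : G) : nd S x y = nd S y x := by
  unfold nd; rw [← wordLength_inv hS]; simp

lemma nd_triangle (hS : Subgroup.closure S = ⊤) (x y z : G) :
    nd S x z ≤ nd S x y + nd S y z := by
  unfold nd
  have h := wordLength_mul_le hS (x⁻¹ * y) (y⁻¹ * z)
  have h2 : x⁻¹ * y * (y⁻¹ * z) = x⁻¹ * z := by group
  rwa [h2] at h

@[simp] lemma nd_mul_left (g x y : G) : nd S (g * x) (g * y) = nd S x y := by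
  unfold nd
  have : (g * x)⁻¹ * (g * y) = x⁻¹ * y := by group
  rw [this]

lemma nd_eq_zero (hS : Subgroup.closure S = ⊤) {x y : G} : nd S x y = 0 ↔ x = y := by
  unfold nd; rw [wordLength_eq_zero_iff hS, inv_mul_eq_one]

@[simp] lemma nd_mul_right (x g : G) : nd S x (x * g) = wordLength S g := by
  unfold nd; simp

@[simp] lemma nd_one_left (g : G) : nd S 1 g = wordLength S g := by
  unfold nd; simp

lemma nd_ball_finite {S : Finset G} (hS : Subgroup.closure (S : Set G) = ⊤) (x : G) (n : ℕ) :
    {y : G | nd (S : Set G) x y ≤ n}.Finite := by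
  refine ((ball_finite hS n).image (fun g => x * g)).subset ?_
  intro y hy
  exact ⟨x⁻¹ * y, hy, by simp⟩

lemma nd_ball_ncard {S : Finset G} (x : G) (n : ℕ) :
    {y : G | nd (S : Set G) x y ≤ n}.ncard = {g : G | wordLength (S : Set G) g ≤ n}.ncard := by
  have : {y : G | nd (S : Set G) x y ≤ n} = (fun g => x * g) '' {g : G | wordLength (S : Set G) g ≤ n} := by
    ext y
    constructor
    · intro hy
      exact ⟨x⁻¹ * y, hy, by simp⟩
    · rintro ⟨g, hg, rfl⟩
      simpa using hg
  rw [this, Set.ncard_image_of_injective _ (mul_right_injective x)]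

end nd

/-- `F : H → P` is a quasi-isometry between word metrics, with natural constant `K`. -/
structure QIMap {H P : Type*} [Group H] [Group P] (T : Set H) (S : Set P) (F : H → P) (K : ℕ) :
    Prop where
  up : ∀ x y : H, nd S (F x) (F y) ≤ K * nd T x y + K
  lo : ∀ x y : H, nd T x y ≤ K * nd S (F x) (F y) + K
  dense : ∀ p : P, ∃ x : H, nd S p (F x) ≤ K

section QIMap

variable {H P Q : Type*} [Group H] [Group P] [Group Q] {T : Set H} {S : Set P} {R : Set Q}
  {F : H → P} {K : ℕ}

theorem QIMap.mono (h : QIMap T S F K) {K' : ℕ} (hK : K ≤ K') : QIMap T S F K' where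
  up x y := (h.up x y).trans (by gcongr)
  lo x y := (h.lo x y).trans (by gcongr)
  dense p := by
    obtain ⟨x, hx⟩ := h.dense p
    exact ⟨x, hx.trans hK⟩

/-- the frozen notion gives natural constants -/
theorem exists_QIMap (hF : IsQuasiIsometry (wordDist T) (wordDist S) F) :
    ∃ K : ℕ, 1 ≤ K ∧ QIMap T S F K := by
  obtain ⟨K, C, hK, hC, h1, h2⟩ := hF
  refine ⟨⌈K * (1 + C)⌉₊, ?_, ?_, ?_, ?_⟩
  · rw [Nat.one_le_ceil_iff]
    positivity
  · intro x y
    have h := (h1 x y).2
    have hb : K * (1 + C) ≤ (⌈K * (1 + C)⌉₊ : ℝ) := Nat.le_ceil _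
    rw [wordDist_eq_nd, wordDist_eq_nd] at h
    have h3 : (nd S (F x) (F y) : ℝ) ≤ ⌈K * (1 + C)⌉₊ * nd T x y + ⌈K * (1 + C)⌉₊ := by
      have h4 : (0 : ℝ) ≤ nd T x y := by positivity
      have h5 : K ≤ K * (1 + C) := by nlinarith
      have h6 : C ≤ K * (1 + C) := by nlinarith
      calc (nd S (F x) (F y) : ℝ) ≤ K * nd T x y + C := h
        _ ≤ K * (1 + C) * nd T x y + K * (1 + C) := by
          apply add_le_add _ h6
          exact mul_le_mul_of_nonneg_right h5 h4
        _ ≤ _ := by gcongr
    exact_mod_cast h3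
  · intro x y
    have h := (h1 x y).1
    have hb : K * (1 + C) ≤ (⌈K * (1 + C)⌉₊ : ℝ) := Nat.le_ceil _
    rw [wordDist_eq_nd, wordDist_eq_nd] at h
    have h4 : (0 : ℝ) ≤ nd S (F x) (F y) := by positivity
    have h0 : (nd T x y : ℝ) ≤ K * nd S (F x) (F y) + K * C := by
      have hK0 : (0 : ℝ) < K := by linarith
      have h7 : K⁻¹ * (nd T x y : ℝ) ≤ nd S (F x) (F y) + C := by linarith
      have h8 := mul_le_mul_of_nonneg_left h7 hK0.le
      rw [← mul_assoc, mul_inv_cancel₀ hK0.ne', one_mul] at h8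
      linarith
    have h3 : (nd T x y : ℝ) ≤ ⌈K * (1 + C)⌉₊ * nd S (F x) (F y) + ⌈K * (1 + C)⌉₊ := by
      have h5 : K ≤ K * (1 + C) := by nlinarith
      have h6 : K * C ≤ K * (1 + C) := by nlinarith
      calc (nd T x y : ℝ) ≤ K * nd S (F x) (F y) + K * C := h0
        _ ≤ K * (1 + C) * nd S (F x) (F y) + K * (1 + C) := by
          apply add_le_add _ h6
          exact mul_le_mul_of_nonneg_right h5 h4
        _ ≤ _ := by gcongr
    exact_mod_cast h3
  · intro p
    obtain ⟨x, hx⟩ := h2 p
    refine ⟨x, ?_⟩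
    rw [wordDist_eq_nd] at hx
    have hb : K * (1 + C) ≤ (⌈K * (1 + C)⌉₊ : ℝ) := Nat.le_ceil _
    have h6 : C ≤ K * (1 + C) := by nlinarith
    have : (nd S p (F x) : ℝ) ≤ (⌈K * (1 + C)⌉₊ : ℝ) := by linarith
    exact_mod_cast this


/-- a quasi-isometry has a coarse inverse -/
theorem QIMap.exists_inverse (hT : Subgroup.closure T = ⊤) (hS : Subgroup.closure S = ⊤)
    (h : QIMap T S F K) :
    ∃ (E : P → H) (K' : ℕ), QIMap S T E K' ∧ (∀ x, nd T (E (F x)) x ≤ K') ∧
      (∀ p, nd S (F (E p)) p ≤ K') := by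
  choose E hE using h.dense
  have hE' : ∀ p, nd S (F (E p)) p ≤ K := fun p => by rw [nd_comm hS]; exact hE p
  have hEF : ∀ x, nd T (E (F x)) x ≤ K * K + K := fun x =>
    (h.lo _ _).trans (by have := hE' (F x); gcongr)
  refine ⟨E, 2 * K * K + 2 * K, ⟨?_, ?_, ?_⟩, ?_, ?_⟩
  · intro p q
    have h1 := h.lo (E p) (E q)
    have h2 : nd S (F (E p)) (F (E q)) ≤ nd S p q + 2 * K := by
      have a1 := nd_triangle hS (F (E p)) p (F (E q))
      have a2 := nd_triangle hS p q (F (E q))
      have a3 := hE q
      have a4 := hE' p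
      omega
    calc nd T (E p) (E q) ≤ K * (nd S p q + 2 * K) + K := h1.trans (by gcongr)
      _ = K * nd S p q + (2 * K * K + K) := by ring
      _ ≤ (2 * K * K + 2 * K) * nd S p q + (2 * K * K + 2 * K) := by
        have : K * nd S p q ≤ (2 * K * K + 2 * K) * nd S p q :=
          Nat.mul_le_mul_right _ (by nlinarith)
        nlinarith
  · intro p q
    have h1 := h.up (E p) (E q)
    have a1 := nd_triangle hS p (F (E p)) q
    have a2 := nd_triangle hS (F (E p)) (F (E q)) q
    have a3 := hE p
    have a4 := hE' q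
    have : K * nd T (E p) (E q) ≤ (2 * K * K + 2 * K) * nd T (E p) (E q) :=
      Nat.mul_le_mul_right _ (by nlinarith)
    have h5 : nd S p q ≤ K * nd T (E p) (E q) + 3 * K := by omega
    rcases Nat.eq_zero_or_pos K with rfl | hK
    · omega
    · have : 3 * K ≤ 2 * K * K + 2 * K := by nlinarith
      omega
  · intro x
    exact ⟨F x, by rw [nd_comm hT]; exact (hEF x).trans (by nlinarith)⟩
  · intro x; exact (hEF x).trans (by nlinarith)
  · intro p; exact (hE' p).trans (by nlinarith)

/-- composition of quasi-isometries -/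
theorem QIMap.comp (hS : Subgroup.closure R = ⊤)
    {F' : P → Q} {K' : ℕ} (h' : QIMap S R F' K') (h : QIMap T S F K) :
    QIMap T R (F' ∘ F) (K * K' + K + 2 * K') where
  up x y := by
    have h1 := h'.up (F x) (F y)
    have h2 := h.up x y
    calc nd R (F' (F x)) (F' (F y)) ≤ K' * (K * nd T x y + K) + K' := h1.trans (by gcongr)
      _ = K * K' * nd T x y + (K * K' + K') := by ring
      _ ≤ (K * K' + K + 2 * K') * nd T x y + (K * K' + K + 2 * K') := by
        have : K * K' * nd T x y ≤ (K * K' + K + 2 * K') * nd T x y :=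
          Nat.mul_le_mul_right _ (by omega)
        omega
  lo x y := by
    have h1 := h.lo x y
    have h2 := h'.lo (F x) (F y)
    calc nd T x y ≤ K * (K' * nd R (F' (F x)) (F' (F y)) + K') + K := h1.trans (by gcongr)
      _ = K * K' * nd R (F' (F x)) (F' (F y)) + (K * K' + K) := by ring
      _ ≤ (K * K' + K + 2 * K') * nd R ((F' ∘ F) x) ((F' ∘ F) y) + (K * K' + K + 2 * K') := by
        have : K * K' * nd R (F' (F x)) (F' (F y)) ≤ (K * K' + K + 2 * K') * nd R (F' (F x)) (F' (F y)) :=
          Nat.mul_le_mul_right _ (by omega)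
        simp only [Function.comp]
        omega
  dense q := by
    obtain ⟨p, hp⟩ := h'.dense q
    obtain ⟨x, hx⟩ := h.dense p
    refine ⟨x, ?_⟩
    have h1 := nd_triangle hS q (F' p) (F' (F x))
    have h2 := h'.up p (F x)
    have h3 : K' * nd S p (F x) ≤ K' * K := Nat.mul_le_mul_left _ hx
    have h4 : K' * K = K * K' := mul_comm _ _
    simp only [Function.comp]
    omega

/-- left translation is a quasi-isometry -/
theorem QIMap.mulLeft (p : P) (h : QIMap T S F K) : QIMap T S (fun x => p * F x) K where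
  up x y := by simpa using h.up x y
  lo x y := by simpa using h.lo x y
  dense q := by
    obtain ⟨x, hx⟩ := h.dense (p⁻¹ * q)
    refine ⟨x, ?_⟩
    rw [← nd_mul_left p] at hx
    simpa using hx

/-- precomposition with a left translation -/
theorem QIMap.compMulLeft (g : H) (h : QIMap T S F K) : QIMap T S (fun x => F (g * x)) K where
  up x y := by simpa using h.up (g * x) (g * y)
  lo x y := by simpa using h.lo (g * x) (g * y)
  dense q := by
    obtain ⟨x, hx⟩ := h.dense q
    exact ⟨g⁻¹ * x, by simpa using hx⟩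

/-- normalisation: we may assume `F 1 = 1` -/
theorem QIMap.normalise (h : QIMap T S F K) : QIMap T S (fun x => (F 1)⁻¹ * F x) K :=
  h.mulLeft _

/-- a quasi-isometry is uniformly finite-to-one, even on bounded sets -/
theorem QIMap.preimage_finite {T : Finset H} (hT : Subgroup.closure (T : Set H) = ⊤)
    (hS : Subgroup.closure S = ⊤) (h : QIMap (T : Set H) S F K) (p : P) (n : ℕ) :
    {x : H | nd S p (F x) ≤ n}.Finite ∧
      {x : H | nd S p (F x) ≤ n}.ncard ≤ (2 * T.card + 1) ^ (2 * K * n + K) := by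
  by_cases hne : ∃ x₀ : H, nd S p (F x₀) ≤ n
  · obtain ⟨x₀, hx₀⟩ := hne
    have hsub : {x : H | nd S p (F x) ≤ n} ⊆ {x : H | nd (T : Set H) x₀ x ≤ 2 * K * n + K} := by
      intro x hx
      simp only [Set.mem_ofPred_eq] at hx ⊢
      have h1 := nd_triangle hS (F x₀) p (F x)
      rw [nd_comm hS (F x₀) p] at h1
      calc nd (T : Set H) x₀ x ≤ K * nd S (F x₀) (F x) + K := h.lo _ _
        _ ≤ K * (2 * n) + K := by gcongr; omega
        _ = 2 * K * n + K := by ring
    refine ⟨(nd_ball_finite hT x₀ _).subset hsub, ?_⟩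
    refine (Set.ncard_le_ncard hsub (nd_ball_finite hT x₀ _)).trans ?_
    rw [nd_ball_ncard]
    exact ncard_ball_le hT _
  · have : {x : H | nd S p (F x) ≤ n} = ∅ := by
      ext x; simp only [Set.mem_ofPred_eq, Set.mem_empty_iff_false, iff_false]
      intro hx; exact hne ⟨x, hx⟩
    rw [this]; simp

/-- right translations have bounded displacement -/
theorem QIMap.displacement (h : QIMap T S F K) (x g : H) :
    nd S (F x) (F (x * g)) ≤ K * wordLength T g + K := by
  simpa using h.up x (x * g)

/-- inclusion of a finite-index subgroup is a quasi-isometry (for the word metric of any finite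
generating set of the subgroup) -/
theorem QIMap_subtype {S : Finset P} (hS : Subgroup.closure (S : Set P) = ⊤) (P₀ : Subgroup P)
    [P₀.FiniteIndex] (S₀ : Finset P₀) (hS₀ : Subgroup.closure (S₀ : Set P₀) = ⊤) :
    ∃ K : ℕ, QIMap (S₀ : Set P₀) (S : Set P) (fun x : P₀ => (x : P)) K := by
  classical
  -- upper bound
  obtain ⟨c, hc⟩ := exists_wordLength_map_le (T := (S : Set P)) S₀.finite_toSet hS₀ hS P₀.subtype
  -- coset representatives: a bound `m` such that every element is within `m` of `P₀`
  have hfin : Finite (P ⧸ P₀) := inferInstance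
  obtain ⟨m, hm⟩ : ∃ m : ℕ, ∀ p : P, ∃ a : P₀, nd (S : Set P) p (a : P) ≤ m := by
    -- right cosets: p = a * t ; distance from p to a is |t⁻¹|
    have hfinR : Finite (Quotient (QuotientGroup.rightRel P₀)) :=
      Finite.of_equiv _ (QuotientGroup.quotientRightRelEquivQuotientLeftRel P₀).symm
    have := Fintype.ofFinite (Quotient (QuotientGroup.rightRel P₀))
    refine ⟨Finset.univ.sup (fun q : Quotient (QuotientGroup.rightRel P₀) =>
      wordLength (S : Set P) q.out), fun p => ?_⟩
    have h1 : (QuotientGroup.rightRel P₀).r (Quotient.mk (QuotientGroup.rightRel P₀) p).out p :=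
      Quotient.mk_out p
    have h2 := QuotientGroup.rightRel_apply.mp h1
    refine ⟨⟨_, h2⟩, ?_⟩
    rw [nd_comm hS]
    unfold nd
    have h3 : ((p * (Quotient.mk (QuotientGroup.rightRel P₀) p).out⁻¹))⁻¹ * p =
        (Quotient.mk (QuotientGroup.rightRel P₀) p).out := by group
    rw [show ((⟨p * (Quotient.mk (QuotientGroup.rightRel P₀) p).out⁻¹, h2⟩ : P₀) : P) =
      p * (Quotient.mk (QuotientGroup.rightRel P₀) p).out⁻¹ from rfl, h3]
    exact Finset.le_sup (f := fun q : Quotient (QuotientGroup.rightRel P₀) =>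
      wordLength (S : Set P) q.out) (Finset.mem_univ _)
  -- finitely many elements of `P₀` of length `≤ 2 m + 1`
  have hfin2 : {x : P₀ | wordLength (S : Set P) (x : P) ≤ 2 * m + 1}.Finite :=
    (ball_finite hS (2 * m + 1)).preimage (Subtype.val_injective.injOn)
  obtain ⟨D, hD⟩ : ∃ D : ℕ, ∀ x : P₀, wordLength (S : Set P) (x : P) ≤ 2 * m + 1 →
      wordLength (S₀ : Set P₀) x ≤ D :=
    ⟨hfin2.toFinset.sup (fun x => wordLength (S₀ : Set P₀) x), fun x hx =>
      Finset.le_sup (f := fun x => wordLength (S₀ : Set P₀) x) (by simpa using hx)⟩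
  -- lower bound
  have hlow' : ∀ (n : ℕ) (x : P₀) (c' : P), nd (S : Set P) (x : P) c' ≤ n →
      ∀ a : P₀, nd (S : Set P) c' (a : P) ≤ m → nd (S₀ : Set P₀) x a ≤ D * n + D := by
    intro n
    induction n with
    | zero =>
      intro x c' hx a ha
      have h0 := (nd_eq_zero hS).mp (Nat.le_zero.mp hx)
      rw [← h0] at ha
      have := hD (x⁻¹ * a) (by
        have : nd (S : Set P) (x : P) (a : P) ≤ m := ha
        unfold nd at this
        simp only [Subgroup.coe_mul, Subgroup.coe_inv]
        omega)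
      unfold nd
      omega
    | succ n ih =>
      intro x c' hx a ha
      rcases Nat.lt_or_ge (nd (S : Set P) (x : P) c') (n + 1) with h1 | h1
      · have := ih x c' (by omega) a ha
        calc _ ≤ D * n + D := this
          _ ≤ D * (n + 1) + D := by gcongr; omega
      · have h2 : wordLength (S : Set P) ((x : P)⁻¹ * c') = n + 1 := le_antisymm hx h1
        obtain ⟨c'', hc1, hc2⟩ := exists_between hS (x : P) c' n 1 h2
        rw [wordDist_eq_nd] at hc1 hc2
        have hc1' : nd (S : Set P) (x : P) c'' = n := by exact_mod_cast hc1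
        have hc2' : nd (S : Set P) c'' c' = 1 := by exact_mod_cast hc2
        obtain ⟨a'', ha''⟩ := hm c''
        have h3 := ih x c'' hc1'.le a'' ha''
        have h4 : nd (S : Set P) (a'' : P) (a : P) ≤ 2 * m + 1 := by
          have b1 := nd_triangle hS (a'' : P) c'' (a : P)
          have b2 := nd_triangle hS c'' c' (a : P)
          rw [nd_comm hS (a'' : P) c''] at b1
          omega
        have h5 : nd (S₀ : Set P₀) a'' a ≤ D := hD (a''⁻¹ * a) (by
          unfold nd at h4
          simpa only [Subgroup.coe_mul, Subgroup.coe_inv] using h4)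
        have h6 := nd_triangle hS₀ x a'' a
        calc nd (S₀ : Set P₀) x a ≤ (D * n + D) + D := by omega
          _ = D * (n + 1) + D := by ring
  have hlow : ∀ (n : ℕ) (x y : P₀), nd (S : Set P) (x : P) (y : P) ≤ n →
      nd (S₀ : Set P₀) x y ≤ D * n + D := fun n x y hxy =>
    hlow' n x y hxy y (by simp)
  refine ⟨c + D + m, ?_, ?_, ?_⟩
  · intro x y
    unfold nd
    have := hc (x⁻¹ * y)
    simp only [Subgroup.coe_subtype, Subgroup.coe_mul, Subgroup.coe_inv] at this
    calc _ ≤ c * wordLength (S₀ : Set P₀) (x⁻¹ * y) := this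
      _ ≤ (c + D + m) * wordLength (S₀ : Set P₀) (x⁻¹ * y) + (c + D + m) := by
        have : c * wordLength (S₀ : Set P₀) (x⁻¹ * y) ≤ (c + D + m) * wordLength (S₀ : Set P₀) (x⁻¹ * y) :=
          Nat.mul_le_mul_right _ (by omega)
        omega
  · intro x y
    have := hlow _ x y le_rfl
    calc _ ≤ D * nd (S : Set P) (x : P) (y : P) + D := this
      _ ≤ (c + D + m) * nd (S : Set P) (x : P) (y : P) + (c + D + m) := by
        have : D * nd (S : Set P) (x : P) (y : P) ≤ (c + D + m) * nd (S : Set P) (x : P) (y : P) :=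
          Nat.mul_le_mul_right _ (by omega)
        omega
  · intro p
    obtain ⟨a, ha⟩ := hm p
    exact ⟨a, ha.trans (by omega)⟩

end QIMap

end Crest.Agent.R182.QI
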