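/-
R182, module BND (helper658): from the uniform sublinear law and the logarithmic law for
zero-weight moves to the law used by the final reduction.
-/
import Mathlib
import Crest.Agent.R182.BndZL
import Crest.Agent.R182.FinRed

set_option autoImplicit false

open Filter Topology
open scoped Pointwise

namespace Crest.Agent.R182.Bnd

open Crest.GroupTheory Crest.Geometry Crest.Agent.R182.QI Crest.Agent.R182.FinPath
  Crest.Agent.R182.FinRed

variable {Γ : Type*} [Group Γ] {k : ℕ}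



/-- The law of one map. -/
def LawAt (S : Set Γ) (π : Γ →* Multiplicative (Fin k → ℤ)) (A : Set Γ) (x : Fin k → Γ)
    (L : (Fin k → ℝ) →ₗ[ℝ] (Fin k → ℝ)) (C : ℝ → ℝ) (Ψ : Γ → Γ) : Prop :=
  ∀ ε > 0, ∀ (g y : Γ) (m : ℕ), y * (z x (hgt π y))⁻¹ ∈ A ^ m → ∀ i : Fin k,
    |hgtR π (Ψ (g * y)) i - hgtR π (Ψ g) i - L (hgtR π y) i| ≤
      ε * ((n1 (hgt π y) : ℝ) + Real.log (2 + m)) + C ε * Real.log (2 + wordLength S y)

/-- The facts about the real model `G ⊇ Γ` which are used for the law. -/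
structure CModel (S : Set Γ) (π : Γ →* Multiplicative (Fin k → ℤ)) (A : Set Γ) (x : Fin k → Γ)
    (G : Type*) [Group G] where
  ι : Γ →* G
  len : G → ℝ
  isLen : IsLen len
  a : ℝ
  one_le_a : 1 ≤ a
  len_ι : ∀ γ, len (ι γ) ≤ a * wordLength S γ
  ι_len : ∀ γ, (wordLength S γ : ℝ) ≤ a * len (ι γ) + a
  round : ∀ g, ∃ γ, len ((ι γ)⁻¹ * g) ≤ a
  h : G → Fin k → ℝ
  h_mul : ∀ g g', h (g * g') = h g + h g'
  h_ι : ∀ γ, h (ι γ) = hgtR π γ
  h_le : ∀ g i, |h g i| ≤ a * len g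
  m : ℕ
  Λ : Fin m → ((Fin k → ℝ) →ₗ[ℝ] ℝ)
  Λ_inj : ∀ v, (∀ j, Λ j v = 0) → v = 0
  Λ_ne : ∀ j, Λ j ≠ 0
  χ : Fin m → G → ℂ
  δ : Fin m → G → ℂ
  crossed : ∀ j, ∃ c B, Crossed len (fun g => Λ j (h g)) (χ j) (δ j) c B
  nontriv : ∀ j, ∃ n, h n = 0 ∧ δ j n ≠ 0
  χ_one : ∀ j n, h n = 0 → χ j n = 1
  C : Subgroup G
  chain : ∀ b ∈ C, ∃ (Z : ℕ → Set G) (r : ℕ), Chain len b Z r ∧ Z r = (C : Set G)
  /-- the exponentially distorted part; any set containing `1` -/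
  E : Set G
  one_mem_E : (1 : G) ∈ E
  t : (Fin k → ℤ) → G
  t_mem : ∀ v, t v ∈ C
  h_t : ∀ v i, h (t v) i = v i
  len_t : ∀ v, len (t v) ≤ a * n1 v
  /-- size function (norm of the matrix) -/
  sz : G → ℝ
  sz_nonneg : ∀ g, 0 ≤ sz g
  sz_inv : ∀ g, sz g⁻¹ = sz g
  dec : Dec len sz (C : Set G) {v | v ∈ C ∧ h v = 0}
  split : ∀ (y : Γ) (m : ℕ), y * (z x (hgt π y))⁻¹ ∈ A ^ m →
    ∃ e c : G, ι y = e * c ∧ e ∈ E ∧ c ∈ C ∧ h e = 0 ∧
      len e ≤ a * ((n1 (hgt π y) : ℝ) + Real.log (2 + m) + Real.log (2 + wordLength S y)) ∧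
      Real.log (2 + sz ((t (hgt π y))⁻¹ * c)) ≤ a * Real.log (2 + wordLength S y)

section Lin

theorem exists_coord_bound {m : ℕ} (Λ : Fin m → ((Fin k → ℝ) →ₗ[ℝ] ℝ))
    (hΛ : ∀ v, (∀ j, Λ j v = 0) → v = 0) :
    ∃ c : ℝ, 0 ≤ c ∧ ∀ (u : Fin k → ℝ) (B : ℝ), 0 ≤ B → (∀ j, |Λ j u| ≤ B) →
      ∀ i, |u i| ≤ c * B := by
  have hker : (LinearMap.pi Λ).ker = ⊥ := by
    rw [LinearMap.ker_eq_bot']
    intro v hv
    exact hΛ v fun j => congrFun hv j
  obtain ⟨K, hK, hanti⟩ := (LinearMap.pi Λ).exists_antilipschitzWith hker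
  refine ⟨K, K.2, fun u B hB hu i => ?_⟩
  have h1 : ‖u‖ ≤ K * ‖LinearMap.pi Λ u‖ := by
    have := hanti.le_mul_dist u 0
    simpa using this
  have h2 : ‖LinearMap.pi Λ u‖ ≤ B := by
    refine (pi_norm_le_iff_of_nonneg hB).2 fun j => ?_
    rw [Real.norm_eq_abs]
    exact hu j
  calc |u i| = ‖u i‖ := (Real.norm_eq_abs _).symm
    _ ≤ ‖u‖ := norm_le_pi_norm u i
    _ ≤ K * ‖LinearMap.pi Λ u‖ := h1
    _ ≤ K * B := mul_le_mul_of_nonneg_left h2 K.2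

theorem exists_lin_bound (L : (Fin k → ℝ) →ₗ[ℝ] (Fin k → ℝ)) :
    ∃ c : ℝ, 0 ≤ c ∧ ∀ (u : Fin k → ℝ) (B : ℝ), 0 ≤ B → (∀ i, |u i| ≤ B) →
      ∀ i, |L u i| ≤ c * B := by
  let L' : (Fin k → ℝ) →L[ℝ] (Fin k → ℝ) := ⟨L, LinearMap.continuous_of_finiteDimensional L⟩
  refine ⟨‖L'‖, norm_nonneg _, fun u B hB hu i => ?_⟩
  have h1 : ‖L' u‖ ≤ ‖L'‖ * ‖u‖ := L'.le_opNorm u
  have h2 : ‖u‖ ≤ B := (pi_norm_le_iff_of_nonneg hB).2 fun j => by
    rw [Real.norm_eq_abs]; exact hu j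
  calc |L u i| = ‖L' u i‖ := (Real.norm_eq_abs _).symm
    _ ≤ ‖L' u‖ := norm_le_pi_norm (L' u) i
    _ ≤ ‖L'‖ * ‖u‖ := h1
    _ ≤ ‖L'‖ * B := mul_le_mul_of_nonneg_left h2 (norm_nonneg _)

theorem exists_fun_bound (φ : (Fin k → ℝ) →ₗ[ℝ] ℝ) :
    ∃ c : ℝ, 0 ≤ c ∧ ∀ (u : Fin k → ℝ) (B : ℝ), 0 ≤ B → (∀ i, |u i| ≤ B) → |φ u| ≤ c * B := by
  let φ' : (Fin k → ℝ) →L[ℝ] ℝ := ⟨φ, LinearMap.continuous_of_finiteDimensional φ⟩
  refine ⟨‖φ'‖, norm_nonneg _, fun u B hB hu => ?_⟩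
  have h1 : ‖φ' u‖ ≤ ‖φ'‖ * ‖u‖ := φ'.le_opNorm u
  have h2 : ‖u‖ ≤ B := (pi_norm_le_iff_of_nonneg hB).2 fun j => by
    rw [Real.norm_eq_abs]; exact hu j
  calc |φ u| = ‖φ' u‖ := (Real.norm_eq_abs _).symm
    _ ≤ ‖φ'‖ * ‖u‖ := h1
    _ ≤ ‖φ'‖ * B := mul_le_mul_of_nonneg_left h2 (norm_nonneg _)

end Lin

theorem IsLen.pow {G : Type*} [Group G] {len : G → ℝ} (h : IsLen len) (g : G) (n : ℕ) :
    len (g ^ n) ≤ n * len g := by
  induction n with
  | zero => simp [h.one]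
  | succ n ih =>
    rw [pow_succ]
    refine (h.mul _ _).trans ?_
    push_cast
    linarith

section Model

variable {S : Set Γ} {π : Γ →* Multiplicative (Fin k → ℤ)} {A : Set Γ} {x : Fin k → Γ}
  {G : Type*} [Group G] (M : CModel S π A x G)

include M in
theorem CModel.a0 : 0 ≤ M.a := zero_le_one.trans M.one_le_a

theorem CModel.h_one : M.h 1 = 0 := by
  have := M.h_mul 1 1
  rw [mul_one] at this
  simpa using this

theorem CModel.h_inv (g : G) : M.h g⁻¹ = - M.h g := by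
  have := M.h_mul g g⁻¹
  rw [mul_inv_cancel, M.h_one] at this
  exact (neg_eq_of_add_eq_zero_right this.symm).symm

theorem CModel.h_pow (g : G) (n : ℕ) : M.h (g ^ n) = (n : ℝ) • M.h g := by
  induction n with
  | zero => simp [M.h_one]
  | succ n ih =>
    rw [pow_succ, M.h_mul, ih]
    push_cast
    rw [add_smul, one_smul]

/-- the rounding map -/
noncomputable def CModel.r (g : G) : Γ := (M.round g).choose

theorem CModel.hr (g : G) : M.len ((M.ι (M.r g))⁻¹ * g) ≤ M.a := (M.round g).choose_spec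

theorem CModel.hr' (g : G) : M.len (g⁻¹ * M.ι (M.r g)) ≤ M.a := by
  have := M.hr g
  rw [← M.isLen.inv] at this
  simpa using this

theorem CModel.near (g u : G) :
    (wordLength S ((M.r g)⁻¹ * M.r (g * u)) : ℝ) ≤ M.a * (M.len u + 2 * M.a) + M.a := by
  have ha := M.a0
  refine (M.ι_len _).trans ?_
  have h1 : M.ι ((M.r g)⁻¹ * M.r (g * u)) =
      ((M.ι (M.r g))⁻¹ * g) * u * ((g * u)⁻¹ * M.ι (M.r (g * u))) := by
    rw [map_mul, map_inv]; group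
  have h2 : M.len (M.ι ((M.r g)⁻¹ * M.r (g * u))) ≤ M.len u + 2 * M.a := by
    rw [h1]
    have h3 := M.isLen.mul (((M.ι (M.r g))⁻¹ * g) * u) ((g * u)⁻¹ * M.ι (M.r (g * u)))
    have h4 := M.isLen.mul ((M.ι (M.r g))⁻¹ * g) u
    have h5 := M.hr g
    have h6 := M.hr' (g * u)
    linarith
  have := mul_le_mul_of_nonneg_left h2 ha
  linarith

theorem CModel.near_ι (γ : Γ) :
    (wordLength S (γ⁻¹ * M.r (M.ι γ)) : ℝ) ≤ M.a * M.a + M.a := by
  refine (M.ι_len _).trans ?_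
  have h1 : M.ι (γ⁻¹ * M.r (M.ι γ)) = (M.ι γ)⁻¹ * M.ι (M.r (M.ι γ)) := by
    rw [map_mul, map_inv]
  rw [h1]
  have := mul_le_mul_of_nonneg_left (M.hr' (M.ι γ)) M.a0
  linarith


include M in
theorem CModel.hgt_le (γ : Γ) (i : Fin k) : |hgtR π γ i| ≤ M.a * (M.a * wordLength S γ) := by
  rw [← M.h_ι]
  exact (M.h_le _ i).trans (mul_le_mul_of_nonneg_left (M.len_ι γ) M.a0)

theorem hgtR_mul (g y : Γ) : hgtR π (g * y) = hgtR π g + hgtR π y := by
  funext i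
  simp [hgtR, hgt_mul]

theorem hgtR_inv (g : Γ) : hgtR π g⁻¹ = - hgtR π g := by
  funext i
  simp [hgtR, hgt_inv]

include M in
theorem CModel.hgt_diff {Ψ : Γ → Γ} {K : ℕ} (hΨ : QIMap S S Ψ K) (p q : Γ) (i : Fin k) :
    |hgtR π (Ψ q) i - hgtR π (Ψ p) i| ≤ M.a * (M.a * (K * wordLength S (p⁻¹ * q) + K)) := by
  have h1 : hgtR π ((Ψ p)⁻¹ * Ψ q) i = hgtR π (Ψ q) i - hgtR π (Ψ p) i := by
    rw [hgtR_mul, hgtR_inv]
    simp only [Pi.add_apply, Pi.neg_apply]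
    ring
  rw [← h1]
  refine (M.hgt_le _ i).trans ?_
  have h2 : (wordLength S ((Ψ p)⁻¹ * Ψ q) : ℝ) ≤ K * wordLength S (p⁻¹ * q) + K := by
    exact_mod_cast hΨ.up p q
  have ha := M.a0
  gcongr

/-- the extension of a self-map of `Γ` to the model. -/
noncomputable def CModel.ext (Ψ : Γ → Γ) (g : G) : G := M.ι (Ψ (M.r g))

theorem CModel.h_ext (Ψ : Γ → Γ) (g : G) : M.h (M.ext Ψ g) = hgtR π (Ψ (M.r g)) := M.h_ι _

/-- the constant of the extension -/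
noncomputable def CModel.KK (K : ℕ) : ℝ :=
  M.a * (K * M.a) + M.a * (K * (M.a * (2 * M.a) + M.a) + K) +
    (M.a + M.a * K + M.a * (K * (M.a * M.a + M.a) + K)) +
    (M.a + M.a * (K * (M.a * (M.a + M.a * K) + M.a) + K))

include M in
theorem CModel.KK_nonneg (K : ℕ) : 0 ≤ M.KK K := by
  have ha := M.a0
  unfold CModel.KK
  positivity

theorem CModel.selfQI_ext {Ψ : Γ → Γ} {K : ℕ}
    (hΨ : QIMap S S Ψ K) : SelfQI M.len (M.ext Ψ) (M.KK K) where
  lip g u := by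
    have ha := M.a0
    have h1 : (M.ext Ψ g)⁻¹ * M.ext Ψ (g * u) = M.ι ((Ψ (M.r g))⁻¹ * Ψ (M.r (g * u))) := by
      unfold CModel.ext
      rw [map_mul, map_inv]
    rw [h1]
    refine (M.len_ι _).trans ?_
    have h2 : (wordLength S ((Ψ (M.r g))⁻¹ * Ψ (M.r (g * u))) : ℝ) ≤
        K * wordLength S ((M.r g)⁻¹ * M.r (g * u)) + K := by exact_mod_cast hΨ.up _ _
    have h3 := M.near g u
    have h4 := M.isLen.nonneg u
    calc M.a * (wordLength S ((Ψ (M.r g))⁻¹ * Ψ (M.r (g * u))) : ℝ) ≤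
          M.a * (K * (M.a * (M.len u + 2 * M.a) + M.a) + K) := by gcongr; exact h2.trans (by gcongr)
      _ = (M.a * (K * M.a)) * M.len u + M.a * (K * (M.a * (2 * M.a) + M.a) + K) := by ring
      _ ≤ M.KK K * M.len u + M.KK K := by
        unfold CModel.KK
        have e1 : (0:ℝ) ≤ M.a * (K * M.a) := by positivity
        have e2 : (0:ℝ) ≤ M.a * (K * (M.a * (2 * M.a) + M.a) + K) := by positivity
        have e3 : (0:ℝ) ≤ M.a + M.a * K + M.a * (K * (M.a * M.a + M.a) + K) := by positivity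
        have e4 : (0:ℝ) ≤ M.a + M.a * (K * (M.a * (M.a + M.a * K) + M.a) + K) := by positivity
        gcongr
        · linarith
        · linarith
  onto g u := by
    have ha := M.a0
    have hlu := M.isLen.nonneg u
    obtain ⟨p, hp⟩ := hΨ.dense (M.r (M.ext Ψ g * u))
    have hpR : (wordLength S ((M.r (M.ext Ψ g * u))⁻¹ * Ψ p) : ℝ) ≤ K := by exact_mod_cast hp
    refine ⟨g⁻¹ * M.ι p, ?_, ?_⟩
    · have h1 : M.ι ((Ψ (M.r g))⁻¹ * Ψ p) =
          u * ((M.ext Ψ g * u)⁻¹ * M.ι (M.r (M.ext Ψ g * u))) *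
            M.ι ((M.r (M.ext Ψ g * u))⁻¹ * Ψ p) := by
        rw [map_mul, map_mul, map_inv, map_inv]
        unfold CModel.ext
        group
      have h2 : M.len (M.ι ((Ψ (M.r g))⁻¹ * Ψ p)) ≤ M.len u + M.a + M.a * K := by
        rw [h1]
        have e1 := M.isLen.mul (u * ((M.ext Ψ g * u)⁻¹ * M.ι (M.r (M.ext Ψ g * u))))
            (M.ι ((M.r (M.ext Ψ g * u))⁻¹ * Ψ p))
        have e2 := M.isLen.mul u ((M.ext Ψ g * u)⁻¹ * M.ι (M.r (M.ext Ψ g * u)))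
        have e3 := M.hr' (M.ext Ψ g * u)
        have e4 := M.len_ι ((M.r (M.ext Ψ g * u))⁻¹ * Ψ p)
        have e5 := mul_le_mul_of_nonneg_left hpR ha
        linarith
      have h3 : (wordLength S ((M.r g)⁻¹ * p) : ℝ) ≤
          K * wordLength S ((Ψ (M.r g))⁻¹ * Ψ p) + K := by exact_mod_cast hΨ.lo (M.r g) p
      have h4 : (wordLength S ((Ψ (M.r g))⁻¹ * Ψ p) : ℝ) ≤ M.a * (M.len u + M.a + M.a * K) + M.a :=
        (M.ι_len _).trans (by gcongr)
      have h5 : g⁻¹ * M.ι p = (g⁻¹ * M.ι (M.r g)) * M.ι ((M.r g)⁻¹ * p) := by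
        rw [map_mul, map_inv]; group
      rw [h5]
      have h6 := M.isLen.mul (g⁻¹ * M.ι (M.r g)) (M.ι ((M.r g)⁻¹ * p))
      have h7 := M.hr' g
      have h8 := M.len_ι ((M.r g)⁻¹ * p)
      calc _ ≤ M.a + M.a * (K * (M.a * (M.len u + M.a + M.a * K) + M.a) + K) := by
            refine h6.trans (add_le_add h7 (h8.trans ?_))
            gcongr
            exact h3.trans (by gcongr)
        _ = (M.a * (K * M.a)) * M.len u + (M.a + M.a * (K * (M.a * (M.a + M.a * K) + M.a) + K)) := by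
            ring
        _ ≤ _ := by
          unfold CModel.KK
          have e1 : (0:ℝ) ≤ M.a * (K * M.a) := by positivity
          have e2 : (0:ℝ) ≤ M.a * (K * (M.a * (2 * M.a) + M.a) + K) := by positivity
          have e3 : (0:ℝ) ≤ M.a + M.a * K + M.a * (K * (M.a * M.a + M.a) + K) := by positivity
          have e4 : (0:ℝ) ≤ M.a + M.a * (K * (M.a * (M.a + M.a * K) + M.a) + K) := by positivity
          refine add_le_add (mul_le_mul_of_nonneg_right ?_ hlu) ?_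
          · linarith
          · linarith
    · have h0 : g * (g⁻¹ * M.ι p) = M.ι p := by group
      rw [h0]
      have h1 : u⁻¹ * ((M.ext Ψ g)⁻¹ * M.ext Ψ (M.ι p)) =
          ((M.ext Ψ g * u)⁻¹ * M.ι (M.r (M.ext Ψ g * u))) *
            M.ι ((M.r (M.ext Ψ g * u))⁻¹ * Ψ p) * M.ι ((Ψ p)⁻¹ * Ψ (M.r (M.ι p))) := by
        rw [map_mul, map_mul, map_inv, map_inv]
        conv_lhs => unfold CModel.ext
        conv_rhs => unfold CModel.ext
        group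
      rw [h1]
      have e1 := M.isLen.mul (((M.ext Ψ g * u)⁻¹ * M.ι (M.r (M.ext Ψ g * u))) *
            M.ι ((M.r (M.ext Ψ g * u))⁻¹ * Ψ p)) (M.ι ((Ψ p)⁻¹ * Ψ (M.r (M.ι p))))
      have e2 := M.isLen.mul ((M.ext Ψ g * u)⁻¹ * M.ι (M.r (M.ext Ψ g * u)))
            (M.ι ((M.r (M.ext Ψ g * u))⁻¹ * Ψ p))
      have e3 := M.hr' (M.ext Ψ g * u)
      have e4 := (M.len_ι ((M.r (M.ext Ψ g * u))⁻¹ * Ψ p)).trans
        (mul_le_mul_of_nonneg_left hpR ha)
      have e5 : M.len (M.ι ((Ψ p)⁻¹ * Ψ (M.r (M.ι p)))) ≤ M.a * (K * (M.a * M.a + M.a) + K) := by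
        refine (M.len_ι _).trans ?_
        gcongr
        have h2 : (wordLength S ((Ψ p)⁻¹ * Ψ (M.r (M.ι p))) : ℝ) ≤
          K * wordLength S (p⁻¹ * M.r (M.ι p)) + K := by exact_mod_cast hΨ.up _ _
        refine h2.trans ?_
        have := M.near_ι p
        gcongr
      have f1 : (0:ℝ) ≤ M.a * (K * M.a) := by positivity
      have f2 : (0:ℝ) ≤ M.a * (K * (M.a * (2 * M.a) + M.a) + K) := by positivity
      have f4 : (0:ℝ) ≤ M.a + M.a * (K * (M.a * (M.a + M.a * K) + M.a) + K) := by positivity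
      unfold CModel.KK
      linarith

theorem CModel.deep (j : Fin M.m) : Deep (fun g => M.Λ j (M.h g)) (M.δ j) := by
  intro T
  obtain ⟨c, B, hc⟩ := M.crossed j
  -- an integer vector on which Λ j is negative
  obtain ⟨v, hv⟩ : ∃ v : Fin k → ℤ, M.Λ j (fun i => (v i : ℝ)) < 0 := by
    by_contra hneg
    push Not at hneg
    refine M.Λ_ne j (LinearMap.pi_ext' fun i => LinearMap.ext_ring ?_)
    have h1 := hneg (Pi.single i 1)
    have h2 := hneg (Pi.single i (-1))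
    have e1 : (fun l => ((Pi.single i (1:ℤ) : Fin k → ℤ) l : ℝ)) = Pi.single i (1:ℝ) := by
      ext l; by_cases hl : l = i
      · subst hl; simp
      · simp [hl]
    have e2 : (fun l => ((Pi.single i (-1:ℤ) : Fin k → ℤ) l : ℝ)) = - Pi.single i (1:ℝ) := by
      ext l; by_cases hl : l = i
      · subst hl; simp
      · simp [hl]
    rw [e1] at h1
    rw [e2, map_neg] at h2
    simp only [LinearMap.comp_apply, LinearMap.coe_single, LinearMap.zero_apply]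
    linarith
  have hht : M.h (M.t v) = fun i => (v i : ℝ) := funext (M.h_t v)
  obtain ⟨n, hn, hδn⟩ := M.nontriv j
  -- depth
  obtain ⟨q, hq⟩ := exists_nat_ge (T / (- M.Λ j (fun i => (v i : ℝ))))
  have hneg : 0 < - M.Λ j (fun i => (v i : ℝ)) := by linarith
  rw [div_le_iff₀ hneg] at hq
  have hdepth : M.Λ j (M.h (M.t v ^ q)) ≤ -T := by
    rw [M.h_pow, map_smul, hht, smul_eq_mul]
    linarith
  have hnpow : ∀ l : ℕ, M.h (n ^ l) = 0 := fun l => by rw [M.h_pow, hn, smul_zero]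
  have hδpow : ∀ l : ℕ, M.δ j (n ^ l) = l * M.δ j n := by
    intro l
    induction l with
    | zero =>
      have h1 := hc.δ_mul 1 1
      rw [mul_one, M.χ_one j 1 M.h_one, one_mul] at h1
      have : M.δ j 1 = 0 := by
        have h2 := congrArg (fun z => z - M.δ j 1) h1
        simpa using h2.symm
      simp [this]
    | succ l ih =>
      rw [pow_succ, hc.δ_mul, M.χ_one j _ (hnpow l), ih]
      push_cast
      ring
  obtain ⟨l, hl⟩ := exists_nat_ge (1 / ‖M.δ j n‖)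
  have hδ0 : 0 < ‖M.δ j n‖ := norm_pos_iff.2 hδn
  rw [div_le_iff₀ hδ0] at hl
  refine ⟨n ^ l * M.t v ^ q, M.t v ^ q, ?_, hdepth, ?_⟩
  · show M.Λ j (M.h (n ^ l * M.t v ^ q)) ≤ -T
    rw [M.h_mul, hnpow, zero_add]
    exact hdepth
  · rw [hc.δ_mul, M.χ_one j _ (hnpow l), one_mul, add_sub_cancel_right, hδpow, norm_mul]
    simpa using hl


end Model

end Crest.Agent.R182.Bnd
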