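/-
R182, module BND (helper658): the uniform sublinear law implies the law with logarithmic
zero-weight error.
-/
import Mathlib
import Crest.Agent.R182.BndLaw

set_option autoImplicit false

open Filter Topology
open scoped Pointwise

namespace Crest.Agent.R182.Bnd

open Crest.GroupTheory Crest.Geometry Crest.Agent.R182.QI Crest.Agent.R182.FinPath
  Crest.Agent.R182.FinRed

variable {Γ : Type*} [Group Γ] {k : ℕ} {S : Set Γ} {π : Γ →* Multiplicative (Fin k → ℤ)}
  {A : Set Γ} {x : Fin k → Γ} {G : Type*} [Group G] (M : CModel S π A x G)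








/-- The law used by the final reduction. -/
def Law (S : Set Γ) (π : Γ →* Multiplicative (Fin k → ℤ)) (A : Set Γ) (x : Fin k → Γ) : Prop :=
  ∀ K : ℕ, ∃ (LL : Set ((Fin k → ℝ) →ₗ[ℝ] (Fin k → ℝ))) (C : ℝ → ℝ), LL.Finite ∧
    ∀ Ψ : Γ → Γ, QIMap S S Ψ K → ∃ L ∈ LL, ∀ ε > 0, ∀ (g y : Γ) (m : ℕ),
      y * (z x (hgt π y))⁻¹ ∈ A ^ m → ∀ i : Fin k,
      |hgtR π (Ψ (g * y)) i - hgtR π (Ψ g) i - L (hgtR π y) i| ≤
        ε * ((n1 (hgt π y) : ℝ) + Real.log (2 + m)) + C ε * Real.log (2 + wordLength S y)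





end Crest.Agent.R182.Bnd
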