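import Mathlib
import Crest.Agent.R182.BndLaw
import Crest.Agent.R182.BndZL2
import Crest.Agent.R182.BndMain
import Crest.Agent.R182.OneScale
import Crest.Agent.R182.OneScale2

-- ▼ part R182/BndLaw2
section

set_option autoImplicit false

open Filter Topology
open scoped Pointwise

namespace Crest.Agent.R182.Bnd

open Crest.GroupTheory Crest.Geometry Crest.Agent.R182.QI Crest.Agent.R182.FinPath
  Crest.Agent.R182.FinRed

variable {Γ : Type*} [Group Γ] {k : ℕ}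

/-- The facts about the real model `G ⊇ Γ` which are used for the law. -/
structure DModel (S : Set Γ) (π : Γ →* Multiplicative (Fin k → ℤ)) (A : Set Γ) (x : Fin k → Γ)
    (G : Type*) [Group G] where
  ι : Γ →* G
  len : G → ℝ
  isLen : IsLen len
  a : ℝ
  one_le_a : 1 ≤ a
  len_ι : ∀ γ, len (ι γ) ≤ a * wordLength S γ
  ι_len : ∀ γ, (wordLength S γ : ℝ) ≤ a * len (ι γ) + a
  round : ∀ g, ∃ γ, len ((ι γ)⁻¹ * g) ≤ a
  h : G → Fin k → ℝ
  h_mul : ∀ g g', h (g * g') = h g + h g'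
  h_ι : ∀ γ, h (ι γ) = hgtR π γ
  h_int : ∀ g, ∃ v : Fin k → ℤ, ∀ i, h g i = v i
  h_le : ∀ g i, |h g i| ≤ a * len g
  -- roots
  m : ℕ
  Λ : Fin m → ((Fin k → ℝ) →ₗ[ℝ] ℝ)
  Λ_inj : ∀ v, (∀ j, Λ j v = 0) → v = 0
  Λ_ne : ∀ j, Λ j ≠ 0
  χ : Fin m → G → ℂ
  δ : Fin m → G → ℂ
  crossed : ∀ j, ∃ c B, Crossed len (fun g => Λ j (h g)) (χ j) (δ j) c B
  nontriv : ∀ j, ∃ n, h n = 0 ∧ δ j n ≠ 0
  χ_one : ∀ j n, h n = 0 → χ j n = 1
  -- the zero-weight (Cartan) subgroup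
  C : Subgroup G
  t : (Fin k → ℤ) → G
  t_mem : ∀ v, t v ∈ C
  h_t : ∀ v i, h (t v) i = v i
  /-- size function (norm of the matrix) -/
  sz : G → ℝ
  sz_nonneg : ∀ g, 0 ≤ sz g
  sz_inv : ∀ g, sz g⁻¹ = sz g
  fine : ∀ b ∈ C, ∀ v ∈ C, h v = 0 → Fine len b v
  dec : Dec len sz (C : Set G) {v | v ∈ C ∧ h v = 0}
  growth : ∀ R : ℝ, ∃ B : ℝ, ∀ l : List G, (∀ s ∈ l, s ∈ C ∧ len s ≤ R) → h l.prod = 0 →
    Real.log (2 + sz l.prod) ≤ B * Real.log (2 + l.length)
  /-- the exponentially distorted part; any set of elements of height `0` containing `1` -/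
  E : Set G
  E_h : ∀ e ∈ E, h e = 0
  split : ∀ (y : Γ) (m : ℕ), y * (z x (hgt π y))⁻¹ ∈ A ^ m →
    ∃ (e : G) (l : List G), ι y = e * l.prod ∧ e ∈ E ∧
      len e ≤ a * ((n1 (hgt π y) : ℝ) + Real.log (2 + m) + Real.log (2 + wordLength S y)) ∧
      (l.length : ℝ) ≤ a * (wordLength S y + 1) ∧ ∀ s ∈ l, s ∈ C ∧ len s ≤ a

section Model

variable {S : Set Γ} {π : Γ →* Multiplicative (Fin k → ℤ)} {A : Set Γ} {x : Fin k → Γ}
  {G : Type*} [Group G] (M : DModel S π A x G)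

include M in
theorem DModel.a0 : 0 ≤ M.a := zero_le_one.trans M.one_le_a

theorem DModel.h_one : M.h 1 = 0 := by
  have := M.h_mul 1 1
  rw [mul_one] at this
  simpa using this

theorem DModel.h_inv (g : G) : M.h g⁻¹ = - M.h g := by
  have := M.h_mul g g⁻¹
  rw [mul_inv_cancel, M.h_one] at this
  exact (neg_eq_of_add_eq_zero_right this.symm).symm

theorem DModel.h_pow (g : G) (n : ℕ) : M.h (g ^ n) = (n : ℝ) • M.h g := by
  induction n with
  | zero => simp [M.h_one]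
  | succ n ih =>
    rw [pow_succ, M.h_mul, ih]
    push_cast
    rw [add_smul, one_smul]

/-- the rounding map -/
noncomputable def DModel.r (g : G) : Γ := (M.round g).choose

theorem DModel.hr (g : G) : M.len ((M.ι (M.r g))⁻¹ * g) ≤ M.a := (M.round g).choose_spec

theorem DModel.hr' (g : G) : M.len (g⁻¹ * M.ι (M.r g)) ≤ M.a := by
  have := M.hr g
  rw [← M.isLen.inv] at this
  simpa using this

theorem DModel.near (g u : G) :
    (wordLength S ((M.r g)⁻¹ * M.r (g * u)) : ℝ) ≤ M.a * (M.len u + 2 * M.a) + M.a := by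
  have ha := M.a0
  refine (M.ι_len _).trans ?_
  have h1 : M.ι ((M.r g)⁻¹ * M.r (g * u)) =
      ((M.ι (M.r g))⁻¹ * g) * u * ((g * u)⁻¹ * M.ι (M.r (g * u))) := by
    rw [map_mul, map_inv]; group
  have h2 : M.len (M.ι ((M.r g)⁻¹ * M.r (g * u))) ≤ M.len u + 2 * M.a := by
    rw [h1]
    have h3 := M.isLen.mul (((M.ι (M.r g))⁻¹ * g) * u) ((g * u)⁻¹ * M.ι (M.r (g * u)))
    have h4 := M.isLen.mul ((M.ι (M.r g))⁻¹ * g) u
    have h5 := M.hr g
    have h6 := M.hr' (g * u)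
    linarith
  have := mul_le_mul_of_nonneg_left h2 ha
  linarith

theorem DModel.near_ι (γ : Γ) :
    (wordLength S (γ⁻¹ * M.r (M.ι γ)) : ℝ) ≤ M.a * M.a + M.a := by
  refine (M.ι_len _).trans ?_
  have h1 : M.ι (γ⁻¹ * M.r (M.ι γ)) = (M.ι γ)⁻¹ * M.ι (M.r (M.ι γ)) := by
    rw [map_mul, map_inv]
  rw [h1]
  have := mul_le_mul_of_nonneg_left (M.hr' (M.ι γ)) M.a0
  linarith


include M in
theorem DModel.hgt_le (γ : Γ) (i : Fin k) : |hgtR π γ i| ≤ M.a * (M.a * wordLength S γ) := by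
  rw [← M.h_ι]
  exact (M.h_le _ i).trans (mul_le_mul_of_nonneg_left (M.len_ι γ) M.a0)

include M in
theorem DModel.hgt_diff {Ψ : Γ → Γ} {K : ℕ} (hΨ : QIMap S S Ψ K) (p q : Γ) (i : Fin k) :
    |hgtR π (Ψ q) i - hgtR π (Ψ p) i| ≤ M.a * (M.a * (K * wordLength S (p⁻¹ * q) + K)) := by
  have h1 : hgtR π ((Ψ p)⁻¹ * Ψ q) i = hgtR π (Ψ q) i - hgtR π (Ψ p) i := by
    rw [hgtR_mul, hgtR_inv]
    simp only [Pi.add_apply, Pi.neg_apply]
    ring
  rw [← h1]
  refine (M.hgt_le _ i).trans ?_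
  have h2 : (wordLength S ((Ψ p)⁻¹ * Ψ q) : ℝ) ≤ K * wordLength S (p⁻¹ * q) + K := by
    exact_mod_cast hΨ.up p q
  have ha := M.a0
  gcongr

/-- the extension of a self-map of `Γ` to the model. -/
noncomputable def DModel.ext (Ψ : Γ → Γ) (g : G) : G := M.ι (Ψ (M.r g))

theorem DModel.h_ext (Ψ : Γ → Γ) (g : G) : M.h (M.ext Ψ g) = hgtR π (Ψ (M.r g)) := M.h_ι _

/-- the constant of the extension -/
noncomputable def DModel.KK (K : ℕ) : ℝ :=
  M.a * (K * M.a) + M.a * (K * (M.a * (2 * M.a) + M.a) + K) +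
    (M.a + M.a * K + M.a * (K * (M.a * M.a + M.a) + K)) +
    (M.a + M.a * (K * (M.a * (M.a + M.a * K) + M.a) + K))

include M in
theorem DModel.KK_nonneg (K : ℕ) : 0 ≤ M.KK K := by
  have ha := M.a0
  unfold DModel.KK
  positivity

theorem DModel.selfQI_ext {Ψ : Γ → Γ} {K : ℕ}
    (hΨ : QIMap S S Ψ K) : SelfQI M.len (M.ext Ψ) (M.KK K) where
  lip g u := by
    have ha := M.a0
    have h1 : (M.ext Ψ g)⁻¹ * M.ext Ψ (g * u) = M.ι ((Ψ (M.r g))⁻¹ * Ψ (M.r (g * u))) := by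
      unfold DModel.ext
      rw [map_mul, map_inv]
    rw [h1]
    refine (M.len_ι _).trans ?_
    have h2 : (wordLength S ((Ψ (M.r g))⁻¹ * Ψ (M.r (g * u))) : ℝ) ≤
        K * wordLength S ((M.r g)⁻¹ * M.r (g * u)) + K := by exact_mod_cast hΨ.up _ _
    have h3 := M.near g u
    have h4 := M.isLen.nonneg u
    calc M.a * (wordLength S ((Ψ (M.r g))⁻¹ * Ψ (M.r (g * u))) : ℝ) ≤
          M.a * (K * (M.a * (M.len u + 2 * M.a) + M.a) + K) := by gcongr; exact h2.trans (by gcongr)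
      _ = (M.a * (K * M.a)) * M.len u + M.a * (K * (M.a * (2 * M.a) + M.a) + K) := by ring
      _ ≤ M.KK K * M.len u + M.KK K := by
        unfold DModel.KK
        have e1 : (0:ℝ) ≤ M.a * (K * M.a) := by positivity
        have e2 : (0:ℝ) ≤ M.a * (K * (M.a * (2 * M.a) + M.a) + K) := by positivity
        have e3 : (0:ℝ) ≤ M.a + M.a * K + M.a * (K * (M.a * M.a + M.a) + K) := by positivity
        have e4 : (0:ℝ) ≤ M.a + M.a * (K * (M.a * (M.a + M.a * K) + M.a) + K) := by positivity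
        gcongr
        · linarith
        · linarith
  onto g u := by
    have ha := M.a0
    have hlu := M.isLen.nonneg u
    obtain ⟨p, hp⟩ := hΨ.dense (M.r (M.ext Ψ g * u))
    have hpR : (wordLength S ((M.r (M.ext Ψ g * u))⁻¹ * Ψ p) : ℝ) ≤ K := by exact_mod_cast hp
    refine ⟨g⁻¹ * M.ι p, ?_, ?_⟩
    · have h1 : M.ι ((Ψ (M.r g))⁻¹ * Ψ p) =
          u * ((M.ext Ψ g * u)⁻¹ * M.ι (M.r (M.ext Ψ g * u))) *
            M.ι ((M.r (M.ext Ψ g * u))⁻¹ * Ψ p) := by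
        rw [map_mul, map_mul, map_inv, map_inv]
        unfold DModel.ext
        group
      have h2 : M.len (M.ι ((Ψ (M.r g))⁻¹ * Ψ p)) ≤ M.len u + M.a + M.a * K := by
        rw [h1]
        have e1 := M.isLen.mul (u * ((M.ext Ψ g * u)⁻¹ * M.ι (M.r (M.ext Ψ g * u))))
            (M.ι ((M.r (M.ext Ψ g * u))⁻¹ * Ψ p))
        have e2 := M.isLen.mul u ((M.ext Ψ g * u)⁻¹ * M.ι (M.r (M.ext Ψ g * u)))
        have e3 := M.hr' (M.ext Ψ g * u)
        have e4 := M.len_ι ((M.r (M.ext Ψ g * u))⁻¹ * Ψ p)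
        have e5 := mul_le_mul_of_nonneg_left hpR ha
        linarith
      have h3 : (wordLength S ((M.r g)⁻¹ * p) : ℝ) ≤
          K * wordLength S ((Ψ (M.r g))⁻¹ * Ψ p) + K := by exact_mod_cast hΨ.lo (M.r g) p
      have h4 : (wordLength S ((Ψ (M.r g))⁻¹ * Ψ p) : ℝ) ≤ M.a * (M.len u + M.a + M.a * K) + M.a :=
        (M.ι_len _).trans (by gcongr)
      have h5 : g⁻¹ * M.ι p = (g⁻¹ * M.ι (M.r g)) * M.ι ((M.r g)⁻¹ * p) := by
        rw [map_mul, map_inv]; group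
      rw [h5]
      have h6 := M.isLen.mul (g⁻¹ * M.ι (M.r g)) (M.ι ((M.r g)⁻¹ * p))
      have h7 := M.hr' g
      have h8 := M.len_ι ((M.r g)⁻¹ * p)
      calc _ ≤ M.a + M.a * (K * (M.a * (M.len u + M.a + M.a * K) + M.a) + K) := by
            refine h6.trans (add_le_add h7 (h8.trans ?_))
            gcongr
            exact h3.trans (by gcongr)
        _ = (M.a * (K * M.a)) * M.len u + (M.a + M.a * (K * (M.a * (M.a + M.a * K) + M.a) + K)) := by
            ring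
        _ ≤ _ := by
          unfold DModel.KK
          have e1 : (0:ℝ) ≤ M.a * (K * M.a) := by positivity
          have e2 : (0:ℝ) ≤ M.a * (K * (M.a * (2 * M.a) + M.a) + K) := by positivity
          have e3 : (0:ℝ) ≤ M.a + M.a * K + M.a * (K * (M.a * M.a + M.a) + K) := by positivity
          have e4 : (0:ℝ) ≤ M.a + M.a * (K * (M.a * (M.a + M.a * K) + M.a) + K) := by positivity
          refine add_le_add (mul_le_mul_of_nonneg_right ?_ hlu) ?_
          · linarith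
          · linarith
    · have h0 : g * (g⁻¹ * M.ι p) = M.ι p := by group
      rw [h0]
      have h1 : u⁻¹ * ((M.ext Ψ g)⁻¹ * M.ext Ψ (M.ι p)) =
          ((M.ext Ψ g * u)⁻¹ * M.ι (M.r (M.ext Ψ g * u))) *
            M.ι ((M.r (M.ext Ψ g * u))⁻¹ * Ψ p) * M.ι ((Ψ p)⁻¹ * Ψ (M.r (M.ι p))) := by
        rw [map_mul, map_mul, map_inv, map_inv]
        conv_lhs => unfold DModel.ext
        conv_rhs => unfold DModel.ext
        group
      rw [h1]
      have e1 := M.isLen.mul (((M.ext Ψ g * u)⁻¹ * M.ι (M.r (M.ext Ψ g * u))) *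
            M.ι ((M.r (M.ext Ψ g * u))⁻¹ * Ψ p)) (M.ι ((Ψ p)⁻¹ * Ψ (M.r (M.ι p))))
      have e2 := M.isLen.mul ((M.ext Ψ g * u)⁻¹ * M.ι (M.r (M.ext Ψ g * u)))
            (M.ι ((M.r (M.ext Ψ g * u))⁻¹ * Ψ p))
      have e3 := M.hr' (M.ext Ψ g * u)
      have e4 := (M.len_ι ((M.r (M.ext Ψ g * u))⁻¹ * Ψ p)).trans
        (mul_le_mul_of_nonneg_left hpR ha)
      have e5 : M.len (M.ι ((Ψ p)⁻¹ * Ψ (M.r (M.ι p)))) ≤ M.a * (K * (M.a * M.a + M.a) + K) := by
        refine (M.len_ι _).trans ?_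
        gcongr
        have h2 : (wordLength S ((Ψ p)⁻¹ * Ψ (M.r (M.ι p))) : ℝ) ≤
          K * wordLength S (p⁻¹ * M.r (M.ι p)) + K := by exact_mod_cast hΨ.up _ _
        refine h2.trans ?_
        have := M.near_ι p
        gcongr
      have f1 : (0:ℝ) ≤ M.a * (K * M.a) := by positivity
      have f2 : (0:ℝ) ≤ M.a * (K * (M.a * (2 * M.a) + M.a) + K) := by positivity
      have f4 : (0:ℝ) ≤ M.a + M.a * (K * (M.a * (M.a + M.a * K) + M.a) + K) := by positivity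
      unfold DModel.KK
      linarith

theorem DModel.deep (j : Fin M.m) : Deep (fun g => M.Λ j (M.h g)) (M.δ j) := by
  intro T
  obtain ⟨c, B, hc⟩ := M.crossed j
  -- an integer vector on which Λ j is negative
  obtain ⟨v, hv⟩ : ∃ v : Fin k → ℤ, M.Λ j (fun i => (v i : ℝ)) < 0 := by
    by_contra hneg
    push Not at hneg
    refine M.Λ_ne j (LinearMap.pi_ext' fun i => LinearMap.ext_ring ?_)
    have h1 := hneg (Pi.single i 1)
    have h2 := hneg (Pi.single i (-1))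
    have e1 : (fun l => ((Pi.single i (1:ℤ) : Fin k → ℤ) l : ℝ)) = Pi.single i (1:ℝ) := by
      ext l; by_cases hl : l = i
      · subst hl; simp
      · simp [hl]
    have e2 : (fun l => ((Pi.single i (-1:ℤ) : Fin k → ℤ) l : ℝ)) = - Pi.single i (1:ℝ) := by
      ext l; by_cases hl : l = i
      · subst hl; simp
      · simp [hl]
    rw [e1] at h1
    rw [e2, map_neg] at h2
    simp only [LinearMap.comp_apply, LinearMap.coe_single, LinearMap.zero_apply]
    linarith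
  have hht : M.h (M.t v) = fun i => (v i : ℝ) := funext (M.h_t v)
  obtain ⟨n, hn, hδn⟩ := M.nontriv j
  -- depth
  obtain ⟨q, hq⟩ := exists_nat_ge (T / (- M.Λ j (fun i => (v i : ℝ))))
  have hneg : 0 < - M.Λ j (fun i => (v i : ℝ)) := by linarith
  rw [div_le_iff₀ hneg] at hq
  have hdepth : M.Λ j (M.h (M.t v ^ q)) ≤ -T := by
    rw [M.h_pow, map_smul, hht, smul_eq_mul]
    linarith
  have hnpow : ∀ l : ℕ, M.h (n ^ l) = 0 := fun l => by rw [M.h_pow, hn, smul_zero]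
  have hδpow : ∀ l : ℕ, M.δ j (n ^ l) = l * M.δ j n := by
    intro l
    induction l with
    | zero =>
      have h1 := hc.δ_mul 1 1
      rw [mul_one, M.χ_one j 1 M.h_one, one_mul] at h1
      have : M.δ j 1 = 0 := by
        have h2 := congrArg (fun z => z - M.δ j 1) h1
        simpa using h2.symm
      simp [this]
    | succ l ih =>
      rw [pow_succ, hc.δ_mul, M.χ_one j _ (hnpow l), ih]
      push_cast
      ring
  obtain ⟨l, hl⟩ := exists_nat_ge (1 / ‖M.δ j n‖)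
  have hδ0 : 0 < ‖M.δ j n‖ := norm_pos_iff.2 hδn
  rw [div_le_iff₀ hδ0] at hl
  refine ⟨n ^ l * M.t v ^ q, M.t v ^ q, ?_, hdepth, ?_⟩
  · show M.Λ j (M.h (n ^ l * M.t v ^ q)) ≤ -T
    rw [M.h_mul, hnpow, zero_add]
    exact hdepth
  · rw [hc.δ_mul, M.χ_one j _ (hnpow l), one_mul, add_sub_cancel_right, hδpow, norm_mul]
    simpa using hl


end Model

end Crest.Agent.R182.Bnd
end

-- ▼ part R182/BndLegs
section

set_option autoImplicit false

open Filter Topology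
open scoped Pointwise

namespace Crest.Agent.R182.Bnd

open Crest.GroupTheory Crest.Geometry Crest.Agent.R182.QI Crest.Agent.R182.FinPath
  Crest.Agent.R182.FinRed

variable {Γ : Type*} [Group Γ] {k : ℕ} {S : Set Γ} {π : Γ →* Multiplicative (Fin k → ℤ)}
  {A : Set Γ} {x : Fin k → Γ} {G : Type*} [Group G] (M : DModel S π A x G)



/-- `ℓ¹`-norm of a height -/
def ht1 (u : Fin k → ℝ) : ℝ := ∑ j, |u j|

theorem ht1_nonneg (u : Fin k → ℝ) : 0 ≤ ht1 u := Finset.sum_nonneg fun _ _ => abs_nonneg _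

theorem ht1_intCast (v : Fin k → ℤ) : ht1 (fun i => (v i : ℝ)) = n1 v := by
  unfold ht1 n1
  push_cast
  refine Finset.sum_congr rfl fun i _ => ?_
  rw [← Int.cast_abs, ← Nat.cast_natAbs]

/-- A finite family of elements of `C` whose heights positively span, with constant `a'`
(independent of the size of the heights). -/
structure DModel.Legs (a' : ℝ) where
  idx : Type
  [fin : Fintype idx]
  b : idx → G
  mem : ∀ i, b i ∈ M.C
  R : ℝ
  span : ∀ v : Fin k → ℤ, ∃ n : idx → ℕ,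
    (∑ i, (n i : ℝ) * ht1 (M.h (b i)) ≤ a' * ((n1 v : ℝ) + 1)) ∧
    (∑ i, (n i : ℝ) ≤ R * ((n1 v : ℝ) + 1)) ∧
    ∀ j, |(v j : ℝ) - ∑ i, (n i : ℝ) * M.h (b i) j| ≤ R

attribute [instance] DModel.Legs.fin

/-- The sublinear law of a self-map of the model at precision `ε`, for the powers of the legs and
for the exponentially distorted part. -/
structure DModel.SubB {a' : ℝ} (B : M.Legs a') (L : (Fin k → ℝ) →ₗ[ℝ] (Fin k → ℝ)) (ε C : ℝ)
    (Φ : G → G) : Prop where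
  legs : ∀ (g : G) (i : B.idx) (n : ℕ) (j : Fin k),
    |M.h (Φ (g * B.b i ^ n)) j - M.h (Φ g) j - (n : ℝ) * L (M.h (B.b i)) j| ≤
      ε * (n * ht1 (M.h (B.b i))) + C
  exp : ∀ g : G, ∀ e ∈ M.E, ∀ j : Fin k,
    |M.h (Φ (g * e)) j - M.h (Φ g) j| ≤ ε * M.len e + C

variable {M}

theorem DModel.SubB.mono {a' : ℝ} {B : M.Legs a'} {L : (Fin k → ℝ) →ₗ[ℝ] (Fin k → ℝ)}
    {ε ε' C : ℝ} {Φ : G → G} (h : M.SubB B L ε C Φ) (hε : ε ≤ ε') : M.SubB B L ε' C Φ where
  legs g i n j := (h.legs g i n j).trans (by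
    have := mul_le_mul_of_nonneg_right hε
      (mul_nonneg (Nat.cast_nonneg n) (ht1_nonneg (M.h (B.b i))))
    linarith)
  exp g e he j := (h.exp g e he j).trans (by
    have := mul_le_mul_of_nonneg_right hε (M.isLen.nonneg e)
    linarith)

/-- a leg on which a given nonzero functional is quantitatively negative -/
theorem DModel.exists_leg (φ : (Fin k → ℝ) →ₗ[ℝ] ℝ) (hφ : φ ≠ 0) (a' : ℝ) :
    ∃ c : ℝ, 0 < c ∧ ∀ B : M.Legs a', ∃ i, c * ht1 (M.h (B.b i)) < -φ (M.h (B.b i)) := by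
  obtain ⟨v, hv⟩ : ∃ v : Fin k → ℤ, φ (fun i => (v i : ℝ)) < 0 := by
    by_contra hneg
    push Not at hneg
    refine hφ (LinearMap.pi_ext' fun i => LinearMap.ext_ring ?_)
    have h1 := hneg (Pi.single i 1)
    have h2 := hneg (Pi.single i (-1))
    have e1 : (fun l => ((Pi.single i (1:ℤ) : Fin k → ℤ) l : ℝ)) = Pi.single i (1:ℝ) := by
      ext l; by_cases hl : l = i
      · subst hl; simp
      · simp [hl]
    have e2 : (fun l => ((Pi.single i (-1:ℤ) : Fin k → ℤ) l : ℝ)) = - Pi.single i (1:ℝ) := by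
      ext l; by_cases hl : l = i
      · subst hl; simp
      · simp [hl]
    rw [e1] at h1
    rw [e2, map_neg] at h2
    simp only [LinearMap.comp_apply, LinearMap.coe_single, LinearMap.zero_apply]
    linarith
  set τ : ℝ := -φ (fun i => (v i : ℝ)) with hτ
  have hτ0 : 0 < τ := by rw [hτ]; linarith
  obtain ⟨cφ, hcφ, hφb⟩ := exists_fun_bound φ
  refine ⟨τ / (2 * (|a'| * ((n1 v : ℝ) + 1) + 1)), by positivity, fun B => ?_⟩
  by_contra hneg
  push Not at hneg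
  set c : ℝ := τ / (2 * (|a'| * ((n1 v : ℝ) + 1) + 1)) with hc
  obtain ⟨N, hN⟩ := exists_nat_gt (2 * (cφ * |B.R|) / τ)
  rw [div_lt_iff₀ hτ0] at hN
  obtain ⟨n, hn1, -, hn2⟩ := B.span ((N + 1 : ℕ) • v)
  have hn1v : ((n1 ((N + 1 : ℕ) • v) : ℕ) : ℝ) = (N + 1 : ℕ) * n1 v := by
    have h1 : n1 ((N + 1 : ℕ) • v) = (N + 1) * n1 v := by
      unfold n1
      rw [Finset.mul_sum]
      refine Finset.sum_congr rfl fun i _ => ?_
      rw [Pi.smul_apply, nsmul_eq_mul, Int.natAbs_mul, Int.natAbs_natCast]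
    rw [h1]; push_cast; ring
  rw [hn1v] at hn1
  have hsum : -φ (∑ i, (n i : ℝ) • M.h (B.b i)) ≤ c * ∑ i, (n i : ℝ) * ht1 (M.h (B.b i)) := by
    rw [map_sum, ← Finset.sum_neg_distrib, Finset.mul_sum]
    refine Finset.sum_le_sum fun i _ => ?_
    rw [map_smul, smul_eq_mul]
    have := mul_le_mul_of_nonneg_left (hneg i) (Nat.cast_nonneg (α := ℝ) (n i))
    linarith
  have hdiff := hφb ((fun j => ((((N + 1 : ℕ) • v) j : ℤ) : ℝ)) - ∑ i, (n i : ℝ) • M.h (B.b i))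
    |B.R| (abs_nonneg _) (fun j => by
      rw [Pi.sub_apply, Finset.sum_apply]
      simp only [Pi.smul_apply, smul_eq_mul]
      exact (hn2 j).trans (le_abs_self _))
  have hNv : (fun j => ((((N + 1 : ℕ) • v) j : ℤ) : ℝ)) = ((N + 1 : ℕ) : ℝ) •
      (fun i => (v i : ℝ)) := by
    funext j
    simp only [Pi.smul_apply, nsmul_eq_mul, smul_eq_mul]
    push_cast; ring
  rw [hNv, map_sub, map_smul, smul_eq_mul] at hdiff
  have h1 := (abs_le.1 hdiff).1
  have hN1 : (1 : ℝ) ≤ ((N + 1 : ℕ) : ℝ) := by push_cast; linarith [Nat.cast_nonneg (α := ℝ) N]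
  have hc0 : 0 ≤ c := by positivity
  have h2 : c * ∑ i, (n i : ℝ) * ht1 (M.h (B.b i)) ≤ ((N + 1 : ℕ) : ℝ) * (τ / 2) := by
    have h3 : a' * (((N + 1 : ℕ) : ℝ) * n1 v + 1) ≤
        (|a'| * ((n1 v : ℝ) + 1) + 1) * ((N + 1 : ℕ) : ℝ) := by
      have e1 : a' * (((N + 1 : ℕ) : ℝ) * n1 v + 1) ≤
          |a'| * (((N + 1 : ℕ) : ℝ) * n1 v + 1) :=
        mul_le_mul_of_nonneg_right (le_abs_self _) (by positivity)
      have e2 : |a'| * (((N + 1 : ℕ) : ℝ) * n1 v + 1) ≤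
          |a'| * (((N + 1 : ℕ) : ℝ) * n1 v + ((N + 1 : ℕ) : ℝ)) :=
        mul_le_mul_of_nonneg_left (by linarith) (abs_nonneg _)
      nlinarith
    calc c * ∑ i, (n i : ℝ) * ht1 (M.h (B.b i)) ≤
          c * ((|a'| * ((n1 v : ℝ) + 1) + 1) * ((N + 1 : ℕ) : ℝ)) :=
          mul_le_mul_of_nonneg_left (hn1.trans h3) hc0
      _ = ((N + 1 : ℕ) : ℝ) * (τ / 2) := by rw [hc]; field_simp
  have h3 : φ (fun i => (v i : ℝ)) = -τ := by rw [hτ]; ring
  rw [h3] at h1
  have h4 : (N : ℝ) * τ < ((N + 1 : ℕ) : ℝ) * τ := by push_cast; nlinarith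
  nlinarith

theorem DModel.SubB.descent {a' : ℝ} {B : M.Legs a'} {L : (Fin k → ℝ) →ₗ[ℝ] (Fin k → ℝ)}
    {ε C : ℝ} {Φ : G → G} (h : M.SubB B L ε C Φ) (hε : 0 ≤ ε) (φ : (Fin k → ℝ) →ₗ[ℝ] ℝ) {cφ : ℝ}
    (hcφ : 0 ≤ cφ) (hφb : ∀ (u : Fin k → ℝ) (B : ℝ), 0 ≤ B → (∀ i, |u i| ≤ B) → |φ u| ≤ cφ * B)
    (i : B.idx) (hneg : cφ * ε * ht1 (M.h (B.b i)) ≤ -φ (L (M.h (B.b i))) / 2) :
    Descent (fun g => φ (M.h g)) (B.b i) Φ (-φ (L (M.h (B.b i))) / 2) (cφ * |C|) := by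
  intro g n
  have h1 := hφb (M.h (Φ (g * B.b i ^ n)) - M.h (Φ g) - (n : ℝ) • L (M.h (B.b i)))
    (ε * (n * ht1 (M.h (B.b i))) + |C|) (by have := ht1_nonneg (M.h (B.b i)); positivity)
    (fun j => (h.legs g i n j).trans (by linarith [le_abs_self C]))
  rw [map_sub, map_sub, map_smul, smul_eq_mul] at h1
  have h2 := (abs_le.1 h1).2
  have h3 := mul_le_mul_of_nonneg_left hneg (Nat.cast_nonneg (α := ℝ) n)
  show φ (M.h (Φ (g * B.b i ^ n))) ≤ φ (M.h (Φ g)) - _ * n + cφ * |C|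
  nlinarith

/-- **ZL** for self-maps of the model obeying the sublinear law along legs. -/
theorem DModel.zlB (L : (Fin k → ℝ) →ₗ[ℝ] (Fin k → ℝ)) (hLne : ∀ j, M.Λ j ∘ₗ L ≠ 0)
    (a' : ℝ) : ∃ ε₀ : ℝ, 0 < ε₀ ∧ ∀ (B : M.Legs a') (C K : ℝ), 0 ≤ K →
      ∃ C₂ : ℝ, 0 ≤ C₂ ∧ ∀ Φ : G → G, SelfQI M.len Φ K → M.SubB B L ε₀ C Φ → ∀ g : G,
        ∀ v ∈ M.C, M.h v = 0 → ∀ i, |M.h (Φ (g * v)) i - M.h (Φ g) i| ≤
          C₂ * Real.log (2 + M.sz v) := by
  choose c hc hleg using fun j => DModel.exists_leg (M := M) (M.Λ j ∘ₗ L) (hLne j) a'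
  choose cΛ hcΛ hΛb using fun j => exists_fun_bound (M.Λ j)
  -- the precision
  obtain ⟨ε₀, hε₀, hε₀j⟩ : ∃ ε₀ : ℝ, 0 < ε₀ ∧ ∀ j, cΛ j * ε₀ ≤ c j / 2 := by
    refine ⟨(1 + ∑ j, cΛ j / (c j / 2))⁻¹, by
      have : 0 ≤ ∑ j, cΛ j / (c j / 2) := Finset.sum_nonneg fun j _ =>
        div_nonneg (hcΛ j) (by linarith [hc j])
      positivity, fun j => ?_⟩
    have hcj := hc j
    have h1 : cΛ j / (c j / 2) ≤ ∑ j, cΛ j / (c j / 2) :=
      Finset.single_le_sum (f := fun j => cΛ j / (c j / 2))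
        (fun j _ => div_nonneg (hcΛ j) (by linarith [hc j])) (Finset.mem_univ j)
    have h2 : 0 ≤ ∑ j, cΛ j / (c j / 2) := Finset.sum_nonneg fun j _ =>
        div_nonneg (hcΛ j) (by linarith [hc j])
    rw [← div_eq_mul_inv, div_le_iff₀ (by linarith)]
    rw [div_le_iff₀ (by linarith)] at h1
    nlinarith
  refine ⟨ε₀, hε₀, fun B C K hK => ?_⟩
  have hone : ∀ j : Fin M.m, ∃ C₂ : ℝ, 0 ≤ C₂ ∧ ∀ Φ : G → G, SelfQI M.len Φ K →
      M.SubB B L ε₀ C Φ → ∀ g : G, ∀ v ∈ {v | v ∈ M.C ∧ M.h v = 0},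
      |M.Λ j (M.h (Φ (g * v))) - M.Λ j (M.h (Φ g))| ≤ C₂ * Real.log (2 + M.sz v) := by
    intro j
    obtain ⟨i, hi⟩ := hleg j B
    obtain ⟨c', B', hc'⟩ := M.crossed j
    have hneg : cΛ j * ε₀ * ht1 (M.h (B.b i)) ≤ -(M.Λ j) (L (M.h (B.b i))) / 2 := by
      have h1 := mul_le_mul_of_nonneg_right (hε₀j j) (ht1_nonneg (M.h (B.b i)))
      rw [LinearMap.comp_apply] at hi
      linarith
    have hη : 0 < -(M.Λ j) (L (M.h (B.b i))) / 2 := by
      rw [LinearMap.comp_apply] at hi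
      have := mul_nonneg (hc j).le (ht1_nonneg (M.h (B.b i)))
      linarith
    obtain ⟨C₂, hC₂, hfin⟩ := log_law' M.isLen hc' (B.b i) (C := (M.C : Set G))
      (N0 := {v | v ∈ M.C ∧ M.h v = 0}) (fun v hv => hv.1)
      (fun v hv => M.fine _ (B.mem i) v hv.1 hv.2)
      (fun g hg n => ⟨M.C.mul_mem (M.C.inv_mem hg) (M.C.mul_mem (M.C.mul_mem
        (M.C.inv_mem (M.C.pow_mem (B.mem i) n)) hg) (M.C.pow_mem (B.mem i) n)), by
          rw [M.h_mul, M.h_mul, M.h_mul, M.h_inv, M.h_inv]; abel⟩)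
      (M.deep j)
      (fun v hv => ⟨M.C.inv_mem hv.1, by rw [M.h_inv, hv.2, neg_zero]⟩)
      M.sz_nonneg (fun v _ => M.sz_inv v) M.dec (cΛ j * |C|) hK hη
    exact ⟨C₂, hC₂, fun Φ h1 h2 g v hv => hfin Φ h1
      (h2.descent hε₀.le (M.Λ j) (hcΛ j) (hΛb j) i hneg) g v hv⟩
  choose C₂ hC₂ hfin using hone
  obtain ⟨c, hc, hcb⟩ := exists_coord_bound M.Λ M.Λ_inj
  refine ⟨c * ∑ j, C₂ j, mul_nonneg hc (Finset.sum_nonneg fun j _ => hC₂ j),
    fun Φ h1 h2 g v hv hv0 i => ?_⟩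
  have hlog : 0 ≤ Real.log (2 + M.sz v) :=
    Real.log_nonneg (by have := M.sz_nonneg v; linarith)
  have h3 := hcb (M.h (Φ (g * v)) - M.h (Φ g))
    ((∑ j, C₂ j) * Real.log (2 + M.sz v))
    (mul_nonneg (Finset.sum_nonneg fun j _ => hC₂ j) hlog) (fun j => by
      rw [map_sub]
      refine (hfin j Φ h1 h2 g v ⟨hv, hv0⟩).trans (mul_le_mul_of_nonneg_right ?_ hlog)
      exact Finset.single_le_sum (f := C₂) (fun j _ => hC₂ j) (Finset.mem_univ j)) i
  rw [mul_assoc]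
  exact h3

theorem log_two_add_le {w P l : ℝ} (hw : 0 ≤ w) (hP : 0 ≤ P) (hl0 : 0 ≤ l)
    (hl : l ≤ P * (w + 1)) :
    Real.log (2 + l) ≤ (Real.log (2 + P) / Real.log 2 + 1) * Real.log (2 + w) := by
  have hlog2 : 0 < Real.log 2 := Real.log_pos (by norm_num)
  have h1 : 2 + l ≤ (2 + P) * (2 + w) := by nlinarith
  have h2 : Real.log (2 + l) ≤ Real.log (2 + P) + Real.log (2 + w) := by
    rw [← Real.log_mul (by positivity) (by positivity)]
    exact Real.log_le_log (by positivity) h1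
  have h3 : Real.log 2 ≤ Real.log (2 + w) := Real.log_le_log (by norm_num) (by linarith)
  have h4 : 0 ≤ Real.log (2 + P) := Real.log_nonneg (by linarith)
  have h5 : Real.log (2 + P) ≤ Real.log (2 + P) / Real.log 2 * Real.log (2 + w) := by
    rw [div_mul_eq_mul_div, le_div_iff₀ hlog2]
    exact mul_le_mul_of_nonneg_left h3 h4
  linarith

/-- The law of one map at a fixed precision. -/
def LawE (S : Set Γ) (π : Γ →* Multiplicative (Fin k → ℤ)) (A : Set Γ) (x : Fin k → Γ)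
    (L : (Fin k → ℝ) →ₗ[ℝ] (Fin k → ℝ)) (ε C : ℝ) (Ψ : Γ → Γ) : Prop :=
  ∀ (g y : Γ) (m : ℕ), y * (z x (hgt π y))⁻¹ ∈ A ^ m → ∀ i : Fin k,
    |hgtR π (Ψ (g * y)) i - hgtR π (Ψ g) i - L (hgtR π y) i| ≤
      ε * ((n1 (hgt π y) : ℝ) + Real.log (2 + m)) + C * Real.log (2 + wordLength S y)

/-- the law along a product of powers of legs -/
theorem DModel.SubB.list {a' : ℝ} {B : M.Legs a'} {L : (Fin k → ℝ) →ₗ[ℝ] (Fin k → ℝ)}
    {ε C : ℝ} {Φ : G → G} (h : M.SubB B L ε C Φ) (n : B.idx → ℕ) (l : List B.idx) (g : G)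
    (j : Fin k) : |M.h (Φ (g * (l.map fun i => B.b i ^ n i).prod)) j - M.h (Φ g) j -
      L (M.h (l.map fun i => B.b i ^ n i).prod) j| ≤
        ε * (l.map fun i => (n i : ℝ) * ht1 (M.h (B.b i))).sum + l.length * C := by
  induction l generalizing g with
  | nil => simp [M.h_one]
  | cons i l ih =>
    simp only [List.map_cons, List.prod_cons, List.sum_cons, List.length_cons]
    have h1 := h.legs g i (n i) j
    have h2 := ih (g * B.b i ^ n i)
    have h3 : L (M.h (B.b i ^ n i * (l.map fun i => B.b i ^ n i).prod)) j =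
        (n i : ℝ) * L (M.h (B.b i)) j + L (M.h (l.map fun i => B.b i ^ n i).prod) j := by
      rw [M.h_mul, M.h_pow, map_add, map_smul]
      simp only [Pi.add_apply, Pi.smul_apply, smul_eq_mul]
    rw [h3, ← mul_assoc]
    have h4 := abs_add_le (M.h (Φ (g * B.b i ^ n i)) j - M.h (Φ g) j -
        (n i : ℝ) * L (M.h (B.b i)) j)
      (M.h (Φ (g * B.b i ^ n i * (l.map fun i => B.b i ^ n i).prod)) j -
        M.h (Φ (g * B.b i ^ n i)) j - L (M.h (l.map fun i => B.b i ^ n i).prod) j)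
    have h5 : M.h (Φ (g * B.b i ^ n i)) j - M.h (Φ g) j -
        (n i : ℝ) * L (M.h (B.b i)) j +
      (M.h (Φ (g * B.b i ^ n i * (l.map fun i => B.b i ^ n i).prod)) j -
        M.h (Φ (g * B.b i ^ n i)) j - L (M.h (l.map fun i => B.b i ^ n i).prod) j) =
      M.h (Φ (g * B.b i ^ n i * (l.map fun i => B.b i ^ n i).prod)) j - M.h (Φ g) j -
      ((n i : ℝ) * L (M.h (B.b i)) j + L (M.h (l.map fun i => B.b i ^ n i).prod) j) := by ring
    rw [h5] at h4
    push_cast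
    linarith

end Crest.Agent.R182.Bnd
end

-- ▼ part R182/BndStep
section

set_option autoImplicit false

open Filter Topology
open scoped Pointwise

namespace Crest.Agent.R182.Bnd

open Crest.GroupTheory Crest.Geometry Crest.Agent.R182.QI Crest.Agent.R182.FinPath
  Crest.Agent.R182.FinRed

variable {Γ : Type*} [Group Γ] {k : ℕ} {S : Set Γ} {π : Γ →* Multiplicative (Fin k → ℤ)}
  {A : Set Γ} {x : Fin k → Γ} {G : Type*} [Group G] {M : DModel S π A x G}

theorem DModel.h_legs {a' : ℝ} (B : M.Legs a') (n : B.idx → ℕ) (l : List B.idx) :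
    M.h (l.map fun i => B.b i ^ n i).prod = (l.map fun i => (n i : ℝ) • M.h (B.b i)).sum := by
  induction l with
  | nil => simp [M.h_one]
  | cons i l ih =>
    simp only [List.map_cons, List.prod_cons, List.sum_cons]
    rw [M.h_mul, M.h_pow, ih]

theorem finite_box (R : ℝ) : {w : Fin k → ℤ | ∀ j, |(w j : ℝ)| ≤ R}.Finite := by
  refine (Set.finite_Icc (fun _ : Fin k => -⌈R⌉) (fun _ : Fin k => ⌈R⌉)).subset ?_
  intro w hw
  constructor
  · intro j
    have h1 := (abs_le.1 (hw j)).1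
    have h2 := Int.le_ceil R
    have h3 : (-(⌈R⌉ : ℝ)) ≤ w j := by linarith
    exact_mod_cast h3
  · intro j
    have h1 := (abs_le.1 (hw j)).2
    have h2 := Int.le_ceil R
    have h3 : (w j : ℝ) ≤ ⌈R⌉ := by linarith
    exact_mod_cast h3

/-- the conclusion of ZL -/
def DModel.ZL (M : DModel S π A x G) (C₂ : ℝ) (Φ : G → G) : Prop :=
  ∀ g : G, ∀ v ∈ M.C, M.h v = 0 → ∀ i, |M.h (Φ (g * v)) i - M.h (Φ g) i| ≤
    C₂ * Real.log (2 + M.sz v)

set_option maxHeartbeats 1000000 in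
/-- **LAW** for one linear map at fixed precision. -/
theorem DModel.lawB (M : DModel S π A x G) (L : (Fin k → ℝ) →ₗ[ℝ] (Fin k → ℝ)) {a' : ℝ}
    (B : M.Legs a') {ε C C₂ : ℝ} (hε : 0 ≤ ε) (hC₂ : 0 ≤ C₂) (K : ℕ) :
    ∃ C' : ℝ, 0 ≤ C' ∧ ∀ Ψ : Γ → Γ, QIMap S S Ψ K → M.SubB B L ε C (M.ext Ψ) →
      M.ZL C₂ (M.ext Ψ) → LawE S π A x L (ε * (M.a + |a'|)) C' Ψ := by
  classical
  have ha := M.a0
  have hlog2 : 0 < Real.log 2 := Real.log_pos (by norm_num)
  obtain ⟨cL, hcL, hLb⟩ := exists_lin_bound L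
  obtain ⟨κ0, hκ0⟩ := ((finite_box (k := k) B.R).image fun w => M.len (M.t w)).bddAbove
  have hκ0' : ∀ w : Fin k → ℤ, (∀ j, |(w j : ℝ)| ≤ B.R) → M.len (M.t w) ≤ |κ0| := fun w hw =>
    (hκ0 ⟨w, hw, rfl⟩).trans (le_abs_self _)
  set ρ : ℝ := ∑ i, M.len (B.b i) with hρ
  have hρi : ∀ i, M.len (B.b i) ≤ ρ := fun i =>
    Finset.single_le_sum (f := fun i => M.len (B.b i)) (fun i _ => M.isLen.nonneg _)
      (Finset.mem_univ i)
  have hρ0 : 0 ≤ ρ := Finset.sum_nonneg fun i _ => M.isLen.nonneg _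
  obtain ⟨Bg, hBg⟩ := M.growth (ρ + M.a + |κ0|)
  have hKK := M.KK_nonneg K
  set κ : ℝ := M.a * (M.a * (K * (M.a * M.a + M.a) + K)) with hκ
  have hκn : 0 ≤ κ := by positivity
  set κ1 : ℝ := M.a * (M.KK K * |κ0| + M.KK K) with hκ1
  have hκ1n : 0 ≤ κ1 := by positivity
  set P1 : ℝ := |B.R| * (k * (M.a * M.a) + 1) + M.a + 1 with hP1
  have hP10 : 0 ≤ P1 := by positivity
  set Q : ℝ := Real.log (2 + P1) / Real.log 2 + 1 with hQ
  have hQ0 : 0 ≤ Q := by
    have : 0 ≤ Real.log (2 + P1) := Real.log_nonneg (by linarith)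
    positivity
  set q : ℝ := ((Finset.univ : Finset B.idx).toList.length : ℝ) with hq
  have hq0 : 0 ≤ q := Nat.cast_nonneg _
  refine ⟨(2 * κ + (1 + q) * |C| + κ1 + cL * |B.R| + ε * |a'|) / Real.log 2 + ε * M.a +
    C₂ * (|Bg| * Q), by positivity, fun Ψ hΨ hL hzl g y m hm i => ?_⟩
  obtain ⟨e, l, hel, heE, hle, hll, hlC⟩ := M.split y m hm
  set n : ℝ := (n1 (hgt π y) : ℝ) with hn
  set w : ℝ := (wordLength S y : ℝ) with hw
  set lm : ℝ := Real.log (2 + m) with hlm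
  set lw : ℝ := Real.log (2 + w) with hlw
  have hn0 : 0 ≤ n := Nat.cast_nonneg _
  have hw0 : 0 ≤ w := Nat.cast_nonneg _
  have hlm0 : 0 ≤ lm := Real.log_nonneg (by
    have : (0 : ℝ) ≤ m := Nat.cast_nonneg m
    linarith)
  have hlw2 : Real.log 2 ≤ lw := Real.log_le_log (by norm_num) (by linarith)
  have hlw0 : 0 ≤ lw := hlog2.le.trans hlw2
  have he0 : M.h e = 0 := M.E_h e heE
  have hcC : l.prod ∈ M.C := M.C.list_prod_mem fun s hs => (hlC s hs).1
  have hhc : M.h l.prod = hgtR π y := by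
    have h1 := M.h_ι y
    rw [hel, M.h_mul, he0, zero_add] at h1
    exact h1
  -- bound of n by w
  have hnw : n ≤ k * (M.a * M.a) * w := by
    have h1 : n = ∑ i, |hgtR π y i| := by
      rw [hn, ← ht1_intCast]; rfl
    rw [h1]
    calc ∑ i, |hgtR π y i| ≤ ∑ _i : Fin k, M.a * (M.a * w) :=
          Finset.sum_le_sum fun i _ => M.hgt_le y i
      _ = k * (M.a * M.a) * w := by
          rw [Finset.sum_const, Finset.card_univ, Fintype.card_fin, nsmul_eq_mul]; ring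
  -- the legs
  obtain ⟨ν, hν1, hν2, hν3⟩ := B.span (hgt π y)
  set P := ((Finset.univ : Finset B.idx).toList.map fun i => B.b i ^ ν i).prod with hP
  have hPC : P ∈ M.C := M.C.list_prod_mem fun s hs => by
    obtain ⟨i, -, rfl⟩ := List.mem_map.mp hs
    exact M.C.pow_mem (B.mem i) _
  have hhP : ∀ j, M.h P j = ∑ i, (ν i : ℝ) * M.h (B.b i) j := by
    intro j
    rw [hP, DModel.h_legs]
    have h1 : (((Finset.univ : Finset B.idx).toList.map fun i => (ν i : ℝ) • M.h (B.b i)).sum) =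
        ∑ i, (ν i : ℝ) • M.h (B.b i) := by
      rw [Finset.sum_eq_multiset_sum, ← Finset.coe_toList, Multiset.map_coe, Multiset.sum_coe]
    rw [h1, Finset.sum_apply]
    rfl
  obtain ⟨w0, hw0e⟩ := M.h_int (P⁻¹ * l.prod)
  have hw0' : ∀ j, (w0 j : ℝ) = hgtR π y j - M.h P j := by
    intro j
    rw [← hw0e j, M.h_mul, M.h_inv, hhc]
    simp only [Pi.add_apply, Pi.neg_apply]
    ring
  have hw0b : ∀ j, |(w0 j : ℝ)| ≤ B.R := by
    intro j
    rw [hw0' j, hhP j]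
    exact hν3 j
  set c0 := M.t w0 with hc0
  have hc0C : c0 ∈ M.C := M.t_mem _
  have hc0h : M.h c0 = fun j => (w0 j : ℝ) := funext (M.h_t w0)
  have hc0l : M.len c0 ≤ |κ0| := hκ0' w0 hw0b
  set v := P⁻¹ * l.prod * c0⁻¹ with hv
  have hvC : v ∈ M.C := M.C.mul_mem (M.C.mul_mem (M.C.inv_mem hPC) hcC) (M.C.inv_mem hc0C)
  have hv0 : M.h v = 0 := by
    rw [hv, M.h_mul, M.h_inv c0, hc0h]
    funext j
    simp only [Pi.add_apply, Pi.neg_apply, Pi.zero_apply, hw0e j]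
    ring
  -- the size of v
  have hszv : Real.log (2 + M.sz v) ≤ |Bg| * Q * lw := by
    let LP : List G := ((Finset.univ : Finset B.idx).toList.map fun i =>
      List.replicate (ν i) (B.b i)).flatten
    have hLP : LP.prod = P := by
      rw [List.prod_flatten, List.map_map, hP]
      congr 1
      refine List.map_congr_left fun i _ => ?_
      simp
    have hLPlen : (LP.length : ℝ) = ∑ i, (ν i : ℝ) := by
      have h1 : LP.length = ∑ i, ν i := by
        simp only [LP]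
        rw [List.length_flatten, List.map_map, Finset.sum_eq_multiset_sum, ← Finset.coe_toList,
          Multiset.map_coe, Multiset.sum_coe]
        congr 1
        refine List.map_congr_left fun i _ => ?_
        simp
      rw [h1]; push_cast; rfl
    have hLPmem : ∀ s ∈ LP, s ∈ M.C ∧ M.len s ≤ ρ := by
      intro s hs
      obtain ⟨l', hl', hs'⟩ := List.mem_flatten.mp hs
      obtain ⟨i, -, rfl⟩ := List.mem_map.mp hl'
      rw [List.eq_of_mem_replicate hs']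
      exact ⟨B.mem i, hρi i⟩
    have h1 := hBg ((LP.map (·⁻¹)).reverse ++ l ++ [c0⁻¹]) (by
      intro s hs
      rcases List.mem_append.mp hs with hs | hs
      · rcases List.mem_append.mp hs with hs | hs
        · rw [List.mem_reverse] at hs
          obtain ⟨s', hs', rfl⟩ := List.mem_map.mp hs
          refine ⟨M.C.inv_mem (hLPmem s' hs').1, ?_⟩
          rw [M.isLen.inv]
          have := (hLPmem s' hs').2
          have h2 := abs_nonneg κ0
          linarith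
        · refine ⟨(hlC s hs).1, ?_⟩
          have := (hlC s hs).2
          have h2 := abs_nonneg κ0
          linarith
      · rw [List.mem_singleton] at hs
        subst hs
        refine ⟨M.C.inv_mem hc0C, ?_⟩
        rw [M.isLen.inv]
        linarith)
      (by
        rw [List.prod_append, List.prod_append, ← List.prod_inv_reverse, hLP,
          List.prod_singleton]
        exact hv0)
    rw [List.prod_append, List.prod_append, ← List.prod_inv_reverse, hLP,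
          List.prod_singleton] at h1
    refine h1.trans ?_
    set LL := ((LP.map (·⁻¹)).reverse ++ l ++ [c0⁻¹]) with hLL
    have hlen : (LL.length : ℝ) ≤ P1 * (w + 1) := by
      rw [hLL]
      simp only [List.length_append, List.length_reverse, List.length_map, List.length_singleton]
      push_cast
      rw [hLPlen]
      have e1 : B.R * (n + 1) ≤ |B.R| * ((k * (M.a * M.a) + 1) * (w + 1)) := by
        have e2 : n + 1 ≤ (k * (M.a * M.a) + 1) * (w + 1) := by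
          have : 0 ≤ (k : ℝ) * (M.a * M.a) := by positivity
          nlinarith
        calc B.R * (n + 1) ≤ |B.R| * (n + 1) :=
              mul_le_mul_of_nonneg_right (le_abs_self _) (by linarith)
          _ ≤ _ := mul_le_mul_of_nonneg_left e2 (abs_nonneg _)
      have e3 : P1 * (w + 1) = |B.R| * ((k * (M.a * M.a) + 1) * (w + 1)) + M.a * (w + 1) +
          (w + 1) := by rw [hP1]; ring
      rw [e3]
      linarith
    have h2 := log_two_add_le hw0 hP10 (Nat.cast_nonneg _) hlen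
    have h3 : 0 ≤ Real.log (2 + (LL.length : ℝ)) := Real.log_nonneg (by
      have : (0:ℝ) ≤ LL.length := Nat.cast_nonneg _
      linarith)
    calc Bg * Real.log (2 + (LL.length : ℝ)) ≤ |Bg| * Real.log (2 + (LL.length : ℝ)) :=
          mul_le_mul_of_nonneg_right (le_abs_self _) h3
      _ ≤ |Bg| * (Q * lw) := mul_le_mul_of_nonneg_left h2 (abs_nonneg _)
      _ = _ := by ring
  -- the steps
  have hpt : M.ι g * e * P * v * c0 = M.ι (g * y) := by
    rw [map_mul, hel, hv]; group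
  have hA : ∀ γ : Γ, |M.h (M.ext Ψ (M.ι γ)) i - hgtR π (Ψ γ) i| ≤ κ := by
    intro γ
    rw [M.h_ext, hκ]
    refine (M.hgt_diff hΨ γ (M.r (M.ι γ)) i).trans ?_
    have := M.near_ι γ
    gcongr
  have hA1 := hA (g * y)
  have hA2 := hA g
  have hS1 := hL.exp (M.ι g) e heE i
  have hS2 := hL.list ν (Finset.univ : Finset B.idx).toList (M.ι g * e) i
  rw [← hP] at hS2
  have hS3 := hzl (M.ι g * e * P) v hvC hv0 i
  have hS4 : |M.h (M.ext Ψ (M.ι g * e * P * v * c0)) i - M.h (M.ext Ψ (M.ι g * e * P * v)) i| ≤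
      κ1 := by
    have h1 := (M.selfQI_ext hΨ).lip (M.ι g * e * P * v) c0
    have h2 := M.h_le ((M.ext Ψ (M.ι g * e * P * v))⁻¹ * M.ext Ψ (M.ι g * e * P * v * c0)) i
    rw [M.h_mul, M.h_inv] at h2
    simp only [Pi.add_apply, Pi.neg_apply] at h2
    rw [neg_add_eq_sub] at h2
    refine h2.trans ?_
    rw [hκ1]
    gcongr
    exact h1.trans (by gcongr)
  rw [hpt] at hS4
  have hLP : |L (M.h P) i - L (hgtR π y) i| ≤ cL * |B.R| := by
    have h1 := hLb (fun j => (w0 j : ℝ)) |B.R| (abs_nonneg _)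
      (fun j => (hw0b j).trans (le_abs_self _)) i
    have h2 : (fun j => (w0 j : ℝ)) = hgtR π y - M.h P := by
      funext j; rw [hw0' j]; rfl
    rw [h2, map_sub, Pi.sub_apply] at h1
    rw [abs_sub_comm]
    exact h1
  have hsumlist : (((Finset.univ : Finset B.idx).toList.map fun i =>
      (ν i : ℝ) * ht1 (M.h (B.b i))).sum) = ∑ i, (ν i : ℝ) * ht1 (M.h (B.b i)) := by
    rw [Finset.sum_eq_multiset_sum, ← Finset.coe_toList, Multiset.map_coe, Multiset.sum_coe]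
  rw [hsumlist] at hS2
  have hgen : ∀ X : ℝ, 0 ≤ X → X ≤ X / Real.log 2 * lw := by
    intro X hX
    rw [div_mul_eq_mul_div, le_div_iff₀ hlog2]
    exact mul_le_mul_of_nonneg_left hlw2 hX
  have hconst := hgen (2 * κ + (1 + q) * |C| + κ1 + cL * |B.R| + ε * |a'|) (by positivity)
  have hS1' : |M.h (M.ext Ψ (M.ι g * e)) i - M.h (M.ext Ψ (M.ι g)) i| ≤
      ε * (M.a * (n + lm + lw)) + |C| :=
    hS1.trans (add_le_add (mul_le_mul_of_nonneg_left hle hε) (le_abs_self _))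
  have hS2' : |M.h (M.ext Ψ (M.ι g * e * P)) i - M.h (M.ext Ψ (M.ι g * e)) i - L (M.h P) i| ≤
      ε * (|a'| * (n + 1)) + q * |C| := by
    refine hS2.trans (add_le_add (mul_le_mul_of_nonneg_left (hν1.trans ?_) hε)
      (mul_le_mul_of_nonneg_left (le_abs_self _) hq0))
    exact mul_le_mul_of_nonneg_right (le_abs_self _) (by linarith)
  have hS3' : |M.h (M.ext Ψ (M.ι g * e * P * v)) i - M.h (M.ext Ψ (M.ι g * e * P)) i| ≤
      C₂ * (|Bg| * Q) * lw := by
    refine hS3.trans ?_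
    rw [mul_assoc]
    exact mul_le_mul_of_nonneg_left hszv hC₂
  have e1 : hgtR π (Ψ (g * y)) i - hgtR π (Ψ g) i - L (hgtR π y) i =
      -(M.h (M.ext Ψ (M.ι (g * y))) i - hgtR π (Ψ (g * y)) i)
      + (M.h (M.ext Ψ (M.ι g)) i - hgtR π (Ψ g) i)
      + (M.h (M.ext Ψ (M.ι (g * y))) i - M.h (M.ext Ψ (M.ι g * e * P * v)) i)
      + (M.h (M.ext Ψ (M.ι g * e * P * v)) i - M.h (M.ext Ψ (M.ι g * e * P)) i)
      + (M.h (M.ext Ψ (M.ι g * e * P)) i - M.h (M.ext Ψ (M.ι g * e)) i - L (M.h P) i)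
      + (M.h (M.ext Ψ (M.ι g * e)) i - M.h (M.ext Ψ (M.ι g)) i)
      + (L (M.h P) i - L (hgtR π y) i) := by ring
  have hsum : |hgtR π (Ψ (g * y)) i - hgtR π (Ψ g) i - L (hgtR π y) i| ≤
      κ + κ + κ1 + C₂ * (|Bg| * Q) * lw + (ε * (|a'| * (n + 1)) + q * |C|) +
        (ε * (M.a * (n + lm + lw)) + |C|) + cL * |B.R| := by
    rw [e1]
    refine (abs_add_le _ _).trans (add_le_add ((abs_add_le _ _).trans (add_le_add
      ((abs_add_le _ _).trans (add_le_add ((abs_add_le _ _).trans (add_le_add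
      ((abs_add_le _ _).trans (add_le_add ((abs_add_le _ _).trans (add_le_add ?_ hA2)) hS4))
      hS3')) hS2')) hS1')) hLP)
    rw [abs_neg]; exact hA1
  refine hsum.trans ?_
  have hlm' : 0 ≤ ε * |a'| * lm := by positivity
  have e2 : ε * (M.a + |a'|) * (n + lm) + ((2 * κ + (1 + q) * |C| + κ1 + cL * |B.R| + ε * |a'|) /
      Real.log 2 + ε * M.a + C₂ * (|Bg| * Q)) * lw =
      (2 * κ + (1 + q) * |C| + κ1 + cL * |B.R| + ε * |a'|) / Real.log 2 * lw +
      C₂ * (|Bg| * Q) * lw + ε * (M.a * (n + lm + lw)) + ε * |a'| * n + ε * |a'| * lm := by ring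
  have e3 : ε * (|a'| * (n + 1)) = ε * |a'| * n + ε * |a'| := by ring
  rw [e2, e3]
  linarith

end Crest.Agent.R182.Bnd
end

-- ▼ part R182/BndMain2
section

set_option autoImplicit false

open Filter Topology
open scoped Pointwise

namespace Crest.Agent.R182.Bnd

open Crest.GroupTheory Crest.Geometry Crest.Agent.R182.QI Crest.Agent.R182.FinPath
  Crest.Agent.R182.FinRed

variable {Γ : Type*} [Group Γ] {k : ℕ} {S : Set Γ} {π : Γ →* Multiplicative (Fin k → ℤ)}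
  {A : Set Γ} {x : Fin k → Γ} {G : Type*} [Group G] (M : DModel S π A x G)

theorem exists_pos_le {α : Type*} (s : Finset α) (D : α → ℝ) (h : ∀ p ∈ s, 0 < D p) :
    ∃ ε : ℝ, 0 < ε ∧ ∀ p ∈ s, ε ≤ D p := by
  classical
  induction s using Finset.induction_on with
  | empty => exact ⟨1, one_pos, by simp⟩
  | insert p s hp ih =>
    obtain ⟨ε, hε, hle⟩ := ih fun q hq => h q (Finset.mem_insert_of_mem hq)
    refine ⟨min ε (D p), lt_min hε (h p (Finset.mem_insert_self _ _)), fun q hq => ?_⟩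
    rcases Finset.mem_insert.1 hq with rfl | hq
    · exact min_le_right _ _
    · exact (min_le_left _ _).trans (hle q hq)

/-- A linear lower bound against logarithms. -/
theorem le_zero_of_log {D c₀ c₁ W : ℝ} (hc₀ : 0 ≤ c₀) (hc₁ : 0 ≤ c₁) (hW : 0 ≤ W)
    (h : ∀ N : ℕ, D * N ≤ c₀ + c₁ * Real.log (2 + W * (N + 1))) : D ≤ 0 := by
  by_contra hD
  push Not at hD
  obtain ⟨n, hn⟩ := exists_nat_gt ((c₀ + 4 * c₁ * (2 + W)) / D)
  rw [div_lt_iff₀ hD] at hn
  have hE : 0 ≤ c₀ + 4 * c₁ * (2 + W) := by positivity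
  have hn1 : (1 : ℝ) ≤ n := by
    have h1 : (0 : ℝ) < n := by
      by_contra h0
      have : (n : ℝ) * D ≤ 0 := mul_nonpos_of_nonpos_of_nonneg (not_lt.1 h0) hD.le
      linarith
    have h2 : 0 < n := by exact_mod_cast h1
    exact_mod_cast h2
  have h1 := h (n ^ 2)
  push_cast at h1
  have hu : 0 < 2 + W * ((n : ℝ) ^ 2 + 1) := by positivity
  have h2 : Real.log (2 + W * ((n : ℝ) ^ 2 + 1)) ≤ 2 * ((2 + W) * (n + 1)) := by
    have e1 : 2 + W * ((n : ℝ) ^ 2 + 1) ≤ ((2 + W) * (n + 1)) ^ 2 := by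
      have f1 : (n : ℝ) ^ 2 + 1 ≤ (n + 1) ^ 2 := by nlinarith
      have f2 : (1 : ℝ) ≤ (n + 1) ^ 2 := by nlinarith
      have f3 : W * ((n : ℝ) ^ 2 + 1) ≤ W * (n + 1) ^ 2 := mul_le_mul_of_nonneg_left f1 hW
      have f4 : (2 + W) * ((n : ℝ) + 1) ^ 2 ≤ (2 + W) * ((2 + W) * (n + 1) ^ 2) :=
        mul_le_mul_of_nonneg_left (le_mul_of_one_le_left (by positivity) (by linarith))
          (by linarith)
      nlinarith
    have e2 : 0 < (2 + W) * ((n : ℝ) + 1) := by positivity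
    calc Real.log (2 + W * ((n : ℝ) ^ 2 + 1)) ≤ Real.log (((2 + W) * (n + 1)) ^ 2) :=
          Real.log_le_log hu e1
      _ = 2 * Real.log ((2 + W) * (n + 1)) := by rw [Real.log_pow]; norm_num
      _ ≤ 2 * ((2 + W) * (n + 1)) := by
          have := Real.log_le_sub_one_of_pos e2
          linarith
  have h3 : D * (n : ℝ) ^ 2 ≤ c₀ + c₁ * (2 * ((2 + W) * (n + 1))) :=
    h1.trans (by have := mul_le_mul_of_nonneg_left h2 hc₁; linarith)
  have h4 : c₁ * (2 * ((2 + W) * ((n : ℝ) + 1))) ≤ 4 * c₁ * (2 + W) * n := by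
    have : 0 ≤ c₁ * (2 + W) := by positivity
    nlinarith
  have h5 : c₀ ≤ c₀ * n := le_mul_of_one_le_right hc₀ hn1
  have h6 : (c₀ + 4 * c₁ * (2 + W)) * n < (n * D) * n :=
    mul_lt_mul_of_pos_right hn (by linarith)
  nlinarith

include M in
/-- the word length of the section. -/
theorem DModel.wl_z (v : Fin k → ℤ) : (wordLength S (z x v) : ℝ) ≤
    M.a * ((∑ i, M.len (M.ι (x i))) * n1 v) + M.a := by
  refine (M.ι_len _).trans ?_
  have h1 : M.len (M.ι (z x v)) ≤ (∑ i, M.len (M.ι (x i))) * n1 v := by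
    unfold z
    have h2 : ∀ l : List Γ, (∀ y ∈ l, ∃ i, y = x i ∨ y = (x i)⁻¹) →
        M.len (M.ι l.prod) ≤ (∑ i, M.len (M.ι (x i))) * l.length := by
      intro l
      induction l with
      | nil => simp [M.isLen.one]
      | cons y l ih =>
        intro hl
        rw [List.prod_cons, map_mul, List.length_cons]
        refine (M.isLen.mul _ _).trans ?_
        have h3 := ih fun y hy => hl y (List.mem_cons_of_mem _ hy)
        have h4 : M.len (M.ι y) ≤ ∑ i, M.len (M.ι (x i)) := by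
          obtain ⟨i, rfl | rfl⟩ := hl y (by simp)
          · exact Finset.single_le_sum (f := fun i => M.len (M.ι (x i)))
              (fun i _ => M.isLen.nonneg _) (Finset.mem_univ i)
          · rw [map_inv, M.isLen.inv]
            exact Finset.single_le_sum (f := fun i => M.len (M.ι (x i)))
              (fun i _ => M.isLen.nonneg _) (Finset.mem_univ i)
        push_cast
        linarith
    have h3 := h2 (ms x v).toList (fun y hy => mem_ms (Multiset.mem_toList.1 hy))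
    rwa [Multiset.length_toList, card_ms] at h3
  have := mul_le_mul_of_nonneg_left h1 M.a0
  linarith

theorem LawE.mono {L : (Fin k → ℝ) →ₗ[ℝ] (Fin k → ℝ)} {ε ε' C C' : ℝ} {Ψ : Γ → Γ}
    (h : LawE S π A x L ε C Ψ) (hε : ε ≤ ε') (hC : C ≤ C') : LawE S π A x L ε' C' Ψ := by
  intro g y m hm i
  refine (h g y m hm i).trans ?_
  have h1 : 0 ≤ Real.log (2 + (m : ℝ)) := Real.log_nonneg (by
    have : (0 : ℝ) ≤ m := Nat.cast_nonneg _
    linarith)
  have h2 : 0 ≤ Real.log (2 + (wordLength S y : ℝ)) := Real.log_nonneg (by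
    have : (0 : ℝ) ≤ wordLength S y := Nat.cast_nonneg _
    linarith)
  have h3 : (0 : ℝ) ≤ n1 (hgt π y) := Nat.cast_nonneg _
  have h4 := mul_le_mul_of_nonneg_right hε (add_nonneg h3 h1)
  have h5 := mul_le_mul_of_nonneg_right hC h2
  linarith

include M in
/-- The linear maps of two laws of the same map are close. -/
theorem DModel.lawE_close (hx : ∀ i, hgt π (x i) = Pi.single i 1)
    {L L' : (Fin k → ℝ) →ₗ[ℝ] (Fin k → ℝ)} {ε ε' C C' : ℝ} {Ψ : Γ → Γ}
    (h : LawE S π A x L ε C Ψ) (h' : LawE S π A x L' ε' C' Ψ) (hε : 0 ≤ ε) (hε' : 0 ≤ ε')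
    (i j : Fin k) :
    |L (Pi.single i 1) j - L' (Pi.single i 1) j| ≤ ε + ε' := by
  have ha := M.a0
  set W : ℝ := M.a * (∑ i, M.len (M.ι (x i))) + M.a with hW
  have hs0 : 0 ≤ ∑ i, M.len (M.ι (x i)) := Finset.sum_nonneg fun i _ => M.isLen.nonneg _
  have hW0 : 0 ≤ W := by positivity
  have hlog2 : 0 < Real.log 2 := Real.log_pos (by norm_num)
  have key := le_zero_of_log (D := |L (Pi.single i 1) j - L' (Pi.single i 1) j| - (ε + ε'))
    (c₀ := (ε + ε') * Real.log 2) (c₁ := |C| + |C'|) (W := W) (by positivity) (by positivity) hW0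
    (by
      intro N
      set v : Fin k → ℤ := Pi.single i (N : ℤ) with hv
      have hv1 : n1 v = N := by
        unfold n1
        rw [Finset.sum_eq_single i]
        · simp [hv]
        · intro l _ hl
          simp [hv, hl]
        · intro h; exact absurd (Finset.mem_univ _) h
      have hvR : hgtR π (z x v) = (N : ℝ) • (Pi.single i 1 : Fin k → ℝ) := by
        funext l
        simp only [hgtR, hgt_z hx, hv]
        by_cases hl : l = i
        · subst hl; simp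
        · simp [hl]
      have hm : z x v * (z x (hgt π (z x v)))⁻¹ ∈ A ^ 0 := by
        rw [hgt_z hx, mul_inv_cancel, pow_zero]
        exact Set.mem_one.2 rfl
      have h1 := h 1 (z x v) 0 hm j
      have h2 := h' 1 (z x v) 0 hm j
      rw [hgt_z hx, hv1, hvR, map_smul, one_mul] at h1 h2
      simp only [Pi.smul_apply, smul_eq_mul, Nat.cast_zero, add_zero] at h1 h2
      have hw : (wordLength S (z x v) : ℝ) ≤ W * (N + 1) := by
        refine (M.wl_z v).trans ?_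
        rw [hv1, hW]
        have hN : (0 : ℝ) ≤ N := Nat.cast_nonneg N
        nlinarith [mul_nonneg ha hs0, mul_nonneg ha hN]
      have hlog : Real.log (2 + (wordLength S (z x v) : ℝ)) ≤ Real.log (2 + W * (N + 1)) := by
        refine Real.log_le_log ?_ (by linarith)
        have : (0 : ℝ) ≤ wordLength S (z x v) := Nat.cast_nonneg _
        linarith
      have hlog0 : 0 ≤ Real.log (2 + (wordLength S (z x v) : ℝ)) := Real.log_nonneg (by
        have : (0 : ℝ) ≤ wordLength S (z x v) := Nat.cast_nonneg _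
        linarith)
      set lw := Real.log (2 + (wordLength S (z x v) : ℝ)) with hlw
      set u := L (Pi.single i 1) j with hu
      set u' := L' (Pi.single i 1) j with hu'
      set p := hgtR π (Ψ (z x v)) j - hgtR π (Ψ 1) j with hp
      have h3 : |(N : ℝ) * u - N * u'| ≤ (ε + ε') * (N + Real.log 2) + (|C| + |C'|) * lw := by
        have e1 : (N : ℝ) * u - N * u' = (p - N * u') - (p - N * u) := by ring
        rw [e1]
        refine (abs_sub _ _).trans ?_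
        have e2 : C * lw ≤ |C| * lw := mul_le_mul_of_nonneg_right (le_abs_self _) hlog0
        have e3 : C' * lw ≤ |C'| * lw := mul_le_mul_of_nonneg_right (le_abs_self _) hlog0
        have e4 : (ε + ε') * (N + Real.log 2) = ε * (N + Real.log 2) + ε' * (N + Real.log 2) := by
          ring
        rw [e4]
        linarith
      rw [← mul_sub, abs_mul, Nat.abs_cast] at h3
      have h4 : (|C| + |C'|) * lw ≤ (|C| + |C'|) * Real.log (2 + W * (N + 1)) :=
        mul_le_mul_of_nonneg_left hlog (by positivity)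
      nlinarith)
  linarith

/-- **The sublinear law along legs at all precisions** (`LL` and `a'` do not depend on the
precision). -/
def DModel.USLB : Prop :=
  ∀ K : ℕ, ∃ (LL : Set ((Fin k → ℝ) →ₗ[ℝ] (Fin k → ℝ))) (a' : ℝ), LL.Finite ∧
    (∀ L ∈ LL, ∀ j, M.Λ j ∘ₗ L ≠ 0) ∧
    ∀ ε : ℝ, 0 < ε → ∃ (B : M.Legs a') (C : ℝ), ∀ Ψ : Γ → Γ, QIMap S S Ψ K →
      ∃ L ∈ LL, M.SubB B L ε C (M.ext Ψ)

/-- **USLB ⇒ LAW.** -/
theorem DModel.law_of_uslB (hx : ∀ i, hgt π (x i) = Pi.single i 1) (h : M.USLB) :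
    Law S π A x := by
  classical
  intro K
  obtain ⟨LL, a', hLL, hne, hU⟩ := h K
  -- the logarithmic law for zero-weight moves
  have hz : ∀ L : (Fin k → ℝ) →ₗ[ℝ] (Fin k → ℝ), ∃ ε₀ : ℝ, 0 < ε₀ ∧ (L ∈ LL →
      ∀ (B : M.Legs a') (C K : ℝ), 0 ≤ K → ∃ C₂ : ℝ, 0 ≤ C₂ ∧ ∀ Φ : G → G,
        SelfQI M.len Φ K → M.SubB B L ε₀ C Φ → M.ZL C₂ Φ) := by
    intro L
    by_cases hL : L ∈ LL
    · obtain ⟨ε₀, h1, h2⟩ := DModel.zlB (M := M) L (hne L hL) a'
      exact ⟨ε₀, h1, fun _ => h2⟩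
    · exact ⟨1, one_pos, fun h => absurd h hL⟩
  choose ε₀ hε₀ hzl using hz
  obtain ⟨εz, hεz, hεz'⟩ := exists_pos_le hLL.toFinset ε₀ fun L _ => hε₀ L
  obtain ⟨Bz, Cz, hBz⟩ := hU εz hεz
  have hC₂ : ∀ L : (Fin k → ℝ) →ₗ[ℝ] (Fin k → ℝ), ∃ C₂ : ℝ, 0 ≤ C₂ ∧ (L ∈ LL → ∀ Φ : G → G,
      SelfQI M.len Φ (M.KK K) → M.SubB Bz L (ε₀ L) Cz Φ → M.ZL C₂ Φ) := by
    intro L
    by_cases hL : L ∈ LL
    · obtain ⟨C₂, h1, h2⟩ := hzl L hL Bz Cz (M.KK K) (M.KK_nonneg K)
      exact ⟨C₂, h1, fun _ => h2⟩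
    · exact ⟨0, le_rfl, fun h => absurd h hL⟩
  choose C₂ hC₂0 hC₂z using hC₂
  set C₂s : ℝ := ∑ L ∈ hLL.toFinset, C₂ L with hC₂s
  have hC₂s0 : 0 ≤ C₂s := Finset.sum_nonneg fun L _ => hC₂0 L
  have hZL : ∀ Ψ : Γ → Γ, QIMap S S Ψ K → M.ZL C₂s (M.ext Ψ) := by
    intro Ψ hΨ
    obtain ⟨L, hL, hsub⟩ := hBz Ψ hΨ
    have h1 := hC₂z L hL (M.ext Ψ) (M.selfQI_ext hΨ)
      (hsub.mono (hεz' L (hLL.mem_toFinset.2 hL)))
    intro g v hv hv0 i
    refine (h1 g v hv hv0 i).trans (mul_le_mul_of_nonneg_right ?_ (Real.log_nonneg (by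
      have := M.sz_nonneg v
      linarith)))
    exact Finset.single_le_sum (f := C₂) (fun L _ => hC₂0 L) (hLL.mem_toFinset.2 hL)
  -- separation of the linear maps
  obtain ⟨ε₁, hε₁, hsep⟩ : ∃ ε₁ : ℝ, 0 < ε₁ ∧ ∀ L ∈ LL, ∀ L' ∈ LL,
      (∀ i j, |L (Pi.single i 1) j - L' (Pi.single i 1) j| ≤ ε₁ / 2) → L = L' := by
    obtain ⟨ε₁, h1, h2⟩ := exists_pos_le (hLL.toFinset ×ˢ hLL.toFinset)
      (fun p => if p.1 = p.2 then 1 else
        ∑ i, ∑ j, |p.1 (Pi.single i 1) j - p.2 (Pi.single i 1) j|) (by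
        rintro ⟨L, L'⟩ -
        by_cases hLL' : L = L'
        · simp [hLL']
        · rw [if_neg hLL']
          by_contra hneg
          apply hLL'
          refine LinearMap.pi_ext' fun i => LinearMap.ext_ring ?_
          have h3 : ∑ i, ∑ j, |L (Pi.single i 1) j - L' (Pi.single i 1) j| = 0 :=
            le_antisymm (not_lt.1 hneg) (Finset.sum_nonneg fun _ _ =>
              Finset.sum_nonneg fun _ _ => abs_nonneg _)
          rw [Finset.sum_eq_zero_iff_of_nonneg (fun _ _ =>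
              Finset.sum_nonneg fun _ _ => abs_nonneg _)] at h3
          have h4 := h3 i (Finset.mem_univ i)
          rw [Finset.sum_eq_zero_iff_of_nonneg (fun _ _ => abs_nonneg _)] at h4
          funext j
          simp only [LinearMap.comp_apply, LinearMap.coe_single]
          exact sub_eq_zero.1 (abs_eq_zero.1 (h4 j (Finset.mem_univ j))))
    refine ⟨ε₁ / (k * k + 1), by positivity, fun L hL L' hL' h3 => ?_⟩
    by_contra hLL'
    have h4 := h2 (L, L') (Finset.mem_product.2 ⟨hLL.mem_toFinset.2 hL, hLL.mem_toFinset.2 hL'⟩)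
    simp only [if_neg hLL'] at h4
    have h5 : ∑ i : Fin k, ∑ j : Fin k, |L (Pi.single i 1) j - L' (Pi.single i 1) j| ≤
        ∑ _i : Fin k, ∑ _j : Fin k, ε₁ / (k * k + 1) / 2 :=
      Finset.sum_le_sum fun i _ => Finset.sum_le_sum fun j _ => h3 i j
    simp only [Finset.sum_const, Finset.card_univ, Fintype.card_fin, nsmul_eq_mul] at h5
    have h6 : (k : ℝ) * (k * (ε₁ / (k * k + 1) / 2)) < ε₁ := by
      have h7 : (k : ℝ) * (k * (ε₁ / (k * k + 1) / 2)) = ε₁ * ((k * k) / (k * k + 1) / 2) := by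
        ring
      rw [h7]
      have h8 : ((k : ℝ) * k) / (k * k + 1) / 2 < 1 := by
        have h9 : ((k : ℝ) * k) / (k * k + 1) ≤ 1 := by
          rw [div_le_one (by positivity)]; linarith
        linarith
      nlinarith
    linarith
  -- the law at every precision
  set P : ℝ := M.a + |a'| with hP
  have hP0 : 0 < P := by
    have := M.one_le_a
    have := abs_nonneg a'
    linarith
  have hlaw : ∀ ε : ℝ, ∃ C' : ℝ, 0 < ε → ∀ Ψ : Γ → Γ, QIMap S S Ψ K → ∃ L ∈ LL,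
      LawE S π A x L (min ε (ε₁ / 4)) C' Ψ := by
    intro ε
    by_cases hε : 0 < ε
    swap
    · exact ⟨0, fun h => absurd h hε⟩
    have hm0 : 0 < min ε (ε₁ / 4) := lt_min hε (by positivity)
    obtain ⟨B, C, hB⟩ := hU (min ε (ε₁ / 4) / P) (by positivity)
    have hL : ∀ L : (Fin k → ℝ) →ₗ[ℝ] (Fin k → ℝ), ∃ C' : ℝ, 0 ≤ C' ∧ ∀ Ψ : Γ → Γ,
        QIMap S S Ψ K → M.SubB B L (min ε (ε₁ / 4) / P) C (M.ext Ψ) → M.ZL C₂s (M.ext Ψ) →
        LawE S π A x L (min ε (ε₁ / 4) / P * P) C' Ψ := fun L =>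
      M.lawB L B (by positivity) hC₂s0 K
    choose C' hC'0 hC' using hL
    refine ⟨∑ L ∈ hLL.toFinset, C' L, fun _ Ψ hΨ => ?_⟩
    obtain ⟨L, hLm, hsub⟩ := hB Ψ hΨ
    refine ⟨L, hLm, (hC' L Ψ hΨ hsub (hZL Ψ hΨ)).mono (by rw [div_mul_cancel₀ _ hP0.ne']) ?_⟩
    exact Finset.single_le_sum (f := C') (fun L _ => hC'0 L) (hLL.mem_toFinset.2 hLm)
  choose C' hC' using hlaw
  refine ⟨LL, C', hLL, fun Ψ hΨ => ?_⟩
  obtain ⟨L, hL, hlawL⟩ := hC' 1 one_pos Ψ hΨ
  refine ⟨L, hL, fun ε hε g y m hm i => ?_⟩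
  obtain ⟨L', hL', hlawL'⟩ := hC' ε hε Ψ hΨ
  have heq : L = L' := by
    refine hsep L hL L' hL' fun i j => ?_
    refine (M.lawE_close hx hlawL hlawL' (le_min zero_le_one (by positivity))
      (le_min hε.le (by positivity)) i j).trans ?_
    have h1 := min_le_right (1 : ℝ) (ε₁ / 4)
    have h2 := min_le_right ε (ε₁ / 4)
    linarith
  subst heq
  exact hlawL'.mono (min_le_left _ _) le_rfl g y m hm i

end Crest.Agent.R182.Bnd
end

-- ▼ part R182/BndSpan
section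

set_option autoImplicit false

namespace Crest.Agent.R182.Bnd

open Crest.Agent.R182.OneScale Crest.Agent.R182.FinPath

variable {k : ℕ}

/-- Euclidean norm -/
noncomputable def e2 (v : Fin k → ℝ) : ℝ := Real.sqrt (∑ j, v j ^ 2)

theorem e2_nonneg (v : Fin k → ℝ) : 0 ≤ e2 v := Real.sqrt_nonneg _

theorem e2_sq (v : Fin k → ℝ) : e2 v ^ 2 = ∑ j, v j ^ 2 :=
  Real.sq_sqrt (Finset.sum_nonneg fun _ _ => sq_nonneg _)

theorem abs_le_e2 (v : Fin k → ℝ) (j : Fin k) : |v j| ≤ e2 v := by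
  rw [← Real.sqrt_sq_eq_abs]
  exact Real.sqrt_le_sqrt (Finset.single_le_sum (f := fun j => v j ^ 2)
    (fun _ _ => sq_nonneg _) (Finset.mem_univ j))

theorem e2_le_ht1 (v : Fin k → ℝ) : e2 v ≤ ht1 v := by
  refine Real.sqrt_le_iff.2 ⟨ht1_nonneg v, ?_⟩
  have h1 : ∑ j, v j ^ 2 = ∑ j, |v j| * |v j| := Finset.sum_congr rfl fun j _ => by
    rw [← sq_abs]; ring
  rw [h1, sq]
  calc ∑ j, |v j| * |v j| ≤ ∑ j, |v j| * ht1 v :=
        Finset.sum_le_sum fun j _ => mul_le_mul_of_nonneg_left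
          (Finset.single_le_sum (f := fun j => |v j|) (fun _ _ => abs_nonneg _)
            (Finset.mem_univ j)) (abs_nonneg _)
    _ = ht1 v * ht1 v := by rw [← Finset.sum_mul]; rfl

theorem ht1_le_norm (v : Fin k → ℝ) : ht1 v ≤ k * ‖v‖ := by
  unfold ht1
  calc ∑ j, |v j| ≤ ∑ _j : Fin k, ‖v‖ := Finset.sum_le_sum fun j _ => norm_le_pi_norm v j
    _ = k * ‖v‖ := by rw [Finset.sum_const, Finset.card_univ, Fintype.card_fin, nsmul_eq_mul]

theorem norm_le_ht1 (v : Fin k → ℝ) : ‖v‖ ≤ ht1 v :=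
  (pi_norm_le_iff_of_nonneg (ht1_nonneg v)).2 fun j =>
    Finset.single_le_sum (f := fun j => |v j|) (fun _ _ => abs_nonneg _) (Finset.mem_univ j)

/-- the linear functional of a vector -/
def dotL (v : Fin k → ℝ) : (Fin k → ℝ) →ₗ[ℝ] ℝ where
  toFun u := ∑ j, v j * u j
  map_add' u w := by simp [mul_add, Finset.sum_add_distrib]
  map_smul' c u := by
    simp only [Pi.smul_apply, smul_eq_mul, RingHom.id_apply, Finset.mul_sum]
    exact Finset.sum_congr rfl fun j _ => by ring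

theorem nu1_dotL (v : Fin k → ℝ) : nu1 (dotL v) = ht1 v := by
  unfold nu1 ht1
  refine Finset.sum_congr rfl fun i _ => ?_
  congr 1
  show ∑ j, v j * (Pi.single i (1:ℝ) : Fin k → ℝ) j = v i
  rw [Finset.sum_eq_single i]
  · simp
  · intro j _ hj; simp [hj]
  · intro h; exact absurd (Finset.mem_univ _) h

/-- one greedy step -/
theorem e2_sub_le {v w : Fin k → ℝ} {c0 : ℝ} (hc0 : 0 < c0)
    (h : c0 * ht1 v * ‖w‖ ≤ dotL v w) (hv : k * ‖w‖ ≤ c0 * e2 v) (hc1 : c0 ≤ 1) :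
    e2 (v - w) ≤ e2 v - c0 / 2 * ‖w‖ := by
  have hw0 := norm_nonneg w
  have hv0 := e2_nonneg v
  have h1 : e2 (v - w) ^ 2 = e2 v ^ 2 - 2 * dotL v w + e2 w ^ 2 := by
    rw [e2_sq, e2_sq, e2_sq]
    show ∑ j, (v - w) j ^ 2 = ∑ j, v j ^ 2 - 2 * (∑ j, v j * w j) + ∑ j, w j ^ 2
    rw [Finset.mul_sum, ← Finset.sum_sub_distrib, ← Finset.sum_add_distrib]
    refine Finset.sum_congr rfl fun j _ => ?_
    rw [Pi.sub_apply]; ring
  have h2 : e2 w ^ 2 ≤ k * ‖w‖ ^ 2 := by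
    rw [e2_sq]
    calc ∑ j, w j ^ 2 ≤ ∑ _j : Fin k, ‖w‖ ^ 2 := Finset.sum_le_sum fun j _ => by
          rw [← sq_abs]
          have := norm_le_pi_norm w j
          rw [Real.norm_eq_abs] at this
          gcongr
      _ = k * ‖w‖ ^ 2 := by
          rw [Finset.sum_const, Finset.card_univ, Fintype.card_fin, nsmul_eq_mul]
  have h3 : c0 * e2 v * ‖w‖ ≤ dotL v w := by
    refine le_trans ?_ h
    have := e2_le_ht1 v
    gcongr
  have h4 : (k : ℝ) * ‖w‖ ^ 2 ≤ c0 * e2 v * ‖w‖ := by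
    have := mul_le_mul_of_nonneg_right hv hw0
    nlinarith
  have h5 : e2 (v - w) ^ 2 ≤ e2 v ^ 2 - c0 * e2 v * ‖w‖ := by
    rw [h1]; linarith
  have h6 : e2 (v - w) ^ 2 ≤ (e2 v - c0 / 2 * ‖w‖) ^ 2 := by
    have : (e2 v - c0 / 2 * ‖w‖) ^ 2 = e2 v ^ 2 - c0 * e2 v * ‖w‖ + (c0 / 2 * ‖w‖) ^ 2 := by ring
    rw [this]
    have := sq_nonneg (c0 / 2 * ‖w‖)
    linarith
  have h7 : 0 ≤ e2 v - c0 / 2 * ‖w‖ := by
    by_cases hk : k = 0
    · subst hk
      have hw : w = 0 := Subsingleton.elim _ _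
      rw [hw, norm_zero]; linarith
    have hk1 : (1 : ℝ) ≤ k := by exact_mod_cast Nat.one_le_iff_ne_zero.2 hk
    have h8 : ‖w‖ ≤ c0 * e2 v := by nlinarith
    have h9 : c0 * e2 v ≤ e2 v := by nlinarith
    nlinarith
  exact le_of_sq_le_sq h6 h7

/-- **Greedy decomposition.** -/
theorem greedy {I : Type*} [Fintype I] (w : I → Fin k → ℤ) {c0 : ℝ} (hc0 : 0 < c0) (hc1 : c0 ≤ 1)
    (hne : ∀ i, w i ≠ 0)
    (h : ∀ ν : (Fin k → ℝ) →ₗ[ℝ] ℝ, ν ≠ 0 → ∃ i, c0 * nu1 ν * ‖fun j => (w i j : ℝ)‖ ≤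
      ν (fun j => (w i j : ℝ))) {H : ℝ} (hH : ∀ i, k * ‖fun j => (w i j : ℝ)‖ ≤ c0 * H) :
    ∀ v : Fin k → ℤ, ∃ n : I → ℕ,
      c0 / 2 * (∑ i, (n i : ℝ) * ‖fun j => (w i j : ℝ)‖) ≤ e2 (fun j => (v j : ℝ)) ∧
      ∀ j, |(v j : ℝ) - ∑ i, (n i : ℝ) * (w i j : ℝ)| ≤ max H 0 := by
  classical
  have hind : ∀ (N : ℕ) (v : Fin k → ℤ), (∑ j, (v j) ^ 2).toNat ≤ N → ∃ n : I → ℕ,
      c0 / 2 * (∑ i, (n i : ℝ) * ‖fun j => (w i j : ℝ)‖) ≤ e2 (fun j => (v j : ℝ)) ∧
      ∀ j, |(v j : ℝ) - ∑ i, (n i : ℝ) * (w i j : ℝ)| ≤ max H 0 := by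
    intro N
    induction N with
    | zero =>
      intro v hv
      have hv0 : ∀ j, v j = 0 := by
        intro j
        have h0 : (0 : ℤ) ≤ ∑ j, (v j) ^ 2 := Finset.sum_nonneg fun _ _ => sq_nonneg _
        have h1 : ∑ j, (v j) ^ 2 = 0 := by omega
        rw [Finset.sum_eq_zero_iff_of_nonneg (fun _ _ => sq_nonneg _)] at h1
        exact pow_eq_zero_iff (two_ne_zero) |>.1 (h1 j (Finset.mem_univ j))
      refine ⟨0, by simp [e2_nonneg], fun j => by simp [hv0 j]⟩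
    | succ N ih =>
      intro v hv
      by_cases hsmall : e2 (fun j => (v j : ℝ)) ≤ H
      · refine ⟨0, by simp [e2_nonneg], fun j => ?_⟩
        have := abs_le_e2 (fun j => (v j : ℝ)) j
        simp only [Pi.zero_apply, Nat.cast_zero, zero_mul, Finset.sum_const_zero, sub_zero]
        exact (this.trans hsmall).trans (le_max_left _ _)
      push Not at hsmall
      by_cases hzero : v = 0
      · refine ⟨0, by simp [e2_nonneg], fun j => by simp [hzero]⟩
      set vR : Fin k → ℝ := fun j => (v j : ℝ) with hvR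
      have hvR0 : dotL vR ≠ 0 := by
        intro h0
        have h1 : dotL vR vR = 0 := by rw [h0]; rfl
        have h2 : ∑ j, vR j * vR j = 0 := h1
        rw [Finset.sum_eq_zero_iff_of_nonneg (fun _ _ => mul_self_nonneg _)] at h2
        apply hzero
        funext j
        have := mul_self_eq_zero.1 (h2 j (Finset.mem_univ j))
        simpa [hvR] using this
      obtain ⟨i, hi⟩ := h (dotL vR) hvR0
      rw [nu1_dotL] at hi
      set wR : Fin k → ℝ := fun j => (w i j : ℝ) with hwR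
      have hstep := e2_sub_le hc0 hi ((hH i).trans (mul_le_mul_of_nonneg_left hsmall.le hc0.le))
        hc1
      have hwne : 0 < ‖wR‖ := by
        rw [norm_pos_iff]
        intro h0
        apply hne i
        funext j
        have := congrFun h0 j
        simpa [hwR] using this
      have hsub : (fun j => ((v - w i) j : ℝ)) = vR - wR := by
        funext j; simp [hvR, hwR]
      have hlt : e2 (fun j => ((v - w i) j : ℝ)) < e2 vR := by
        rw [hsub]
        have : 0 < c0 / 2 * ‖wR‖ := by positivity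
        linarith
      have hltN : (∑ j, ((v - w i) j) ^ 2).toNat ≤ N := by
        have h1 : e2 (fun j => ((v - w i) j : ℝ)) ^ 2 < e2 vR ^ 2 := by
          have := e2_nonneg (fun j => ((v - w i) j : ℝ))
          nlinarith
        rw [e2_sq, e2_sq] at h1
        have h2' : ((∑ j, ((v - w i) j) ^ 2 : ℤ) : ℝ) < ((∑ j, (v j) ^ 2 : ℤ) : ℝ) := by
          push_cast at h1 ⊢
          exact h1
        have h2 : (∑ j, ((v - w i) j) ^ 2) < ∑ j, (v j) ^ 2 := by exact_mod_cast h2'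
        have h0 : (0 : ℤ) ≤ ∑ j, ((v - w i) j) ^ 2 := Finset.sum_nonneg fun _ _ => sq_nonneg _
        omega
      obtain ⟨n, hn1, hn2⟩ := ih (v - w i) hltN
      refine ⟨fun l => n l + if l = i then 1 else 0, ?_, fun j => ?_⟩
      · have h1 : ∑ l, ((n l + if l = i then 1 else 0 : ℕ) : ℝ) * ‖fun j => (w l j : ℝ)‖ =
            ∑ l, (n l : ℝ) * ‖fun j => (w l j : ℝ)‖ + ‖wR‖ := by
          push_cast
          simp only [add_mul, Finset.sum_add_distrib, ite_mul, one_mul, zero_mul,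
            Finset.sum_ite_eq', Finset.mem_univ, if_true]
          rfl
        rw [h1, mul_add]
        rw [hsub] at hn1
        linarith
      · have h1 : ∑ l, ((n l + if l = i then 1 else 0 : ℕ) : ℝ) * (w l j : ℝ) =
            ∑ l, (n l : ℝ) * (w l j : ℝ) + (w i j : ℝ) := by
          push_cast
          simp only [add_mul, Finset.sum_add_distrib, ite_mul, one_mul, zero_mul,
            Finset.sum_ite_eq', Finset.mem_univ, if_true]
        rw [h1]
        have h2 := hn2 j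
        simp only [Pi.sub_apply] at h2
        push_cast at h2
        have h3 : (v j : ℝ) - (∑ l, (n l : ℝ) * (w l j : ℝ) + (w i j : ℝ)) =
            (v j : ℝ) - (w i j : ℝ) - ∑ l, (n l : ℝ) * (w l j : ℝ) := by ring
        rw [h3]
        exact h2
  exact fun v => hind _ v le_rfl

end Crest.Agent.R182.Bnd
end

-- ▼ part R182/BndCore

set_option autoImplicit false

open scoped Pointwise

namespace Crest.Agent.R182.Bnd

open Crest.GroupTheory Crest.Geometry Crest.Agent.R182.QI Crest.Agent.R182.FinPath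
  Crest.Agent.R182.FinRed Crest.Agent.R182.Core Crest.Agent.R182.OneScale

variable {Γ : Type*} [Group Γ] {k : ℕ} {S : Set Γ} {π : Γ →* Multiplicative (Fin k → ℤ)}

/-- The facts about the real model which are used for the passage from the sublinear law to the
logarithmic law, on top of `BModel`. -/
structure BExt (M : BModel S π) (A : Set Γ) (x : Fin k → Γ) where
  /-- size function (norm of the matrix) -/
  sz : M.G → ℝ
  sz_nonneg : ∀ g, 0 ≤ sz g
  sz_inv : ∀ g, sz g⁻¹ = sz g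
  fine : ∀ b ∈ M.C, ∀ v ∈ M.C, M.h v = 0 → Fine M.len b v
  dec : Dec M.len sz (M.C : Set M.G) {v | v ∈ M.C ∧ M.h v = 0}
  growth : ∀ R : ℝ, ∃ B : ℝ, ∀ l : List M.G, (∀ s ∈ l, s ∈ M.C ∧ M.len s ≤ R) → M.h l.prod = 0 →
    Real.log (2 + sz l.prod) ≤ B * Real.log (2 + l.length)
  as : ℝ
  split : ∀ (y : Γ) (m : ℕ), y * (z x (hgt π y))⁻¹ ∈ A ^ m →
    ∃ (e : M.L) (l : List M.G), M.ι y = M.ex e * l.prod ∧
      M.len (M.ex e) ≤
        as * ((n1 (hgt π y) : ℝ) + Real.log (2 + m) + Real.log (2 + wordLength S y)) ∧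
      (l.length : ℝ) ≤ as * (wordLength S y + 1) ∧ ∀ s ∈ l, s ∈ M.C ∧ M.len s ≤ as

variable {M : BModel S π} {A : Set Γ} {x : Fin k → Γ}

/-- the model for the law -/
noncomputable def BExt.toD (E : BExt M A x) : DModel S π A x M.G where
  ι := M.ι
  len := M.len
  isLen := M.isLen
  a := M.a + |E.as|
  one_le_a := by
    have := M.one_le_a
    have := abs_nonneg E.as
    linarith
  len_ι γ := (M.len_ι γ).trans (mul_le_mul_of_nonneg_right
    (by have := abs_nonneg E.as; linarith) (Nat.cast_nonneg _))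
  ι_len γ := (M.ι_len γ).trans (by
    have h1 := abs_nonneg E.as
    have h2 := M.isLen.nonneg (M.ι γ)
    nlinarith [mul_nonneg h1 h2])
  round g := ⟨M.rnd g, (M.len_rnd g).trans (by have := abs_nonneg E.as; linarith)⟩
  h := M.h
  h_mul := M.h_mul
  h_ι := M.h_ι
  h_int := M.h_int
  h_le g i := (M.h_le g i).trans (mul_le_mul_of_nonneg_right
    (by have := abs_nonneg E.as; linarith) (M.isLen.nonneg g))
  m := M.m
  Λ := M.Λ
  Λ_inj v hv := M.sep v fun i hi => by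
    obtain ⟨j, hj⟩ := M.Λ_surj i hi
    rw [← hj]; exact hv j
  Λ_ne := M.Λ_ne
  χ := M.χ
  δ := M.δ
  crossed := M.crossed
  nontriv j := by
    obtain ⟨i, hi⟩ := M.lδ_ne j
    exact ⟨M.ex (M.bas i), M.h_ex _, by rw [M.δ_ex]; exact hi⟩
  χ_one := M.χ_one
  C := M.C
  t := M.t
  t_mem v := by
    obtain ⟨l, hl, -, h⟩ := M.t_list v
    rw [hl]
    exact M.C.list_prod_mem fun s hs => M.CN_le (h s hs).1
  h_t := M.h_t
  sz := E.sz
  sz_nonneg := E.sz_nonneg
  sz_inv := E.sz_inv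
  fine := E.fine
  dec := E.dec
  growth := E.growth
  E := Set.range M.ex
  E_h := by
    rintro _ ⟨e, rfl⟩
    exact M.h_ex e
  split y m hm := by
    obtain ⟨e, l, h1, h2, h3, h4⟩ := E.split y m hm
    have ha := M.one_le_a
    have hle : E.as ≤ M.a + |E.as| := by
      have := le_abs_self E.as
      linarith
    refine ⟨M.ex e, l, h1, ⟨e, rfl⟩, h2.trans (mul_le_mul_of_nonneg_right hle ?_),
      h3.trans (mul_le_mul_of_nonneg_right hle (by positivity)),
      fun s hs => ⟨(h4 s hs).1, (h4 s hs).2.trans hle⟩⟩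
    have e1 : 0 ≤ Real.log (2 + (m : ℝ)) := Real.log_nonneg (by
      have : (0 : ℝ) ≤ m := Nat.cast_nonneg _
      linarith)
    have e2 : 0 ≤ Real.log (2 + (wordLength S y : ℝ)) := Real.log_nonneg (by
      have : (0 : ℝ) ≤ wordLength S y := Nat.cast_nonneg _
      linarith)
    positivity

theorem height_int (M : BModel S π) {g : M.G} (hg : M.h g ≠ 0) : 1 ≤ ‖M.h g‖ := by
  obtain ⟨v, hv⟩ := M.h_int g
  have hne : v ≠ 0 := by
    rintro rfl
    apply hg
    funext i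
    simpa using hv i
  obtain ⟨i, hi⟩ := Function.ne_iff.1 hne
  have h1 : (1 : ℝ) ≤ |(v i : ℝ)| := by
    have : 1 ≤ |v i| := Int.one_le_abs hi
    exact_mod_cast this
  calc (1 : ℝ) ≤ |(v i : ℝ)| := h1
    _ = ‖M.h g i‖ := by rw [← hv i, Real.norm_eq_abs]
    _ ≤ ‖M.h g‖ := norm_le_pi_norm _ i

/-- the constant of the legs -/
noncomputable def legC (k : ℕ) (c0 : ℝ) : ℝ := k * (2 / min c0 1)

/-- Legs from a quantitatively positively spanning set of verticals. -/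
theorem exists_legs (E : BExt M A x) {c0 : ℝ} (hc0 : 0 < c0) {Bf : Set M.G}
    (hB : Verts M c0 Bf) : ∃ B : E.toD.Legs (legC k c0), (∀ i, B.b i ∈ Bf) := by
  classical
  have : Fintype Bf := hB.fin.fintype
  set c : ℝ := min c0 1 with hc
  have hcpos : 0 < c := lt_min hc0 one_pos
  have hc1 : c ≤ 1 := min_le_right _ _
  choose w hw using fun b : Bf => M.h_int b
  have hwR : ∀ b : Bf, (fun j => (w b j : ℝ)) = M.h b := fun b => by
    funext j; rw [← hw b j]
  have hwne : ∀ b : Bf, w b ≠ 0 := by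
    intro b h0
    apply hB.h_ne b b.2
    rw [← hwR b, h0]
    funext j; simp
  set H : ℝ := ∑ b : Bf, k * ‖M.h b‖ / c with hH
  have hH0 : 0 ≤ H := Finset.sum_nonneg fun b _ => by positivity
  have hgreedy := greedy w hcpos hc1 hwne (fun ν hν => by
      obtain ⟨b, hb, hνb⟩ := hB.pos ν hν
      refine ⟨⟨b, hb⟩, ?_⟩
      rw [hwR]
      refine le_trans ?_ hνb
      have h1 : 0 ≤ nu1 ν := Finset.sum_nonneg fun _ _ => abs_nonneg _
      have h2 := min_le_left c0 1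
      gcongr) (H := H) (fun b => by
      rw [hwR]
      have h1 : k * ‖M.h b‖ / c ≤ H := Finset.single_le_sum
        (f := fun b : Bf => k * ‖M.h b‖ / c) (fun b _ => by positivity) (Finset.mem_univ b)
      rw [div_le_iff₀ hcpos] at h1
      linarith)
  have hlegC : legC k c0 = k * (2 / c) := rfl
  have hk0 : (0 : ℝ) ≤ k := Nat.cast_nonneg k
  have hspan : ∀ v : Fin k → ℤ, ∃ n : Bf → ℕ,
      (∑ i, (n i : ℝ) * ht1 (M.h i) ≤ legC k c0 * ((n1 v : ℝ) + 1)) ∧
      (∑ i, (n i : ℝ) ≤ (H + 2 / c) * ((n1 v : ℝ) + 1)) ∧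
      ∀ j, |(v j : ℝ) - ∑ i, (n i : ℝ) * M.h i j| ≤ H + 2 / c := by
    intro v
    obtain ⟨n, hn1, hn2⟩ := hgreedy v
    have hv1 : e2 (fun j => (v j : ℝ)) ≤ n1 v := by
      refine (e2_le_ht1 _).trans ?_
      rw [ht1_intCast]
    have hsum : ∑ i : Bf, (n i : ℝ) * ‖M.h i‖ ≤ 2 / c * n1 v := by
      simp only [hwR] at hn1
      rw [div_mul_eq_mul_div, le_div_iff₀ hcpos]
      linarith
    have hn0 : (0 : ℝ) ≤ n1 v := Nat.cast_nonneg _
    refine ⟨n, ?_, ?_, fun j => ?_⟩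
    · calc ∑ i : Bf, (n i : ℝ) * ht1 (M.h i) ≤ ∑ i : Bf, (n i : ℝ) * (k * ‖M.h i‖) :=
            Finset.sum_le_sum fun i _ => mul_le_mul_of_nonneg_left (ht1_le_norm _)
              (Nat.cast_nonneg _)
        _ = k * ∑ i : Bf, (n i : ℝ) * ‖M.h i‖ := by
            rw [Finset.mul_sum]; exact Finset.sum_congr rfl fun i _ => by ring
        _ ≤ k * (2 / c * n1 v) := mul_le_mul_of_nonneg_left hsum hk0
        _ ≤ legC k c0 * ((n1 v : ℝ) + 1) := by
            rw [hlegC]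
            have : 0 ≤ (k : ℝ) * (2 / c) := by positivity
            nlinarith
    · calc ∑ i : Bf, (n i : ℝ) ≤ ∑ i : Bf, (n i : ℝ) * ‖M.h i‖ :=
            Finset.sum_le_sum fun i _ => le_mul_of_one_le_right (Nat.cast_nonneg _)
              (height_int M (hB.h_ne i i.2))
        _ ≤ 2 / c * n1 v := hsum
        _ ≤ _ := by
            have : 0 ≤ 2 / c := by positivity
            nlinarith [mul_nonneg hH0 hn0]
    · have h1 := hn2 j
      have h2 : ∀ b : Bf, (w b j : ℝ) = M.h b j := fun b => (hw b j).symm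
      simp only [h2] at h1
      refine h1.trans (max_le ?_ ?_)
      · have : 0 ≤ 2 / c := by positivity
        linarith
      · have : 0 ≤ 2 / c := by positivity
        linarith
  let B : E.toD.Legs (legC k c0) :=
    { idx := Bf
      b := fun i => i
      mem := fun i => hB.mem_C i i.2
      R := H + 2 / c
      span := hspan }
  exact ⟨B, fun i => i.2⟩

/-- comparison of the two extensions of a self-map. -/
theorem ext_fh (E : BExt M A x) (K : ℕ) : ∃ κ : ℝ, 0 ≤ κ ∧ ∀ Ψ : Γ → Γ, QIMap S S Ψ K →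
    ∀ (g : M.G) (i : Fin k), |E.toD.h (E.toD.ext Ψ g) i - fh M Ψ g i| ≤ κ := by
  set D := E.toD with hD
  have ha := D.a0
  refine ⟨D.a * (D.a * (K * (D.a * (2 * D.a) + D.a) + K)), by positivity, fun Ψ hΨ g i => ?_⟩
  rw [D.h_ext]
  have h1 : fh M Ψ g i = hgtR π (Ψ (M.rnd g)) i := by
    unfold fh
    rw [M.h_ι]
  rw [h1]
  refine (D.hgt_diff hΨ (M.rnd g) (D.r g) i).trans ?_
  have h2 : (wordLength S ((M.rnd g)⁻¹ * D.r g) : ℝ) ≤ D.a * (2 * D.a) + D.a := by
    refine (D.ι_len _).trans ?_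
    have h3 : D.ι ((M.rnd g)⁻¹ * D.r g) = ((M.ι (M.rnd g))⁻¹ * g) * (g⁻¹ * D.ι (D.r g)) := by
      rw [map_mul, map_inv]
      show _ = ((D.ι (M.rnd g))⁻¹ * g) * (g⁻¹ * D.ι (D.r g))
      group
    rw [h3]
    have h4 := D.isLen.mul ((M.ι (M.rnd g))⁻¹ * g) (g⁻¹ * D.ι (D.r g))
    have h5 : D.len ((M.ι (M.rnd g))⁻¹ * g) ≤ D.a := (M.len_rnd g).trans (by
      show M.a ≤ M.a + |E.as|
      have := abs_nonneg E.as
      linarith)
    have h6 := D.hr' g
    have h7 : D.len (((M.ι (M.rnd g))⁻¹ * g) * (g⁻¹ * D.ι (D.r g))) ≤ 2 * D.a := by linarith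
    have := mul_le_mul_of_nonneg_left h7 ha
    linarith
  gcongr

/-- The core law for all `K`. -/
def CoreLawAll (M : BModel S π) : Prop :=
  ∀ K : ℕ, ∃ (LL : Set ((Fin k → ℝ) →ₗ[ℝ] (Fin k → ℝ))) (c0 : ℝ), 0 < c0 ∧ LL.Finite ∧
    (∀ L ∈ LL, ∀ j, M.Λ j ∘ₗ L ≠ 0) ∧ CoreLaw M LL c0 K

/-- **CoreLaw ⇒ USLB.** -/
theorem uslB_of_coreLaw (E : BExt M A x) (h : CoreLawAll M) : E.toD.USLB := by
  intro K
  obtain ⟨LL, c0, hc0, hLL, hne, hlaw⟩ := h K
  refine ⟨LL, legC k c0, hLL, hne, fun ε hε => ?_⟩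
  obtain ⟨Bf, hBf, B, hB⟩ := hlaw ε hε
  obtain ⟨Lg, hLg⟩ := exists_legs E hc0 hBf
  obtain ⟨κ, hκ, hext⟩ := ext_fh E K
  refine ⟨Lg, |B| + 2 * κ, fun Ψ hΨ => ?_⟩
  obtain ⟨L, hL, hray, hE, -⟩ := hB Ψ hΨ
  refine ⟨L, hL, ?_, ?_⟩
  · intro g i n j
    have h1 := hray g (Lg.b i) (hLg i) n j
    have h2 := hext Ψ hΨ (g * Lg.b i ^ n) j
    have h3 := hext Ψ hΨ g j
    have h4 : ε * (n * ‖M.h (Lg.b i)‖) ≤ ε * (n * ht1 (M.h (Lg.b i))) :=
      mul_le_mul_of_nonneg_left (mul_le_mul_of_nonneg_left (norm_le_ht1 _) (Nat.cast_nonneg _))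
        hε.le
    have h5 := le_abs_self B
    have e1 : E.toD.h (E.toD.ext Ψ (g * Lg.b i ^ n)) j - E.toD.h (E.toD.ext Ψ g) j -
        (n : ℝ) * L (E.toD.h (Lg.b i)) j =
        (E.toD.h (E.toD.ext Ψ (g * Lg.b i ^ n)) j - fh M Ψ (g * Lg.b i ^ n) j) -
        (E.toD.h (E.toD.ext Ψ g) j - fh M Ψ g j) +
        (fh M Ψ (g * Lg.b i ^ n) j - fh M Ψ g j - (n : ℝ) * L (M.h (Lg.b i)) j) := by
      show _ - _ - (n : ℝ) * L (M.h (Lg.b i)) j = _
      ring
    rw [e1]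
    refine (abs_add_le _ _).trans ?_
    have h6 := abs_sub (E.toD.h (E.toD.ext Ψ (g * Lg.b i ^ n)) j - fh M Ψ (g * Lg.b i ^ n) j)
      (E.toD.h (E.toD.ext Ψ g) j - fh M Ψ g j)
    show _ ≤ ε * (n * ht1 (M.h (Lg.b i))) + (|B| + 2 * κ)
    linarith
  · rintro g _ ⟨e, rfl⟩ j
    have h1 := hE g e j
    have h2 := hext Ψ hΨ (g * M.ex e) j
    have h3 := hext Ψ hΨ g j
    have h5 := le_abs_self B
    have e1 : E.toD.h (E.toD.ext Ψ (g * M.ex e)) j - E.toD.h (E.toD.ext Ψ g) j =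
        (E.toD.h (E.toD.ext Ψ (g * M.ex e)) j - fh M Ψ (g * M.ex e) j) -
        (E.toD.h (E.toD.ext Ψ g) j - fh M Ψ g j) +
        (fh M Ψ (g * M.ex e) j - fh M Ψ g j) := by ring
    rw [e1]
    refine (abs_add_le _ _).trans ?_
    have h6 := abs_sub (E.toD.h (E.toD.ext Ψ (g * M.ex e)) j - fh M Ψ (g * M.ex e) j)
      (E.toD.h (E.toD.ext Ψ g) j - fh M Ψ g j)
    show _ ≤ ε * M.len (M.ex e) + (|B| + 2 * κ)
    linarith

/-- **CoreLaw ⇒ LAW.** -/
theorem law_of_coreLaw (E : BExt M A x) (hx : ∀ i, hgt π (x i) = Pi.single i 1)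
    (h : CoreLawAll M) : Law S π A x :=
  E.toD.law_of_uslB hx (uslB_of_coreLaw E h)

end Crest.Agent.R182.Bnd
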