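import Mathlib

-- ▼ part R182/NbMon
section

set_option autoImplicit false
set_option linter.unusedSectionVars false

namespace Crest.Agent.R182.Nb

open Finset

section mon

variable {L : Type*} [LieRing L] [LieAlgebra ℝ L] {σ : Type*}

/-- left-normed monomial `⁅v i₁, ⁅v i₂, …, v iₗ⁆⁆` -/
def mon (v : σ → L) : List σ → L
  | [] => 0
  | [i] => v i
  | i :: j :: t => ⁅v i, mon v (j :: t)⁆

@[simp] theorem mon_nil (v : σ → L) : mon v [] = 0 := rfl

@[simp] theorem mon_single (v : σ → L) (i : σ) : mon v [i] = v i := rfl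

theorem mon_cons (v : σ → L) (i : σ) {t : List σ} (ht : t ≠ []) :
    mon v (i :: t) = ⁅v i, mon v t⁆ := by
  cases t with
  | nil => exact absurd rfl ht
  | cons j t => rfl

/-- class `≤ c` along the family `v` -/
def Nil (c : ℕ) (v : σ → L) : Prop := ∀ κ : List σ, c < κ.length → mon v κ = 0

variable [Fintype σ]

/-- lists of length `≤ c` -/
noncomputable def KL (σ : Type*) [Fintype σ] (c : ℕ) : Finset (List σ) :=
  (List.finite_length_le σ c).toFinset

theorem mem_KL {c : ℕ} {κ : List σ} : κ ∈ KL σ c ↔ κ.length ≤ c := by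
  simp [KL]

/-- the box of size `t` spanned by the monomials of length `≤ c` in the family `g` -/
def Bx (c : ℕ) (g : σ → L) (t : ℝ) : Set L :=
  {x | ∃ s : List σ → ℝ, (∀ κ, |s κ| ≤ t) ∧ x = ∑ κ ∈ KL σ c, s κ • mon g κ}

variable {c : ℕ} {g : σ → L} {s t : ℝ} {x y : L}

theorem Bx_mono (h : s ≤ t) : Bx c g s ⊆ Bx c g t := by
  rintro x ⟨a, ha, rfl⟩
  exact ⟨a, fun κ => (ha κ).trans h, rfl⟩

theorem Bx_zero_mem (ht : 0 ≤ t) : (0 : L) ∈ Bx c g t :=
  ⟨fun _ => 0, fun _ => by simpa using ht, by simp⟩

theorem Bx_add (hx : x ∈ Bx c g s) (hy : y ∈ Bx c g t) : x + y ∈ Bx c g (s + t) := by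
  obtain ⟨a, ha, rfl⟩ := hx
  obtain ⟨b, hb, rfl⟩ := hy
  refine ⟨fun κ => a κ + b κ, fun κ => (abs_add_le _ _).trans (add_le_add (ha κ) (hb κ)), ?_⟩
  rw [← Finset.sum_add_distrib]
  exact Finset.sum_congr rfl fun κ _ => (add_smul _ _ _).symm

theorem Bx_smul (hx : x ∈ Bx c g s) (r : ℝ) : r • x ∈ Bx c g (|r| * s) := by
  obtain ⟨a, ha, rfl⟩ := hx
  refine ⟨fun κ => r * a κ, fun κ => ?_, ?_⟩
  · rw [abs_mul]; exact mul_le_mul_of_nonneg_left (ha κ) (abs_nonneg r)
  · rw [Finset.smul_sum]
    exact Finset.sum_congr rfl fun κ _ => smul_smul _ _ _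

theorem Bx_neg (hx : x ∈ Bx c g s) : -x ∈ Bx c g s := by
  have := Bx_smul hx (-1)
  simpa using this

theorem Bx_sum {ι : Type*} (S : Finset ι) (f : ι → L) (r : ι → ℝ)
    (h : ∀ i ∈ S, f i ∈ Bx c g (r i)) : ∑ i ∈ S, f i ∈ Bx c g (∑ i ∈ S, r i) := by
  classical
  induction S using Finset.induction_on with
  | empty => simpa using Bx_zero_mem (le_refl (0:ℝ))
  | insert a S ha ih =>
    rw [Finset.sum_insert ha, Finset.sum_insert ha]
    exact Bx_add (h a (Finset.mem_insert_self a S))
      (ih fun i hi => h i (Finset.mem_insert_of_mem hi))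

theorem mon_mem_Bx (hN : Nil c g) (κ : List σ) : mon g κ ∈ Bx c g 1 := by
  classical
  by_cases hκ : κ.length ≤ c
  · refine ⟨fun κ' => if κ' = κ then 1 else 0, fun κ' => ?_, ?_⟩
    · beta_reduce; split_ifs <;> simp
    · rw [Finset.sum_eq_single κ]
      · simp
      · intro κ' _ h; simp [h]
      · intro h; exact absurd (mem_KL.2 hκ) h
  · rw [hN κ (by omega)]; exact Bx_zero_mem zero_le_one

theorem gen_mem_Bx (hN : Nil c g) (i : σ) : g i ∈ Bx c g 1 := mon_mem_Bx hN [i]

/-- `ad (g i)` preserves the boxes -/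
theorem ad_mem_Bx (hN : Nil c g) (ht : 0 ≤ t) (i : σ) (hx : x ∈ Bx c g t) :
    ⁅g i, x⁆ ∈ Bx c g t := by
  classical
  obtain ⟨a, ha, rfl⟩ := hx
  refine ⟨fun κ => match κ with
    | [] => 0
    | [_] => 0
    | j :: k :: l => if j = i then a (k :: l) else 0, fun κ => ?_, ?_⟩
  · match κ with
    | [] => simpa using ht
    | [_] => simpa using ht
    | j :: k :: l =>
      simp only
      split_ifs
      · exact ha _
      · simpa using ht
  · rw [lie_sum]
    -- both sides as sums over lists `κ` of length ≤ c with `i :: κ`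
    have h1 : ∀ κ ∈ KL σ c, ⁅g i, a κ • mon g κ⁆ =
        if κ ≠ [] ∧ κ.length + 1 ≤ c then a κ • mon g (i :: κ) else 0 := by
      intro κ _
      rw [lie_smul]
      by_cases h : κ = []
      · simp [h]
      · by_cases h' : κ.length + 1 ≤ c
        · rw [if_pos ⟨h, h'⟩, mon_cons g i h]
        · rw [if_neg (fun hh => h' hh.2), ← mon_cons g i h, hN (i :: κ) (by simp; omega), smul_zero]
    rw [Finset.sum_congr rfl h1, ← Finset.sum_filter]
    symm
    rw [← Finset.sum_subset (Finset.filter_subset
      (fun κ : List σ => ∃ l, κ = i :: l ∧ l ≠ []) (KL σ c))]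
    · refine Finset.sum_bij' (fun κ _ => κ.tail) (fun κ _ => i :: κ) ?_ ?_ ?_ ?_ ?_
      · intro κ hκ
        rw [Finset.mem_filter, mem_KL] at hκ
        obtain ⟨h2, l, rfl, hl⟩ := hκ
        simp only [List.tail_cons, Finset.mem_filter, mem_KL, ne_eq]
        simp only [List.length_cons] at h2
        exact ⟨by omega, hl, h2⟩
      · intro κ hκ
        rw [Finset.mem_filter, mem_KL] at hκ
        rw [Finset.mem_filter, mem_KL]
        exact ⟨by simpa using hκ.2.2, κ, rfl, hκ.2.1⟩
      · intro κ hκ
        rw [Finset.mem_filter] at hκ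
        obtain ⟨_, l, rfl, hl⟩ := hκ
        rfl
      · intro κ _; rfl
      · intro κ hκ
        rw [Finset.mem_filter] at hκ
        obtain ⟨_, l, rfl, hl⟩ := hκ
        cases l with
        | nil => exact absurd rfl hl
        | cons k l => simp
    · intro κ hκ hκ'
      rw [Finset.mem_filter, not_and] at hκ'
      have h3 := hκ' hκ
      match κ, h3 with
      | [], _ => simp
      | [_], _ => simp
      | j :: k :: l, h3 =>
        have : j ≠ i := by
          rintro rfl
          exact h3 ⟨k :: l, rfl, by simp⟩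
        simp [this]

theorem mon_lie_mem (hN : Nil c g) (ht : 0 ≤ t) (κ : List σ) :
    ∀ y, y ∈ Bx c g t → ⁅mon g κ, y⁆ ∈ Bx c g (2 ^ κ.length * t) := by
  induction κ with
  | nil =>
    intro y _
    rw [mon_nil, zero_lie]
    exact Bx_zero_mem (by positivity)
  | cons i κ ih =>
    intro y hy
    by_cases hκ : κ = []
    · subst hκ
      rw [mon_single]
      exact Bx_mono (by simp; linarith) (ad_mem_Bx hN ht i hy)
    · rw [mon_cons g i hκ, lie_lie]
      have h1 := ad_mem_Bx hN (by positivity) i (ih y hy)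
      have h2 := ih _ (ad_mem_Bx hN ht i hy)
      rw [sub_eq_add_neg]
      refine Bx_mono ?_ (Bx_add h1 (Bx_neg h2))
      rw [List.length_cons, pow_succ]; linarith

/-- the bracket constant -/
noncomputable def brC (σ : Type*) [Fintype σ] (c : ℕ) : ℝ := (KL σ c).card * 2 ^ c + 1

theorem brC_pos (σ : Type*) [Fintype σ] (c : ℕ) : 1 ≤ brC σ c := by
  have : (0:ℝ) ≤ (KL σ c).card * 2 ^ c := by positivity
  unfold brC; linarith

theorem lie_mem_Bx (hN : Nil c g) (hs : 0 ≤ s) (ht : 0 ≤ t) (hx : x ∈ Bx c g s)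
    (hy : y ∈ Bx c g t) : ⁅x, y⁆ ∈ Bx c g (brC σ c * s * t) := by
  obtain ⟨a, ha, rfl⟩ := hx
  rw [sum_lie]
  have h1 : ∀ κ ∈ KL σ c, ⁅a κ • mon g κ, y⁆ ∈ Bx c g (s * (2 ^ c * t)) := by
    intro κ hκ
    rw [smul_lie]
    have h2 := mon_lie_mem hN ht κ y hy
    refine Bx_mono ?_ (Bx_smul h2 (a κ))
    have h3 : (2:ℝ) ^ κ.length ≤ 2 ^ c := pow_le_pow_right₀ (by norm_num) (mem_KL.1 hκ)
    have h4 := ha κ
    gcongr
  refine Bx_mono ?_ (Bx_sum _ _ _ h1)
  rw [Finset.sum_const, nsmul_eq_mul]
  unfold brC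
  nlinarith [mul_nonneg hs ht]

/-- all elements lie in some box if the monomials span -/
theorem exists_mem_Bx (hspan : ∀ x : L, x ∈ Submodule.span ℝ (Set.range fun κ : List σ => mon g κ))
    (hN : Nil c g) (x : L) : ∃ t, 0 ≤ t ∧ x ∈ Bx c g t := by
  have h := hspan x
  induction h using Submodule.span_induction with
  | mem x hx =>
    obtain ⟨κ, rfl⟩ := hx
    exact ⟨1, zero_le_one, mon_mem_Bx hN κ⟩
  | zero => exact ⟨0, le_rfl, Bx_zero_mem le_rfl⟩
  | add x y _ _ hx hy =>
    obtain ⟨a, ha, h1⟩ := hx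
    obtain ⟨b, hb, h2⟩ := hy
    exact ⟨a + b, add_nonneg ha hb, Bx_add h1 h2⟩
  | smul r x _ hx =>
    obtain ⟨a, ha, h1⟩ := hx
    exact ⟨|r| * a, by positivity, Bx_smul h1 r⟩

/-- rescaling the family -/
theorem Bx_scale {R : ℝ} (hR : 1 ≤ R) (ht : 0 ≤ t) (hx : x ∈ Bx c g t) :
    x ∈ Bx c (fun i => R • g i) (t / R) := by
  have hmon : ∀ κ : List σ, mon (fun i => R • g i) κ = R ^ κ.length • mon g κ := by
    intro κ
    induction κ with
    | nil => simp
    | cons i κ ih =>
      by_cases hκ : κ = []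
      · subst hκ; simp
      · rw [mon_cons _ i hκ, ih, mon_cons g i hκ, smul_lie, lie_smul, smul_smul, List.length_cons,
          pow_succ']
  obtain ⟨a, ha, rfl⟩ := hx
  have hR0 : 0 < R := by linarith
  refine ⟨fun κ => if κ = [] then 0 else a κ / R ^ κ.length, fun κ => ?_, ?_⟩
  · beta_reduce
    split_ifs with h
    · simp; positivity
    · rw [abs_div, abs_of_pos (pow_pos hR0 _)]
      have h1 : 1 ≤ κ.length := by
        rcases κ with _ | ⟨_, _⟩
        · exact absurd rfl h
        · simp
      have h2 : R ≤ R ^ κ.length := by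
        calc R = R ^ 1 := (pow_one R).symm
          _ ≤ R ^ κ.length := pow_le_pow_right₀ hR h1
      exact div_le_div₀ ht (ha κ) hR0 h2
  · refine Finset.sum_congr rfl fun κ _ => ?_
    beta_reduce
    rw [hmon]
    by_cases h : κ = []
    · simp [h]
    · rw [if_neg h, smul_smul, div_mul_cancel₀ _ (pow_pos hR0 _).ne']

end mon

end Crest.Agent.R182.Nb
end

-- ▼ part R182/NbLP
section

set_option autoImplicit false
set_option linter.unusedSectionVars false

namespace Crest.Agent.R182.Nb

open Finset

section LP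

variable {L : Type*} [LieRing L] [LieAlgebra ℝ L] {σ τ : Type*}

/-- Lie polynomials in the variables `σ`, as functions. -/
def LP (σ : Type*) (L : Type*) [LieRing L] [LieAlgebra ℝ L] : Submodule ℝ ((σ → L) → L) :=
  Submodule.span ℝ (Set.range fun (κ : List σ) (v : σ → L) => mon v κ)

theorem LP.of_mon (κ : List σ) : (fun v : σ → L => mon v κ) ∈ LP σ L :=
  Submodule.subset_span ⟨κ, rfl⟩

theorem LP.proj (i : σ) : (fun v : σ → L => v i) ∈ LP σ L := LP.of_mon [i]

theorem LP.lie_var (i : σ) {f : (σ → L) → L} (hf : f ∈ LP σ L) :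
    (fun v => ⁅v i, f v⁆) ∈ LP σ L := by
  induction hf using Submodule.span_induction with
  | mem f hf =>
    obtain ⟨κ, rfl⟩ := hf
    by_cases hκ : κ = []
    · subst hκ
      have : (fun v : σ → L => ⁅v i, Nb.mon v ([] : List σ)⁆) = 0 := by
        funext v; simp
      simp only [this]; exact Submodule.zero_mem _
    · have : (fun v : σ → L => ⁅v i, Nb.mon v κ⁆) = fun v => Nb.mon v (i :: κ) := by
        funext v; rw [mon_cons v i hκ]
      simp only [this]; exact LP.of_mon _
  | zero =>
    have : (fun v : σ → L => ⁅v i, (0 : (σ → L) → L) v⁆) = 0 := by funext v; simp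
    rw [this]; exact Submodule.zero_mem _
  | add f g _ _ hf hg =>
    have : (fun v : σ → L => ⁅v i, (f + g) v⁆) = (fun v => ⁅v i, f v⁆) + fun v => ⁅v i, g v⁆ := by
      funext v; simp [lie_add]
    rw [this]; exact Submodule.add_mem _ hf hg
  | smul r f _ hf =>
    have : (fun v : σ → L => ⁅v i, (r • f) v⁆) = r • (fun v => ⁅v i, f v⁆) := by
      funext v; simp [lie_smul]
    rw [this]; exact Submodule.smul_mem _ _ hf

theorem LP.lie_mon (κ : List σ) : ∀ {f : (σ → L) → L}, f ∈ LP σ L →
    (fun v => ⁅Nb.mon v κ, f v⁆) ∈ LP σ L := by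
  induction κ with
  | nil =>
    intro f _
    have : (fun v : σ → L => ⁅Nb.mon v ([] : List σ), f v⁆) = 0 := by funext v; simp
    rw [this]; exact Submodule.zero_mem _
  | cons i κ ih =>
    intro f hf
    by_cases hκ : κ = []
    · subst hκ; exact LP.lie_var i hf
    · have : (fun v : σ → L => ⁅Nb.mon v (i :: κ), f v⁆)
          = (fun v => ⁅v i, ⁅Nb.mon v κ, f v⁆⁆) - fun v => ⁅Nb.mon v κ, ⁅v i, f v⁆⁆ := by
        funext v; rw [mon_cons v i hκ, lie_lie]; rfl
      rw [this]
      exact Submodule.sub_mem _ (LP.lie_var i (ih hf)) (ih (LP.lie_var i hf))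

theorem LP.lie {f g : (σ → L) → L} (hf : f ∈ LP σ L) (hg : g ∈ LP σ L) :
    (fun v => ⁅f v, g v⁆) ∈ LP σ L := by
  induction hf using Submodule.span_induction with
  | mem f hf =>
    obtain ⟨κ, rfl⟩ := hf
    exact LP.lie_mon κ hg
  | zero =>
    have : (fun v : σ → L => ⁅(0 : (σ → L) → L) v, g v⁆) = 0 := by funext v; simp
    rw [this]; exact Submodule.zero_mem _
  | add f f' _ _ hf hf' =>
    have : (fun v : σ → L => ⁅(f + f') v, g v⁆) = (fun v => ⁅f v, g v⁆) + fun v => ⁅f' v, g v⁆ := by
      funext v; simp [add_lie]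
    rw [this]; exact Submodule.add_mem _ hf hf'
  | smul r f _ hf =>
    have : (fun v : σ → L => ⁅(r • f) v, g v⁆) = r • (fun v => ⁅f v, g v⁆) := by
      funext v; simp [smul_lie]
    rw [this]; exact Submodule.smul_mem _ _ hf

theorem LP.comp_mon {G : (τ → L) → (σ → L)} (hG : ∀ i, (fun w => G w i) ∈ LP τ L)
    (κ : List σ) : (fun w => Nb.mon (G w) κ) ∈ LP τ L := by
  induction κ with
  | nil =>
    have : (fun w : τ → L => Nb.mon (G w) ([] : List σ)) = 0 := by funext v; simp
    rw [this]; exact Submodule.zero_mem _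
  | cons i κ ih =>
    by_cases hκ : κ = []
    · subst hκ; exact hG i
    · have : (fun w : τ → L => Nb.mon (G w) (i :: κ)) = fun w => ⁅G w i, Nb.mon (G w) κ⁆ := by
        funext w; rw [mon_cons _ i hκ]
      rw [this]; exact LP.lie (hG i) ih

theorem LP.comp {f : (σ → L) → L} (hf : f ∈ LP σ L) {G : (τ → L) → (σ → L)}
    (hG : ∀ i, (fun w => G w i) ∈ LP τ L) : (fun w => f (G w)) ∈ LP τ L := by
  induction hf using Submodule.span_induction with
  | mem f hf =>
    obtain ⟨κ, rfl⟩ := hf
    exact LP.comp_mon hG κ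
  | zero => exact Submodule.zero_mem _
  | add f f' _ _ hf hf' => exact Submodule.add_mem _ hf hf'
  | smul r f _ hf => exact Submodule.smul_mem _ _ hf

/-- explicit form -/
theorem LP.exists_sum {f : (σ → L) → L} (hf : f ∈ LP σ L) :
    ∃ a : List σ →₀ ℝ, ∀ v, f v = ∑ κ ∈ a.support, a κ • Nb.mon v κ := by
  obtain ⟨a, ha⟩ := Finsupp.mem_span_range_iff_exists_finsupp.1 hf
  refine ⟨a, fun v => ?_⟩
  rw [← ha, Finsupp.sum, Finset.sum_apply]
  rfl

section boxes

variable {ι : Type*} [Fintype ι] {c : ℕ} {g : ι → L}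

theorem mon_comp_mem (hN : Nil c g) {v : σ → L} {t : σ → ℝ} (ht : ∀ i, 0 ≤ t i)
    (hv : ∀ i, v i ∈ Bx c g (t i)) (κ : List σ) :
    mon v κ ∈ Bx c g (brC ι c ^ κ.length * (κ.map t).prod) := by
  have hC := brC_pos ι c
  induction κ with
  | nil => exact Bx_zero_mem (by simp)
  | cons i κ ih =>
    have hprod : 0 ≤ (κ.map t).prod := List.prod_nonneg (by
      intro a ha
      obtain ⟨j, _, rfl⟩ := List.mem_map.1 ha
      exact ht j)
    by_cases hκ : κ = []
    · subst hκ
      refine Bx_mono ?_ (hv i)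
      simp only [List.length_cons, List.length_nil, zero_add, pow_one, List.map_cons, List.map_nil,
        List.prod_cons, List.prod_nil, mul_one]
      nlinarith [ht i]
    · rw [mon_cons v i hκ]
      refine Bx_mono ?_ (lie_mem_Bx hN (ht i) (by positivity) (hv i) ih)
      rw [List.length_cons, List.map_cons, List.prod_cons, pow_succ']
      exact le_of_eq (by ring)



/-- mixed estimate: a Lie polynomial in two variables which vanishes on both axes is `O(|x||y|)` -/
theorem LP.mixed {f : (Bool → L) → L} (hf : f ∈ LP Bool L)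
    (h0 : ∀ v, v false = 0 → f v = 0) (h1 : ∀ v, v true = 0 → f v = 0)
    (ι : Type*) [Fintype ι] (c : ℕ) :
    ∃ C : ℝ, 0 ≤ C ∧ ∀ (g : ι → L), Nil c g → ∀ (s t : ℝ), 0 ≤ s → s ≤ 1 → 0 ≤ t → t ≤ 1 →
      ∀ v : Bool → L, v false ∈ Bx c g s → v true ∈ Bx c g t → f v ∈ Bx c g (C * s * t) := by
  classical
  obtain ⟨a, ha⟩ := LP.exists_sum hf
  -- monomials missing a variable
  have hmonz : ∀ (b : Bool) (κ : List Bool) (v : Bool → L), b ∈ κ → v b = 0 → mon v κ = 0 := by
    intro b κ v
    induction κ with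
    | nil => intro h; simp at h
    | cons i κ ih =>
      intro hb hv
      by_cases hκ : κ = []
      · subst hκ
        rw [List.mem_singleton] at hb
        subst hb
        exact hv
      · rw [mon_cons v i hκ]
        rcases List.mem_cons.1 hb with h | h
        · subst h; rw [hv, zero_lie]
        · rw [ih h hv, lie_zero]
  have hmonc : ∀ (b : Bool) (κ : List Bool) (v w : Bool → L), b ∉ κ → v (!b) = w (!b) →
      mon v κ = mon w κ := by
    intro b κ v w
    induction κ with
    | nil => intro _ _; rfl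
    | cons i κ ih =>
      intro hb hvw
      rw [List.mem_cons, not_or] at hb
      have hi : v i = w i := by
        have : i = !b := by cases i <;> cases b <;> simp_all
        rw [this]; exact hvw
      by_cases hκ : κ = []
      · subst hκ; exact hi
      · rw [mon_cons v i hκ, mon_cons w i hκ, hi, ih hb.2 hvw]
  -- the full sum equals the sum over mixed lists
  have hsum : ∀ v, f v = ∑ κ ∈ a.support.filter (fun κ => false ∈ κ ∧ true ∈ κ), a κ • mon v κ := by
    intro v
    -- v with one coordinate killed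
    have e1 := h0 (fun b => if b = false then 0 else v b) (by simp)
    have e2 := h1 (fun b => if b = true then 0 else v b) (by simp)
    have hz : f (fun _ => 0) = 0 := h0 _ rfl
    rw [ha] at e1 e2
    have hsplit : ∀ w : Bool → L, ∑ κ ∈ a.support, a κ • mon w κ
        = ∑ κ ∈ a.support.filter (fun κ => false ∈ κ ∧ true ∈ κ), a κ • mon w κ
          + (∑ κ ∈ a.support.filter (fun κ => ¬ (false ∈ κ ∧ true ∈ κ) ∧ false ∈ κ), a κ • mon w κ
          + ∑ κ ∈ a.support.filter (fun κ => ¬ (false ∈ κ ∧ true ∈ κ) ∧ ¬ false ∈ κ),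
              a κ • mon w κ) := by
      intro w
      rw [← Finset.sum_filter_add_sum_filter_not a.support (fun κ => false ∈ κ ∧ true ∈ κ)]
      congr 1
      rw [← Finset.sum_filter_add_sum_filter_not
        (a.support.filter fun κ => ¬ (false ∈ κ ∧ true ∈ κ)) (fun κ => false ∈ κ),
        Finset.filter_filter, Finset.filter_filter]
    rw [hsplit] at e1 e2
    rw [ha, hsplit]
    have hA : ∑ κ ∈ a.support.filter (fun κ => ¬ (false ∈ κ ∧ true ∈ κ) ∧ false ∈ κ),
        a κ • mon v κ = 0 := by
      -- use e2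
      rw [Finset.sum_eq_zero (s := a.support.filter (fun κ => false ∈ κ ∧ true ∈ κ)),
        zero_add] at e2
      · rw [Finset.sum_eq_zero (s := a.support.filter
          (fun κ => ¬ (false ∈ κ ∧ true ∈ κ) ∧ ¬ false ∈ κ)), add_zero] at e2
        · rw [← e2]
          refine Finset.sum_congr rfl fun κ hκ => ?_
          rw [Finset.mem_filter] at hκ
          rw [hmonc true κ v (fun b => if b = true then 0 else v b)
            (fun h => hκ.2.1 ⟨hκ.2.2, h⟩) (by simp)]
        · intro κ hκ
          rw [Finset.mem_filter] at hκ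
          by_cases hnil : κ = []
          · subst hnil; simp
          · have : true ∈ κ := by
              rcases κ with _ | ⟨b, κ⟩
              · exact absurd rfl hnil
              · cases b
                · exact absurd List.mem_cons_self hκ.2.2
                · exact List.mem_cons_self
            rw [hmonz true κ _ this (by simp), smul_zero]
      · intro κ hκ
        rw [Finset.mem_filter] at hκ
        rw [hmonz true κ _ hκ.2.2 (by simp), smul_zero]
    have hB : ∑ κ ∈ a.support.filter (fun κ => ¬ (false ∈ κ ∧ true ∈ κ) ∧ ¬ false ∈ κ),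
        a κ • mon v κ = 0 := by
      rw [Finset.sum_eq_zero (s := a.support.filter (fun κ => false ∈ κ ∧ true ∈ κ)),
        zero_add] at e1
      · rw [Finset.sum_eq_zero (s := a.support.filter
          (fun κ => ¬ (false ∈ κ ∧ true ∈ κ) ∧ false ∈ κ)), zero_add] at e1
        · rw [← e1]
          refine Finset.sum_congr rfl fun κ hκ => ?_
          rw [Finset.mem_filter] at hκ
          rw [hmonc false κ v (fun b => if b = false then 0 else v b) hκ.2.2 (by simp)]
        · intro κ hκ
          rw [Finset.mem_filter] at hκ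
          rw [hmonz false κ _ hκ.2.2 (by simp), smul_zero]
      · intro κ hκ
        rw [Finset.mem_filter] at hκ
        rw [hmonz false κ _ hκ.2.1 (by simp), smul_zero]
    rw [hA, hB, add_zero, add_zero]
  refine ⟨∑ κ ∈ a.support.filter (fun κ => false ∈ κ ∧ true ∈ κ), |a κ| * brC ι c ^ κ.length,
    Finset.sum_nonneg fun κ _ => by have := brC_pos ι c; positivity,
    fun g hN s t hs0 hs ht0 ht v hvs hvt => ?_⟩
  rw [hsum, Finset.sum_mul, Finset.sum_mul]
  refine Bx_sum _ _ _ fun κ hκ => ?_
  rw [Finset.mem_filter] at hκ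
  have hC := brC_pos ι c
  have h3 := mon_comp_mem hN (v := v) (t := fun b => if b = false then s else t)
    (fun b => by split_ifs <;> assumption) (fun b => by cases b <;> simpa) κ
  refine Bx_mono ?_ (Bx_smul h3 (a κ))
  -- the product of the sizes is at most s * t
  have hprod : ∀ κ : List Bool, 0 ≤ (κ.map fun b => if b = false then s else t).prod ∧
      (κ.map fun b => if b = false then s else t).prod ≤ 1 ∧
      (false ∈ κ → (κ.map fun b => if b = false then s else t).prod ≤ s) ∧
      (true ∈ κ → (κ.map fun b => if b = false then s else t).prod ≤ t) ∧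
      (false ∈ κ → true ∈ κ → (κ.map fun b => if b = false then s else t).prod ≤ s * t) := by
    intro κ
    induction κ with
    | nil => simp
    | cons b κ ih =>
      obtain ⟨i0, i1, i2, i3, i4⟩ := ih
      set P := (κ.map fun b => if b = false then s else t).prod with hP
      rw [List.map_cons, List.prod_cons]
      cases b
      · simp only [if_true]
        refine ⟨by positivity, by nlinarith, fun _ => by nlinarith, fun h => ?_, fun _ h => ?_⟩
        · have h' : true ∈ κ := by simpa using h
          have := i3 h'; nlinarith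
        · have h' : true ∈ κ := by simpa using h
          have := i3 h'; nlinarith
      · simp only [Bool.true_eq_false, if_false]
        refine ⟨by positivity, by nlinarith, fun h => ?_, fun _ => by nlinarith, fun h _ => ?_⟩
        · have h' : false ∈ κ := by simpa using h
          have := i2 h'; nlinarith
        · have h' : false ∈ κ := by simpa using h
          have := i2 h'; nlinarith
  obtain ⟨i0, -, -, -, i4⟩ := hprod κ
  have h4 := i4 hκ.2.1 hκ.2.2
  calc |a κ| * (brC ι c ^ κ.length * (κ.map fun b => if b = false then s else t).prod)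
      ≤ |a κ| * (brC ι c ^ κ.length * (s * t)) := by gcongr
    _ = |a κ| * brC ι c ^ κ.length * s * t := by ring

end boxes

end LP

end Crest.Agent.R182.Nb
end

-- ▼ part R182/NbStar

set_option autoImplicit false
set_option linter.unusedSectionVars false

namespace Crest.Agent.R182.Nb

open Finset

variable {L : Type*} [LieRing L] [LieAlgebra ℝ L]

/-- `L` has class at most `c` -/
def NilC (c : ℕ) (L : Type*) [LieRing L] : Prop := ∀ x : List L, c < x.length → mon id x = 0

theorem mon_map {σ : Type*} (v : σ → L) (κ : List σ) : mon v κ = mon id (κ.map v) := by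
  induction κ with
  | nil => rfl
  | cons i κ ih =>
    by_cases h : κ = []
    · subst h; rfl
    · rw [mon_cons v i h, List.map_cons, mon_cons id _ (by simpa using h), ih]; rfl

theorem NilC.nil {c : ℕ} (h : NilC c L) {σ : Type*} (v : σ → L) : Nil c v := by
  intro κ hκ
  rw [mon_map]; exact h _ (by simpa using hκ)

/-- a nilpotent group law on `L` given by a Lie polynomial -/
structure Star (L : Type*) [LieRing L] [LieAlgebra ℝ L] where
  op : L → L → L
  lp : (fun v : Bool → L => op (v false) (v true)) ∈ LP Bool L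
  op_zero : ∀ x, op x 0 = x
  zero_op : ∀ x, op 0 x = x
  assoc : ∀ x y z, op (op x y) z = op x (op y z)
  op_neg : ∀ x, op x (-x) = 0

namespace Star

variable (S : Star L)

/-- the product of a list -/
def prod (l : List L) : L := l.foldr S.op 0

@[simp] theorem prod_nil : S.prod [] = 0 := rfl
@[simp] theorem prod_cons (x : L) (l : List L) : S.prod (x :: l) = S.op x (S.prod l) := rfl

theorem prod_append (l l' : List L) : S.prod (l ++ l') = S.op (S.prod l) (S.prod l') := by
  induction l with
  | nil => rw [List.nil_append, prod_nil, S.zero_op]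
  | cons x l ih => rw [List.cons_append, prod_cons, prod_cons, ih, S.assoc]

/-- the product of finitely many variables is a Lie polynomial -/
theorem prod_lp {σ : Type*} (κ : List σ) : (fun v : σ → L => S.prod (κ.map v)) ∈ LP σ L := by
  induction κ with
  | nil => exact Submodule.zero_mem _
  | cons i κ ih =>
    exact LP.comp S.lp (G := fun (v : σ → L) (b : Bool) => if b = false then v i else S.prod (κ.map v))
      (fun b => by cases b <;> simp [LP.proj, ih])

/-- quantitative near-additivity, uniform in the family. -/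
theorem exists_op_mem (ι : Type*) [Fintype ι] (c : ℕ) :
    ∃ C : ℝ, 0 ≤ C ∧ ∀ g : ι → L, Nil c g → ∀ s t : ℝ, 0 ≤ s → s ≤ 1 → 0 ≤ t → t ≤ 1 →
      ∀ x ∈ Bx c g s, ∀ y ∈ Bx c g t, S.op x y ∈ Bx c g (s + t + C * s * t) := by
  have hf : (fun v : Bool → L => S.op (v false) (v true) - v false - v true) ∈ LP Bool L :=
    Submodule.sub_mem _ (Submodule.sub_mem _ S.lp (LP.proj false)) (LP.proj true)
  obtain ⟨C, hC, h⟩ := LP.mixed hf (fun v hv => by rw [hv, S.zero_op]; simp)
    (fun v hv => by rw [hv, S.op_zero]; simp) ι c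
  refine ⟨C, hC, fun g hN s t hs hs1 ht ht1 x hx y hy => ?_⟩
  have h1 := h g hN s t hs hs1 ht ht1 (fun b => if b = false then x else y) (by simpa using hx)
    (by simpa using hy)
  have h2 : S.op x y = x + y + (S.op x y - x - y) := by abel
  rw [h2]
  exact Bx_add (Bx_add hx hy) (by simpa using h1)

/-- **Products of many elements** (R-scaling trick). -/
theorem exists_prod_mem (ι : Type*) [Fintype ι] (c : ℕ) (hL : NilC c L) :
    ∃ C : ℝ, 1 ≤ C ∧ ∀ g : ι → L, ∀ l : List L, (∀ x ∈ l, x ∈ Bx c g 1) → ∀ R : ℝ,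
      C * (l.length + 1) ≤ R → S.prod l ∈ Bx c (fun i => R • g i) (2 * l.length / R) := by
  obtain ⟨C₀, hC₀, h⟩ := S.exists_op_mem ι c
  refine ⟨2 * C₀ + 2, by linarith, fun g l hl R hR => ?_⟩
  have hlen : (0:ℝ) ≤ l.length := Nat.cast_nonneg _
  have hR1 : 1 ≤ R := by nlinarith
  have hR0 : 0 < R := by linarith
  set g' : ι → L := fun i => R • g i with hg'
  have hx : ∀ x ∈ l, x ∈ Bx c g' (1 / R) := fun x hx => Bx_scale hR1 zero_le_one (hl x hx)
  have key : ∀ l' : List L, (∀ x ∈ l', x ∈ Bx c g' (1 / R)) → (l'.length : ℝ) ≤ l.length →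
      S.prod l' ∈ Bx c g' (2 * l'.length / R) := by
    intro l'
    induction l' with
    | nil =>
      intro _ _
      simpa using Bx_zero_mem (le_refl (0:ℝ))
    | cons x l' ih =>
      intro hx' hlen'
      rw [List.length_cons, Nat.cast_succ] at hlen'
      have h1 := ih (fun y hy => hx' y (List.mem_cons_of_mem _ hy)) (by linarith)
      have h2 := hx' x List.mem_cons_self
      have hl0 : (0:ℝ) ≤ l'.length := Nat.cast_nonneg _
      have h3 : 2 * (l'.length : ℝ) / R ≤ 1 := by
        rw [div_le_one hR0]; nlinarith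
      have h4 := h g' (hL.nil g') (1 / R) (2 * l'.length / R) (by positivity)
        (by rw [div_le_one hR0]; exact hR1) (by positivity) h3 x h2 _ h1
      rw [prod_cons]
      refine Bx_mono ?_ h4
      rw [List.length_cons, Nat.cast_succ]
      have h5 : C₀ * (1 / R) * (2 * l'.length / R) ≤ 1 / R := by
        have h6 : C₀ * (2 * l'.length / R) ≤ 1 := by
          rw [← mul_div_assoc, div_le_one hR0]; nlinarith
        have h7 : 0 ≤ 1 / R := by positivity
        nlinarith
      have h8 : 2 * ((l'.length : ℝ) + 1) / R = 1 / R + 2 * l'.length / R + 1 / R := by ring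
      rw [h8]; linarith
  exact key l hx le_rfl

end Star

end Crest.Agent.R182.Nb
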