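/-
R182, module BOXGRP (helper468): layered boxes and bounded generation: every element of the box
`Bx c g 1` is a product of at most `J` elements `r • g i`, `|r| ≤ C`, with `J, C` independent of the
family `g`.
-/
import Mathlib
import Crest.Agent.R182.BoxGrp

set_option autoImplicit false
set_option linter.unusedSectionVars false

namespace Crest.Agent.R182.Nb

open Finset

variable {L : Type*} [LieRing L] [LieAlgebra ℝ L] {σ : Type*} [Fintype σ]

/-- layered box: only monomials of length at least `k` -/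
def Bk (k c : ℕ) (g : σ → L) (t : ℝ) : Set L :=
  {x | ∃ s : List σ → ℝ, (∀ κ, |s κ| ≤ t) ∧ (∀ κ, κ.length < k → s κ = 0) ∧
    x = ∑ κ ∈ KL σ c, s κ • mon g κ}

variable {k j c : ℕ} {g : σ → L} {s t : ℝ} {x y : L}

theorem Bk_mono (hk : j ≤ k) (h : s ≤ t) : Bk k c g s ⊆ Bk j c g t := by
  rintro x ⟨a, ha, hz, rfl⟩
  exact ⟨a, fun κ => (ha κ).trans h, fun κ hκ => hz κ (by omega), rfl⟩

theorem Bk_zero_mem (ht : 0 ≤ t) : (0 : L) ∈ Bk k c g t :=
  ⟨fun _ => 0, fun _ => by simpa using ht, fun _ _ => rfl, by simp⟩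

theorem Bk_add (hx : x ∈ Bk k c g s) (hy : y ∈ Bk k c g t) : x + y ∈ Bk k c g (s + t) := by
  obtain ⟨a, ha, ha', rfl⟩ := hx
  obtain ⟨b, hb, hb', rfl⟩ := hy
  refine ⟨fun κ => a κ + b κ, fun κ => (abs_add_le _ _).trans (add_le_add (ha κ) (hb κ)),
    fun κ hκ => by simp [ha' κ hκ, hb' κ hκ], ?_⟩
  rw [← Finset.sum_add_distrib]
  exact Finset.sum_congr rfl fun κ _ => (add_smul _ _ _).symm

theorem Bk_smul (hx : x ∈ Bk k c g s) (r : ℝ) : r • x ∈ Bk k c g (|r| * s) := by
  obtain ⟨a, ha, ha', rfl⟩ := hx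
  refine ⟨fun κ => r * a κ, fun κ => ?_, fun κ hκ => by simp [ha' κ hκ], ?_⟩
  · rw [abs_mul]; exact mul_le_mul_of_nonneg_left (ha κ) (abs_nonneg r)
  · rw [Finset.smul_sum]
    exact Finset.sum_congr rfl fun κ _ => smul_smul _ _ _

theorem Bk_neg (hx : x ∈ Bk k c g s) : -x ∈ Bk k c g s := by
  have := Bk_smul hx (-1)
  simpa using this

theorem Bk_sub (hx : x ∈ Bk k c g s) (hy : y ∈ Bk k c g t) : x - y ∈ Bk k c g (s + t) := by
  rw [sub_eq_add_neg]; exact Bk_add hx (Bk_neg hy)

theorem Bk_sum {ι : Type*} (S : Finset ι) (f : ι → L) (r : ι → ℝ)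
    (h : ∀ i ∈ S, f i ∈ Bk k c g (r i)) : ∑ i ∈ S, f i ∈ Bk k c g (∑ i ∈ S, r i) := by
  classical
  induction S using Finset.induction_on with
  | empty => simpa using Bk_zero_mem (le_refl (0:ℝ))
  | insert a S ha ih =>
    rw [Finset.sum_insert ha, Finset.sum_insert ha]
    exact Bk_add (h a (Finset.mem_insert_self a S))
      (ih fun i hi => h i (Finset.mem_insert_of_mem hi))

theorem Bx_subset_Bk (ht : 0 ≤ t) : Bx c g t ⊆ Bk 1 c g t := by
  classical
  rintro x ⟨a, ha, rfl⟩
  refine ⟨fun κ => if κ = [] then 0 else a κ, fun κ => ?_, fun κ hκ => ?_, ?_⟩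
  · beta_reduce; split_ifs
    · simpa using ht
    · exact ha κ
  · have : κ = [] := List.length_eq_zero_iff.1 (by omega)
    simp [this]
  · refine Finset.sum_congr rfl fun κ _ => ?_
    beta_reduce
    split_ifs with h
    · subst h; simp
    · rfl


theorem Bk_top (hx : x ∈ Bk (c + 1) c g t) : x = 0 := by
  obtain ⟨a, _, ha, rfl⟩ := hx
  refine Finset.sum_eq_zero fun κ hκ => ?_
  rw [ha κ (by have := mem_KL.1 hκ; omega), zero_smul]

theorem mon_mem_Bk (hN : Nil c g) (κ : List σ) : mon g κ ∈ Bk κ.length c g 1 := by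
  classical
  by_cases hκ : κ.length ≤ c
  · refine ⟨fun κ' => if κ' = κ then 1 else 0, fun κ' => ?_, fun κ' h => ?_, ?_⟩
    · beta_reduce; split_ifs <;> simp
    · beta_reduce; rw [if_neg]; rintro rfl; omega
    · rw [Finset.sum_eq_single κ]
      · simp
      · intro κ' _ h; simp [h]
      · intro h; exact absurd (mem_KL.2 hκ) h
  · rw [hN κ (by omega)]; exact Bk_zero_mem zero_le_one

/-- the coefficients of `⁅g i, x⁆` -/
def shiftC [DecidableEq σ] (i : σ) (a : List σ → ℝ) : List σ → ℝ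
  | [] => 0
  | [_] => 0
  | j :: k :: l => if j = i then a (k :: l) else 0

theorem lie_gen_sum [DecidableEq σ] (hN : Nil c g) (i : σ) (a : List σ → ℝ) :
    ⁅g i, ∑ κ ∈ KL σ c, a κ • mon g κ⁆ = ∑ κ ∈ KL σ c, shiftC i a κ • mon g κ := by
  classical
  rw [lie_sum]
  have h1 : ∀ κ ∈ KL σ c, ⁅g i, a κ • mon g κ⁆ =
      if κ ≠ [] ∧ κ.length + 1 ≤ c then a κ • mon g (i :: κ) else 0 := by
    intro κ _
    rw [lie_smul]
    by_cases h : κ = []
    · simp [h]
    · by_cases h' : κ.length + 1 ≤ c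
      · rw [if_pos ⟨h, h'⟩, mon_cons g i h]
      · rw [if_neg (fun hh => h' hh.2), ← mon_cons g i h, hN (i :: κ) (by simp; omega), smul_zero]
  rw [Finset.sum_congr rfl h1, ← Finset.sum_filter]
  symm
  rw [← Finset.sum_subset (Finset.filter_subset
    (fun κ : List σ => ∃ l, κ = i :: l ∧ l ≠ []) (KL σ c))]
  · refine Finset.sum_bij' (fun κ _ => κ.tail) (fun κ _ => i :: κ) ?_ ?_ ?_ ?_ ?_
    · intro κ hκ
      rw [Finset.mem_filter, mem_KL] at hκ
      obtain ⟨h2, l, rfl, hl⟩ := hκ
      simp only [List.tail_cons, Finset.mem_filter, mem_KL, ne_eq]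
      simp only [List.length_cons] at h2
      exact ⟨by omega, hl, h2⟩
    · intro κ hκ
      rw [Finset.mem_filter, mem_KL] at hκ
      rw [Finset.mem_filter, mem_KL]
      exact ⟨by simpa using hκ.2.2, κ, rfl, hκ.2.1⟩
    · intro κ hκ
      rw [Finset.mem_filter] at hκ
      obtain ⟨_, l, rfl, hl⟩ := hκ
      rfl
    · intro κ _; rfl
    · intro κ hκ
      rw [Finset.mem_filter] at hκ
      obtain ⟨_, l, rfl, hl⟩ := hκ
      cases l with
      | nil => exact absurd rfl hl
      | cons k l => simp [shiftC]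
  · intro κ hκ hκ'
    rw [Finset.mem_filter, not_and] at hκ'
    have h3 := hκ' hκ
    match κ, h3 with
    | [], _ => simp [shiftC]
    | [_], _ => simp [shiftC]
    | j :: k :: l, h3 =>
      have : j ≠ i := by
        rintro rfl
        exact h3 ⟨k :: l, rfl, by simp⟩
      simp [shiftC, this]

theorem ad_mem_Bk (hN : Nil c g) (ht : 0 ≤ t) (i : σ) (hx : x ∈ Bk k c g t) :
    ⁅g i, x⁆ ∈ Bk (k + 1) c g t := by
  classical
  obtain ⟨a, ha, hz, rfl⟩ := hx
  refine ⟨shiftC i a, fun κ => ?_, fun κ hκ => ?_, lie_gen_sum hN i a⟩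
  · match κ with
    | [] => simpa [shiftC] using ht
    | [_] => simpa [shiftC] using ht
    | j :: k :: l =>
      simp only [shiftC]
      split_ifs
      · exact ha _
      · simpa using ht
  · match κ, hκ with
    | [], _ => rfl
    | [_], _ => rfl
    | j :: k :: l, hκ =>
      simp only [shiftC]
      rw [hz (k :: l) (by simp only [List.length_cons] at hκ ⊢; omega)]
      simp

theorem iter_ad_mem_Bk (hN : Nil c g) (ht : 0 ≤ t) (i : σ) (hx : x ∈ Bk k c g t) (n : ℕ) :
    (fun z => ⁅g i, z⁆)^[n] x ∈ Bk (k + n) c g t := by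
  induction n with
  | zero => exact hx
  | succ n ih =>
    rw [Function.iterate_succ_apply']
    exact ad_mem_Bk hN ht i ih

theorem mon_lie_mem_Bk (hN : Nil c g) (ht : 0 ≤ t) (κ : List σ) :
    ∀ k y, y ∈ Bk k c g t → ⁅mon g κ, y⁆ ∈ Bk (k + κ.length) c g (2 ^ κ.length * t) := by
  induction κ with
  | nil =>
    intro k y _
    rw [mon_nil, zero_lie]
    exact Bk_zero_mem (by positivity)
  | cons i κ ih =>
    intro k y hy
    by_cases hκ : κ = []
    · subst hκ
      rw [mon_single]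
      exact Bk_mono (by simp) (by simp; linarith) (ad_mem_Bk hN ht i hy)
    · rw [mon_cons g i hκ, lie_lie]
      have h1 := ad_mem_Bk hN (by positivity) i (ih k y hy)
      have h2 := ih (k + 1) _ (ad_mem_Bk hN ht i hy)
      rw [sub_eq_add_neg]
      have h2' := Bk_neg (Bk_mono (j := k + κ.length + 1) (by omega) le_rfl h2)
      refine Bk_mono ?_ ?_ (Bk_add h1 h2')
      · rw [List.length_cons]; omega
      · rw [List.length_cons, pow_succ]; linarith

theorem lie_mem_Bk (hN : Nil c g) (hs : 0 ≤ s) (ht : 0 ≤ t) (hx : x ∈ Bk j c g s)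
    (hy : y ∈ Bk k c g t) : ⁅x, y⁆ ∈ Bk (j + k) c g (brC σ c * s * t) := by
  obtain ⟨a, ha, hz, rfl⟩ := hx
  rw [sum_lie]
  have h1 : ∀ κ ∈ KL σ c, ⁅a κ • mon g κ, y⁆ ∈ Bk (j + k) c g (s * (2 ^ c * t)) := by
    intro κ hκ
    rw [smul_lie]
    by_cases hj : κ.length < j
    · rw [hz κ hj, zero_smul]; exact Bk_zero_mem (by positivity)
    · have h2 := mon_lie_mem_Bk hN ht κ k y hy
      refine Bk_mono (by omega) ?_ (Bk_smul h2 (a κ))
      have h3 : (2:ℝ) ^ κ.length ≤ 2 ^ c := pow_le_pow_right₀ (by norm_num) (mem_KL.1 hκ)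
      have h4 := ha κ
      gcongr
  refine Bk_mono le_rfl ?_ (Bk_sum _ _ _ h1)
  rw [Finset.sum_const, nsmul_eq_mul]
  unfold brC
  nlinarith [mul_nonneg hs ht]

theorem mon_comp_mem_Bk {τ : Type*} (hN : Nil c g) {v : τ → L} {m : τ → ℕ} {T : ℝ} (hT : 0 ≤ T)
    (hv : ∀ i, v i ∈ Bk (m i) c g T) (κ : List τ) :
    mon v κ ∈ Bk (κ.map m).sum c g (brC σ c ^ κ.length * T ^ κ.length) := by
  have hC := brC_pos σ c
  induction κ with
  | nil => exact Bk_zero_mem (by simp)
  | cons i κ ih =>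
    by_cases hκ : κ = []
    · subst hκ
      refine Bk_mono (by simp) ?_ (hv i)
      simp only [List.length_cons, List.length_nil, zero_add, pow_one]
      nlinarith
    · rw [mon_cons v i hκ]
      refine Bk_mono (by simp) ?_ (lie_mem_Bk hN hT (by positivity) (hv i) ih)
      rw [List.length_cons, pow_succ', pow_succ']
      exact le_of_eq (by ring)

/-- a mixed Lie polynomial only contains monomials with both variables -/
theorem LP.exists_sum_mixed {f : (Bool → L) → L} (hf : f ∈ LP Bool L)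
    (h0 : ∀ v, v false = 0 → f v = 0) (h1 : ∀ v, v true = 0 → f v = 0) :
    ∃ (A : Finset (List Bool)) (a : List Bool → ℝ), (∀ κ ∈ A, false ∈ κ ∧ true ∈ κ) ∧
      ∀ v, f v = ∑ κ ∈ A, a κ • mon v κ := by
  classical
  obtain ⟨a, ha⟩ := LP.exists_sum hf
  have hmonz : ∀ (b : Bool) (κ : List Bool) (v : Bool → L), b ∈ κ → v b = 0 → mon v κ = 0 := by
    intro b κ v
    induction κ with
    | nil => intro h; simp at h
    | cons i κ ih =>
      intro hb hv
      by_cases hκ : κ = []
      · subst hκ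
        rw [List.mem_singleton] at hb
        subst hb
        exact hv
      · rw [mon_cons v i hκ]
        rcases List.mem_cons.1 hb with h | h
        · subst h; rw [hv, zero_lie]
        · rw [ih h hv, lie_zero]
  have hmonc : ∀ (b : Bool) (κ : List Bool) (v w : Bool → L), b ∉ κ → v (!b) = w (!b) →
      mon v κ = mon w κ := by
    intro b κ v w
    induction κ with
    | nil => intro _ _; rfl
    | cons i κ ih =>
      intro hb hvw
      rw [List.mem_cons, not_or] at hb
      have hi : v i = w i := by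
        have : i = !b := by cases i <;> cases b <;> simp_all
        rw [this]; exact hvw
      by_cases hκ : κ = []
      · subst hκ; exact hi
      · rw [mon_cons v i hκ, mon_cons w i hκ, hi, ih hb.2 hvw]
  refine ⟨a.support.filter (fun κ => false ∈ κ ∧ true ∈ κ), a,
    fun κ hκ => (Finset.mem_filter.1 hκ).2, fun v => ?_⟩
  have e1 := h0 (fun b => if b = false then 0 else v b) (by simp)
  have e2 := h1 (fun b => if b = true then 0 else v b) (by simp)
  rw [ha] at e1 e2
  have hsplit : ∀ w : Bool → L, ∑ κ ∈ a.support, a κ • mon w κ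
      = ∑ κ ∈ a.support.filter (fun κ => false ∈ κ ∧ true ∈ κ), a κ • mon w κ
        + (∑ κ ∈ a.support.filter (fun κ => ¬ (false ∈ κ ∧ true ∈ κ) ∧ false ∈ κ), a κ • mon w κ
        + ∑ κ ∈ a.support.filter (fun κ => ¬ (false ∈ κ ∧ true ∈ κ) ∧ ¬ false ∈ κ),
            a κ • mon w κ) := by
    intro w
    rw [← Finset.sum_filter_add_sum_filter_not a.support (fun κ => false ∈ κ ∧ true ∈ κ)]
    congr 1
    rw [← Finset.sum_filter_add_sum_filter_not
      (a.support.filter fun κ => ¬ (false ∈ κ ∧ true ∈ κ)) (fun κ => false ∈ κ),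
      Finset.filter_filter, Finset.filter_filter]
  rw [hsplit] at e1 e2
  rw [ha, hsplit]
  have hA : ∑ κ ∈ a.support.filter (fun κ => ¬ (false ∈ κ ∧ true ∈ κ) ∧ false ∈ κ),
      a κ • mon v κ = 0 := by
    rw [Finset.sum_eq_zero (s := a.support.filter (fun κ => false ∈ κ ∧ true ∈ κ)),
      zero_add] at e2
    · rw [Finset.sum_eq_zero (s := a.support.filter
        (fun κ => ¬ (false ∈ κ ∧ true ∈ κ) ∧ ¬ false ∈ κ)), add_zero] at e2
      · rw [← e2]
        refine Finset.sum_congr rfl fun κ hκ => ?_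
        rw [Finset.mem_filter] at hκ
        rw [hmonc true κ v (fun b => if b = true then 0 else v b)
          (fun h => hκ.2.1 ⟨hκ.2.2, h⟩) (by simp)]
      · intro κ hκ
        rw [Finset.mem_filter] at hκ
        by_cases hnil : κ = []
        · subst hnil; simp
        · have : true ∈ κ := by
            rcases κ with _ | ⟨b, κ⟩
            · exact absurd rfl hnil
            · cases b
              · exact absurd List.mem_cons_self hκ.2.2
              · exact List.mem_cons_self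
          rw [hmonz true κ _ this (by simp), smul_zero]
    · intro κ hκ
      rw [Finset.mem_filter] at hκ
      rw [hmonz true κ _ hκ.2.2 (by simp), smul_zero]
  have hB : ∑ κ ∈ a.support.filter (fun κ => ¬ (false ∈ κ ∧ true ∈ κ) ∧ ¬ false ∈ κ),
      a κ • mon v κ = 0 := by
    rw [Finset.sum_eq_zero (s := a.support.filter (fun κ => false ∈ κ ∧ true ∈ κ)),
      zero_add] at e1
    · rw [Finset.sum_eq_zero (s := a.support.filter
        (fun κ => ¬ (false ∈ κ ∧ true ∈ κ) ∧ false ∈ κ)), zero_add] at e1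
      · rw [← e1]
        refine Finset.sum_congr rfl fun κ hκ => ?_
        rw [Finset.mem_filter] at hκ
        rw [hmonc false κ v (fun b => if b = false then 0 else v b) hκ.2.2 (by simp)]
      · intro κ hκ
        rw [Finset.mem_filter] at hκ
        rw [hmonz false κ _ hκ.2.2 (by simp), smul_zero]
    · intro κ hκ
      rw [Finset.mem_filter] at hκ
      rw [hmonz false κ _ hκ.2.1 (by simp), smul_zero]
  rw [hA, hB, add_zero, add_zero]

/-- layered mixed estimate -/
theorem LP.mixed_Bk {f : (Bool → L) → L} (hf : f ∈ LP Bool L)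
    (h0 : ∀ v, v false = 0 → f v = 0) (h1 : ∀ v, v true = 0 → f v = 0)
    (σ : Type*) [Fintype σ] (c : ℕ) (T : ℝ) (hT : 0 ≤ T) :
    ∃ C : ℝ, 0 ≤ C ∧ ∀ (g : σ → L), Nil c g → ∀ j k : ℕ, ∀ v : Bool → L,
      v false ∈ Bk j c g T → v true ∈ Bk k c g T → f v ∈ Bk (j + k) c g C := by
  obtain ⟨A, a, hA, ha⟩ := LP.exists_sum_mixed hf h0 h1
  have hC := brC_pos σ c
  refine ⟨∑ κ ∈ A, |a κ| * (brC σ c ^ κ.length * T ^ κ.length),
    Finset.sum_nonneg fun κ _ => by positivity, fun g hN j k v hvf hvt => ?_⟩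
  rw [ha]
  refine Bk_sum _ _ _ fun κ hκ => ?_
  have h2 := mon_comp_mem_Bk hN (v := v) (m := fun b => if b = false then j else k) hT
    (fun b => by cases b <;> simpa) κ
  refine Bk_mono ?_ le_rfl (Bk_smul h2 (a κ))
  obtain ⟨hf', ht'⟩ := hA κ hκ
  have aux : ∀ κ : List Bool, (false ∈ κ → j ≤ (κ.map fun b => if b = false then j else k).sum) ∧
      (true ∈ κ → k ≤ (κ.map fun b => if b = false then j else k).sum) ∧
      (false ∈ κ → true ∈ κ → j + k ≤ (κ.map fun b => if b = false then j else k).sum) := by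
    intro κ
    induction κ with
    | nil => simp
    | cons b κ ih =>
      obtain ⟨i1, i2, i3⟩ := ih
      cases b
      · simp only [List.map_cons, List.sum_cons, if_true]
        refine ⟨fun _ => by omega, fun h => ?_, fun _ h => ?_⟩
        · have := i2 (by simpa using h); omega
        · have := i2 (by simpa using h); omega
      · simp only [List.map_cons, List.sum_cons, Bool.true_eq_false, if_false]
        refine ⟨fun h => ?_, fun _ => by omega, fun h _ => ?_⟩
        · have := i1 (by simpa using h); omega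
        · have := i1 (by simpa using h); omega
  exact (aux κ).2.2 hf' ht'

/-! ### Bounded generation -/

namespace Star

variable (S : Star L)

/-- `Ad (ex x) = exp (ad x)` -/
def BCH1 (c : ℕ) : Prop := ∀ x y : L,
  S.cj x y = ∑ n ∈ Finset.range (c + 1), ((n.factorial : ℝ)⁻¹) • (fun z => ⁅x, z⁆)^[n] y

/-- `x` is a product of at most `J` elements `r • g i`, `|r| ≤ A` -/
def Gen (J : ℕ) (A : ℝ) (g : σ → L) (x : L) : Prop :=
  ∃ l : List (ℝ × σ), l.length ≤ J ∧ (∀ p ∈ l, |p.1| ≤ A) ∧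
    S.prod (l.map fun p => p.1 • g p.2) = x

theorem prod_single (x : L) : S.prod [x] = x := by rw [prod_cons, prod_nil, S.op_zero]

theorem neg_prod (l : List L) : -(S.prod l) = S.prod (l.reverse.map fun x => -x) := by
  induction l with
  | nil => simp
  | cons x l ih =>
    rw [prod_cons, S.neg_op_rev, ih, List.reverse_cons, List.map_append, S.prod_append,
      List.map_singleton, S.prod_single]

variable {S} {J J' : ℕ} {A A' : ℝ}

theorem Gen.mono (h : S.Gen J A g x) (hJ : J ≤ J') (hA : A ≤ A') : S.Gen J' A' g x := by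
  obtain ⟨l, h1, h2, h3⟩ := h
  exact ⟨l, h1.trans hJ, fun p hp => (h2 p hp).trans hA, h3⟩

theorem Gen.zero : S.Gen 0 A g 0 := ⟨[], le_rfl, by simp, rfl⟩

theorem Gen.single (r : ℝ) (i : σ) : S.Gen 1 |r| g (r • g i) :=
  ⟨[(r, i)], le_rfl, by simp, by simp [S.op_zero]⟩

theorem Gen.op (h : S.Gen J A g x) (h' : S.Gen J' A' g y) :
    S.Gen (J + J') (max A A') g (S.op x y) := by
  obtain ⟨l, h1, h2, rfl⟩ := h
  obtain ⟨l', h1', h2', rfl⟩ := h'
  refine ⟨l ++ l', by rw [List.length_append]; omega, ?_, ?_⟩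
  · intro p hp
    rcases List.mem_append.1 hp with hp | hp
    · exact (h2 p hp).trans (le_max_left _ _)
    · exact (h2' p hp).trans (le_max_right _ _)
  · rw [List.map_append, S.prod_append]

theorem Gen.neg (h : S.Gen J A g x) : S.Gen J A g (-x) := by
  obtain ⟨l, h1, h2, rfl⟩ := h
  refine ⟨(l.map fun p => (-p.1, p.2)).reverse, by simpa using h1, ?_, ?_⟩
  · intro p hp
    rw [List.mem_reverse, List.mem_map] at hp
    obtain ⟨q, hq, rfl⟩ := hp
    simpa using h2 q hq
  · rw [S.neg_prod, List.map_reverse, List.map_map, List.map_reverse, List.map_map]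
    congr 2
    refine List.map_congr_left fun p _ => ?_
    simp

variable (S) in
theorem exists_op_Bk (c : ℕ) (σ : Type*) [Fintype σ] (T : ℝ) (hT : 0 ≤ T) :
    ∃ C : ℝ, 0 ≤ C ∧ ∀ g : σ → L, Nil c g → ∀ j k : ℕ, ∀ x ∈ Bk j c g T, ∀ y ∈ Bk k c g T,
      S.op x y - x - y ∈ Bk (j + k) c g C := by
  have hf : (fun v : Bool → L => S.op (v false) (v true) - v false - v true) ∈ LP Bool L :=
    Submodule.sub_mem _ (Submodule.sub_mem _ S.lp (LP.proj false)) (LP.proj true)
  obtain ⟨C, hC, h⟩ := LP.mixed_Bk hf (fun v hv => by rw [hv, S.zero_op]; simp)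
    (fun v hv => by rw [hv, S.op_zero]; simp) σ c T hT
  exact ⟨C, hC, fun g hN j k x hx y hy => by
    simpa using h g hN j k (fun b => if b = false then x else y) (by simpa using hx)
      (by simpa using hy)⟩

variable (S) in
theorem exists_split_Bk (c : ℕ) (σ : Type*) [Fintype σ] (T : ℝ) (hT : 0 ≤ T) :
    ∃ C : ℝ, 0 ≤ C ∧ ∀ g : σ → L, Nil c g → ∀ j k : ℕ, ∀ u ∈ Bk j c g T, ∀ y ∈ Bk k c g T,
      S.op (u + y) (-u) - y ∈ Bk (j + k) c g C := by
  have hf : (fun v : Bool → L => S.op (v false + v true) (-v false) - v true) ∈ LP Bool L := by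
    refine Submodule.sub_mem _ ?_ (LP.proj true)
    refine LP.comp S.lp
      (G := fun (v : Bool → L) (b : Bool) => if b = false then v false + v true else -v false)
      (fun b => ?_)
    cases b
    · simp only [if_true]; exact Submodule.add_mem _ (LP.proj false) (LP.proj true)
    · simp only [Bool.true_eq_false, if_false]; exact Submodule.neg_mem _ (LP.proj false)
  obtain ⟨C, hC, h⟩ := LP.mixed_Bk hf
    (fun v hv => by simp only [hv, neg_zero, S.op_zero, zero_add, sub_self])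
    (fun v hv => by simp only [hv, add_zero, S.op_neg, sub_zero]) σ c T hT
  exact ⟨C, hC, fun g hN j k x hx y hy => by
    simpa using h g hN j k (fun b => if b = false then x else y) (by simpa using hx)
      (by simpa using hy)⟩

theorem BCH1.cj_mem_Bk (hB : S.BCH1 c) (hc : 1 ≤ c) (hN : Nil c g) (ht : 0 ≤ t) (i : σ)
    (hx : x ∈ Bk k c g t) : S.cj (g i) x - x - ⁅g i, x⁆ ∈ Bk (k + 2) c g (c * t) := by
  obtain ⟨m, rfl⟩ : ∃ m, c = m + 1 := ⟨c - 1, by omega⟩
  rw [hB, Finset.sum_range_succ', Finset.sum_range_succ']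
  have h1 : ∀ n ∈ Finset.range m, (((n + 1 + 1).factorial : ℝ))⁻¹ •
      (fun z => ⁅g i, z⁆)^[n + 1 + 1] x ∈ Bk (k + 2) (m + 1) g t := by
    intro n _
    have h2 := Bk_smul (iter_ad_mem_Bk hN ht i hx (n + 1 + 1))
      ((((n + 1 + 1).factorial : ℝ))⁻¹)
    refine Bk_mono (by omega) ?_ h2
    have h3 : (1:ℝ) ≤ ((n + 1 + 1).factorial : ℝ) := by
      exact_mod_cast Nat.succ_le_of_lt (Nat.factorial_pos _)
    rw [abs_of_nonneg (by positivity)]
    have h4 := inv_le_one_of_one_le₀ h3
    nlinarith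
  have h5 := Bk_sum _ _ _ h1
  have e0 : ((Nat.factorial 0 : ℕ) : ℝ)⁻¹ • (fun z => ⁅g i, z⁆)^[0] x = x := by simp
  have e1 : ((Nat.factorial (0 + 1) : ℕ) : ℝ)⁻¹ • (fun z => ⁅g i, z⁆)^[0 + 1] x = ⁅g i, x⁆ := by
    simp
  have h6 : ∀ a b d : L, a + b + d - d - b = a := fun a b d => by abel
  rw [e0, e1, h6]
  refine Bk_mono le_rfl ?_ h5
  rw [Finset.sum_const, Finset.card_range, nsmul_eq_mul]
  push_cast
  nlinarith

/-- iterated group commutators -/
theorem exists_mon_gen (hB : S.BCH1 c) (hc : 1 ≤ c) (κ : List σ) :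
    κ ≠ [] → ∀ T : ℝ, 0 ≤ T → ∃ (J : ℕ) (A : ℝ), 0 ≤ A ∧ ∀ g : σ → L, Nil c g → ∀ s : ℝ, |s| ≤ T →
      ∃ y, S.Gen J A g y ∧ y - s • mon g κ ∈ Bk (κ.length + 1) c g A := by
  induction κ with
  | nil => intro h; exact absurd rfl h
  | cons i κ ih =>
    intro _ T hT
    by_cases hκ : κ = []
    · subst hκ
      refine ⟨1, T, hT, fun g hN s hs => ⟨s • g i, (Gen.single s i).mono le_rfl hs, ?_⟩⟩
      rw [mon_single, sub_self]; exact Bk_zero_mem hT
    · obtain ⟨J, A, hA, h⟩ := ih hκ T hT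
      set T₂ : ℝ := (A + T) + (A + T) + c * (A + T) with hT₂
      have hcAT : 0 ≤ (c:ℝ) * (A + T) := by positivity
      have hT₂0 : 0 ≤ T₂ := by positivity
      obtain ⟨C, hC, h'⟩ := S.exists_split_Bk c σ T₂ hT₂0
      have hk : 1 ≤ κ.length := by
        have : κ.length ≠ 0 := by simpa using hκ
        omega
      refine ⟨(1 + J) + 1 + J, max A 1 + (C + c * (A + T) + A), by positivity,
        fun g hN s hs => ?_⟩
      obtain ⟨y', hy', hz⟩ := h g hN s hs
      have hmon := mon_mem_Bk hN κ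
      have hy1 : y' ∈ Bk κ.length c g (A + T) := by
        have e : y' = (y' - s • mon g κ) + s • mon g κ := by abel
        rw [e]
        refine Bk_mono le_rfl ?_ (Bk_add (Bk_mono (j := κ.length) (by omega) le_rfl hz)
          (Bk_smul hmon s))
        nlinarith
      have hr1 := hB.cj_mem_Bk hc hN (by positivity) i hy1
      have hadz := ad_mem_Bk hN hA i hz
      have hady := ad_mem_Bk hN (by positivity) i hy1
      set δ : L := S.cj (g i) y' - y' with hδ
      have hδ1 : δ ∈ Bk (κ.length + 1) c g T₂ := by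
        have e : δ = (S.cj (g i) y' - y' - ⁅g i, y'⁆) + ⁅g i, y'⁆ := by rw [hδ]; abel
        rw [e]
        refine Bk_mono le_rfl ?_ (Bk_add (Bk_mono (j := κ.length + 1) (by omega) le_rfl hr1) hady)
        rw [hT₂]; linarith
      have hy2 : y' ∈ Bk κ.length c g T₂ := Bk_mono le_rfl (by rw [hT₂]; linarith) hy1
      have hsp := h' g hN _ _ y' hy2 δ hδ1
      refine ⟨S.op (y' + δ) (-y'), ?_, ?_⟩
      · have e : y' + δ = S.op (S.op (g i) y') (-(g i)) := by
          rw [hδ]
          have : S.cj (g i) y' = S.op (S.op (g i) y') (-(g i)) := rfl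
          rw [this]; abel
        rw [e]
        have g1 : S.Gen 1 1 g (g i) := by
          have := Gen.single (S := S) (g := g) 1 i
          rwa [one_smul, abs_one] at this
        have g2 := ((g1.op hy').op g1.neg).op hy'.neg
        refine g2.mono le_rfl ?_
        have hm : 0 ≤ C + c * (A + T) + A := by positivity
        refine max_le (max_le (max_le ?_ ?_) ?_) ?_
        · linarith [le_max_right A 1]
        · linarith [le_max_left A 1]
        · linarith [le_max_right A 1]
        · linarith [le_max_left A 1]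
      · have e : S.op (y' + δ) (-y') - s • mon g (i :: κ) =
            (S.op (y' + δ) (-y') - δ) + (S.cj (g i) y' - y' - ⁅g i, y'⁆)
              + ⁅g i, y' - s • mon g κ⁆ := by
          rw [mon_cons g i hκ, hδ, lie_sub, lie_smul]; abel
        rw [e, List.length_cons]
        have h1 := Bk_mono (j := κ.length + 1 + 1) (by omega) (le_refl C) hsp
        have h2 := Bk_mono (j := κ.length + 1 + 1) (by omega) (le_refl (c * (A + T))) hr1
        refine Bk_mono le_rfl ?_ (Bk_add (Bk_add h1 h2) hadz)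
        linarith [le_max_right A 1]

/-- the product over a list of monomials of the same length -/
theorem exists_list_gen (hB : S.BCH1 c) (hc : 1 ≤ c) (k : ℕ) (hk : 1 ≤ k) (T : ℝ) (hT : 0 ≤ T)
    (Λ : List (List σ)) (hΛ : ∀ κ ∈ Λ, κ.length = k) :
    ∃ (J : ℕ) (A : ℝ), 0 ≤ A ∧ ∀ g : σ → L, Nil c g → ∀ s : List σ → ℝ, (∀ κ, |s κ| ≤ T) →
      ∃ y, S.Gen J A g y ∧ y ∈ Bk k c g A ∧
        y - (Λ.map fun κ => s κ • mon g κ).sum ∈ Bk (k + 1) c g A := by
  induction Λ with
  | nil =>
    refine ⟨0, 0, le_rfl, fun g hN s hs => ⟨0, Gen.zero, Bk_zero_mem le_rfl, ?_⟩⟩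
    simp only [List.map_nil, List.sum_nil, sub_self]
    exact Bk_zero_mem le_rfl
  | cons κ Λ ih =>
    obtain ⟨J₁, A₁, hA₁, h₁⟩ := ih fun κ' h' => hΛ κ' (List.mem_cons_of_mem _ h')
    have hκ : κ.length = k := hΛ κ List.mem_cons_self
    obtain ⟨J₂, A₂, hA₂, h₂⟩ := exists_mon_gen hB hc κ (by rintro rfl; simp at hκ; omega) T hT
    obtain ⟨C, hC, h'⟩ := S.exists_op_Bk c σ (A₁ + A₂ + T) (by positivity)
    refine ⟨J₂ + J₁, C + (A₁ + A₂ + T), by positivity, fun g hN s hs => ?_⟩
    obtain ⟨Y, hY, hYk, hYs⟩ := h₁ g hN s hs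
    obtain ⟨y, hy, hys⟩ := h₂ g hN (s κ) (hs κ)
    rw [hκ] at hys
    have hmon := mon_mem_Bk hN κ
    rw [hκ] at hmon
    have hyk : y ∈ Bk k c g (A₂ + T) := by
      have e : y = (y - s κ • mon g κ) + s κ • mon g κ := by abel
      rw [e]
      refine Bk_mono le_rfl ?_ (Bk_add (Bk_mono (j := k) (by omega) le_rfl hys)
        (Bk_smul hmon (s κ)))
      nlinarith [hs κ]
    have hop := h' g hN k k y (Bk_mono le_rfl (by linarith) hyk) Y (Bk_mono le_rfl (by linarith) hYk)
    refine ⟨S.op y Y, (hy.op hY).mono le_rfl (max_le (by linarith) (by linarith)), ?_, ?_⟩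
    · have e : S.op y Y = (S.op y Y - y - Y) + (y + Y) := by abel
      rw [e]
      refine Bk_mono le_rfl ?_ (Bk_add (Bk_mono (j := k) (by omega) le_rfl hop) (Bk_add hyk hYk))
      linarith
    · rw [List.map_cons, List.sum_cons]
      have e : S.op y Y - (s κ • mon g κ + (Λ.map fun κ => s κ • mon g κ).sum) =
          (S.op y Y - y - Y) + (y - s κ • mon g κ)
            + (Y - (Λ.map fun κ => s κ • mon g κ).sum) := by abel
      rw [e]
      refine Bk_mono le_rfl ?_ (Bk_add (Bk_add (Bk_mono (j := k + 1) (by omega) le_rfl hop) hys) hYs)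
      linarith

theorem exists_layer_gen (hB : S.BCH1 c) (hc : 1 ≤ c) (m : ℕ) :
    ∀ k, k + m = c + 1 → 1 ≤ k → ∀ T : ℝ, 0 ≤ T → ∃ (J : ℕ) (A : ℝ), 0 ≤ A ∧
      ∀ g : σ → L, Nil c g → ∀ x ∈ Bk k c g T, S.Gen J A g x := by
  classical
  induction m with
  | zero =>
    intro k hk _ T hT
    refine ⟨0, 0, le_rfl, fun g hN x hx => ?_⟩
    rw [add_zero] at hk
    subst hk
    rw [Bk_top hx]; exact Gen.zero
  | succ m ih =>
    intro k hkm hk T hT
    set F : Finset (List σ) := (KL σ c).filter fun κ => κ.length = k with hF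
    obtain ⟨J₁, A₁, hA₁, h₁⟩ := exists_list_gen (S := S) hB hc k hk T hT F.toList (by
      intro κ hκ
      rw [Finset.mem_toList, hF, Finset.mem_filter] at hκ
      exact hκ.2)
    obtain ⟨C, hC, h'⟩ := S.exists_op_Bk c σ (A₁ + T) (by positivity)
    obtain ⟨J₂, A₂, hA₂, h₂⟩ := ih (k + 1) (by omega) (by omega) (C + (T + A₁)) (by positivity)
    refine ⟨J₁ + J₂, max A₁ A₂, le_max_of_le_left hA₁, fun g hN x hx => ?_⟩
    have hxk := hx
    obtain ⟨s, hs, hz, hxs⟩ := hx
    obtain ⟨Y, hY, hYk, hYs⟩ := h₁ g hN s hs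
    have hsum : (F.toList.map fun κ => s κ • mon g κ).sum = ∑ κ ∈ F, s κ • mon g κ :=
      Finset.sum_map_toList F _
    rw [hsum] at hYs
    -- the part of `x` in the layers above `k`
    have hx1 : x - ∑ κ ∈ F, s κ • mon g κ ∈ Bk (k + 1) c g T := by
      refine ⟨fun κ => if κ.length ≤ k then 0 else s κ, fun κ => ?_, fun κ hκ => ?_, ?_⟩
      · beta_reduce; split_ifs
        · simpa using hT
        · exact hs κ
      · exact if_pos (by omega)
      · rw [hxs, hF, Finset.sum_filter, ← Finset.sum_sub_distrib]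
        refine Finset.sum_congr rfl fun κ _ => ?_
        beta_reduce
        by_cases h1 : κ.length < k
        · rw [hz κ h1, if_neg (show ¬ κ.length = k by omega), if_pos (show κ.length ≤ k by omega)]
          simp
        · by_cases h2 : κ.length = k
          · rw [if_pos h2, if_pos (show κ.length ≤ k by omega)]; simp
          · rw [if_neg h2, if_neg (show ¬ κ.length ≤ k by omega), sub_zero]
    have hop := h' g hN k k (-Y) (Bk_mono le_rfl (by linarith) (Bk_neg hYk)) x
      (Bk_mono le_rfl (by linarith) hxk)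
    have hx2 : S.op (-Y) x ∈ Bk (k + 1) c g (C + (T + A₁)) := by
      have e : S.op (-Y) x = (S.op (-Y) x - -Y - x) +
          ((x - ∑ κ ∈ F, s κ • mon g κ) - (Y - ∑ κ ∈ F, s κ • mon g κ)) := by abel
      rw [e]
      exact Bk_add (Bk_mono (j := k + 1) (by omega) le_rfl hop) (Bk_sub hx1 hYs)
    have h3 := hY.op (h₂ g hN _ hx2)
    rwa [S.op_neg_op] at h3

/-- **Bounded generation**: every element of `Bx c g T` is a product of at most `J` elements
`r • g i`, `|r| ≤ A`; `J, A` do not depend on the family `g`. -/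
theorem exists_gen (hB : S.BCH1 c) (σ : Type*) [Fintype σ] (T : ℝ) (hT : 0 ≤ T) :
    ∃ (J : ℕ) (A : ℝ), 0 ≤ A ∧ ∀ g : σ → L, Nil c g → ∀ x ∈ Bx c g T, S.Gen J A g x := by
  by_cases hc : 1 ≤ c
  · obtain ⟨J, A, hA, h⟩ := exists_layer_gen (σ := σ) hB hc c 1 (by omega) le_rfl T hT
    exact ⟨J, A, hA, fun g hN x hx => h g hN x (Bx_subset_Bk hT hx)⟩
  · refine ⟨0, 0, le_rfl, fun g hN x hx => ?_⟩
    have hc0 : c = 0 := by omega
    subst hc0
    rw [Bk_top (Bx_subset_Bk hT hx)]
    exact Gen.zero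

end Star

end Crest.Agent.R182.Nb
private theorem rz_0f0f22bbd5 : type_of% @_root_.Crest.Agent.R182.Nb.shiftC.eq_1 := @_root_.Crest.Agent.R182.Nb.shiftC.eq_1 -- L101
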