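import Mathlib
import Crest.Agent.R182.OneScale2
import Crest.Agent.R182.NbGen
import Crest.Agent.R182.BoxGen
import Crest.Agent.R182.BndCore

-- ▼ part R182/OneScaleBG
section

set_option autoImplicit false

namespace Crest.Agent.R182.OneScale

open Crest.GroupTheory Crest.Geometry Crest.Agent.R182.QI Crest.Agent.R182.FinPath
  Crest.Agent.R182.FinRed Crest.Agent.R182.Bnd Crest.Agent.R182.Core Crest.Agent.R182.Nb

variable {Γ : Type*} [Group Γ] {k : ℕ} {S : Set Γ} {π : Γ →* Multiplicative (Fin k → ℤ)}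

theorem ex_prod (M : BModel S π) (l : List M.L) : M.ex (M.star.prod l) = (l.map M.ex).prod := by
  induction l with
  | nil => rw [Nb.Star.prod_nil, ex_zero, List.map_nil, List.prod_nil]
  | cons x l ih => rw [Nb.Star.prod_cons, M.ex_op, ih, List.map_cons, List.prod_cons]

theorem norm_bas (M : BModel S π) (i : Fin M.r) (c : ℝ) :
    ‖M.bas.equivFun (c • M.bas i)‖ ≤ |c| := by
  classical
  refine (pi_norm_le_iff_of_nonneg (abs_nonneg c)).2 fun j => ?_
  rw [map_smul, Pi.smul_apply, smul_eq_mul, Module.Basis.equivFun_apply,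
    Module.Basis.repr_self, Real.norm_eq_abs, abs_mul]
  by_cases h : i = j
  · subst h; simp
  · rw [Finsupp.single_eq_of_ne (Ne.symm h)]; simp

/-- **bounded generation** of `E` by one-weight exponentials. -/
theorem exists_BG (M : BModel S π) : ∃ (J : ℕ) (A : ℝ), 0 ≤ A ∧ BG M J A := by
  classical
  have hN : Nb.Nil M.c (eg M) := M.nilC.nil _
  have hspan : ∀ x : M.L, x ∈ Submodule.span ℝ (Set.range fun κ : List (GI M) => mon (eg M) κ) :=
    fun x => by
      have h := span_mon M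
      have : x ∈ Pm (eg M) := by rw [h]; exact Submodule.mem_top
      exact this
  choose T hT0 hT using fun j => exists_mem_Bx hspan hN (M.bas j)
  set Ts := ∑ j, T j with hTs
  have hTs0 : 0 ≤ Ts := Finset.sum_nonneg fun j _ => hT0 j
  obtain ⟨J, A, hA, hgen⟩ := Nb.Star.exists_gen (S := M.star) (c := M.c) M.star_cj (GI M) Ts hTs0
  refine ⟨J, A, hA, fun x => ?_⟩
  set ρ : ℝ := 1 + ‖M.bas.equivFun x‖ with hρ
  have hρ1 : 1 ≤ ρ := by have := norm_nonneg (M.bas.equivFun x); linarith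
  have hx : x ∈ Bx M.c (eg M) (Ts * ρ) := by
    have hx1 : x = ∑ j, M.bas.repr x j • M.bas j := (M.bas.sum_repr x).symm
    rw [hx1, hTs, Finset.sum_mul]
    refine Bx_sum _ _ _ fun j _ => Bx_mono ?_ (Bx_smul (hT j) _)
    have h1 : |M.bas.repr x j| ≤ ρ := by
      have h2 : |M.bas.repr x j| ≤ ‖M.bas.equivFun x‖ := norm_le_pi_norm (M.bas.equivFun x) j
      linarith
    rw [mul_comm (T j)]
    exact mul_le_mul_of_nonneg_right h1 (hT0 j)
  have hx' : x ∈ Bx M.c (fun i => ρ • eg M i) Ts := by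
    have h1 := Bx_scale hρ1 (by positivity) hx
    rwa [mul_div_cancel_right₀ _ (by linarith : ρ ≠ 0)] at h1
  obtain ⟨l, hlJ, hlA, hlx⟩ := hgen (fun i => ρ • eg M i) (M.nilC.nil _) x hx'
  refine ⟨l.map fun p => p.1 • (ρ • eg M p.2), by simpa using hlJ, fun y hy => ?_, ?_⟩
  · obtain ⟨p, hp, rfl⟩ := List.mem_map.1 hy
    have e1 : p.1 • (ρ • eg M p.2) = (p.1 * ρ) • M.bas p.2 := by
      rw [smul_smul]; rfl
    rw [e1]
    refine ⟨⟨M.wt p.2, M.wt_gen_ne _ p.2.2, fun j hj => ?_⟩, ?_⟩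
    · rw [map_smul, Finsupp.smul_apply, Module.Basis.repr_self]
      have : (p.2 : Fin M.r) ≠ j := fun h => hj (by rw [h])
      rw [Finsupp.single_eq_of_ne (Ne.symm this), smul_zero]
    · refine (norm_bas M _ _).trans ?_
      rw [abs_mul, abs_of_nonneg (by linarith : (0:ℝ) ≤ ρ)]
      exact mul_le_mul_of_nonneg_right (hlA p hp) (by linarith)
  · rw [← ex_prod, hlx]

end Crest.Agent.R182.OneScale
end

-- ▼ part R182/OneScaleTiny

set_option autoImplicit false

namespace Crest.Agent.R182.OneScale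

open Crest.GroupTheory Crest.Geometry Crest.Agent.R182.QI Crest.Agent.R182.FinPath
  Crest.Agent.R182.FinRed Crest.Agent.R182.Bnd Crest.Agent.R182.Core Crest.Agent.R182.Nb

variable {Γ : Type*} [Group Γ] {k : ℕ} {S : Set Γ} {π : Γ →* Multiplicative (Fin k → ℤ)}





theorem comp_ne {φ : (Fin k → ℝ) →ₗ[ℝ] ℝ} {L : (Fin k → ℝ) →ₗ[ℝ] (Fin k → ℝ)}
    (hφ : φ ≠ 0) (hL : Function.Injective L) : φ ∘ₗ L ≠ 0 := by
  intro h0
  have hs : Function.Surjective L := LinearMap.surjective_of_injective hL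
  refine hφ (LinearMap.ext fun y => ?_)
  obtain ⟨x, rfl⟩ := hs y
  have := congrArg (fun g : (Fin k → ℝ) →ₗ[ℝ] ℝ => g x) h0
  simpa using this

/-- **One scale ⇒ `CoreLawAll`.** -/
theorem coreLawAll_of_oneScale (M : BModel S π)
    (h : ∀ K : ℕ, ∃ (LL : Set ((Fin k → ℝ) →ₗ[ℝ] (Fin k → ℝ))) (c0 : ℝ), 0 < c0 ∧ LL.Finite ∧
      (∀ L ∈ LL, Function.Injective L) ∧ OneScaleLaw M LL c0 K) : CoreLawAll M := by
  intro K
  obtain ⟨J, A, hA, hJ⟩ := exists_BG M
  obtain ⟨LL, c0, hc0, hLL, hinj, hl⟩ := h K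
  exact ⟨LL, c0, hc0, hLL, fun L hL j => comp_ne (M.Λ_ne j) (hinj L hL),
    coreLaw_of_oneScale M hA hJ hc0 hLL hl⟩

end Crest.Agent.R182.OneScale
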