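/-
R182, module POLYC, block PC2: Lie-Kolchin-Mal'cev for virtually polycyclic groups.
-/
import Mathlib
import Crest.Prelude.Def_Polycyclic
import Crest.Agent.R182.GromovPoly

set_option autoImplicit false
set_option linter.unusedSectionVars false

namespace Crest.Agent.R182.PolycLK

open Crest.GroupTheory Crest.Agent.R182.GromovPoly Module

section fg

variable {G : Type*} [Group G]

theorem pc_fg {L : Subgroup G} (h : PC L) : L.FG := by
  induction h with
  | bot => exact Subgroup.FG.bot
  | step K L hK hle hn g hg hL ih =>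
    rw [hL]
    refine ih.sup ?_
    exact ⟨{g}, by simp [Subgroup.zpowers_eq_closure]⟩

/-- A polycyclic subgroup `N`, normalised by all elements of `L`; inside every finite-index
subgroup `M` of `N` there is one normalised by all elements of `L`. -/
theorem exists_normalised {N M L : Subgroup G} (hN : N.FG)
    (hM : M.relIndex N ≠ 0) (hn : ∀ h ∈ L, ∀ x ∈ N, h * x * h⁻¹ ∈ N) :
    ∃ C : Subgroup G, C ≤ M ∧ C.relIndex N ≠ 0 ∧ ∀ h ∈ L, ∀ x ∈ C, h * x * h⁻¹ ∈ C := by
  have : Group.FG N := (Group.fg_iff_subgroup_fg N).2 hN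
  have hMf : (M.subgroupOf N).FiniteIndex := ⟨hM⟩
  obtain ⟨C, hC, hCf, hCM⟩ := exists_characteristic (M.subgroupOf N)
  refine ⟨C.map N.subtype, ?_, ?_, ?_⟩
  · rintro _ ⟨x, hx, rfl⟩
    exact hCM hx
  · have : (C.map N.subtype).relIndex N = C.index := by
      unfold Subgroup.relIndex
      congr 1
      exact Subgroup.comap_map_eq_self_of_injective N.subtype_injective C
    rw [this]
    exact hCf.index_ne_zero
  · rintro h hh _ ⟨x, hx, rfl⟩
    let φ : N ≃* N :=
      { toFun := fun y => ⟨h * y * h⁻¹, hn h hh y y.2⟩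
        invFun := fun y => ⟨h⁻¹ * y * h, by
          have := hn h⁻¹ (L.inv_mem hh) y y.2
          simpa using this⟩
        left_inv := fun y => by ext; simp [mul_assoc]
        right_inv := fun y => by ext; simp [mul_assoc]
        map_mul' := fun y z => by ext; simp [mul_assoc] }
    refine ⟨φ x, ?_, rfl⟩
    have := Subgroup.characteristic_iff_le_comap.1 hC φ
    exact this hx

theorem relIndex_sup_zpowers_ne_zero {N C L : Subgroup G} {t : G} {m : ℕ} (hm : 0 < m)
    (hC : C.relIndex N ≠ 0) (hn : ∀ h ∈ L, ∀ x ∈ N, h * x * h⁻¹ ∈ N) (ht : t ∈ L)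
    (hL : L = N ⊔ Subgroup.zpowers t) :
    (C ⊔ Subgroup.zpowers (t ^ m)).relIndex L ≠ 0 := by
  have hNL : N ≤ L := hL ▸ le_sup_left
  have hCf : (C.subgroupOf N).FiniteIndex := ⟨hC⟩
  have : Finite (N ⧸ C.subgroupOf N) := Subgroup.finite_quotient_of_finiteIndex
  let f : Fin m × (N ⧸ C.subgroupOf N) →
      L ⧸ (C ⊔ Subgroup.zpowers (t ^ m)).subgroupOf L := fun p =>
    QuotientGroup.mk ⟨t ^ (p.1 : ℕ) * (p.2.out : N),
      L.mul_mem (L.pow_mem ht _) (hNL p.2.out.2)⟩
  have hf : Function.Surjective f := by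
    intro q
    induction q using QuotientGroup.induction_on with
    | H l =>
      obtain ⟨l, hl⟩ := l
      have hl' := hl
      rw [hL] at hl'
      obtain ⟨k, hk, n, rfl⟩ := (mem_sup_zpowers (conj_iff_of_conj hn ht)).1 hl'
      have hm' : (0 : ℤ) < m := by exact_mod_cast hm
      obtain ⟨j, hj⟩ : ∃ j : Fin m, ((j : ℕ) : ℤ) = n % m := by
        have h0 := Int.emod_nonneg n hm'.ne'
        have h1 := Int.emod_lt_of_pos n hm'
        exact ⟨⟨(n % m).toNat, by omega⟩, by simp [Int.toNat_of_nonneg h0]⟩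
      have hk' : t ^ (-((j : ℕ) : ℤ)) * k * (t ^ (-((j : ℕ) : ℤ)))⁻¹ ∈ N :=
        hn _ (L.zpow_mem ht _) k hk
      refine ⟨(j, QuotientGroup.mk ⟨_, hk'⟩), ?_⟩
      refine QuotientGroup.eq.2 ?_
      rw [Subgroup.mem_subgroupOf]
      have hout := QuotientGroup.mk_out_eq_mul (C.subgroupOf N) ⟨_, hk'⟩
      obtain ⟨⟨c, hcN⟩, hc⟩ := hout
      rw [Subgroup.mem_subgroupOf] at hcN
      have hc' : ((QuotientGroup.mk (s := C.subgroupOf N)
          (⟨_, hk'⟩ : N)).out : N) = _ := hc
      have hn' : n = ((j : ℕ) : ℤ) + m * (n / m) := by rw [hj]; exact (Int.emod_add_mul_ediv n m).symm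
      have hkey : (((⟨t ^ (j : ℕ) * ((QuotientGroup.mk (s := C.subgroupOf N)
          (⟨_, hk'⟩ : N)).out : N), L.mul_mem (L.pow_mem ht _)
            (hNL (QuotientGroup.mk (s := C.subgroupOf N) (⟨_, hk'⟩ : N)).out.2)⟩ : L)⁻¹ *
          ⟨k * t ^ n, hl⟩ : L) : G) = (c : G)⁻¹ * (t ^ m) ^ (n / m) := by
        rw [hc']
        simp only [Subgroup.coe_mul, Subgroup.coe_inv, mul_inv_rev]
        rw [← zpow_natCast t m, ← zpow_mul]
        conv_lhs => rw [hn']
        rw [← zpow_natCast t (j : ℕ), zpow_add]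
        group
      show (((⟨t ^ (j : ℕ) * ((QuotientGroup.mk (s := C.subgroupOf N)
          (⟨_, hk'⟩ : N)).out : N), L.mul_mem (L.pow_mem ht _)
            (hNL (QuotientGroup.mk (s := C.subgroupOf N) (⟨_, hk'⟩ : N)).out.2)⟩ : L)⁻¹ *
          ⟨k * t ^ n, hl⟩ : L) : G) ∈ _
      rw [hkey]
      refine Subgroup.mul_mem _ (Subgroup.mem_sup_left (C.inv_mem hcN))
        (Subgroup.mem_sup_right ?_)
      exact Subgroup.zpow_mem _ (Subgroup.mem_zpowers _) _
  have := Finite.of_surjective f hf
  have h2 : ((C ⊔ Subgroup.zpowers (t ^ m)).subgroupOf L).FiniteIndex :=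
    Subgroup.finiteIndex_of_finite_quotient
  exact h2.index_ne_zero

end fg

section eig

variable {K V : Type*} [Field K] [AddCommGroup V] [Module K V]

/-- simultaneous weight space of a subgroup `C`. -/
def wt {G : Type*} [Group G] (ρ : Representation K G V) (C : Subgroup G) (χ : C →* K) :
    Submodule K V where
  carrier := {v | ∀ c : C, ρ c v = χ c • v}
  zero_mem' := fun c => by simp
  add_mem' := fun {v w} hv hw c => by rw [map_add, hv c, hw c, smul_add]
  smul_mem' := fun a v hv c => by rw [map_smul, hv c, smul_comm]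


theorem finite_wt [FiniteDimensional K V] {G : Type*} [Group G] (ρ : Representation K G V)
    (C : Subgroup G) : Finite {χ : C →* K // wt ρ C χ ≠ ⊥} := by
  classical
  have hv : ∀ χ : {χ : C →* K // wt ρ C χ ≠ ⊥}, ∃ v ∈ wt ρ C χ.1, v ≠ 0 :=
    fun χ => Submodule.exists_mem_ne_zero_of_ne_bot χ.2
  choose v hv hv0 using hv
  have hli : LinearIndependent K v := by
    rw [linearIndependent_iff']
    intro s a ha i hi
    -- functional with `f (v i) ≠ 0`
    obtain ⟨f, hf⟩ : ∃ f : Module.Dual K V, f (v i) ≠ 0 := by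
      by_contra hcon
      push Not at hcon
      exact hv0 i ((Module.forall_dual_apply_eq_zero_iff K (v i)).1 hcon)
    have h1 := linearIndependent_monoidHom C K
    have h2 : ∑ j ∈ s, (a j * f (v j)) • ((j.1 : C →* K) : C → K) = 0 := by
      funext c
      have h3 : ρ c (∑ j ∈ s, a j • v j) = 0 := by rw [ha, map_zero]
      rw [map_sum] at h3
      have h4 := congrArg f h3
      rw [map_sum, map_zero] at h4
      rw [Finset.sum_apply, Pi.zero_apply, ← h4]
      refine Finset.sum_congr rfl fun j hj => ?_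
      rw [map_smul, hv j c, map_smul, map_smul, Pi.smul_apply, smul_eq_mul, smul_eq_mul,
        smul_eq_mul]
      ring
    have h5 : LinearIndependent K
        (fun χ : {χ : C →* K // wt ρ C χ ≠ ⊥} => (χ.1 : C → K)) :=
      h1.comp _ Subtype.val_injective
    have h6 := (linearIndependent_iff'.1 h5) s (fun j => a j * f (v j)) h2 i hi
    exact (mul_eq_zero.1 h6).resolve_right hf
  exact hli.finite

theorem exists_common_eigenvector [IsAlgClosed K] [FiniteDimensional K V] [Nontrivial V]
    {G : Type*} [Group G] (ρ : Representation K G V) {L : Subgroup G} (hL : PC L) :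
    ∃ L' ≤ L, L'.relIndex L ≠ 0 ∧ ∃ v : V, v ≠ 0 ∧ ∀ g ∈ L', ∃ c : K, ρ g v = c • v := by
  induction hL with
  | bot =>
    obtain ⟨v, hv⟩ := exists_ne (0 : V)
    refine ⟨⊥, le_rfl, by simp, v, hv, ?_⟩
    intro g hg
    rw [Subgroup.mem_bot] at hg
    exact ⟨1, by rw [hg, map_one]; simp⟩
  | step N L hN hle hn t ht hL ih =>
    obtain ⟨M, hMN, hM, v, hv0, hv⟩ := ih
    obtain ⟨C, hCM, hCf, hCn⟩ := exists_normalised (pc_fg hN) hM hn
    -- the character of `C` at `v`
    have hvC : ∀ c : C, ∃ a : K, ρ c v = a • v := fun c => hv c (hCM c.2)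
    choose a ha using hvC
    let χ₀ : C →* K :=
      { toFun := a
        map_one' := by
          have h1 := ha 1
          rw [Subgroup.coe_one, map_one] at h1
          have h2 : (a 1 - 1) • v = 0 := by rw [sub_smul, ← h1, one_smul]; simp
          exact sub_eq_zero.1 ((smul_eq_zero.1 h2).resolve_right hv0)
        map_mul' := by
          intro x y
          have h1 := ha (x * y)
          rw [Subgroup.coe_mul, map_mul, Module.End.mul_apply, ha y, map_smul, ha x, smul_smul] at h1
          have h2 : (a (x * y) - a x * a y) • v = 0 := by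
            rw [sub_smul, ← h1, mul_comm (a x), sub_self]
          exact sub_eq_zero.1 ((smul_eq_zero.1 h2).resolve_right hv0) }
    have hχ₀ : v ∈ wt ρ C χ₀ := fun c => ha c
    -- conjugation action on characters
    have hcj : ∀ n : ℕ, ∀ x ∈ C, (t ^ n)⁻¹ * x * t ^ n ∈ C := by
      intro n x hx
      have := hCn (t ^ n)⁻¹ (L.inv_mem (L.pow_mem ht n)) x hx
      simpa using this
    let cj : ℕ → C →* C := fun n =>
      { toFun := fun x => ⟨(t ^ n)⁻¹ * x * t ^ n, hcj n x x.2⟩
        map_one' := by ext; simp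
        map_mul' := fun x y => by ext; simp [mul_assoc] }
    have hmove : ∀ (n : ℕ) (χ : C →* K) (w : V), w ∈ wt ρ C χ →
        ρ (t ^ n) w ∈ wt ρ C (χ.comp (cj n)) := by
      intro n χ w hw c
      have h1 : ρ (c : G) (ρ (t ^ n) w) = ρ (t ^ n) (ρ ((cj n c : C) : G) w) := by
        rw [← Module.End.mul_apply, ← map_mul, ← Module.End.mul_apply, ← map_mul]
        congr 2
        show (c : G) * t ^ n = t ^ n * ((t ^ n)⁻¹ * c * t ^ n)
        group
      rw [h1, hw (cj n c), map_smul]
      rfl
    have hne : ∀ n : ℕ, wt ρ C (χ₀.comp (cj n)) ≠ ⊥ := by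
      intro n hbot
      have h1 := hmove n χ₀ v hχ₀
      rw [hbot, Submodule.mem_bot] at h1
      have h2 : ρ ((t ^ n)⁻¹) (ρ (t ^ n) v) = 0 := by rw [h1, map_zero]
      rw [← Module.End.mul_apply, ← map_mul, inv_mul_cancel, map_one] at h2
      exact hv0 h2
    have hfin := finite_wt ρ C
    obtain ⟨i, j, hij, hfij⟩ := Finite.exists_ne_map_eq_of_infinite
      (fun n : ℕ => (⟨χ₀.comp (cj n), hne n⟩ : {χ : C →* K // wt ρ C χ ≠ ⊥}))
    wlog hlt : i < j generalizing i j
    · exact this j i hij.symm hfij.symm (lt_of_le_of_ne (not_lt.1 hlt) hij.symm)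
    have hfij' : χ₀.comp (cj i) = χ₀.comp (cj j) := congrArg Subtype.val hfij
    set m : ℕ := j - i with hm
    have hmpos : 0 < m := Nat.sub_pos_of_lt hlt
    have hχm : χ₀.comp (cj m) = χ₀ := by
      ext x
      have hy : t ^ i * x * (t ^ i)⁻¹ ∈ C := hCn (t ^ i) (L.pow_mem ht i) x x.2
      have h1 := DFunLike.congr_fun hfij' ⟨_, hy⟩
      have h2 : cj i ⟨_, hy⟩ = x := by
        ext
        show (t ^ i)⁻¹ * (t ^ i * x * (t ^ i)⁻¹) * t ^ i = x
        group
      have h3 : cj j ⟨_, hy⟩ = cj m x := by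
        ext
        show (t ^ j)⁻¹ * (t ^ i * x * (t ^ i)⁻¹) * t ^ j = (t ^ m)⁻¹ * x * t ^ m
        have : t ^ j = t ^ i * t ^ m := by rw [← pow_add]; congr 1; omega
        rw [this]; group
      rw [MonoidHom.comp_apply, MonoidHom.comp_apply, h2, h3] at h1
      rw [MonoidHom.comp_apply, ← h1]
    -- `t ^ m` preserves the weight space of `χ₀`
    have hinv : ∀ w ∈ wt ρ C χ₀, ρ (t ^ m) w ∈ wt ρ C χ₀ := by
      intro w hw
      have := hmove m χ₀ w hw
      rwa [hχm] at this
    have hnt : Nontrivial (wt ρ C χ₀) := by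
      refine (Submodule.nontrivial_iff_ne_bot).2 ?_
      intro h
      rw [h, Submodule.mem_bot] at hχ₀
      exact hv0 hχ₀
    obtain ⟨μ, hμ⟩ := Module.End.exists_eigenvalue ((ρ (t ^ m)).restrict hinv)
    obtain ⟨w, hw⟩ := hμ.exists_hasEigenvector
    have hw0 : (w : V) ≠ 0 := fun h => hw.2 (Subtype.ext h)
    have hwm : ρ (t ^ m) (w : V) = μ • (w : V) := by
      have := congrArg Subtype.val hw.apply_eq_smul
      simpa using this
    have hwC : ∀ c ∈ C, ∃ a : K, ρ c (w : V) = a • (w : V) := fun c hc =>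
      ⟨χ₀ ⟨c, hc⟩, w.2 ⟨c, hc⟩⟩
    refine ⟨C ⊔ Subgroup.zpowers (t ^ m), ?_, ?_, w, hw0, ?_⟩
    · refine sup_le ((hCM.trans hMN).trans hle) ?_
      rw [Subgroup.zpowers_le]
      exact L.pow_mem ht m
    · exact relIndex_sup_zpowers_ne_zero hmpos hCf hn ht hL
    · -- common eigenvector
      let S : Subgroup G :=
        { carrier := {g | ∃ a : K, ρ g (w : V) = a • (w : V)}
          one_mem' := ⟨1, by simp⟩
          mul_mem' := by
            rintro x y ⟨a, ha⟩ ⟨b, hb⟩
            exact ⟨b * a, by rw [map_mul, Module.End.mul_apply, hb, map_smul, ha, smul_smul]⟩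
          inv_mem' := by
            rintro x ⟨a, ha⟩
            have h1 : ρ x⁻¹ (ρ x (w : V)) = (w : V) := by
              rw [← Module.End.mul_apply, ← map_mul, inv_mul_cancel, map_one]; rfl
            rw [ha, map_smul] at h1
            have ha0 : a ≠ 0 := by
              rintro rfl
              rw [zero_smul] at h1
              exact hw0 h1.symm
            refine ⟨a⁻¹, ?_⟩
            rw [← h1, smul_smul, inv_mul_cancel₀ ha0, one_smul, h1] }
      have hS : C ⊔ Subgroup.zpowers (t ^ m) ≤ S := by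
        refine sup_le (fun c hc => hwC c hc) ?_
        rw [Subgroup.zpowers_le]
        exact ⟨μ, hwm⟩
      exact fun g hg => hS hg

end eig

section flag

universe u v w

theorem finrank_comap_mkQ {K V : Type*} [Field K] [AddCommGroup V] [Module K V]
    [FiniteDimensional K V] (U : Submodule K V) (W : Submodule K (V ⧸ U)) :
    finrank K (W.comap U.mkQ) = finrank K W + finrank K U := by
  have h1 := (W.comap U.mkQ).finrank_quotient_add_finrank
  have h2 := W.finrank_quotient_add_finrank
  have h3 := U.finrank_quotient_add_finrank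
  have h4 : finrank K (V ⧸ W.comap U.mkQ) = finrank K ((V ⧸ U) ⧸ W) := by
    refine LinearEquiv.finrank_eq ?_
    have hs : Function.Surjective (W.mkQ.comp U.mkQ) :=
      (Submodule.mkQ_surjective W).comp (Submodule.mkQ_surjective U)
    have hk : LinearMap.ker (W.mkQ.comp U.mkQ) = W.comap U.mkQ := by
      rw [LinearMap.ker_comp, Submodule.ker_mkQ]
    exact (Submodule.quotEquivOfEq _ _ hk.symm).trans
      (LinearMap.quotKerEquivOfSurjective _ hs)
  omega

theorem exists_flag_pc {K : Type w} [Field K] [IsAlgClosed K] (n : ℕ) :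
    ∀ (V : Type v) [AddCommGroup V] [Module K V] [FiniteDimensional K V],
      finrank K V = n → ∀ (G : Type u) [Group G], PC (⊤ : Subgroup G) →
      ∀ ρ : Representation K G V,
      ∃ G' : Subgroup G, G'.FiniteIndex ∧ ∃ W : Fin (n + 1) → Submodule K V, Monotone W ∧
        W 0 = ⊥ ∧ W (Fin.last n) = ⊤ ∧ (∀ i, finrank K (W i) = i) ∧
        ∀ g ∈ G', ∀ i, (W i).map (ρ g) ≤ W i := by
  induction n with
  | zero =>
    intro V _ _ _ hV G _ hG ρ
    have hsub : Subsingleton V := finrank_zero_iff.1 hV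
    refine ⟨⊤, inferInstance, fun _ => ⊥, monotone_const, rfl, Subsingleton.elim _ _, ?_, ?_⟩
    · intro i
      rw [finrank_bot]
      omega
    · intro g _ i
      rw [Submodule.map_bot]
  | succ n ih =>
    intro V _ _ _ hV G _ hG ρ
    have hnt : Nontrivial V := Module.nontrivial_of_finrank_pos (R := K) (by omega)
    obtain ⟨L, -, hL, v, hv0, hv⟩ := exists_common_eigenvector ρ hG
    rw [Subgroup.relIndex_top_right] at hL
    have hLinv : ∀ g : L, (K ∙ v) ≤ (K ∙ v).comap ((ρ.comp L.subtype) g) := by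
      intro g
      rw [Submodule.span_singleton_le_iff_mem, Submodule.mem_comap]
      obtain ⟨c, hc⟩ := hv g g.2
      show ρ g v ∈ _
      rw [hc]
      exact Submodule.smul_mem _ _ (Submodule.mem_span_singleton_self v)
    have hLPC : PC (⊤ : Subgroup L) := by
      have := hG.comap L.subtype L.subtype_injective
      rwa [Subgroup.comap_top] at this
    have hdim : finrank K (V ⧸ (K ∙ v)) = n := by
      have h1 := (K ∙ v).finrank_quotient_add_finrank
      rw [finrank_span_singleton hv0] at h1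
      omega
    obtain ⟨L', hL', W, hWm, hW0, hWl, hWd, hWi⟩ := ih (V ⧸ (K ∙ v)) hdim L hLPC
      (Representation.quotient (ρ.comp L.subtype) (K ∙ v) hLinv)
    refine ⟨L'.map L.subtype, ?_, Fin.cons ⊥ (fun i => (W i).comap (K ∙ v).mkQ), ?_, ?_, ?_, ?_,
      ?_⟩
    · rw [Subgroup.finiteIndex_iff, Subgroup.index_map_subtype]
      exact Nat.mul_ne_zero hL'.index_ne_zero hL
    · intro i j
      refine Fin.cases ?_ (fun i => ?_) i
      · intro _
        exact bot_le
      · refine Fin.cases ?_ (fun j => ?_) j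
        · intro hij
          exact absurd hij (by simp)
        · intro hij
          exact Submodule.comap_mono (hWm (Fin.succ_le_succ_iff.1 hij))
    · rfl
    · rw [← Fin.succ_last]
      simp only [Fin.cons_succ]
      rw [hWl, Submodule.comap_top]
    · intro i
      refine Fin.cases ?_ (fun i => ?_) i
      · simp
      · change finrank K ((W i).comap (K ∙ v).mkQ) = _
        rw [finrank_comap_mkQ, hWd, finrank_span_singleton hv0, Fin.val_succ]
    · rintro _ ⟨g, hg, rfl⟩ i
      refine Fin.cases ?_ (fun i => ?_) i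
      · simp
      · simp only [Fin.cons_succ]
        rintro _ ⟨x, hx, rfl⟩
        refine hWi g hg i ⟨(K ∙ v).mkQ x, hx, ?_⟩
        rfl

/-- **Lie-Kolchin-Mal'cev** for virtually polycyclic groups. -/
theorem exists_flag {K V : Type*} [Field K] [IsAlgClosed K] [AddCommGroup V] [Module K V]
    [FiniteDimensional K V] {G : Type*} [Group G] (hG : IsVirtuallyPolycyclic G)
    (ρ : Representation K G V) :
    ∃ G' : Subgroup G, G'.Normal ∧ G'.FiniteIndex ∧
      ∃ W : Fin (finrank K V + 1) → Submodule K V, Monotone W ∧ W 0 = ⊥ ∧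
        W (Fin.last _) = ⊤ ∧ (∀ i, finrank K (W i) = i) ∧
        ∀ g ∈ G', ∀ i, (W i).map (ρ g) ≤ W i := by
  obtain ⟨P, hP, hPC⟩ := hG
  obtain ⟨L, hL, W, h1, h2, h3, h4, h5⟩ := exists_flag_pc (K := K) (finrank K V) V rfl P
    (isPolycyclic_iff_pc_top.1 hPC) (ρ.comp P.subtype)
  have hfin : (L.map P.subtype).FiniteIndex := by
    rw [Subgroup.finiteIndex_iff, Subgroup.index_map_subtype]
    exact Nat.mul_ne_zero hL.index_ne_zero hP.index_ne_zero
  refine ⟨(L.map P.subtype).normalCore, inferInstance, inferInstance, W, h1, h2, h3, h4, ?_⟩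
  intro g hg i
  obtain ⟨g', hg', rfl⟩ := (L.map P.subtype).normalCore_le hg
  exact h5 g' hg' i

end flag

section chars

variable {K V : Type*} [Field K] [AddCommGroup V] [Module K V] [FiniteDimensional K V]
  {G : Type*} [Group G]

/-- Given a full flag preserved by `ρ`, the characters on the one-dimensional quotients. -/
theorem exists_chars {n : ℕ} (ρ : Representation K G V) (W : Fin (n + 1) → Submodule K V)
    (hWm : Monotone W) (hWd : ∀ i, finrank K (W i) = i)
    (hWi : ∀ g, ∀ i, (W i).map (ρ g) ≤ W i) :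
    ∃ χ : Fin n → G →* Kˣ, ∀ (i : Fin n) (g : G), ∀ v ∈ W i.succ,
      ρ g v - (χ i g : K) • v ∈ W i.castSucc := by
  have key : ∀ i : Fin n, ∃ e ∈ W i.succ, e ∉ W i.castSucc ∧
      ∀ v ∈ W i.succ, ∃ a : K, v - a • e ∈ W i.castSucc := by
    intro i
    have hle : W i.castSucc ≤ W i.succ := hWm (Fin.castSucc_le_succ i)
    have hlt : W i.castSucc < W i.succ := by
      refine lt_of_le_of_ne hle ?_
      intro h
      have h1 := hWd i.castSucc
      have h2 := hWd i.succ
      rw [h, h2] at h1
      simp at h1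
    obtain ⟨e, he, he'⟩ := SetLike.exists_of_lt hlt
    refine ⟨e, he, he', ?_⟩
    have hsup : W i.castSucc ⊔ (K ∙ e) = W i.succ := by
      refine Submodule.eq_of_le_of_finrank_le (sup_le hle ?_) ?_
      · rwa [Submodule.span_singleton_le_iff_mem]
      · have h1 : W i.castSucc < W i.castSucc ⊔ (K ∙ e) := by
          refine lt_of_le_of_ne le_sup_left ?_
          intro h
          apply he'
          rw [h]
          exact Submodule.mem_sup_right (Submodule.mem_span_singleton_self e)
        have h2 := Submodule.finrank_lt_finrank_of_lt h1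
        rw [hWd] at h2 ⊢
        simp only [Fin.val_castSucc] at h2
        simp only [Fin.val_succ]
        omega
    intro v hv
    rw [← hsup, Submodule.mem_sup] at hv
    obtain ⟨y, hy, z, hz, rfl⟩ := hv
    obtain ⟨a, rfl⟩ := Submodule.mem_span_singleton.1 hz
    exact ⟨a, by simpa using hy⟩
  choose e he he' hspan using key
  have hρe : ∀ (i : Fin n) (g : G), ∃ a : K, ρ g (e i) - a • e i ∈ W i.castSucc :=
    fun i g => hspan i _ (hWi g _ ⟨_, he i, rfl⟩)
  choose c hc using hρe
  have huniq : ∀ (i : Fin n) (a b : K) (v : V), v - a • e i ∈ W i.castSucc →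
      v - b • e i ∈ W i.castSucc → a = b := by
    intro i a b v ha hb
    by_contra hab
    have h1 : (b - a) • e i ∈ W i.castSucc := by
      have := (W i.castSucc).sub_mem ha hb
      rwa [show v - a • e i - (v - b • e i) = (b - a) • e i by rw [sub_smul]; abel] at this
    have h2 := (W i.castSucc).smul_mem (b - a)⁻¹ h1
    rw [smul_smul, inv_mul_cancel₀ (sub_ne_zero.2 (Ne.symm hab)), one_smul] at h2
    exact he' i h2
  have hmul : ∀ (i : Fin n) (g h : G), c i (g * h) = c i g * c i h := by
    intro i g h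
    refine huniq i _ _ (ρ (g * h) (e i)) (hc i (g * h)) ?_
    have h1 : ρ (g * h) (e i) - (c i g * c i h) • e i =
        ρ g (ρ h (e i) - c i h • e i) + c i h • (ρ g (e i) - c i g • e i) := by
      rw [map_mul, Module.End.mul_apply, map_sub, map_smul, smul_sub, smul_smul,
        mul_comm (c i g)]
      abel
    rw [h1]
    exact (W i.castSucc).add_mem (hWi g _ ⟨_, hc i h, rfl⟩) ((W i.castSucc).smul_mem _ (hc i g))
  have hone : ∀ i : Fin n, c i 1 = 1 := by
    intro i
    refine huniq i _ _ (ρ 1 (e i)) (hc i 1) ?_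
    simp
  have hinv : ∀ (i : Fin n) (g : G), c i g * c i g⁻¹ = 1 := by
    intro i g
    rw [← hmul, mul_inv_cancel, hone]
  refine ⟨fun i =>
    { toFun := fun g => ⟨c i g, c i g⁻¹, hinv i g, by rw [mul_comm, hinv]⟩
      map_one' := by ext; exact hone i
      map_mul' := fun g h => by ext; exact hmul i g h }, ?_⟩
  intro i g v hv
  obtain ⟨a, ha⟩ := hspan i v hv
  show ρ g v - c i g • v ∈ W i.castSucc
  have h1 : ρ g v - c i g • v =
      ρ g (v - a • e i) - c i g • (v - a • e i) + a • (ρ g (e i) - c i g • e i) := by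
    rw [map_sub, map_smul, smul_sub, smul_sub, smul_smul, smul_smul, mul_comm (c i g)]
    abel
  rw [h1]
  refine (W i.castSucc).add_mem ((W i.castSucc).sub_mem (hWi g _ ⟨_, ha, rfl⟩)
    ((W i.castSucc).smul_mem _ ha)) ((W i.castSucc).smul_mem _ (hc i g))

/-- a basis adapted to a full flag. -/
theorem exists_basis {n : ℕ} (W : Fin (n + 1) → Submodule K V)
    (hWm : Monotone W) (hWl : W (Fin.last n) = ⊤) (hWd : ∀ i, finrank K (W i) = i) :
    ∃ b : Basis (Fin n) K V, ∀ k, W k = b.flag k := by
  have key : ∀ i : Fin n, ∃ e : V, e ∉ W i.castSucc ∧ W i.succ = (K ∙ e) ⊔ W i.castSucc := by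
    intro i
    have hle : W i.castSucc ≤ W i.succ := hWm (Fin.castSucc_le_succ i)
    have hlt : W i.castSucc < W i.succ := by
      refine lt_of_le_of_ne hle ?_
      intro h
      have h1 := hWd i.castSucc
      have h2 := hWd i.succ
      rw [h, h2] at h1
      simp at h1
    obtain ⟨e, he, he'⟩ := SetLike.exists_of_lt hlt
    refine ⟨e, he', ?_⟩
    refine (Submodule.eq_of_le_of_finrank_le (sup_le ?_ hle) ?_).symm
    · rwa [Submodule.span_singleton_le_iff_mem]
    · have h1 : W i.castSucc < (K ∙ e) ⊔ W i.castSucc := by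
        refine lt_of_le_of_ne le_sup_right ?_
        intro h
        apply he'
        rw [h]
        exact Submodule.mem_sup_left (Submodule.mem_span_singleton_self e)
      have h2 := Submodule.finrank_lt_finrank_of_lt h1
      rw [hWd] at h2 ⊢
      simp only [Fin.val_castSucc] at h2
      simp only [Fin.val_succ]
      omega
  choose e he hspan using key
  have hW0 : W 0 = ⊥ := by
    have := hWd 0
    exact Submodule.finrank_eq_zero.1 this
  have hfl : ∀ k : Fin (n + 1), W k = Submodule.span K (e '' {i | i.castSucc < k}) := by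
    intro k
    induction k using Fin.induction with
    | zero => simp [hW0]
    | succ k ih =>
      rw [hspan, ih]
      have : {i : Fin n | i.castSucc < k.succ} = insert k {i | i.castSucc < k.castSucc} := by
        ext i
        simp only [Set.mem_ofPred_eq, Set.mem_insert_iff, Fin.lt_def, Fin.val_castSucc,
          Fin.val_succ, Fin.ext_iff]
        omega
      rw [this, Set.image_insert_eq, Submodule.span_insert]
  have hle : ⊤ ≤ Submodule.span K (Set.range e) := by
    rw [← hWl, hfl]
    exact Submodule.span_mono (Set.image_subset_range _ _)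
  have hn : finrank K V = n := by
    have := hWd (Fin.last n)
    rwa [hWl, finrank_top] at this
  have hli : LinearIndependent K e := by
    rw [linearIndependent_iff_card_eq_finrank_span, Fintype.card_fin, Set.finrank,
      top_le_iff.1 hle, finrank_top, hn]
  refine ⟨Basis.mk hli hle, fun k => ?_⟩
  rw [hfl, Basis.flag, Basis.coe_mk]

/-- upper triangular form in a basis adapted to an invariant flag. -/
theorem toMatrix_tri {n : ℕ} (ρ : Representation K G V) (b : Basis (Fin n) K V)
    (χ : Fin n → G →* Kˣ)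
    (hχ : ∀ (i : Fin n) (g : G), ∀ v ∈ b.flag i.succ, ρ g v - (χ i g : K) • v ∈ b.flag i.castSucc)
    (g : G) :
    (LinearMap.toMatrix b b (ρ g)).IsUpperTriangular ∧
      ∀ i, LinearMap.toMatrix b b (ρ g) i i = χ i g := by
  have key : ∀ i j : Fin n, i ≤ j →
      b.repr (ρ g (b i)) j = (χ i g : K) * b.repr (b i) j := by
    intro i j hij
    have h1 := hχ i g (b i) (b.self_mem_flag (Fin.castSucc_lt_succ (i := i)))
    have h2 : b.flag i.castSucc ≤ LinearMap.ker (b.coord j) :=
      b.flag_le_ker_coord (Fin.castSucc_le_castSucc_iff.2 hij)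
    have h3 := h2 h1
    rw [LinearMap.mem_ker, map_sub, map_smul, sub_eq_zero, Basis.coord_apply, Basis.coord_apply,
      smul_eq_mul] at h3
    exact h3
  constructor
  · intro j i hij
    have hij' : i < j := hij
    rw [LinearMap.toMatrix_apply, key i j hij'.le, Basis.repr_self,
      Finsupp.single_eq_of_ne (by intro h; rw [h] at hij'; exact lt_irrefl _ hij'), mul_zero]
  · intro i
    rw [LinearMap.toMatrix_apply, key i i le_rfl, Basis.repr_self, Finsupp.single_eq_same, mul_one]

theorem charpoly_eq_prod {n : ℕ} (ρ : Representation K G V) (b : Basis (Fin n) K V)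
    (χ : Fin n → G →* Kˣ)
    (hχ : ∀ (i : Fin n) (g : G), ∀ v ∈ b.flag i.succ, ρ g v - (χ i g : K) • v ∈ b.flag i.castSucc)
    (g : G) : LinearMap.charpoly (ρ g) = ∏ i, (Polynomial.X - Polynomial.C ((χ i g : Kˣ) : K)) := by
  rw [← LinearMap.charpoly_toMatrix (ρ g) b,
    Matrix.charpoly_of_isUpperTriangular _ (toMatrix_tri ρ b χ hχ g).1]
  refine Finset.prod_congr rfl fun i _ => ?_
  rw [(toMatrix_tri ρ b χ hχ g).2 i]

theorem det_eq_prod {n : ℕ} (ρ : Representation K G V) (b : Basis (Fin n) K V)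
    (χ : Fin n → G →* Kˣ)
    (hχ : ∀ (i : Fin n) (g : G), ∀ v ∈ b.flag i.succ, ρ g v - (χ i g : K) • v ∈ b.flag i.castSucc)
    (g : G) : LinearMap.det (ρ g) = ∏ i, ((χ i g : Kˣ) : K) := by
  rw [← LinearMap.det_toMatrix b, Matrix.det_of_isUpperTriangular (toMatrix_tri ρ b χ hχ g).1]
  refine Finset.prod_congr rfl fun i _ => ?_
  rw [(toMatrix_tri ρ b χ hχ g).2 i]

/-- If all the characters vanish at `g` then `ρ g - 1` is nilpotent (kills the flag in `n` steps). -/
theorem sub_one_pow_eq_zero {n : ℕ} (ρ : Representation K G V) (W : Fin (n + 1) → Submodule K V)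
    (hW0 : W 0 = ⊥) (hWl : W (Fin.last n) = ⊤) {g : G}
    (hg : ∀ i : Fin n, ∀ v ∈ W i.succ, ρ g v - v ∈ W i.castSucc) : (ρ g - 1) ^ n = 0 := by
  have key : ∀ k : Fin (n + 1), ∀ v ∈ W k, ((ρ g - 1) ^ (k : ℕ)) v = 0 := by
    intro k
    induction k using Fin.induction with
    | zero =>
      intro v hv
      rw [hW0, Submodule.mem_bot] at hv
      rw [hv, map_zero]
    | succ k ih =>
      intro v hv
      rw [Fin.val_succ, pow_succ, Module.End.mul_apply]
      exact ih _ (hg k v hv)
  ext v
  have := key (Fin.last n) v (by rw [hWl]; trivial)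
  simpa using this

/-- Everything together: a virtually polycyclic group acting on a finite-dimensional space over an
algebraically closed field has a normal finite-index subgroup `G'`, a basis of `V` in which `G'` is
upper triangular with diagonal characters `χ i`. -/
theorem exists_triangular [IsAlgClosed K] (hG : IsVirtuallyPolycyclic G)
    (ρ : Representation K G V) :
    ∃ G' : Subgroup G, G'.Normal ∧ G'.FiniteIndex ∧
      ∃ (b : Basis (Fin (finrank K V)) K V) (χ : Fin (finrank K V) → G' →* Kˣ),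
        (∀ (i : Fin (finrank K V)) (g : G'), ∀ v ∈ b.flag i.succ,
          ρ g v - (χ i g : K) • v ∈ b.flag i.castSucc) ∧
        (∀ g : G', (LinearMap.toMatrix b b (ρ g)).IsUpperTriangular) ∧
        (∀ (g : G') i, LinearMap.toMatrix b b (ρ g) i i = χ i g) ∧
        (∀ g : G', LinearMap.charpoly (ρ g) =
          ∏ i, (Polynomial.X - Polynomial.C ((χ i g : Kˣ) : K))) ∧
        (∀ g : G', LinearMap.det (ρ g) = ∏ i, ((χ i g : Kˣ) : K)) ∧
        (∀ g : G', (∀ i, χ i g = 1) → (ρ g - 1) ^ (finrank K V) = 0) ∧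
        (∀ g ∈ commutator G', (ρ (g : G) - 1) ^ (finrank K V) = 0) := by
  obtain ⟨G', hn, hf, W, hWm, hW0, hWl, hWd, hWi⟩ := exists_flag hG ρ
  obtain ⟨b, hb⟩ := exists_basis W hWm hWl hWd
  obtain ⟨χ, hχ⟩ := exists_chars (G := G') (ρ.comp G'.subtype) W hWm hWd
    (fun g i => hWi g g.2 i)
  have hχ' : ∀ (i : Fin (finrank K V)) (g : G'), ∀ v ∈ b.flag i.succ,
      (ρ.comp G'.subtype) g v - (χ i g : K) • v ∈ b.flag i.castSucc := by
    intro i g v hv
    rw [← hb] at hv ⊢
    exact hχ i g v hv
  have hnil : ∀ g : G', (∀ i, χ i g = 1) → (ρ g - 1) ^ (finrank K V) = 0 := by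
    intro g hg
    refine sub_one_pow_eq_zero (G := G') (ρ.comp G'.subtype) W hW0 hWl (g := g) ?_
    intro i v hv
    have := hχ i g v hv
    rwa [hg i, Units.val_one, one_smul] at this
  refine ⟨G', hn, hf, b, χ, hχ', fun g => (toMatrix_tri _ b χ hχ' g).1,
    fun g i => (toMatrix_tri _ b χ hχ' g).2 i, fun g => charpoly_eq_prod _ b χ hχ' g,
    fun g => det_eq_prod _ b χ hχ' g, hnil, ?_⟩
  intro g hg
  refine hnil g fun i => ?_
  have : commutator G' ≤ (χ i).ker := Abelianization.commutator_subset_ker (χ i)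
  exact this hg

end chars

end Crest.Agent.R182.PolycLK
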