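import Mathlib
import Crest.Agent.R182.PolycVirt
import Crest.Agent.R182.PolycLK

-- ▼ part R182/PolycTF
section

set_option autoImplicit false

namespace Crest.Agent.R182.Polyc

open Subgroup Crest.GroupTheory

section

variable {G : Type*} [Group G]

/-- `PZ N`: the subgroup `N` has a finite subnormal series from `⊥` with infinite cyclic
factors. -/
inductive PZ {G : Type*} [Group G] : Subgroup G → Prop
  | bot : PZ ⊥
  | step {N M : Subgroup G} (hN : PZ N) (hle : N ≤ M)
      (hnorm : ∀ h ∈ M, ∀ x ∈ N, h * x * h⁻¹ ∈ N) (g : G) (hg : g ∈ M)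
      (hM : M = N ⊔ zpowers g) (hfree : ∀ k : ℤ, g ^ k ∈ N → k = 0) : PZ M

theorem PZ.pc {N : Subgroup G} (h : PZ N) : PC N := by
  induction h with
  | bot => exact PC.bot
  | step _ hle hnorm g hg hM _ ih => exact PC.step ih hle hnorm g hg hM

/-- Powers modulo a normal subgroup. -/
theorem pow_mod {N M : Subgroup G}
    (hnorm : ∀ h ∈ M, ∀ x ∈ N, h * x * h⁻¹ ∈ N) {x y : G} (hx : x ∈ M) (hy : y ∈ M)
    (h : x * y⁻¹ ∈ N) (k : ℤ) : x ^ k * (y ^ k)⁻¹ ∈ N := by
  have hnn : ((N.subgroupOf M)).Normal := ⟨fun a ha b => hnorm b b.2 a ha⟩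
  have h1 : (QuotientGroup.mk (s := N.subgroupOf M) ⟨x, hx⟩) = QuotientGroup.mk ⟨y, hy⟩ := by
    rw [← mul_inv_eq_one]
    rw [← QuotientGroup.mk_inv, ← QuotientGroup.mk_mul, QuotientGroup.eq_one_iff]
    exact h
  have h2 : (QuotientGroup.mk (s := N.subgroupOf M) ((⟨x, hx⟩ : M) ^ k)) =
      QuotientGroup.mk ((⟨y, hy⟩ : M) ^ k) := by
    rw [QuotientGroup.mk_zpow, QuotientGroup.mk_zpow, h1]
  rw [← mul_inv_eq_one, ← QuotientGroup.mk_inv, ← QuotientGroup.mk_mul,
    QuotientGroup.eq_one_iff] at h2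
  exact h2

/-- infinite cyclic factors are torsion free -/
theorem isolated_step {N M : Subgroup G}
    (hnorm : ∀ h ∈ M, ∀ x ∈ N, h * x * h⁻¹ ∈ N) {g : G} (hg : g ∈ M)
    (hM : M = N ⊔ zpowers g) (hfree : ∀ k : ℤ, g ^ k ∈ N → k = 0) {x : G} (hx : x ∈ M)
    {j : ℤ} (hj : j ≠ 0) (h : x ^ j ∈ N) : x ∈ N := by
  obtain ⟨n, hn, i, rfl⟩ := (mem_of_step hnorm hg hM).mp hx
  have h1 := pow_mod hnorm hx (M.zpow_mem hg i) (by
    rw [mul_assoc, mul_inv_cancel, mul_one]; exact hn) j
  have h2 : g ^ (i * j) ∈ N := by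
    have : g ^ (i * j) = ((n * g ^ i) ^ j * ((g ^ i) ^ j)⁻¹)⁻¹ * (n * g ^ i) ^ j := by
      rw [zpow_mul]; group
    rw [this]
    exact N.mul_mem (N.inv_mem h1) h
  have h3 := hfree _ h2
  rcases mul_eq_zero.mp h3 with h4 | h4
  · rw [h4]; simpa using hn
  · exact absurd h4 hj

theorem PZ.torsionFree {M : Subgroup G} (h : PZ M) {x : G} (hx : x ∈ M) {j : ℤ} (hj : j ≠ 0)
    (hxj : x ^ j = 1) : x = 1 := by
  induction h with
  | bot => exact Subgroup.mem_bot.mp hx
  | @step N M hN hle hnorm g hg hM hfree ih =>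
    refine ih (isolated_step hnorm hg hM hfree hx hj ?_)
    rw [hxj]; exact N.one_mem

theorem PZ.comap {G' : Type*} [Group G'] (f : G' →* G) (hk : PZ f.ker) {N : Subgroup G}
    (hN : PZ N) : PZ (N.comap f) := by
  induction hN with
  | bot => rwa [MonoidHom.comap_bot]
  | @step N M hN hle hnorm g hg hM hfree ih =>
    obtain ⟨k, hk1, hk2⟩ := comap_step f hnorm hg hM
    by_cases hkk : ∀ j : ℤ, k ^ j ∈ N.comap f → j = 0
    · refine PZ.step ih (Subgroup.comap_mono hle) ?_ k hk1 hk2 hkk
      intro h hh x hx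
      change f (h * x * h⁻¹) ∈ N
      rw [map_mul, map_mul, map_inv]
      exact hnorm _ hh _ hx
    · push Not at hkk
      obtain ⟨j, hj1, hj2⟩ := hkk
      have : f k ∈ N := by
        refine isolated_step hnorm hg hM hfree hk1 hj2 ?_
        rw [← map_zpow]; exact hj1
      have h2 : M.comap f = N.comap f := by
        rw [hk2, sup_eq_left, zpowers_le]; exact this
      rw [h2]; exact ih

theorem PZ.comap_injective {G' : Type*} [Group G'] {f : G' →* G} (hf : Function.Injective f)
    {N : Subgroup G} (hN : PZ N) : PZ (N.comap f) := by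
  apply PZ.comap f _ hN
  rw [(MonoidHom.ker_eq_bot_iff f).mpr hf]
  exact PZ.bot

theorem PZ.map_injective {G' : Type*} [Group G'] {f : G →* G'} (hf : Function.Injective f)
    {N : Subgroup G} (hN : PZ N) : PZ (N.map f) := by
  induction hN with
  | bot => rw [Subgroup.map_bot]; exact PZ.bot
  | @step N M hN hle hnorm g hg hM hfree ih =>
    refine PZ.step ih (Subgroup.map_mono hle) ?_ (f g) ⟨g, hg, rfl⟩ ?_ ?_
    · rintro _ ⟨h, hh, rfl⟩ _ ⟨x, hx, rfl⟩
      exact ⟨h * x * h⁻¹, hnorm _ hh _ hx, by simp⟩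
    · conv_lhs => rw [hM]
      rw [Subgroup.map_sup, MonoidHom.map_zpowers]
    · intro k hk
      rw [← map_zpow] at hk
      obtain ⟨x, hx, hxk⟩ := hk
      exact hfree k (by rw [← hf hxk]; exact hx)

theorem pz_top_iff {N : Subgroup G} : PZ (⊤ : Subgroup N) ↔ PZ N := by
  constructor
  · intro h
    have := h.map_injective N.subtype_injective
    rwa [← MonoidHom.range_eq_map, Subgroup.range_subtype] at this
  · intro h
    have := h.comap_injective N.subtype_injective
    rwa [← Subgroup.subgroupOf, Subgroup.subgroupOf_self] at this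

theorem PZ.mono {K N : Subgroup G} (hN : PZ N) (h : K ≤ N) : PZ K := by
  rw [← pz_top_iff]
  have := hN.comap_injective K.subtype_injective
  rwa [← Subgroup.subgroupOf, Subgroup.subgroupOf_eq_top.mpr h] at this

/-- A predicate on subgroups inherited by subgroups, true for a finite-index subgroup of a
finitely generated group `N`, is true for an invariant finite-index subgroup. -/
theorem exists_invariant_le {N P : Subgroup G} (hN : N.FG)
    (hP : P.relIndex N ≠ 0) :
    ∃ C : Subgroup G, C ≤ P ∧ C.relIndex N ≠ 0 ∧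
      ∀ h : G, (∀ x ∈ N, h * x * h⁻¹ ∈ N) → (∀ x ∈ N, h⁻¹ * x * h ∈ N) →
        ∀ x ∈ C, h * x * h⁻¹ ∈ C := by
  have hfg : Group.FG N := (Group.fg_iff_subgroup_fg N).mpr hN
  obtain ⟨C, hC1, hC2, hC3⟩ := exists_characteristic_le (P.subgroupOf N) hP
  refine ⟨C.map N.subtype, ?_, ?_, ?_⟩
  · rintro _ ⟨x, hx, rfl⟩
    exact hC3 hx
  · rw [Subgroup.relIndex]
    have : (C.map N.subtype).subgroupOf N = C := by
      rw [Subgroup.subgroupOf]
      exact Subgroup.comap_map_eq_self_of_injective N.subtype_injective C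
    rw [this]; exact hC2
  · intro h hh hh'
    let φ : N ≃* N :=
      { toFun := fun x => ⟨h * x * h⁻¹, hh x x.2⟩
        invFun := fun x => ⟨h⁻¹ * x * h, hh' x x.2⟩
        left_inv := fun x => by ext; simp [mul_assoc]
        right_inv := fun x => by ext; simp [mul_assoc]
        map_mul' := fun x y => by ext; simp [mul_assoc] }
    rintro _ ⟨x, hx, rfl⟩
    have := (Subgroup.characteristic_iff_le_comap.mp hC1) φ hx
    exact ⟨φ x, this, rfl⟩

/-- Every polycyclic group has a poly-(infinite cyclic) subgroup of finite index. -/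
theorem PC.exists_pz {N : Subgroup G} (hN : PC N) :
    ∃ P : Subgroup G, P ≤ N ∧ PZ P ∧ P.relIndex N ≠ 0 := by
  induction hN with
  | bot => exact ⟨⊥, le_rfl, PZ.bot, by rw [Subgroup.relIndex_self]; exact one_ne_zero⟩
  | @step N M hN hle hnorm g hg hM ih =>
    obtain ⟨P, h1, h2, h3⟩ := ih
    obtain ⟨C, hC1, hC3, hC4⟩ := exists_invariant_le hN.fg h3
    have hC2 : PZ C := h2.mono hC1
    have hCN : C ≤ N := hC1.trans h1
    have hinv : ∀ h ∈ M, ∀ x ∈ C, h * x * h⁻¹ ∈ C := by
      intro h hh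
      refine hC4 h (hnorm h hh) ?_
      intro x hx
      have := hnorm h⁻¹ (M.inv_mem hh) x hx
      simpa using this
    have hle2 : C ⊔ zpowers g ≤ M := sup_le (hCN.trans hle) (by rwa [zpowers_le])
    have hind : (C ⊔ zpowers g).relIndex M ≠ 0 := by
      refine index_ne_zero_of_map (C.subgroupOf N) ((C ⊔ zpowers g).subgroupOf M)
        (fun x => ⟨x, hle x.2⟩) ?_ ?_ hC3
      · intro a b hab
        exact (le_sup_left : C ≤ C ⊔ zpowers g) hab
      · rintro ⟨b, hb⟩
        obtain ⟨n, hn, i, rfl⟩ := (mem_of_step hnorm hg hM).mp hb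
        refine ⟨⟨n, hn⟩, ?_⟩
        change n⁻¹ * (n * g ^ i) ∈ C ⊔ zpowers g
        rw [inv_mul_cancel_left]
        exact (le_sup_right : zpowers g ≤ _) (zpow_mem (mem_zpowers g) i)
    by_cases hfree : ∀ k : ℤ, g ^ k ∈ C → k = 0
    · exact ⟨C ⊔ zpowers g, hle2, PZ.step hC2 le_sup_left (fun h hh => hinv h (hle2 hh)) g
        ((le_sup_right : zpowers g ≤ _) (mem_zpowers g)) rfl hfree, hind⟩
    · push Not at hfree
      obtain ⟨k, hk1, hk2⟩ := hfree
      refine ⟨C, hCN.trans hle, hC2, Subgroup.relIndex_ne_zero_trans ?_ hind⟩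
      -- `C` has finite index in `C ⊔ zpowers g`
      have hkk : ((zpowers (g ^ k)).relIndex (zpowers g)) ≠ 0 := by
        refine index_ne_zero_of_map (A := Multiplicative ℤ)
          (zpowers (Multiplicative.ofAdd k)) _
          (fun i => ⟨g ^ (Multiplicative.toAdd i), zpow_mem (mem_zpowers g) _⟩) ?_ ?_ ?_
        · intro a b hab
          obtain ⟨m, hm⟩ := mem_zpowers_iff.mp hab
          change (g ^ (Multiplicative.toAdd a))⁻¹ * g ^ (Multiplicative.toAdd b) ∈ zpowers (g ^ k)
          refine mem_zpowers_iff.mpr ⟨m, ?_⟩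
          have : m * k = - Multiplicative.toAdd a + Multiplicative.toAdd b := by
            have := congrArg Multiplicative.toAdd hm
            simpa using this
          rw [← zpow_mul, mul_comm k m, this, zpow_add, zpow_neg]
        · rintro ⟨b, hb⟩
          obtain ⟨i, rfl⟩ := mem_zpowers_iff.mp hb
          refine ⟨Multiplicative.ofAdd i, ?_⟩
          change (g ^ i)⁻¹ * g ^ i ∈ zpowers (g ^ k)
          rw [inv_mul_cancel]; exact Subgroup.one_mem _
        · have : (AddSubgroup.zmultiples k).index ≠ 0 := by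
            rw [Int.index_zmultiples]; simpa using hk2
          have h5 := Subgroup.index_toAddSubgroup (H := zpowers (Multiplicative.ofAdd k))
          intro h0
          rw [h0] at h5
          apply this
          have h6 : (AddSubgroup.zmultiples k).index =
            (Subgroup.toAddSubgroup (zpowers (Multiplicative.ofAdd k))).index := by
            rfl
          rw [h6, h5]
      refine index_ne_zero_of_map ((zpowers (g ^ k)).subgroupOf (zpowers g))
        (C.subgroupOf (C ⊔ zpowers g))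
        (fun x => ⟨x, (le_sup_right : zpowers g ≤ _) x.2⟩) ?_ ?_ hkk
      · intro a b hab
        have : zpowers (g ^ k) ≤ C := by rwa [zpowers_le]
        exact this hab
      · rintro ⟨b, hb⟩
        have hnorm' : ∀ h ∈ C ⊔ zpowers g, ∀ x ∈ C, h * x * h⁻¹ ∈ C :=
          fun h hh => hinv h (hle2 hh)
        obtain ⟨n, hn, i, rfl⟩ := (mem_of_step hnorm'
          ((le_sup_right : zpowers g ≤ _) (mem_zpowers g)) rfl).mp hb
        refine ⟨⟨g ^ i, zpow_mem (mem_zpowers g) i⟩, ?_⟩
        change (g ^ i)⁻¹ * (n * g ^ i) ∈ C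
        have := hinv (g ^ i)⁻¹ (M.inv_mem (M.zpow_mem hg i)) n hn
        simpa [mul_assoc] using this

/-- Every virtually polycyclic group has a normal poly-(infinite cyclic) subgroup of finite
index; more precisely one inside any given finite-index subgroup. -/
theorem VPC.exists_pz (h : VPC (⊤ : Subgroup G)) {K : Subgroup G} (hK : K.index ≠ 0) :
    ∃ P : Subgroup G, P.Normal ∧ P.index ≠ 0 ∧ PZ P ∧ P ≤ K := by
  obtain ⟨Q, -, h2, h3⟩ := h
  obtain ⟨P, h4, h5, h6⟩ := h2.exists_pz
  have h7 : P.index ≠ 0 := by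
    rw [← Subgroup.relIndex_top_right]
    exact Subgroup.relIndex_ne_zero_trans h6 h3
  have h8 : (P ⊓ K).index ≠ 0 := Subgroup.index_inf_ne_zero h7 hK
  refine ⟨(P ⊓ K).normalCore, inferInstance, ?_, ?_, ?_⟩
  · have : (P ⊓ K).FiniteIndex := ⟨h8⟩
    exact (inferInstance : (P ⊓ K).normalCore.FiniteIndex).index_ne_zero
  · exact h5.mono ((Subgroup.normalCore_le _).trans inf_le_left)
  · exact (Subgroup.normalCore_le _).trans inf_le_right

end

end Crest.Agent.R182.Polyc
end

-- ▼ part R182/PolycInt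
section

set_option autoImplicit false

namespace Crest.Agent.R182.Polyc

open Module Polynomial
open Crest.GroupTheory

section

variable {G : Type*} [Group G]

/-- Base change to `ℂ` of endomorphisms of a finite free `ℤ`-module, through a basis. -/
noncomputable def toC {ι : Type*} [Fintype ι] [DecidableEq ι] {M : Type*} [AddCommGroup M]
    (b : Basis ι ℤ M) : (M →ₗ[ℤ] M) →+* ((ι → ℂ) →ₗ[ℂ] (ι → ℂ)) :=
  ((Matrix.toLinAlgEquiv' (R := ℂ) (n := ι)).toRingEquiv.toRingHom.comp
    ((Int.castRingHom ℂ).mapMatrix)).comp (LinearMap.toMatrixAlgEquiv b).toRingEquiv.toRingHom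

theorem toC_injective {ι : Type*} [Fintype ι] [DecidableEq ι] {M : Type*} [AddCommGroup M]
    (b : Basis ι ℤ M) : Function.Injective (toC b) := by
  have h1 : Function.Injective (LinearMap.toMatrixAlgEquiv b).toRingEquiv.toRingHom :=
    (LinearMap.toMatrixAlgEquiv b).injective
  have h2 : Function.Injective ((Int.castRingHom ℂ).mapMatrix (m := ι)) := by
    intro A B h
    ext i j
    have := congrFun (congrFun h i) j
    simpa using this
  have h3 : Function.Injective (Matrix.toLinAlgEquiv' (R := ℂ) (n := ι)).toRingEquiv.toRingHom :=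
    (Matrix.toLinAlgEquiv' (R := ℂ) (n := ι)).injective
  exact (h3.comp h2).comp h1

theorem charpoly_toC {ι : Type*} [Fintype ι] [DecidableEq ι] {M : Type*} [AddCommGroup M]
    (b : Basis ι ℤ M) [Module.Free ℤ M] [Module.Finite ℤ M] (f : M →ₗ[ℤ] M) :
    (toC b f).charpoly = f.charpoly.map (Int.castRingHom ℂ) := by
  have h1 : toC b f = Matrix.toLin' ((LinearMap.toMatrix b b f).map (Int.castRingHom ℂ)) := rfl
  rw [h1, Matrix.charpoly_toLin', Matrix.charpoly_map, LinearMap.charpoly_toMatrix]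

/-- product of `n` operators lowering a full flag is zero -/
theorem prod_eq_zero_of_flag {K V : Type*} [Field K] [AddCommGroup V] [Module K V] {n : ℕ}
    (b : Basis (Fin n) K V) (l : List (V →ₗ[K] V)) (hl : l.length = n)
    (h : ∀ f ∈ l, ∀ i : Fin n, ∀ v ∈ b.flag i.succ, f v ∈ b.flag i.castSucc) : l.prod = 0 := by
  have key : ∀ (l : List (V →ₗ[K] V)), (∀ f ∈ l, ∀ i : Fin n, ∀ v ∈ b.flag i.succ,
      f v ∈ b.flag i.castSucc) → ∀ k : Fin (n + 1), ∀ hk : l.length + (k : ℕ) = n, ∀ v : V,
      l.prod v ∈ b.flag k := by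
    intro l
    induction l with
    | nil =>
      intro _ k hk v
      have : k = Fin.last n := by ext; simpa using hk
      rw [this, Basis.flag_last]; trivial
    | cons f l ih =>
      intro hl k hk v
      have hk' : (k : ℕ) < n := by simp only [List.length_cons] at hk; omega
      have h1 := ih (fun g hg => hl g (List.mem_cons_of_mem _ hg)) (Fin.succ ⟨k, hk'⟩)
        (by simp only [List.length_cons] at hk; simp; omega) v
      have h2 := hl f List.mem_cons_self ⟨k, hk'⟩ _ h1
      rw [List.prod_cons, Module.End.mul_apply]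
      exact h2
  ext v
  have := key l h 0 (by simpa using hl) v
  rw [Basis.flag_zero, Submodule.mem_bot] at this
  simpa using this

theorem sub_one_smul' {K V : Type*} [Field K] [AddCommGroup V] [Module K V] (a : K) (v : V) :
    (a - 1) • v = a • v - v := by rw [sub_smul, one_smul]

/-- The main statement on actions on finitely generated abelian groups. -/
theorem exists_int_chars (hG : IsVirtuallyPolycyclic G) {M : Type*} [AddCommGroup M]
    [Module.Finite ℤ M] (ρ : Representation ℤ G M) :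
    ∃ cp : G → ℤ[X], (∀ g, (cp g).Monic) ∧ (∀ g h, cp (h * g * h⁻¹) = cp g) ∧
    ∃ G' : Subgroup G, G'.Normal ∧ G'.FiniteIndex ∧
      ∃ (n : ℕ) (χ : Fin n → G' →* ℂˣ),
        (∀ g : G', (cp (g : G)).map (Int.castRingHom ℂ) =
          ∏ i, (X - C ((χ i g : ℂˣ) : ℂ))) ∧
        (∀ (g : G') (c : ℕ), (∀ m : M, ∃ n : ℤ, n ≠ 0 ∧ n • ((ρ (g : G) - 1) ^ c) m = 0) →
          ∀ i, χ i g = 1) ∧
        ∃ r : ℕ, ∀ l : List G', l.length = r → (∀ g ∈ l, ∀ i, χ i g = 1) →
          (l.map (fun g : G' => ρ (g : G) - 1)).prod = 0 := by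
  classical
  set T : Submodule ℤ M := Submodule.torsion ℤ M with hT
  have hTinv : ∀ g, T ≤ T.comap (ρ g) := by
    intro g x hx
    rw [Submodule.mem_comap]
    obtain ⟨a, ha⟩ := (Submodule.mem_torsion_iff x).mp hx
    refine (Submodule.mem_torsion_iff _).mpr ⟨a, ?_⟩
    have : a • (ρ g) x = (ρ g) (a • x) := by
      change (a : ℤ) • (ρ g) x = (ρ g) ((a : ℤ) • x)
      rw [map_smul]
    rw [this, ha, map_zero]
  -- action on the quotient
  let ρQ : Representation ℤ G (M ⧸ T) :=
    { toFun := fun g => T.mapQ T (ρ g) (hTinv g)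
      map_one' := by
        ext x
        simp
      map_mul' := fun g h => by
        ext x
        simp }
  have hfree : Module.Free ℤ (M ⧸ T) := inferInstance
  let b := Module.Free.chooseBasis ℤ (M ⧸ T)
  let ρC : Representation ℂ G (Module.Free.ChooseBasisIndex ℤ (M ⧸ T) → ℂ) :=
    (toC b).toMonoidHom.comp ρQ
  obtain ⟨G₁, hn1, hf1, bb, χ, hχ, -, -, hcp, -, -, -⟩ := PolycLK.exists_triangular hG ρC
  -- action on the torsion part
  have hTfin : Finite T := by
    have : Module.Finite ℤ T := inferInstance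
    exact Module.finite_of_fg_torsion T Submodule.torsion_isTorsion
  let ρT : G →* Module.End ℤ T :=
    { toFun := fun g => (ρ g).restrict (fun x hx => hTinv g hx)
      map_one' := by ext x; simp
      map_mul' := fun g h => by ext x; simp }
  have hEfin : Finite (Module.End ℤ T) :=
    Finite.of_injective (fun f : Module.End ℤ T => (f : T → T)) DFunLike.coe_injective
  let ρT' : G →* (Module.End ℤ T)ˣ := ρT.toHomUnits
  have hkfin : ρT'.ker.FiniteIndex := by
    rw [Subgroup.finiteIndex_iff, Subgroup.index_ker]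
    exact Nat.card_pos.ne'
  have hkT : ∀ g ∈ ρT'.ker, ∀ x ∈ T, ρ g x = x := by
    intro g hg x hx
    have h1 : ρT g = 1 := by
      have := congrArg Units.val (MonoidHom.mem_ker.mp hg)
      simpa [ρT'] using this
    have h2 := congrArg (fun f : Module.End ℤ T => ((f ⟨x, hx⟩ : T) : M)) h1
    exact h2
  have hfi : (G₁ ⊓ ρT'.ker).FiniteIndex := inferInstance
  refine ⟨fun g => (ρQ g).charpoly, fun g => LinearMap.charpoly_monic _, ?_,
    G₁ ⊓ ρT'.ker, inferInstance, hfi, finrank ℂ _,
    fun i => (χ i).comp (Subgroup.inclusion inf_le_left), ?_, ?_, ?_⟩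
  · intro g h
    let e : (M ⧸ T) ≃ₗ[ℤ] (M ⧸ T) :=
      LinearEquiv.ofLinearMap (ρQ h) (ρQ h⁻¹)
        (by rw [← Module.End.mul_eq_comp, ← map_mul, mul_inv_cancel, map_one]; rfl)
        (by rw [← Module.End.mul_eq_comp, ← map_mul, inv_mul_cancel, map_one]; rfl)
    have h1 := LinearEquiv.charpoly_conj e (ρQ g)
    have h2 : e.conj (ρQ g) = ρQ (h * g * h⁻¹) := by
      rw [map_mul, map_mul]
      rfl
    rw [h2] at h1
    exact h1
  · intro g
    change ((ρQ (g : G)).charpoly).map _ = _
    rw [← charpoly_toC b]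
    exact hcp ⟨g, g.2.1⟩
  · intro g c hgc i
    have h1 : ∀ (k : ℕ) (x : M), T.mkQ (((ρ (g : G) - 1) ^ k) x) =
        ((ρQ (g : G) - 1) ^ k) (T.mkQ x) := by
      intro k
      induction k with
      | zero => intro x; simp
      | succ k ih =>
        intro x
        rw [pow_succ, pow_succ, Module.End.mul_apply, Module.End.mul_apply, ih]
        simp [ρQ]
    have h2 : (ρQ (g : G) - 1) ^ c = 0 := by
      ext x
      obtain ⟨n, hn, hx⟩ := hgc x
      have h3 : ((ρ (g : G) - 1) ^ c) x ∈ T :=
        (Submodule.mem_torsion_iff _).mpr ⟨⟨n, mem_nonZeroDivisors_of_ne_zero hn⟩, hx⟩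
      have h4 := h1 c x
      rw [Submodule.mkQ_apply, (Submodule.Quotient.mk_eq_zero T).mpr h3] at h4
      exact h4.symm
    have h5 : (ρC (g : G) - 1) ^ c = 0 := by
      have := congrArg (toC b) h2
      rw [map_pow, map_sub, map_one, map_zero] at this
      exact this
    have h6 : Module.End.HasEigenvalue (ρC (g : G)) ((χ i ⟨g, g.2.1⟩ : ℂˣ) : ℂ) := by
      rw [Module.End.hasEigenvalue_iff_isRoot_charpoly]
      rw [hcp ⟨g, g.2.1⟩, IsRoot, eval_prod]
      exact Finset.prod_eq_zero (Finset.mem_univ i) (by simp)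
    obtain ⟨v, hv⟩ := h6.exists_hasEigenvector
    have h7 : ∀ k : ℕ, ((ρC (g : G) - 1) ^ k) v =
        (((χ i ⟨g, g.2.1⟩ : ℂˣ) : ℂ) - 1) ^ k • v := by
      intro k
      induction k with
      | zero => simp
      | succ k ih =>
        rw [pow_succ, Module.End.mul_apply, LinearMap.sub_apply, hv.apply_eq_smul,
          Module.End.one_apply, map_sub, map_smul, ih, ← sub_one_smul', smul_smul, pow_succ,
          mul_comm]
    have h8 := h7 c
    rw [h5, LinearMap.zero_apply] at h8
    have h9 : (((χ i ⟨g, g.2.1⟩ : ℂˣ) : ℂ) - 1) ^ c = 0 :=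
      (smul_eq_zero.mp h8.symm).resolve_right hv.2
    have h11 : ((χ i ⟨g, g.2.1⟩ : ℂˣ) : ℂ) - 1 = 0 := by
      by_contra hne
      exact pow_ne_zero c hne h9
    exact Units.val_injective (sub_eq_zero.mp h11)
  · refine ⟨finrank ℂ (Module.Free.ChooseBasisIndex ℤ (M ⧸ T) → ℂ) + 1, ?_⟩
    intro l hl hg
    rcases l with _ | ⟨g, l⟩
    · simp at hl
    · rw [List.map_cons, List.prod_cons]
      have hl' : l.length = finrank ℂ (Module.Free.ChooseBasisIndex ℤ (M ⧸ T) → ℂ) := by
        simpa using hl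
      -- the product over `l` is zero on the quotient
      have h1 : (l.map (fun g : ↥(G₁ ⊓ ρT'.ker) => ρC (g : G) - 1)).prod = 0 := by
        refine prod_eq_zero_of_flag bb _ (by simpa using hl') ?_
        intro f hf i v hv
        obtain ⟨g', hg', rfl⟩ := List.mem_map.mp hf
        have h2 := hχ i ⟨g', g'.2.1⟩ v hv
        have h3 : χ i ⟨g', g'.2.1⟩ = 1 := hg g' (List.mem_cons_of_mem _ hg') i
        rw [h3, Units.val_one, one_smul] at h2
        exact h2
      have h2 : (l.map (fun g : ↥(G₁ ⊓ ρT'.ker) => ρQ (g : G) - 1)).prod = 0 := by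
        apply toC_injective b
        rw [map_zero, map_list_prod, List.map_map]
        rw [← h1]
        congr 1
        apply List.map_congr_left
        intro g' _
        simp only [Function.comp_apply, map_sub, map_one]
        rfl
      have h3 : ∀ (l : List ↥(G₁ ⊓ ρT'.ker)) (x : M),
          T.mkQ ((l.map (fun g : ↥(G₁ ⊓ ρT'.ker) => ρ (g : G) - 1)).prod x) =
          (l.map (fun g : ↥(G₁ ⊓ ρT'.ker) => ρQ (g : G) - 1)).prod (T.mkQ x) := by
        intro l
        induction l with
        | nil => intro x; simp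
        | cons g l ih =>
          intro x
          rw [List.map_cons, List.prod_cons, List.map_cons, List.prod_cons,
            Module.End.mul_apply, Module.End.mul_apply, ← ih]
          simp [ρQ]
      ext x
      rw [Module.End.mul_apply, LinearMap.sub_apply, Module.End.one_apply, LinearMap.zero_apply,
        sub_eq_zero]
      apply hkT g g.2.2
      have h4 := h3 l x
      rw [h2, LinearMap.zero_apply, Submodule.mkQ_apply, Submodule.Quotient.mk_eq_zero] at h4
      exact h4

end

end Crest.Agent.R182.Polyc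
end

-- ▼ part R182/PolycMal

set_option autoImplicit false

namespace Crest.Agent.R182.Polyc

open Module Polynomial
open Crest.GroupTheory

section

variable {G : Type*} [Group G]

/-- The class of `x : H` in the (additive) abelianization. -/
def cls {H : Subgroup G} (x : H) : Additive (Abelianization H) :=
  Additive.ofMul (Abelianization.of x)

theorem cls_mul {H : Subgroup G} (x y : H) : cls (x * y) = cls x + cls y := by
  simp [cls]

theorem cls_inv {H : Subgroup G} (x : H) : cls (x⁻¹) = - cls x := by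
  simp [cls]

theorem cls_one {H : Subgroup G} : cls (1 : H) = 0 := by
  simp [cls]

theorem cls_eq_zero {H : Subgroup G} (x : H) : cls x = 0 ↔ (x : G) ∈ ⁅H, H⁆ := by
  have h1 : cls x = 0 ↔ x ∈ commutator H := by
    rw [← Abelianization.ker_of, MonoidHom.mem_ker]
    exact Iff.rfl
  rw [h1]
  have h2 : (commutator H).map H.subtype = ⁅H, H⁆ := by
    rw [commutator_def, Subgroup.map_commutator, ← MonoidHom.range_eq_map, Subgroup.range_subtype]
  rw [← h2]
  constructor
  · intro h; exact ⟨x, h, rfl⟩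
  · rintro ⟨y, hy, hyx⟩
    have : y = x := Subtype.ext hyx
    rwa [← this]

/-- The action of `G` by conjugation on the abelianization of a normal subgroup. -/
def conjRep (H : Subgroup G) [H.Normal] : Representation ℤ G (Additive (Abelianization H)) where
  toFun g := (MonoidHom.toAdditive (Abelianization.map
    (MulAut.conjNormal (H := H) g).toMonoidHom)).toIntLinearMap
  map_one' := by
    ext x
    obtain ⟨x, rfl⟩ := Additive.ofMul.surjective x
    obtain ⟨x, rfl⟩ := QuotientGroup.mk_surjective x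
    change Additive.ofMul (Abelianization.map _ (Abelianization.of x)) = Additive.ofMul (Abelianization.of x)
    rw [Abelianization.map_of]
    simp
  map_mul' g h := by
    ext x
    obtain ⟨x, rfl⟩ := Additive.ofMul.surjective x
    obtain ⟨x, rfl⟩ := QuotientGroup.mk_surjective x
    change Additive.ofMul (Abelianization.map _ (Abelianization.of x)) =
      Additive.ofMul (Abelianization.map _ (Abelianization.map _ (Abelianization.of x)))
    rw [Abelianization.map_of, Abelianization.map_of, Abelianization.map_of]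
    simp

theorem conjRep_cls (H : Subgroup G) [H.Normal] (g : G) (x : H) :
    conjRep H g (cls x) = cls (MulAut.conjNormal g x) := rfl

/-- `S j`: elements killed by all products of `j` operators `ρ g - 1`, `g ∈ K`. -/
def nilStep (H : Subgroup G) [H.Normal] (K : Subgroup G) (j : ℕ) : Subgroup H where
  carrier := {x | ∀ l : List G, l.length = j → (∀ g ∈ l, g ∈ K) →
    (l.map (fun g => conjRep H g - 1)).prod (cls x) = 0}
  mul_mem' := by
    intro x y hx hy l hl hg
    rw [cls_mul, map_add, hx l hl hg, hy l hl hg, add_zero]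
  one_mem' := by
    intro l _ _
    rw [cls_one, map_zero]
  inv_mem' := by
    intro x hx l hl hg
    rw [cls_inv, map_neg, hx l hl hg, neg_zero]

theorem nilStep_zero (H : Subgroup G) [H.Normal] (K : Subgroup G) :
    (nilStep H K 0).map H.subtype ≤ ⁅H, H⁆ := by
  rintro _ ⟨x, hx, rfl⟩
  have := hx [] rfl (by simp)
  rw [List.map_nil, List.prod_nil, Module.End.one_apply, cls_eq_zero] at this
  exact this

theorem nilStep_succ (H : Subgroup G) [H.Normal] (K : Subgroup G) (j : ℕ) :
    ⁅(nilStep H K (j + 1)).map H.subtype, K⁆ ≤ (nilStep H K j).map H.subtype := by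
  rw [Subgroup.commutator_le]
  rintro _ ⟨x, hx, rfl⟩ g hg
  have hmem : (x : G) * g * (x : G)⁻¹ * g⁻¹ ∈ H := by
    have h1 : g * (x : G)⁻¹ * g⁻¹ ∈ H := ‹H.Normal›.conj_mem _ (H.inv_mem x.2) g
    have e : (x : G) * g * (x : G)⁻¹ * g⁻¹ = x * (g * (x : G)⁻¹ * g⁻¹) := by group
    rw [e]; exact H.mul_mem x.2 h1
  refine ⟨⟨_, hmem⟩, ?_, rfl⟩
  intro l hl hgl
  have e : (⟨(x : G) * g * (x : G)⁻¹ * g⁻¹, hmem⟩ : H) = x * (MulAut.conjNormal g x)⁻¹ := by
    ext
    simp [mul_assoc]
  rw [e, cls_mul, cls_inv, ← conjRep_cls]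
  have h1 := hx (l ++ [g]) (by simp [hl]) (by
    intro g' hg'
    rcases List.mem_append.mp hg' with h | h
    · exact hgl g' h
    · rw [List.mem_singleton] at h; rw [h]; exact hg)
  rw [List.map_append, List.prod_append, List.map_singleton, List.prod_singleton,
    Module.End.mul_apply, LinearMap.sub_apply, Module.End.one_apply, map_sub] at h1
  rw [map_add, map_neg]
  rw [sub_eq_zero] at h1
  rw [h1]; simp

theorem lcs_le_of_nil (H : Subgroup G) [H.Normal] (K : Subgroup G) {s : ℕ}
    (hs : K.lowerCentralSeries s ≤ H) {r : ℕ}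
    (hr : ∀ l : List G, l.length = r → (∀ g ∈ l, g ∈ K) →
      (l.map (fun g => conjRep H g - 1)).prod = 0) :
    K.lowerCentralSeries (s + r) ≤ ⁅H, H⁆ := by
  have key : ∀ i j : ℕ, i + j = r → K.lowerCentralSeries (s + i) ≤
      (nilStep H K j).map H.subtype := by
    intro i
    induction i with
    | zero =>
      intro j hj x hx
      refine ⟨⟨x, hs hx⟩, ?_, rfl⟩
      intro l hl hg
      rw [hr l (by omega) hg, LinearMap.zero_apply]
    | succ i ih =>
      intro j hj
      have h1 := ih (j + 1) (by omega)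
      rw [← add_assoc, Subgroup.lowerCentralSeries_succ]
      exact (Subgroup.commutator_mono h1 le_rfl).trans (nilStep_succ H K j)
  exact (key r 0 (by omega)).trans (nilStep_zero H K)

/-- derived series relative to a subgroup, computed in the big group -/
def ds (P : Subgroup G) : ℕ → Subgroup G
  | 0 => P
  | n + 1 => ⁅ds P n, ds P n⁆

theorem ds_le (P : Subgroup G) (n : ℕ) : ds P n ≤ P := by
  induction n with
  | zero => exact le_rfl
  | succ n ih => exact (Subgroup.commutator_mono ih ih).trans (Subgroup.commutator_le_self P)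

theorem ds_normal (P : Subgroup G) [P.Normal] (n : ℕ) : (ds P n).Normal := by
  induction n with
  | zero => assumption
  | succ n ih => exact Subgroup.commutator_normal _ _

theorem ds_eq (P : Subgroup G) (n : ℕ) : ds P n = (derivedSeries P n).map P.subtype := by
  induction n with
  | zero =>
    rw [derivedSeries_zero, ← MonoidHom.range_eq_map, Subgroup.range_subtype]; rfl
  | succ n ih =>
    rw [derivedSeries_succ, Subgroup.map_commutator, ← ih]; rfl

theorem exists_ds_eq_bot {P : Subgroup G} (hP : PC P) : ∃ n, ds P n = ⊥ := by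
  obtain ⟨n, hn⟩ := hP.isSolvable
  exact ⟨n, by rw [ds_eq, hn, Subgroup.map_bot]⟩

theorem finite_abelianization {H : Subgroup G} (hH : H.FG) :
    Module.Finite ℤ (Additive (Abelianization H)) := by
  have h1 : Group.FG H := (Group.fg_iff_subgroup_fg H).mpr hH
  have h2 : Group.FG (Abelianization H) := inferInstanceAs (Group.FG (H ⧸ commutator H))
  exact Module.Finite.iff_addGroup_fg.mpr inferInstance

theorem conjRep_sub_one_cls (H : Subgroup G) [H.Normal] (g : G) (x : H) :
    (conjRep H g - 1) (cls x) = cls (MulAut.conjNormal g x * x⁻¹) := by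
  rw [LinearMap.sub_apply, conjRep_cls, Module.End.one_apply, cls_mul, cls_inv, sub_eq_add_neg]

/-- An element of a nilpotent subgroup normalised by a finite-index subgroup acts unipotently
(modulo torsion) on all abelianizations. -/
theorem nil_conjRep {H L K : Subgroup G} [H.Normal] (hL : L.index ≠ 0)
    (hKL : ∀ x ∈ L, ∀ k ∈ K, x * k * x⁻¹ ∈ K) {s : ℕ} (hs : K.lowerCentralSeries s = ⊥)
    {g : G} (hg : g ∈ K) (m : Additive (Abelianization H)) :
    ∃ n : ℤ, n ≠ 0 ∧ n • ((conjRep H g - 1) ^ (s + 1)) m = 0 := by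
  obtain ⟨x, rfl⟩ : ∃ x : H, cls x = m := by
    obtain ⟨m', rfl⟩ := Additive.ofMul.surjective m
    obtain ⟨x, rfl⟩ := QuotientGroup.mk_surjective m'
    exact ⟨x, rfl⟩
  obtain ⟨n, hn0, -, hn⟩ := Subgroup.exists_pow_mem_of_index_ne_zero hL (x : G)
  refine ⟨n, by exact_mod_cast hn0.ne', ?_⟩
  have h1 : (n : ℤ) • ((conjRep H g - 1) ^ (s + 1)) (cls x) =
      ((conjRep H g - 1) ^ (s + 1)) (cls (x ^ n)) := by
    rw [← map_zsmul]
    congr 1
    simp [cls]
  rw [h1]
  have h2 : ∀ k : ℕ, ∃ z : H, (z : G) ∈ K.lowerCentralSeries k ∧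
      ((conjRep H g - 1) ^ (k + 1)) (cls (x ^ n)) = cls z := by
    intro k
    induction k with
    | zero =>
      refine ⟨MulAut.conjNormal g (x ^ n) * (x ^ n)⁻¹, ?_, ?_⟩
      · have h3 := hKL _ hn _ (K.inv_mem hg)
        have e : ((MulAut.conjNormal g (x ^ n) * (x ^ n)⁻¹ : H) : G) =
            g * ((x : G) ^ n * g⁻¹ * ((x : G) ^ n)⁻¹) := by
          rw [Subgroup.coe_mul, MulAut.conjNormal_apply, Subgroup.coe_inv, Subgroup.coe_pow]
          group
        rw [e]
        exact K.mul_mem hg h3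
      · rw [zero_add, pow_one, conjRep_sub_one_cls]
    | succ k ih =>
      obtain ⟨z, hz, hzk⟩ := ih
      refine ⟨MulAut.conjNormal g z * z⁻¹, ?_, ?_⟩
      · have h3 : (g : G) * (z : G) * g⁻¹ * (z : G)⁻¹ ∈ ⁅K, K.lowerCentralSeries k⁆ :=
          Subgroup.commutator_mem_commutator hg hz
        rw [Subgroup.commutator_comm] at h3
        simpa using h3
      · rw [pow_succ', Module.End.mul_apply, hzk, conjRep_sub_one_cls]
  obtain ⟨z, hz, hzk⟩ := h2 s
  rw [hs, Subgroup.mem_bot] at hz
  rw [hzk]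
  have : z = 1 := Subtype.ext hz
  rw [this, cls_one]

/-- Mal'cev's theorem, first form. -/
theorem exists_malcev (hG : IsVirtuallyPolycyclic G) {K : Subgroup G} (hK : K.index ≠ 0) :
    ∃ (cp : G → ℤ[X]), (∀ g, (cp g).Monic) ∧ (∀ g h, cp (h * g * h⁻¹) = cp g) ∧
    ∃ G₀ : Subgroup G, G₀.Normal ∧ G₀.FiniteIndex ∧ PZ G₀ ∧ G₀ ≤ K ∧
      ∃ (ι : Type) (_ : Fintype ι) (χ : ι → G₀ →* ℂˣ),
        (∀ g : G₀, (cp (g : G)).map (Int.castRingHom ℂ) =
          ∏ i, (X - C ((χ i g : ℂˣ) : ℂ))) ∧
        (∀ L : Subgroup G, (∀ g ∈ L, ∃ h : g ∈ G₀, ∀ i, χ i ⟨g, h⟩ = 1) →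
          Group.IsNilpotent L) ∧
        ∀ L K : Subgroup G, L.index ≠ 0 → (∀ x ∈ L, ∀ k ∈ K, x * k * x⁻¹ ∈ K) →
          Group.IsNilpotent K → ∀ g ∈ K, ∀ (h : g ∈ G₀) (i : ι), χ i ⟨g, h⟩ = 1 := by
  classical
  obtain ⟨P, hPn, hPi, hPz, hPK⟩ := VPC.exists_pz (isVirtuallyPolycyclic_iff.mp hG) hK
  obtain ⟨d, hd⟩ := exists_ds_eq_bot hPz.pc
  have hmod : ∀ i, Module.Finite ℤ (Additive (Abelianization (ds P i))) := fun i =>
    finite_abelianization (hPz.pc.mono (ds_le P i)).fg
  have hnorm : ∀ i, (ds P i).Normal := fun i => ds_normal P i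
  choose cp hcp1 hcp2 G' hG'n hG'f n χ hχ hmax r hr using fun i : ℕ =>
    (exists_int_chars hG (conjRep (ds P i)))
  -- the finite intersection
  let G₀ : Subgroup G := (⨅ i : Fin d, G' i) ⊓ P
  have hG₀n : G₀.Normal := by
    have h1 : (⨅ i : Fin d, G' i).Normal := Subgroup.normal_iInf_normal fun i => hG'n i
    exact Subgroup.normal_inf_normal _ _
  have hG₀f : G₀.FiniteIndex := by
    have h1 : (⨅ i : Fin d, G' i).FiniteIndex := Subgroup.finiteIndex_iInf fun i => hG'f i
    have h2 : P.FiniteIndex := ⟨hPi⟩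
    exact inferInstance
  have hG₀le : ∀ i : Fin d, G₀ ≤ G' i := fun i => inf_le_left.trans (iInf_le _ i)
  refine ⟨fun g => ∏ i : Fin d, cp i g, ?_, ?_, G₀, hG₀n, hG₀f, hPz.mono inf_le_right,
    inf_le_right.trans hPK, Σ i : Fin d, Fin (n i), inferInstance,
    fun j => (χ j.1 j.2).comp (Subgroup.inclusion (hG₀le j.1)), ?_, ?_, ?_⟩
  · intro g
    exact monic_prod_of_monic _ _ fun i _ => hcp1 i g
  · intro g h
    exact Finset.prod_congr rfl fun i _ => hcp2 i g h
  · intro g
    rw [Polynomial.map_prod, Fintype.prod_sigma]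
    refine Finset.prod_congr rfl fun i _ => ?_
    exact hχ i (Subgroup.inclusion (hG₀le i) g)
  · intro L hL
    have hLG : L ≤ G₀ := fun g hg => (hL g hg).1
    have key : ∀ i : ℕ, i ≤ d → ∃ s, L.lowerCentralSeries s ≤ ds P i := by
      intro i
      induction i with
      | zero => intro _; exact ⟨0, hLG.trans inf_le_right⟩
      | succ i ih =>
        intro hi
        obtain ⟨s, hs⟩ := ih (by omega)
        refine ⟨s + r i, lcs_le_of_nil (ds P i) L hs ?_⟩
        intro l hl hg
        have hl' : ∀ g ∈ l, g ∈ G' i := fun g hgl => hG₀le ⟨i, by omega⟩ (hLG (hg g hgl))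
        have h1 := hr i (l.attach.map fun g => ⟨g.1, hl' g.1 g.2⟩) (by simpa using hl) (by
          intro g hgl j
          obtain ⟨g', _, rfl⟩ := List.mem_map.mp hgl
          have h2 := (hL g'.1 (hg g'.1 g'.2)).2 ⟨⟨i, by omega⟩, j⟩
          exact h2)
        rw [List.map_map] at h1
        rw [← h1]
        congr 1
        conv_lhs => rw [← List.attach_map_subtype_val l]
        rw [List.map_map]
        rfl
    obtain ⟨s, hs⟩ := key d le_rfl
    rw [hd] at hs
    exact Subgroup.isNilpotent_of_lowerCentralSeries_eq_bot (le_bot_iff.mp hs)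
  · intro L K hL hKL hKnil g hg hgG ⟨i, j⟩
    obtain ⟨s, hs⟩ := (Subgroup.isNilpotent_iff_lowerCentralSeries (S := K)).mp hKnil
    refine hmax i ⟨g, hG₀le i hgG⟩ (s + 1) ?_ j
    exact nil_conjRep hL hKL hs hg

end

end Crest.Agent.R182.Polyc
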