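import Mathlib
import Crest.Agent.R182.PolycMal
import Crest.Agent.R182.PolycKron
import Crest.Agent.R182.PolycComm

-- ▼ part R182/PolycHall
section

set_option autoImplicit false

namespace Crest.Agent.R182.Polyc

section

variable {G : Type*} [Group G]

/-- iterated commutator `[A, K, ..., K]` (`n` times). -/
def ic (A K : Subgroup G) : ℕ → Subgroup G
  | 0 => A
  | n + 1 => ⁅ic A K n, K⁆

theorem ic_normal (A K : Subgroup G) [A.Normal] [K.Normal] (n : ℕ) : (ic A K n).Normal := by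
  induction n with
  | zero => assumption
  | succ n ih => exact Subgroup.commutator_normal _ _

theorem ic_mono {A B K : Subgroup G} (h : A ≤ B) (n : ℕ) : ic A K n ≤ ic B K n := by
  induction n with
  | zero => exact h
  | succ n ih => exact Subgroup.commutator_mono ih le_rfl

theorem ic_add (A K : Subgroup G) (m n : ℕ) : ic A K (m + n) = ic (ic A K m) K n := by
  induction n with
  | zero => rfl
  | succ n ih =>
    change ⁅ic A K (m + n), K⁆ = ⁅ic (ic A K m) K n, K⁆
    rw [ih]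

theorem ic_succ' (A K : Subgroup G) (n : ℕ) : ic A K (n + 1) = ic ⁅A, K⁆ K n := by
  rw [add_comm, ic_add]; rfl

theorem ic_le (A K : Subgroup G) [A.Normal] [K.Normal] (n : ℕ) : ic A K n ≤ A := by
  induction n with
  | zero => exact le_rfl
  | succ n ih =>
    have := ic_normal A K n
    exact (Subgroup.commutator_le_left _ _).trans ih

theorem ic_antitone (A K : Subgroup G) [A.Normal] [K.Normal] {m n : ℕ} (h : m ≤ n) :
    ic A K n ≤ ic A K m := by
  obtain ⟨k, rfl⟩ := Nat.exists_eq_add_of_le h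
  rw [ic_add]
  have := ic_normal A K m
  exact ic_le _ _ _

theorem commutator_sup_le (X Y K : Subgroup G) [X.Normal] [Y.Normal] [K.Normal] :
    ⁅X ⊔ Y, K⁆ ≤ ⁅X, K⁆ ⊔ ⁅Y, K⁆ := by
  rw [Subgroup.commutator_le]
  intro z hz k hk
  obtain ⟨x, hx, y, hy, rfl⟩ := Subgroup.mem_sup_of_normal_left.mp hz
  have e : x * y * k * (x * y)⁻¹ * k⁻¹ =
      (x * (y * k * y⁻¹ * k⁻¹) * x⁻¹) * (x * k * x⁻¹ * k⁻¹) := by group
  change x * y * k * (x * y)⁻¹ * k⁻¹ ∈ _
  rw [e]
  refine mul_mem ?_ ?_
  · refine (le_sup_right : ⁅Y, K⁆ ≤ _) ?_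
    exact (Subgroup.commutator_normal Y K).conj_mem _
      (Subgroup.commutator_mem_commutator hy hk) x
  · exact (le_sup_left : ⁅X, K⁆ ≤ _) (Subgroup.commutator_mem_commutator hx hk)

theorem ic_sup_le (X Y K : Subgroup G) [X.Normal] [Y.Normal] [K.Normal] (n : ℕ) :
    ic (X ⊔ Y) K n ≤ ic X K n ⊔ ic Y K n := by
  induction n with
  | zero => exact le_rfl
  | succ n ih =>
    have h1 := ic_normal X K n
    have h2 := ic_normal Y K n
    exact (Subgroup.commutator_mono ih le_rfl).trans (commutator_sup_le _ _ _)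

/-- three subgroups lemma, modulo a normal subgroup -/
theorem three_subgroups (A B K W : Subgroup G) [W.Normal]
    (h1 : ⁅⁅B, K⁆, A⁆ ≤ W) (h2 : ⁅⁅K, A⁆, B⁆ ≤ W) : ⁅⁅A, B⁆, K⁆ ≤ W := by
  have key : ∀ X Y Z : Subgroup G, ⁅⁅X, Y⁆, Z⁆ ≤ W ↔
      ⁅⁅X.map (QuotientGroup.mk' W), Y.map (QuotientGroup.mk' W)⁆,
        Z.map (QuotientGroup.mk' W)⁆ = ⊥ := by
    intro X Y Z
    rw [← Subgroup.map_commutator, ← Subgroup.map_commutator, Subgroup.map_eq_bot_iff,
      QuotientGroup.ker_mk']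
  rw [key] at h1 h2 ⊢
  exact Subgroup.commutator_commutator_eq_bot_of_rotate h1 h2

theorem ic_commutator_le (A B K W : Subgroup G) [A.Normal] [B.Normal] [K.Normal] [W.Normal]
    {r s : ℕ} (hA : ⁅ic A K r, B⁆ ≤ W) (hB : ⁅A, ic B K s⁆ ≤ W) :
    ic ⁅A, B⁆ K (r + s) ≤ W := by
  have key : ∀ n a b : ℕ, r + s ≤ a + b + n → ic ⁅ic A K a, ic B K b⁆ K n ≤ W := by
    intro n
    induction n with
    | zero =>
      intro a b hab
      rcases le_or_gt r a with h | h
      · exact (Subgroup.commutator_mono (ic_antitone A K h) (ic_le B K b)).trans hA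
      · exact (Subgroup.commutator_mono (ic_le A K a) (ic_antitone B K (by omega))).trans hB
    | succ n ih =>
      intro a b hab
      have n1 := ic_normal A K a
      have n2 := ic_normal B K b
      have n3 := ic_normal A K (a + 1)
      have n4 := ic_normal B K (b + 1)
      rw [ic_succ']
      have h1 : ⁅⁅ic A K a, ic B K b⁆, K⁆ ≤
          ⁅ic A K (a + 1), ic B K b⁆ ⊔ ⁅ic A K a, ic B K (b + 1)⁆ := by
        apply three_subgroups
        · rw [Subgroup.commutator_comm]
          exact le_sup_right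
        · rw [Subgroup.commutator_comm K]
          exact le_sup_left
      refine (ic_mono h1 n).trans ((ic_sup_le _ _ _ n).trans (sup_le ?_ ?_))
      · exact ih _ _ (by omega)
      · exact ih _ _ (by omega)
  exact key (r + s) 0 0 (by omega)

/-- P. Hall: if `N ≤ G` normal nilpotent, `[K, K] ≤ N` and `[N, K, ..., K] ≤ [N, N]` then `K` is
nilpotent. -/
theorem hall_nilpotent (N K : Subgroup G) [N.Normal] [K.Normal] (hN : Group.IsNilpotent N)
    {s r : ℕ} (hKN : K.lowerCentralSeries s ≤ N) (hr : ic N K r ≤ ⁅N, N⁆) :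
    Group.IsNilpotent K := by
  have h1 : ∀ j : ℕ, ∃ n, ic (N.lowerCentralSeries j) K n ≤ N.lowerCentralSeries (j + 1) := by
    intro j
    induction j with
    | zero => exact ⟨r, hr⟩
    | succ j ih =>
      obtain ⟨n, hn⟩ := ih
      have n1 : (N.lowerCentralSeries j).Normal := inferInstance
      have n2 : (N.lowerCentralSeries (j + 1 + 1)).Normal := inferInstance
      refine ⟨n + r, ic_commutator_le (N.lowerCentralSeries j) N K
        (N.lowerCentralSeries (j + 1 + 1)) ?_ ?_⟩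
      · exact Subgroup.commutator_mono hn le_rfl
      · refine (Subgroup.commutator_mono le_rfl hr).trans ?_
        rw [Subgroup.commutator_comm]
        apply three_subgroups
        · rw [Subgroup.commutator_comm N (N.lowerCentralSeries j)]
          exact le_rfl
        · exact le_rfl
  have h2 : ∀ j : ℕ, ∃ n, ic N K n ≤ N.lowerCentralSeries j := by
    intro j
    induction j with
    | zero => exact ⟨0, le_rfl⟩
    | succ j ih =>
      obtain ⟨n, hn⟩ := ih
      obtain ⟨m, hm⟩ := h1 j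
      refine ⟨n + m, ?_⟩
      rw [ic_add]
      exact (ic_mono hn m).trans hm
  obtain ⟨d, hd⟩ : ∃ d, N.lowerCentralSeries d = ⊥ :=
    (Subgroup.isNilpotent_iff_lowerCentralSeries (S := N)).mp hN
  obtain ⟨n, hn⟩ := h2 d
  rw [hd] at hn
  have h3 : ∀ m, K.lowerCentralSeries (s + m) ≤ ic N K m := by
    intro m
    induction m with
    | zero => exact hKN
    | succ m ih =>
      rw [← add_assoc, Subgroup.lowerCentralSeries_succ]
      exact Subgroup.commutator_mono ih le_rfl
  exact Subgroup.isNilpotent_of_lowerCentralSeries_eq_bot (le_bot_iff.mp ((h3 n).trans hn))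

end

end Crest.Agent.R182.Polyc
end

-- ▼ part R182/PolycWt
section

set_option autoImplicit false

namespace Crest.Agent.R182.Polyc

open Module Polynomial

section

variable {G : Type*} [Group G]

/-- Crossed homomorphism extending an eigenfunctional. -/
theorem exists_crossed {N : Subgroup G} (hab : ∀ g h : G, g * h * g⁻¹ * h⁻¹ ∈ N)
    (hn : N.Normal) (χ : G →* ℂˣ) (ℓ : N → ℂ) (hℓ : ∀ a b, ℓ (a * b) = ℓ a + ℓ b)
    (heq : ∀ (g : G) (n : N), ℓ ⟨g * n * g⁻¹, hn.conj_mem n n.2 g⟩ = χ g * ℓ n)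
    (t : G) (ht : χ t ≠ 1) :
    ∃ δ : G → ℂ, (∀ g h, δ (g * h) = δ g + χ g * δ h) ∧ (∀ n : N, δ n = ℓ n) ∧ δ t = 0 := by
  have h1 : (1 : ℂ) - χ t ≠ 0 := by
    intro h
    apply ht
    apply Units.val_injective
    rw [Units.val_one]
    exact (sub_eq_zero.mp h).symm
  have hinv : ∀ a : N, ℓ a⁻¹ = - ℓ a := by
    intro a
    have h2 : ℓ 1 = 0 := by
      have := hℓ 1 1
      rw [mul_one] at this
      simpa using this
    have := hℓ a a⁻¹
    rw [mul_inv_cancel, h2] at this
    linear_combination -this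
  refine ⟨fun g => ℓ ⟨g * t * g⁻¹ * t⁻¹, hab g t⟩ / (1 - χ t), ?_, ?_, ?_⟩
  · intro g h
    have e : (⟨g * h * t * (g * h)⁻¹ * t⁻¹, hab (g * h) t⟩ : N) =
        ⟨g * (⟨h * t * h⁻¹ * t⁻¹, hab h t⟩ : N) * g⁻¹, hn.conj_mem _ (hab h t) g⟩ *
          ⟨g * t * g⁻¹ * t⁻¹, hab g t⟩ := by
      ext
      simp only [Subgroup.coe_mul]
      group
    have e2 : ℓ ⟨g * h * t * (g * h)⁻¹ * t⁻¹, hab (g * h) t⟩ =
        χ g * ℓ ⟨h * t * h⁻¹ * t⁻¹, hab h t⟩ + ℓ ⟨g * t * g⁻¹ * t⁻¹, hab g t⟩ := by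
      rw [e, hℓ, heq]
    simp only [e2]
    field_simp
    ring
  · intro n
    have e : (⟨(n : G) * t * (n : G)⁻¹ * t⁻¹, hab n t⟩ : N) =
        n * ⟨t * (n⁻¹ : N) * t⁻¹, hn.conj_mem _ (n⁻¹).2 t⟩ := by
      ext
      simp only [Subgroup.coe_mul, Subgroup.coe_inv]
      group
    have e2 : ℓ ⟨(n : G) * t * (n : G)⁻¹ * t⁻¹, hab n t⟩ = ℓ n - χ t * ℓ n := by
      rw [e, hℓ, heq, hinv]
      ring
    simp only [e2]
    field_simp
  · have e : (⟨t * t * t⁻¹ * t⁻¹, hab t t⟩ : N) = 1 := by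
      ext; simp
    have h2 : ℓ 1 = 0 := by
      have := hℓ 1 1
      rw [mul_one] at this
      simpa using this
    simp only [e, h2, zero_div]

theorem ic_le_of_nil (H : Subgroup G) [H.Normal] (K : Subgroup G) {r : ℕ}
    (hr : ∀ l : List G, l.length = r → (∀ g ∈ l, g ∈ K) →
      (l.map (fun g => conjRep H g - 1)).prod = 0) :
    ic H K r ≤ ⁅H, H⁆ := by
  have key : ∀ i j : ℕ, i + j = r → ic H K i ≤ (nilStep H K j).map H.subtype := by
    intro i
    induction i with
    | zero =>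
      intro j hj x hx
      refine ⟨⟨x, hx⟩, ?_, rfl⟩
      intro l hl hg
      rw [hr l (by omega) hg, LinearMap.zero_apply]
    | succ i ih =>
      intro j hj
      have h1 := ih (j + 1) (by omega)
      exact (Subgroup.commutator_mono h1 le_rfl).trans (nilStep_succ H K j)
  exact (key r 0 (by omega)).trans (nilStep_zero H K)

/-- Weights of the action of `G` on `N^ab ⊗ ℂ` when `G / N` is abelian. -/
theorem exists_weights {N : Subgroup G} (hn : N.Normal)
    (hab : ∀ g h : G, g * h * g⁻¹ * h⁻¹ ∈ N) (hfg : N.FG) :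
    ∃ (m : ℕ) (χ : Fin m → G →* ℂˣ) (ℓ : Fin m → N → ℂ) (cp : G → ℤ[X]),
      (∀ g, (cp g).Monic) ∧
      (∀ g, (cp g).map (Int.castRingHom ℂ) = ∏ i, (X - C ((χ i g : ℂˣ) : ℂ))) ∧
      (∀ i, ∀ n ∈ N, χ i n = 1) ∧
      (∀ i, ∃ n, ℓ i n ≠ 0) ∧
      (∀ i a b, ℓ i (a * b) = ℓ i a + ℓ i b) ∧
      (∀ i g (n : N), ℓ i ⟨g * n * g⁻¹, hn.conj_mem n n.2 g⟩ = χ i g * ℓ i n) ∧
      (∃ L : Subgroup G, L.index ≠ 0 ∧ ∃ r : ℕ, ∀ l : List G, l.length = r →
        (∀ g ∈ l, g ∈ L ∧ ∀ i, χ i g = 1) →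
        (l.map (fun g => conjRep N g - 1)).prod = 0) ∧
      (∃ (κ : N → (Fin m → ℤ)) (A : G → Matrix (Fin m) (Fin m) ℤ),
        (∀ a c, κ (a * c) = κ a + κ c) ∧ Function.Surjective κ ∧
        (∀ n : N, κ n = 0 → ∃ j : ℕ, 0 < j ∧ ((n ^ j : N) : G) ∈ ⁅N, N⁆) ∧
        (∀ g (n : N), κ ⟨g * n * g⁻¹, hn.conj_mem n n.2 g⟩ = (A g).mulVec (κ n)) ∧
        (∀ g, (A g).charpoly = cp g)) := by
  classical
  set M := Additive (Abelianization N) with hM
  have hfin : Module.Finite ℤ M := finite_abelianization hfg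
  set ρ := conjRep N with hρ
  set T : Submodule ℤ M := Submodule.torsion ℤ M with hT
  have hTinv : ∀ g, T ≤ T.comap (ρ g) := by
    intro g x hx
    rw [Submodule.mem_comap]
    obtain ⟨a, ha⟩ := (Submodule.mem_torsion_iff x).mp hx
    refine (Submodule.mem_torsion_iff _).mpr ⟨a, ?_⟩
    have : a • (ρ g) x = (ρ g) (a • x) := by
      change (a : ℤ) • (ρ g) x = (ρ g) ((a : ℤ) • x)
      rw [map_smul]
    rw [this, ha, map_zero]
  -- `N` acts trivially
  have hNtriv : ∀ n ∈ N, ρ n = 1 := by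
    intro n hn'
    refine LinearMap.ext fun x => ?_
    obtain ⟨x', rfl⟩ : ∃ x' : N, cls x' = x := by
      obtain ⟨m', rfl⟩ := Additive.ofMul.surjective x
      obtain ⟨x', rfl⟩ := QuotientGroup.mk_surjective m'
      exact ⟨x', rfl⟩
    rw [hρ, conjRep_cls, Module.End.one_apply]
    refine sub_eq_zero.mp ?_
    rw [sub_eq_add_neg, ← cls_inv, ← cls_mul, cls_eq_zero]
    have : ((MulAut.conjNormal n x' * x'⁻¹ : N) : G) = n * x' * n⁻¹ * (x' : G)⁻¹ := by
      simp
    rw [this]
    exact Subgroup.commutator_mem_commutator hn' x'.2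
  have hcomm : ∀ g h, ρ g * ρ h = ρ h * ρ g := by
    intro g h
    have e : g * h = (g * h * g⁻¹ * h⁻¹) * (h * g) := by group
    rw [← map_mul, ← map_mul, e, map_mul, hNtriv _ (hab g h), one_mul]
  -- action on the quotient
  let ρQ : Representation ℤ G (M ⧸ T) :=
    { toFun := fun g => T.mapQ T (ρ g) (hTinv g)
      map_one' := by
        ext x
        simp
      map_mul' := fun g h => by
        ext x
        simp }
  have hQcomm : ∀ g h, ρQ g * ρQ h = ρQ h * ρQ g := by
    intro g h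
    ext x
    have := congrArg (fun f : M →ₗ[ℤ] M => T.mkQ (f x)) (hcomm g h)
    exact this
  have hfree : Module.Free ℤ (M ⧸ T) := inferInstance
  set m := finrank ℤ (M ⧸ T) with hm
  let b : Basis (Fin m) ℤ (M ⧸ T) := Module.finBasis ℤ (M ⧸ T)
  let A : G → Matrix (Fin m) (Fin m) ℤ := fun g => LinearMap.toMatrix b b (ρQ g)
  have hAmul : ∀ g h, A (g * h) = A g * A h := by
    intro g h
    change LinearMap.toMatrix b b (ρQ (g * h)) = _
    rw [map_mul]
    exact LinearMap.toMatrix_mul b (ρQ g) (ρQ h)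
  have hAcomm : ∀ g h, A g * A h = A h * A g := by
    intro g h
    have h1 : ρQ (g * h) = ρQ (h * g) := by rw [map_mul, hQcomm, ← map_mul]
    rw [← hAmul, ← hAmul]
    exact congrArg (LinearMap.toMatrix b b) h1
  have hAone : A 1 = 1 := by
    change LinearMap.toMatrix b b (ρQ 1) = 1
    rw [map_one]
    exact LinearMap.toMatrix_one b
  -- the transposed representation over `ℂ`
  let AC : G → Matrix (Fin m) (Fin m) ℂ := fun g => ((A g).map (Int.castRingHom ℂ)).transpose
  have hACmul : ∀ g h, AC (g * h) = AC g * AC h := by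
    intro g h
    change ((A (g * h)).map (Int.castRingHom ℂ)).transpose = _
    rw [hAmul, hAcomm, Matrix.map_mul, Matrix.transpose_mul]
  have hACone : AC 1 = 1 := by
    change ((A 1).map (Int.castRingHom ℂ)).transpose = 1
    rw [hAone]
    simp
  let F : Representation ℂ G (Fin m → ℂ) :=
    { toFun := fun g => Matrix.toLin' (AC g)
      map_one' := by rw [hACone, Matrix.toLin'_one]; rfl
      map_mul' := fun g h => by rw [hACmul, Matrix.toLin'_mul]; rfl }
  have hFcomm : ∀ g h, Commute (F g) (F h) := by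
    intro g h
    change F g * F h = F h * F g
    rw [← map_mul, ← map_mul]
    change Matrix.toLin' (AC (g * h)) = Matrix.toLin' (AC (h * g))
    congr 1
    change ((A (g * h)).map (Int.castRingHom ℂ)).transpose =
      ((A (h * g)).map (Int.castRingHom ℂ)).transpose
    rw [hAmul, hAmul, hAcomm]
  obtain ⟨bb, χ, hχ, hcp, hv⟩ := exists_triangular_comm F hFcomm
  choose v hv0 hv using hv
  -- the functionals
  let κ : N → (Fin m → ℤ) := fun n => b.equivFun (T.mkQ (cls n))
  have hκmul : ∀ a c, κ (a * c) = κ a + κ c := by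
    intro a c
    change b.equivFun (T.mkQ (cls (a * c))) = _
    rw [cls_mul, map_add, map_add]
  have hκsurj : Function.Surjective κ := by
    intro z
    obtain ⟨x, hx⟩ := T.mkQ_surjective (b.equivFun.symm z)
    obtain ⟨x', rfl⟩ : ∃ x' : N, cls x' = x := by
      obtain ⟨m', rfl⟩ := Additive.ofMul.surjective x
      obtain ⟨x', rfl⟩ := QuotientGroup.mk_surjective m'
      exact ⟨x', rfl⟩
    refine ⟨x', ?_⟩
    change b.equivFun (T.mkQ (cls x')) = z
    rw [hx, LinearEquiv.apply_symm_apply]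
  have hκconj : ∀ (g : G) (n : N), κ ⟨g * n * g⁻¹, hn.conj_mem n n.2 g⟩ = (A g).mulVec (κ n) := by
    intro g n
    have h1 : (⟨g * n * g⁻¹, hn.conj_mem n n.2 g⟩ : N) = MulAut.conjNormal g n := by
      ext; simp
    have h2 : T.mkQ (cls (MulAut.conjNormal g n)) = ρQ g (T.mkQ (cls n)) := rfl
    rw [h1]
    change b.equivFun (T.mkQ (cls (MulAut.conjNormal g n))) = _
    rw [h2]
    have h3 := LinearMap.toMatrix_mulVec_repr b b (ρQ g) (T.mkQ (cls n))
    exact h3.symm
  let ℓ : Fin (finrank ℂ (Fin m → ℂ)) → N → ℂ := fun i n => ∑ j, v i j * (κ n j : ℂ)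
  have hℓadd : ∀ i a c, ℓ i (a * c) = ℓ i a + ℓ i c := by
    intro i a c
    change ∑ j, v i j * (κ (a * c) j : ℂ) = _
    rw [hκmul, ← Finset.sum_add_distrib]
    refine Finset.sum_congr rfl fun j _ => ?_
    rw [Pi.add_apply]
    push_cast
    ring
  have hℓeq : ∀ i g (n : N), ℓ i ⟨g * n * g⁻¹, hn.conj_mem n n.2 g⟩ = χ i g * ℓ i n := by
    intro i g n
    change ∑ j, v i j * (κ ⟨g * n * g⁻¹, hn.conj_mem n n.2 g⟩ j : ℂ) = _
    rw [hκconj]
    have h1 := hv i g
    have h2 : ∀ k, ∑ j, (A g j k : ℂ) * v i j = χ i g * v i k := by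
      intro k
      have h3 := congrFun h1 k
      have h4 : (F g) (v i) k = ∑ j, (A g j k : ℂ) * v i j := by
        change (AC g).mulVec (v i) k = _
        rw [Matrix.mulVec, dotProduct]
        rfl
      rw [← h4, h3]; rfl
    calc ∑ j, v i j * (((A g).mulVec (κ n) j : ℤ) : ℂ)
        = ∑ j, ∑ k, v i j * ((A g j k : ℂ) * (κ n k : ℂ)) := by
          refine Finset.sum_congr rfl fun j _ => ?_
          rw [← Finset.mul_sum]
          congr 1
          rw [Matrix.mulVec, dotProduct]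
          push_cast
          rfl
      _ = ∑ k, (∑ j, (A g j k : ℂ) * v i j) * (κ n k : ℂ) := by
          rw [Finset.sum_comm]
          refine Finset.sum_congr rfl fun k _ => ?_
          rw [Finset.sum_mul]
          refine Finset.sum_congr rfl fun j _ => ?_
          ring
      _ = χ i g * ∑ k, v i k * (κ n k : ℂ) := by
          rw [Finset.mul_sum]
          refine Finset.sum_congr rfl fun k _ => ?_
          rw [h2 k]; ring
  have hℓne : ∀ i, ∃ n, ℓ i n ≠ 0 := by
    intro i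
    obtain ⟨j, hj⟩ := Function.ne_iff.mp (hv0 i)
    obtain ⟨n, hn'⟩ := hκsurj (Pi.single j 1)
    refine ⟨n, ?_⟩
    change ∑ k, v i k * (κ n k : ℂ) ≠ 0
    rw [hn', Finset.sum_eq_single j]
    · simpa using hj
    · intro k _ hk
      rw [Pi.single_eq_of_ne hk]; simp
    · intro h; exact absurd (Finset.mem_univ j) h
  have hχN : ∀ i, ∀ n ∈ N, χ i n = 1 := by
    intro i n hn'
    obtain ⟨x, hx⟩ := hℓne i
    have h1 := hℓeq i n x
    have e : (⟨n * x * n⁻¹, hn.conj_mem x x.2 n⟩ : N) = ⟨n, hn'⟩ * x * (⟨n, hn'⟩ : N)⁻¹ := rfl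
    have h0 : ℓ i 1 = 0 := by
      have := hℓadd i 1 1
      rw [mul_one] at this
      simpa using this
    have hinv : ∀ a, ℓ i a⁻¹ = - ℓ i a := by
      intro a
      have := hℓadd i a a⁻¹
      rw [mul_inv_cancel, h0] at this
      linear_combination -this
    rw [e, hℓadd, hℓadd, hinv] at h1
    have h2 : ℓ i x * (1 - χ i n) = 0 := by linear_combination h1
    rcases mul_eq_zero.mp h2 with h3 | h3
    · exact absurd h3 hx
    · apply Units.val_injective
      rw [Units.val_one]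
      exact (sub_eq_zero.mp h3).symm
  refine ⟨_, χ, ℓ, fun g => (ρQ g).charpoly, fun g => LinearMap.charpoly_monic _, ?_, hχN, hℓne,
    hℓadd, hℓeq, ?_, ?_⟩
  · intro g
    rw [← hcp g]
    change _ = (Matrix.toLin' (AC g)).charpoly
    rw [Matrix.charpoly_toLin', Matrix.charpoly_transpose, Matrix.charpoly_map,
      LinearMap.charpoly_toMatrix]
  · -- unipotence
    have hTfin : Finite T := by
      have : Module.Finite ℤ T := inferInstance
      exact Module.finite_of_fg_torsion T Submodule.torsion_isTorsion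
    let ρT : G →* Module.End ℤ T :=
      { toFun := fun g => (ρ g).restrict (fun x hx => hTinv g hx)
        map_one' := by ext x; simp
        map_mul' := fun g h => by ext x; simp }
    have hEfin : Finite (Module.End ℤ T) :=
      Finite.of_injective (fun f : Module.End ℤ T => (f : T → T)) DFunLike.coe_injective
    let ρT' : G →* (Module.End ℤ T)ˣ := ρT.toHomUnits
    refine ⟨ρT'.ker, ?_, finrank ℂ (Fin m → ℂ) + 1, ?_⟩
    · rw [Subgroup.index_ker]
      exact Nat.card_pos.ne'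
    have hkT : ∀ g ∈ ρT'.ker, ∀ x ∈ T, ρ g x = x := by
      intro g hg x hx
      have h1 : ρT g = 1 := by
        have := congrArg Units.val (MonoidHom.mem_ker.mp hg)
        simpa [ρT'] using this
      have h2 := congrArg (fun f : Module.End ℤ T => ((f ⟨x, hx⟩ : T) : M)) h1
      exact h2
    intro l hl hg
    rcases l with _ | ⟨g, l⟩
    · simp at hl
    · rw [List.map_cons, List.prod_cons]
      have hl' : l.length = finrank ℂ (Fin m → ℂ) := by
        simpa using hl
      have h1 : ((l.reverse).map (fun g => F g - 1)).prod = 0 := by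
        refine prod_eq_zero_of_flag bb _ (by simpa using hl') ?_
        intro f hf i v hv
        obtain ⟨g', hg', rfl⟩ := List.mem_map.mp hf
        have h2 := hχ i g' v hv
        have h3 : χ i g' = 1 := (hg g' (List.mem_cons_of_mem _ (List.mem_reverse.mp hg'))).2 i
        rw [h3, Units.val_one, one_smul] at h2
        exact h2
      -- matrices
      have h2 : ((l.reverse).map (fun g => AC g - 1)).prod = 0 := by
        have h3 : Matrix.toLin' (((l.reverse).map (fun g => AC g - 1)).prod) =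
            ((l.reverse).map (fun g => F g - 1)).prod := by
          have : ∀ l : List G, Matrix.toLin' ((l.map (fun g => AC g - 1)).prod) =
              (l.map (fun g => F g - 1)).prod := by
            intro l
            induction l with
            | nil =>
              rw [List.map_nil, List.map_nil, List.prod_nil, List.prod_nil, Matrix.toLin'_one]
              rfl
            | cons g l ih =>
              rw [List.map_cons, List.prod_cons, List.map_cons, List.prod_cons,
                Matrix.toLin'_mul, ih, map_sub, Matrix.toLin'_one]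
              rfl
          exact this _
        rw [h1] at h3
        exact Matrix.toLin'.injective (by rw [h3, map_zero])
      have h3 : (l.map (fun g => A g - 1)).prod = 0 := by
        have h4 : ∀ l : List G, (((l.map (fun g => A g - 1)).prod).map
            (Int.castRingHom ℂ)).transpose = ((l.reverse).map (fun g => AC g - 1)).prod := by
          intro l
          induction l with
          | nil => simp
          | cons g l ih =>
            rw [List.map_cons, List.prod_cons, List.reverse_cons, List.map_append,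
              List.prod_append, ← ih, Matrix.map_mul, Matrix.transpose_mul]
            congr 1
            simp only [List.map_cons, List.map_nil, List.prod_cons, List.prod_nil, mul_one]
            ext i j
            simp only [Matrix.transpose_apply, Matrix.map_apply, Matrix.sub_apply, AC,
              Matrix.one_apply, map_sub]
            by_cases hij : i = j
            · simp [hij]
            · simp [hij, Ne.symm hij]
        have h5 := h4 l
        rw [h2] at h5
        ext i j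
        have h6 := congrFun (congrFun h5 j) i
        simpa using h6
      have h4 : (l.map (fun g => ρQ g - 1)).prod = 0 := by
        have h5 : ∀ l : List G, LinearMap.toMatrix b b ((l.map (fun g => ρQ g - 1)).prod) =
            (l.map (fun g => A g - 1)).prod := by
          intro l
          induction l with
          | nil => simp
          | cons g l ih =>
            rw [List.map_cons, List.prod_cons, List.map_cons, List.prod_cons,
              LinearMap.toMatrix_mul, ih, map_sub, LinearMap.toMatrix_one]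
        have h6 := h5 l
        rw [h3] at h6
        exact (LinearMap.toMatrix b b).injective (by rw [h6, map_zero])
      have h5 : ∀ (l : List G) (x : M),
          T.mkQ ((l.map (fun g => ρ g - 1)).prod x) =
          (l.map (fun g => ρQ g - 1)).prod (T.mkQ x) := by
        intro l
        induction l with
        | nil => intro x; simp
        | cons g l ih =>
          intro x
          rw [List.map_cons, List.prod_cons, List.map_cons, List.prod_cons,
            Module.End.mul_apply, Module.End.mul_apply, ← ih]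
          simp [ρQ]
      refine LinearMap.ext fun x => ?_
      rw [Module.End.mul_apply, LinearMap.sub_apply, Module.End.one_apply, LinearMap.zero_apply]
      refine sub_eq_zero.mpr ?_
      apply hkT g (hg g List.mem_cons_self).1
      have h6 := h5 l x
      rw [h4, LinearMap.zero_apply, Submodule.mkQ_apply, Submodule.Quotient.mk_eq_zero] at h6
      exact h6
  · -- the lattice `N^ab / torsion`
    have hm' : finrank ℂ (Fin m → ℂ) = m := Module.finrank_fin_fun ℂ
    let e : Fin (finrank ℂ (Fin m → ℂ)) ≃ Fin m := finCongr hm'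
    refine ⟨fun n => κ n ∘ e, fun g => (A g).submatrix e e, ?_, ?_, ?_, ?_, ?_⟩
    · intro a c
      funext i
      simp only [Function.comp, hκmul, Pi.add_apply]
    · intro z
      obtain ⟨n, hn'⟩ := hκsurj (z ∘ e.symm)
      refine ⟨n, ?_⟩
      simp only [hn']
      funext i
      simp
    · intro n hn0
      have h1 : κ n = 0 := by
        funext i
        have := congrFun hn0 (e.symm i)
        simpa using this
      have h2 : T.mkQ (cls n) = 0 := by
        apply b.equivFun.injective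
        rw [map_zero]
        exact h1
      rw [Submodule.mkQ_apply, Submodule.Quotient.mk_eq_zero] at h2
      obtain ⟨a, ha⟩ := (Submodule.mem_torsion_iff _).mp h2
      have ha0 : (a : ℤ) ≠ 0 := nonZeroDivisors.coe_ne_zero a
      refine ⟨(a : ℤ).natAbs, Int.natAbs_pos.mpr ha0, ?_⟩
      rw [← cls_eq_zero]
      have h3 : (((a : ℤ).natAbs : ℤ)) • cls n = 0 := by
        rcases Int.natAbs_eq (a : ℤ) with h4 | h4
        · rw [← h4]; exact ha
        · have h5 : (((a : ℤ).natAbs : ℤ)) = -(a : ℤ) := by omega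
          rw [h5, neg_smul]
          have h6 : (a : ℤ) • cls n = 0 := ha
          rw [h6, neg_zero]
      have h4 : cls (n ^ (a : ℤ).natAbs) = ((a : ℤ).natAbs) • cls n := by
        simp [cls]
      rw [h4, ← natCast_zsmul, h3]
    · intro g n
      simp only
      rw [hκconj, Matrix.submatrix_mulVec_equiv, Function.comp_assoc, Equiv.self_comp_symm,
        Function.comp_id]
    · intro g
      change (Matrix.reindex e.symm e.symm (A g)).charpoly = (ρQ g).charpoly
      rw [Matrix.charpoly_reindex]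
      exact LinearMap.charpoly_toMatrix _ _

end

end Crest.Agent.R182.Polyc
end

-- ▼ part R182/PolycRoot

set_option autoImplicit false

namespace Crest.Agent.R182.Polyc

open Module Polynomial Crest.GroupTheory

section

variable {G : Type*} [Group G]


/-- The common kernel of the weights of `N^ab` is contained in `N` (maximality of `N`). -/
theorem mem_of_weights {N : Subgroup G} (hn : N.Normal) (hnil : Group.IsNilpotent N)
    (hab : ∀ g h : G, g * h * g⁻¹ * h⁻¹ ∈ N)
    (htf : ∀ (g : G) (j : ℕ), 0 < j → g ^ j ∈ N → g ∈ N)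
    (hmax : ∀ K : Subgroup G, K.Normal → Group.IsNilpotent K → K ≤ N)
    {m : ℕ} (χ : Fin m → G →* ℂˣ)
    (hL : ∃ L : Subgroup G, L.index ≠ 0 ∧ ∃ r : ℕ, ∀ l : List G, l.length = r →
        (∀ g ∈ l, g ∈ L ∧ ∀ i, χ i g = 1) →
        (l.map (fun g => conjRep N g - 1)).prod = 0) {g : G} (hg : ∀ i, χ i g = 1) : g ∈ N := by
  obtain ⟨L, hLi, r, hr⟩ := hL
  have hLf : L.FiniteIndex := ⟨hLi⟩
  let K : Subgroup G := L.normalCore ⊓ ⨅ i, (χ i).ker
  have hKn : K.Normal := by
    have h1 : (⨅ i, (χ i).ker).Normal := Subgroup.normal_iInf_normal fun i => inferInstance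
    exact Subgroup.normal_inf_normal _ _
  have hK : Group.IsNilpotent K := by
    refine hall_nilpotent N K hnil (s := 1) (r := r) ?_ ?_
    · rw [Subgroup.lowerCentralSeries_succ, Subgroup.lowerCentralSeries_zero,
        Subgroup.commutator_le]
      intro a _ b _
      exact hab a b
    · refine ic_le_of_nil N K ?_
      intro l hl hlK
      refine hr l hl fun a ha => ⟨L.normalCore_le (hlK a ha).1, fun i => ?_⟩
      exact (Subgroup.mem_iInf.mp (hlK a ha).2) i
  have hle := hmax K hKn hK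
  have hfi : L.normalCore.FiniteIndex := inferInstance
  obtain ⟨j, hj, -, hgj⟩ := Subgroup.exists_pow_mem_of_index_ne_zero hfi.index_ne_zero g
  have hgj' : g ^ j ∈ ⨅ i, (χ i).ker := by
    rw [Subgroup.mem_iInf]
    intro i
    rw [MonoidHom.mem_ker, map_pow, hg i, one_pow]
  exact htf g j hj (hle ⟨hgj, hgj'⟩)

/-- finiteness of the set of tuples of bounded norm -/
theorem finite_tuples {m : ℕ} (χ : Fin m → G →* ℂˣ) (cp : G → ℤ[X])
    (hcp1 : ∀ g, (cp g).Monic)
    (hcp : ∀ g, (cp g).map (Int.castRingHom ℂ) = ∏ i, (X - C ((χ i g : ℂˣ) : ℂ))) (R : ℝ) :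
    {a : Fin m → ℂˣ | ∃ g : G, (∀ i, a i = χ i g) ∧ ∀ i, ‖((χ i g : ℂˣ) : ℂ)‖ ≤ R}.Finite := by
  refine (finite_root_tuples (ι := Fin m) R).subset ?_
  rintro a ⟨g, hag, hg⟩
  refine ⟨⟨cp g, hcp1 g, ?_⟩, ?_⟩
  · rw [hcp g]
    refine Finset.prod_congr rfl fun i _ => ?_
    rw [hag i]
  · intro i
    rw [hag i]; exact hg i

theorem mem_of_norm_one {N : Subgroup G} 
    (htf : ∀ (g : G) (j : ℕ), 0 < j → g ^ j ∈ N → g ∈ N)
    {m : ℕ} (χ : Fin m → G →* ℂˣ) (cp : G → ℤ[X]) (hcp1 : ∀ g, (cp g).Monic)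
    (hcp : ∀ g, (cp g).map (Int.castRingHom ℂ) = ∏ i, (X - C ((χ i g : ℂˣ) : ℂ)))
    (hker : ∀ g : G, (∀ i, χ i g = 1) → g ∈ N)
    {g : G} (hg : ∀ i, ‖((χ i g : ℂˣ) : ℂ)‖ = 1) : g ∈ N := by
  have hfin := finite_tuples χ cp hcp1 hcp 1
  have hmaps : ∀ n : ℕ, (fun i => χ i (g ^ n)) ∈
      {a : Fin m → ℂˣ | ∃ g : G, (∀ i, a i = χ i g) ∧ ∀ i, ‖((χ i g : ℂˣ) : ℂ)‖ ≤ 1} := by
    intro n
    refine ⟨g ^ n, fun i => rfl, fun i => ?_⟩
    rw [map_pow, Units.val_pow_eq_pow_val, norm_pow, hg i, one_pow]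
  obtain ⟨a, b, hab, heq⟩ : ∃ a b : ℕ, a < b ∧
      (fun i => χ i (g ^ a)) = (fun i => χ i (g ^ b)) := by
    have hnot : ¬ Function.Injective (fun n : ℕ => (⟨_, hmaps n⟩ :
        {a : Fin m → ℂˣ | ∃ g : G, (∀ i, a i = χ i g) ∧ ∀ i, ‖((χ i g : ℂˣ) : ℂ)‖ ≤ 1})) := by
      intro hinj
      have : Finite {a : Fin m → ℂˣ | ∃ g : G, (∀ i, a i = χ i g) ∧
        ∀ i, ‖((χ i g : ℂˣ) : ℂ)‖ ≤ 1} := hfin
      exact not_injective_infinite_finite _ hinj
    rw [Function.not_injective_iff] at hnot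
    obtain ⟨a, b, h1, h2⟩ := hnot
    have h3 : (fun i => χ i (g ^ a)) = (fun i => χ i (g ^ b)) := congrArg Subtype.val h1
    rcases lt_or_gt_of_ne h2 with h | h
    · exact ⟨a, b, h, h3⟩
    · exact ⟨b, a, h, h3.symm⟩
  refine htf g (b - a) (by omega) (hker _ fun i => ?_)
  have h1 := congrFun heq i
  simp only [map_pow] at h1 ⊢
  have h2 : (χ i g) ^ b = (χ i g) ^ a * (χ i g) ^ (b - a) := by
    rw [← pow_add]; congr 1; omega
  rw [h2] at h1
  exact (mul_eq_left.mp h1.symm)

/-- linear extension of the logarithms -/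
theorem exists_log_linear {k : ℕ} (π : G →* Multiplicative (Fin k → ℤ))
    (hπ : Function.Surjective π) (χ : G →* ℂˣ) (hχ : ∀ g, π g = 1 → ‖((χ g : ℂˣ) : ℂ)‖ = 1) :
    ∃ Λ : (Fin k → ℝ) →ₗ[ℝ] ℝ, ∀ g, Real.log ‖((χ g : ℂˣ) : ℂ)‖ =
      Λ (fun j => ((Multiplicative.toAdd (π g) j : ℤ) : ℝ)) := by
  classical
  choose s hs using hπ
  -- additive logarithm
  let Lg : G → ℝ := fun g => Real.log ‖((χ g : ℂˣ) : ℂ)‖
  have hmul : ∀ a b, Lg (a * b) = Lg a + Lg b := by
    intro a b
    change Real.log ‖((χ (a * b) : ℂˣ) : ℂ)‖ = _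
    rw [map_mul, Units.val_mul, norm_mul, Real.log_mul]
    · exact (norm_ne_zero_iff.mpr (Units.ne_zero _))
    · exact (norm_ne_zero_iff.mpr (Units.ne_zero _))
  have hone : Lg 1 = 0 := by
    change Real.log ‖((χ 1 : ℂˣ) : ℂ)‖ = 0
    simp
  have hinv : ∀ a, Lg a⁻¹ = - Lg a := by
    intro a
    have := hmul a a⁻¹
    rw [mul_inv_cancel, hone] at this
    linarith
  have hker : ∀ g, π g = 1 → Lg g = 0 := by
    intro g hg
    change Real.log ‖((χ g : ℂˣ) : ℂ)‖ = 0
    rw [hχ g hg, Real.log_one]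
  let φ : (Fin k → ℤ) →+ ℝ :=
    { toFun := fun z => Lg (s (Multiplicative.ofAdd z))
      map_zero' := by
        apply hker
        rw [hs]; rfl
      map_add' := by
        intro x y
        have h1 : π (s (Multiplicative.ofAdd (x + y)) *
            (s (Multiplicative.ofAdd x) * s (Multiplicative.ofAdd y))⁻¹) = 1 := by
          rw [map_mul, map_inv, map_mul, hs, hs, hs, ofAdd_add, mul_inv_cancel]
        have h2 := hker _ h1
        rw [hmul, hinv, hmul] at h2
        linarith }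
  have hφ : ∀ g, Lg g = φ (Multiplicative.toAdd (π g)) := by
    intro g
    have h1 : π (g * (s (Multiplicative.ofAdd (Multiplicative.toAdd (π g))))⁻¹) = 1 := by
      rw [map_mul, map_inv, hs]; simp
    have h2 := hker _ h1
    rw [hmul, hinv] at h2
    change Lg g = Lg (s (Multiplicative.ofAdd (Multiplicative.toAdd (π g))))
    linarith
  refine ⟨{ toFun := fun v => ∑ j, v j * φ (Pi.single j 1)
            map_add' := by
              intro v w
              rw [← Finset.sum_add_distrib]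
              refine Finset.sum_congr rfl fun j _ => ?_
              rw [Pi.add_apply]; ring
            map_smul' := by
              intro c v
              rw [RingHom.id_apply, smul_eq_mul, Finset.mul_sum]
              refine Finset.sum_congr rfl fun j _ => ?_
              rw [Pi.smul_apply, smul_eq_mul]; ring }, ?_⟩
  intro g
  change Lg g = ∑ j, ((Multiplicative.toAdd (π g) j : ℤ) : ℝ) * φ (Pi.single j 1)
  rw [hφ]
  set z := Multiplicative.toAdd (π g) with hz
  have h1 : z = ∑ j, z j • (Pi.single j 1 : Fin k → ℤ) := by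
    ext i
    rw [Finset.sum_apply, Finset.sum_eq_single i]
    · simp
    · intro b _ hb
      rw [Pi.smul_apply, Pi.single_eq_of_ne hb.symm]; simp
    · intro h; exact absurd (Finset.mem_univ i) h
  conv_lhs => rw [h1]
  rw [map_sum]
  refine Finset.sum_congr rfl fun j _ => ?_
  rw [map_zsmul, zsmul_eq_mul]

/-- Kronecker: the linear maps `Λ i` are jointly injective on `ℝ^k`. -/
theorem joint_injective {N : Subgroup G} {k : ℕ} (π : G →* Multiplicative (Fin k → ℤ))
    (hπ : Function.Surjective π) (hker : ∀ g, π g = 1 ↔ g ∈ N)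
    {m : ℕ} (χ : Fin m → G →* ℂˣ) (cp : G → ℤ[X]) (hcp1 : ∀ g, (cp g).Monic)
    (hcp : ∀ g, (cp g).map (Int.castRingHom ℂ) = ∏ i, (X - C ((χ i g : ℂˣ) : ℂ)))
    (hχker : ∀ g : G, (∀ i, χ i g = 1) → g ∈ N)
    (Λ : Fin m → (Fin k → ℝ) →ₗ[ℝ] ℝ)
    (hΛ : ∀ i g, Real.log ‖((χ i g : ℂˣ) : ℂ)‖ =
      Λ i (fun j => ((Multiplicative.toAdd (π g) j : ℤ) : ℝ)))
    {v : Fin k → ℝ} (hv : ∀ i, Λ i v = 0) : v = 0 := by
  classical
  by_contra hv0
  obtain ⟨j₀, hj₀⟩ := Function.ne_iff.mp hv0
  choose s hs using hπ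
  let z : ℕ → (Fin k → ℤ) := fun n j => ⌊(n : ℝ) * v j⌋
  let g : ℕ → G := fun n => s (Multiplicative.ofAdd (z n))
  have hg : ∀ n, Multiplicative.toAdd (π (g n)) = z n := by
    intro n
    change Multiplicative.toAdd (π (s (Multiplicative.ofAdd (z n)))) = z n
    rw [hs]; rfl
  -- uniform bound for the logarithms
  obtain ⟨B, hB⟩ : ∃ B : ℝ, ∀ i n, Real.log ‖((χ i (g n) : ℂˣ) : ℂ)‖ ≤ B := by
    refine ⟨∑ i, ∑ j, |Λ i (Pi.single j 1)|, ?_⟩
    intro i n
    rw [hΛ, hg]
    have h1 : (fun j => ((z n j : ℤ) : ℝ)) = (n : ℝ) • v -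
        ∑ j, (Int.fract ((n : ℝ) * v j)) • (Pi.single j 1 : Fin k → ℝ) := by
      ext i
      rw [Pi.sub_apply, Finset.sum_apply, Finset.sum_eq_single i]
      · simp only [z, Pi.smul_apply, Pi.single_eq_same, smul_eq_mul, mul_one]
        have := Int.self_sub_floor ((n : ℝ) * v i)
        linarith
      · intro b _ hb
        rw [Pi.smul_apply, Pi.single_eq_of_ne hb.symm]; simp
      · intro h; exact absurd (Finset.mem_univ i) h
    rw [h1, map_sub, map_smul, hv i, smul_zero, zero_sub, map_sum]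
    have h2 : -(∑ j, (Λ i) ((Int.fract ((n : ℝ) * v j)) • (Pi.single j 1 : Fin k → ℝ))) ≤
        ∑ j, |Λ i (Pi.single j 1)| := by
      rw [← Finset.sum_neg_distrib]
      refine Finset.sum_le_sum fun j _ => ?_
      rw [map_smul, smul_eq_mul]
      have h3 := Int.fract_nonneg ((n : ℝ) * v j)
      have h4 := (Int.fract_lt_one ((n : ℝ) * v j)).le
      have h5 := neg_abs_le (Λ i (Pi.single j 1))
      have h6 := abs_nonneg (Λ i (Pi.single j 1))
      nlinarith
    refine h2.trans ?_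
    exact Finset.single_le_sum (f := fun i => ∑ j, |Λ i (Pi.single j 1)|)
      (fun i _ => Finset.sum_nonneg fun j _ => abs_nonneg _) (Finset.mem_univ i)
  have hfin := finite_tuples χ cp hcp1 hcp (Real.exp B)
  have hmaps : ∀ n : ℕ, (fun i => χ i (g n)) ∈
      {a : Fin m → ℂˣ | ∃ g : G, (∀ i, a i = χ i g) ∧
        ∀ i, ‖((χ i g : ℂˣ) : ℂ)‖ ≤ Real.exp B} := by
    intro n
    refine ⟨g n, fun i => rfl, fun i => ?_⟩
    rw [← Real.log_le_iff_le_exp (norm_pos_iff.mpr (Units.ne_zero _))]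
    exact hB i n
  have heqz : ∀ a b : ℕ, (fun i => χ i (g a)) = (fun i => χ i (g b)) → z a = z b := by
    intro a b hab
    have h1 : g a * (g b)⁻¹ ∈ N := by
      apply hχker
      intro i
      rw [map_mul, map_inv, congrFun hab i, mul_inv_cancel]
    rw [← hker, map_mul, map_inv, mul_inv_eq_one] at h1
    rw [← hg a, ← hg b, h1]
  let f : ℕ → (Fin m → ℂˣ) := fun n i => χ i (g n)
  have hffin : (Set.range f).Finite := hfin.subset (by rintro _ ⟨n, rfl⟩; exact hmaps n)
  have hzfin : (Set.range z).Finite := by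
    let h : (Fin m → ℂˣ) → (Fin k → ℤ) := fun a => if hn : ∃ n, f n = a then z hn.choose else 0
    refine (hffin.image h).subset ?_
    rintro _ ⟨n, rfl⟩
    refine ⟨f n, ⟨n, rfl⟩, ?_⟩
    have hn : ∃ n', f n' = f n := ⟨n, rfl⟩
    change (if hn : ∃ n', f n' = f n then z hn.choose else 0) = z n
    rw [dif_pos hn]
    exact heqz _ _ hn.choose_spec
  have hbd : ∃ C : ℝ, ∀ n, |((z n j₀ : ℤ) : ℝ)| ≤ C := by
    have h1 := (hzfin.image (fun w => |((w j₀ : ℤ) : ℝ)|)).bddAbove
    obtain ⟨C, hC⟩ := h1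
    exact ⟨C, fun n => hC ⟨z n, ⟨n, rfl⟩, rfl⟩⟩
  obtain ⟨C, hC⟩ := hbd
  have hvpos : 0 < |v j₀| := abs_pos.mpr hj₀
  obtain ⟨n, hn⟩ := exists_nat_gt ((C + 1) / |v j₀|)
  rw [div_lt_iff₀ hvpos] at hn
  have h1 : (n : ℝ) * |v j₀| = |(n : ℝ) * v j₀| := by
    rw [abs_mul, Nat.abs_cast]
  have h2 : |(n : ℝ) * v j₀| ≤ |((z n j₀ : ℤ) : ℝ)| + 1 := by
    have h3 : (n : ℝ) * v j₀ = ((z n j₀ : ℤ) : ℝ) + Int.fract ((n : ℝ) * v j₀) :=
      (Int.floor_add_fract _).symm
    rw [h3]
    refine (abs_add_le _ _).trans ?_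
    have h4 := Int.fract_nonneg ((n : ℝ) * v j₀)
    have h5 := (Int.fract_lt_one ((n : ℝ) * v j₀)).le
    rw [abs_of_nonneg h4]
    linarith
  have := hC n
  linarith

end

/-- Root datum on a group `Γ` (think: finite-index subgroup of a virtually polycyclic group),
without the netness condition. -/
structure RootPre (Γ : Type*) [Group Γ] where
  /-- the nilpotent normal subgroup -/
  N : Subgroup Γ
  normal : N.Normal
  nilp : Group.IsNilpotent N
  /-- `Γ` is poly-(infinite cyclic), in particular torsion-free -/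
  pz : PZ (⊤ : Subgroup Γ)
  /-- rank of the height group -/
  k : ℕ
  /-- height -/
  π : Γ →* Multiplicative (Fin k → ℤ)
  surj : Function.Surjective π
  mem_N : ∀ g, π g = 1 ↔ g ∈ N
  maximal : ∀ L K : Subgroup Γ, L.index ≠ 0 → (∀ x ∈ L, ∀ a ∈ K, x * a * x⁻¹ ∈ K) →
    Group.IsNilpotent K → K ≤ N
  /-- dimension of `N^ab ⊗ ℂ` -/
  m : ℕ
  /-- weights (with multiplicity) of `N^ab ⊗ ℂ` -/
  χ : Fin m → Γ →* ℂˣ
  /-- eigenfunctionals -/
  ℓ : Fin m → N → ℂ
  /-- characteristic polynomial on `N^ab` -/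
  cp : Γ → Polynomial ℤ
  cp_monic : ∀ g, (cp g).Monic
  cp_eq : ∀ g, (cp g).map (Int.castRingHom ℂ) =
    ∏ i, (Polynomial.X - Polynomial.C ((χ i g : ℂˣ) : ℂ))
  χ_N : ∀ i, ∀ n ∈ N, χ i n = 1
  ℓ_ne : ∀ i, ∃ n, ℓ i n ≠ 0
  ℓ_mul : ∀ i a b, ℓ i (a * b) = ℓ i a + ℓ i b
  ℓ_conj : ∀ i g (n : N), ℓ i ⟨g * n * g⁻¹, normal.conj_mem n n.2 g⟩ = χ i g * ℓ i n
  mem_N_of_χ : ∀ g, (∀ i, χ i g = 1) → g ∈ N
  mem_N_of_norm : ∀ g, (∀ i, ‖((χ i g : ℂˣ) : ℂ)‖ = 1) → g ∈ N
  /-- the real roots -/
  Λ : Fin m → (Fin k → ℝ) →ₗ[ℝ] ℝ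
  log_χ : ∀ i g, Real.log ‖((χ i g : ℂˣ) : ℂ)‖ =
    Λ i (fun j => ((Multiplicative.toAdd (π g) j : ℤ) : ℝ))
  Λ_inj : ∀ v, (∀ i, Λ i v = 0) → v = 0
  Λ_sum : ∀ v, ∑ i, Λ i v = 0
  /-- the projection of `N` on the lattice `N^ab / torsion` -/
  κ : N → (Fin m → ℤ)
  /-- the action on the lattice `N^ab / torsion` -/
  A : Γ → Matrix (Fin m) (Fin m) ℤ
  κ_mul : ∀ a b, κ (a * b) = κ a + κ b
  κ_surj : Function.Surjective κ
  κ_ker : ∀ n : N, κ n = 0 → ∃ j : ℕ, 0 < j ∧ ((n ^ j : N) : Γ) ∈ ⁅N, N⁆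
  κ_conj : ∀ g (n : N), κ ⟨g * n * g⁻¹, normal.conj_mem n n.2 g⟩ = (A g).mulVec (κ n)
  A_charpoly : ∀ g, (A g).charpoly = cp g

/-- Root datum on a group `Γ` (think: finite-index subgroup of a virtually polycyclic group). -/
structure RootData (Γ : Type*) [Group Γ] extends RootPre Γ where
  /-- a torsion-free group containing all the values of the characters -/
  B : Subgroup ℂˣ
  B_tf : ∀ z ∈ B, ∀ j : ℕ, 0 < j → z ^ j = 1 → z = 1
  χ_B : ∀ i g, χ i g ∈ B

/-- Existence of the root datum. -/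
theorem exists_rootPre {G : Type*} [Group G] (hG : IsVirtuallyPolycyclic G) {K : Subgroup G}
    (hK : K.index ≠ 0) :
    ∃ G₁ : Subgroup G, G₁.Normal ∧ G₁.FiniteIndex ∧ G₁ ≤ K ∧ Nonempty (RootPre G₁) := by
  obtain ⟨cp₀, -, -, G₁, hn₁, hf₁, hpz, hGK, N₀, hN₀n, hN₀le, hN₀nil, hmax, ι, _, χ₀, -, -,
    k, π, Λ₀, hπ, hker, -, -, -⟩ := exists_structure hG hK
  refine ⟨G₁, hn₁, hf₁, hGK, ?_⟩
  let N : Subgroup G₁ := N₀.subgroupOf G₁
  have hNn : N.Normal := hN₀n.subgroupOf G₁
  have hmemN : ∀ g : G₁, π g = 1 ↔ g ∈ N := fun g => hker g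
  have hpzΓ : PZ (⊤ : Subgroup G₁) := pz_top_iff.mpr hpz
  have hNnil : Group.IsNilpotent N := by
    have e : N ≃* N₀ := Subgroup.subgroupOfEquivOfLe hN₀le
    exact Group.nilpotent_of_mulEquiv e.symm
  have hab : ∀ g h : G₁, g * h * g⁻¹ * h⁻¹ ∈ N := by
    intro g h
    rw [← hmemN, map_mul, map_mul, map_mul, map_inv, map_inv, mul_comm (π g) (π h)]
    group
  have htf : ∀ (g : G₁) (j : ℕ), 0 < j → g ^ j ∈ N → g ∈ N := by
    intro g j hj hg
    rw [← hmemN] at hg ⊢
    rw [map_pow] at hg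
    apply Multiplicative.toAdd.injective
    have h1 : j • Multiplicative.toAdd (π g) = 0 := by
      rw [← toAdd_pow, hg]; rfl
    rw [toAdd_one]
    ext i
    have h2 := congrFun h1 i
    rw [Pi.smul_apply, Pi.zero_apply, nsmul_eq_mul] at h2
    have h3 : (j : ℤ) ≠ 0 := by exact_mod_cast hj.ne'
    exact (mul_eq_zero.mp h2).resolve_left h3
  have hmaxΓ : ∀ L K : Subgroup G₁, L.index ≠ 0 → (∀ x ∈ L, ∀ a ∈ K, x * a * x⁻¹ ∈ K) →
      Group.IsNilpotent K → K ≤ N := by
    intro L K' hL hLK hK' a ha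
    have h1 : (L.map G₁.subtype).index ≠ 0 := by
      rw [Subgroup.index_map_subtype]
      exact Nat.mul_ne_zero hL hf₁.index_ne_zero
    have h2 : Group.IsNilpotent (K'.map G₁.subtype) :=
      Group.nilpotent_of_mulEquiv (K'.equivMapOfInjective G₁.subtype G₁.subtype_injective)
    have h3 := hmax (L.map G₁.subtype) (K'.map G₁.subtype) h1 (by
      rintro _ ⟨x, hx, rfl⟩ _ ⟨y, hy, rfl⟩
      exact ⟨x * y * x⁻¹, hLK x hx y hy, rfl⟩) h2
    exact h3 ⟨⟨a, ha, rfl⟩, a.2⟩
  have hNfg : N.FG := (hpzΓ.pc.mono le_top).fg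
  obtain ⟨m, χ, ℓ, cp, hcp1, hcp2, hχN, hℓne, hℓmul, hℓconj, hL,
    κ, A, hκmul, hκsurj, hκker, hκconj, hAcp⟩ := exists_weights hNn hab hNfg
  have hker1 : ∀ g, (∀ i, χ i g = 1) → g ∈ N := fun g hg =>
    mem_of_weights hNn hNnil hab htf (fun K' hKn hKnil => hmaxΓ ⊤ K' (by simp)
      (fun x _ a ha => hKn.conj_mem a ha x) hKnil) χ hL hg
  have hker2 : ∀ g, (∀ i, ‖((χ i g : ℂˣ) : ℂ)‖ = 1) → g ∈ N := fun g hg =>
    mem_of_norm_one htf χ cp hcp1 hcp2 hker1 hg
  choose Λ hΛ using fun i => exists_log_linear π hπ (χ i) (fun g hg => by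
    rw [hχN i g ((hmemN g).mp hg)]; simp)
  suffices hsum : ∀ v, ∑ i, Λ i v = 0 by
    exact ⟨{
      N := N
      normal := hNn
      nilp := hNnil
      pz := hpzΓ
      k := k
      π := π
      surj := hπ
      mem_N := hmemN
      maximal := hmaxΓ
      m := m
      χ := χ
      ℓ := ℓ
      cp := cp
      cp_monic := hcp1
      cp_eq := hcp2
      χ_N := hχN
      ℓ_ne := hℓne
      ℓ_mul := hℓmul
      ℓ_conj := hℓconj
      mem_N_of_χ := hker1
      mem_N_of_norm := hker2
      Λ := Λ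
      log_χ := hΛ
      Λ_inj := fun v hv => joint_injective π hπ hmemN χ cp hcp1 hcp2 hker1 Λ hΛ hv
      Λ_sum := hsum
      κ := κ
      A := A
      κ_mul := hκmul
      κ_surj := hκsurj
      κ_ker := hκker
      κ_conj := hκconj
      A_charpoly := hAcp }⟩
  -- the sum of the roots is zero
  have h1 : ∀ g : G₁, ∑ i, Λ i (fun j => ((Multiplicative.toAdd (π g) j : ℤ) : ℝ)) = 0 := by
    intro g
    simp only [← hΛ]
    rw [← Real.log_prod]
    · have h2 := norm_prod_eq_one (G := G₁) (G₀ := ⊤)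
        (fun i => (χ i).comp (Subgroup.subtype ⊤)) cp (fun g => hcp2 g) ⟨g, Subgroup.mem_top g⟩
      have h3 : ∏ i, ‖((χ i g : ℂˣ) : ℂ)‖ = 1 := h2
      rw [h3, Real.log_one]
    · intro i _
      exact (norm_ne_zero_iff.mpr (Units.ne_zero _))
  have h2 : ∀ z : Fin k → ℤ, ∑ i, Λ i (fun j => ((z j : ℤ) : ℝ)) = 0 := by
    intro z
    obtain ⟨g, hg⟩ := hπ (Multiplicative.ofAdd z)
    have := h1 g
    rw [hg] at this
    exact this
  have h3 : ∑ i, Λ i = 0 := by
    apply LinearMap.pi_ext'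
    intro j
    ext
    have := h2 (Pi.single j 1)
    simp only [LinearMap.comp_apply, LinearMap.coe_single, LinearMap.zero_apply,
      LinearMap.sum_apply]
    have e : (fun i => (((Pi.single j 1 : Fin k → ℤ) i : ℤ) : ℝ)) = Pi.single j (1 : ℝ) := by
      ext i
      by_cases hij : i = j
      · rw [hij]; simp
      · rw [Pi.single_eq_of_ne hij, Pi.single_eq_of_ne hij]; simp
    rw [e] at this
    exact this
  intro v
  have := congrArg (fun f : (Fin k → ℝ) →ₗ[ℝ] ℝ => f v) h3
  simpa [LinearMap.sum_apply] using this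

/-! ### netness -/

/-- injectivity of the powers on `ℤ^k` -/
theorem pow_injective_mult {k M : ℕ} (hM : 0 < M) :
    Function.Injective (powMonoidHom M : Multiplicative (Fin k → ℤ) →* _) := by
  intro a b hab
  apply Multiplicative.toAdd.injective
  have h1 : M • Multiplicative.toAdd a = M • Multiplicative.toAdd b := by
    have := congrArg Multiplicative.toAdd hab
    simpa using this
  funext i
  have h2 := congrFun h1 i
  simp only [Pi.smul_apply, nsmul_eq_mul] at h2
  have h3 : (M : ℤ) ≠ 0 := by exact_mod_cast hM.ne'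
  exact mul_left_cancel₀ h3 h2

theorem index_pow_range {k M : ℕ} (hM : 0 < M) :
    (powMonoidHom M : Multiplicative (Fin k → ℤ) →* _).range.index ≠ 0 := by
  have : NeZero M := ⟨hM.ne'⟩
  let f : Multiplicative (Fin k → ℤ) →* Multiplicative (Fin k → ZMod M) :=
    AddMonoidHom.toMultiplicative
      (Pi.addMonoidHom (fun i => (Int.castAddHom (ZMod M)).comp (Pi.evalAddMonoidHom _ i)))
  have h1 : f.ker ≤ (powMonoidHom M : Multiplicative (Fin k → ℤ) →* _).range := by
    intro v hv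
    have h2 : ∀ i, ((Multiplicative.toAdd v i : ℤ) : ZMod M) = 0 := fun i =>
      congrFun (congrArg Multiplicative.toAdd (MonoidHom.mem_ker.mp hv)) i
    have h3 : ∀ i, ∃ c : ℤ, Multiplicative.toAdd v i = M * c := fun i =>
      (ZMod.intCast_zmod_eq_zero_iff_dvd _ _).mp (h2 i)
    choose c hc using h3
    refine ⟨Multiplicative.ofAdd c, ?_⟩
    apply Multiplicative.toAdd.injective
    funext i
    rw [hc i]
    simp [powMonoidHom]
  have h2 : f.ker.index ≠ 0 := by
    rw [Subgroup.index_ker]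
    have : Finite f.range := inferInstance
    exact Nat.card_pos.ne'
  intro h3
  exact h2 (Nat.eq_zero_of_zero_dvd (h3 ▸ Subgroup.index_dvd_of_le h1))

/-- Restriction of a root datum to a finite-index subgroup containing `N`. -/
noncomputable def RootPre.restr {Γ : Type*} [Group Γ] (R : RootPre Γ) {Γ' : Type*} [Group Γ']
    (f : Γ' →* Γ) (hf : Function.Injective f) {M : ℕ} (hM : 0 < M)
    (hr : ∀ x, x ∈ f.range ↔ ∃ v, v ^ M = R.π x) : RootPre Γ' := by
  classical
  have hnorm := R.normal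
  have hNr : ∀ n ∈ R.N, n ∈ f.range := fun n hn => (hr n).mpr ⟨1, by
    rw [one_pow, (R.mem_N n).mpr hn]⟩
  let P : Multiplicative (Fin R.k → ℤ) →* Multiplicative (Fin R.k → ℤ) := powMonoidHom M
  have hP : Function.Injective P := pow_injective_mult hM
  let e : R.N.comap f ≃* R.N := MulEquiv.ofBijective (f.subgroupComap R.N) (by
    constructor
    · intro a b hab
      apply Subtype.ext
      apply hf
      exact congrArg Subtype.val hab
    · intro n
      obtain ⟨x, hx⟩ := hNr n n.2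
      refine ⟨⟨x, ?_⟩, Subtype.ext hx⟩
      rw [Subgroup.mem_comap, hx]
      exact n.2)
  have he : ∀ n : R.N.comap f, ((e n : R.N) : Γ) = f n := fun n => rfl
  have hmemr : ∀ x : Γ', R.π (f x) ∈ P.range := fun x => (hr (f x)).mp ⟨x, rfl⟩
  let E : Multiplicative (Fin R.k → ℤ) ≃* P.range := MonoidHom.ofInjective hP
  let π' : Γ' →* Multiplicative (Fin R.k → ℤ) :=
    E.symm.toMonoidHom.comp ((R.π.comp f).codRestrict P.range hmemr)
  have hπ' : ∀ x, (π' x) ^ M = R.π (f x) := by
    intro x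
    have h1 : E (π' x) = ⟨R.π (f x), hmemr x⟩ := E.apply_symm_apply _
    exact congrArg Subtype.val h1
  have hconj : ∀ (g : Γ') (n : R.N.comap f), (e ⟨g * n * g⁻¹,
      (hnorm.comap f).conj_mem n n.2 g⟩ : R.N) = ⟨f g * (e n : R.N) * (f g)⁻¹,
        hnorm.conj_mem _ (e n).2 (f g)⟩ := by
    intro g n
    apply Subtype.ext
    rw [he]
    simp only [map_mul, map_inv, he]
  have htoAdd : ∀ x, (fun j => ((Multiplicative.toAdd (R.π (f x)) j : ℤ) : ℝ)) =
      (M : ℝ) • (fun j => ((Multiplicative.toAdd (π' x) j : ℤ) : ℝ)) := by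
    intro x
    funext j
    rw [← hπ', toAdd_pow, Pi.smul_apply, Pi.smul_apply, nsmul_eq_mul, smul_eq_mul]
    push_cast
    rfl
  have hM' : (M : ℝ) ≠ 0 := by exact_mod_cast hM.ne'
  exact {
    N := R.N.comap f
    normal := hnorm.comap f
    nilp := by
      have := R.nilp
      exact Group.nilpotent_of_mulEquiv e.symm
    pz := by
      have := PZ.comap_injective hf R.pz
      rwa [Subgroup.comap_top] at this
    k := R.k
    π := π'
    surj := by
      intro v
      obtain ⟨x, hx⟩ := R.surj (v ^ M)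
      obtain ⟨y, rfl⟩ := (hr x).mpr ⟨v, hx.symm⟩
      exact ⟨y, hP (show (π' y) ^ M = v ^ M by rw [hπ', hx])⟩
    mem_N := by
      intro g
      rw [Subgroup.mem_comap, ← R.mem_N, ← hπ']
      constructor
      · intro h; rw [h, one_pow]
      · intro h; exact hP (show (π' g) ^ M = 1 ^ M by rw [h, one_pow])
    maximal := by
      intro L K hL hLK hK x hx
      have h1 : (L.map f).index ≠ 0 := by
        rw [L.index_map_of_injective hf]
        refine Nat.mul_ne_zero hL ?_
        have h2 : f.range = P.range.comap R.π := by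
          ext x; exact hr x
        rw [h2, Subgroup.index_comap_of_surjective _ R.surj]
        exact index_pow_range hM
      have h2 : Group.IsNilpotent (K.map f) :=
        Group.nilpotent_of_mulEquiv (K.equivMapOfInjective f hf)
      have h3 := R.maximal (L.map f) (K.map f) h1 (by
        rintro _ ⟨x, hx, rfl⟩ _ ⟨y, hy, rfl⟩
        exact ⟨x * y * x⁻¹, hLK x hx y hy, by simp⟩) h2
      exact h3 ⟨x, hx, rfl⟩
    m := R.m
    χ := fun i => (R.χ i).comp f
    ℓ := fun i n => R.ℓ i (e n)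
    cp := fun g => R.cp (f g)
    cp_monic := fun g => R.cp_monic _
    cp_eq := fun g => R.cp_eq _
    χ_N := fun i n hn => R.χ_N i _ hn
    ℓ_ne := by
      intro i
      obtain ⟨n, hn⟩ := R.ℓ_ne i
      exact ⟨e.symm n, by rwa [e.apply_symm_apply]⟩
    ℓ_mul := by
      intro i a b
      simp only [map_mul, R.ℓ_mul]
    ℓ_conj := by
      intro i g n
      rw [hconj]
      exact R.ℓ_conj i (f g) (e n)
    mem_N_of_χ := fun g hg => R.mem_N_of_χ (f g) hg
    mem_N_of_norm := fun g hg => R.mem_N_of_norm (f g) hg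
    Λ := fun i => (M : ℝ) • R.Λ i
    log_χ := by
      intro i g
      have h1 := R.log_χ i (f g)
      rw [htoAdd, map_smul] at h1
      exact h1
    Λ_inj := by
      intro v hv
      apply R.Λ_inj
      intro i
      have := hv i
      rw [LinearMap.smul_apply, smul_eq_mul] at this
      exact (mul_eq_zero.mp this).resolve_left hM'
    Λ_sum := by
      intro v
      simp only [LinearMap.smul_apply]
      rw [← Finset.smul_sum, R.Λ_sum, smul_zero]
    κ := fun n => R.κ (e n)
    A := fun g => R.A (f g)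
    κ_mul := by
      intro a b
      simp only [map_mul, R.κ_mul]
    κ_surj := R.κ_surj.comp e.surjective
    κ_ker := by
      intro n hn
      obtain ⟨j, hj, h⟩ := R.κ_ker (e n) hn
      refine ⟨j, hj, ?_⟩
      have h1 : (((e n) ^ j : R.N) : Γ) = f ((n ^ j : R.N.comap f) : Γ') := by
        rw [← map_pow]; rfl
      have h2 : (R.N.comap f).map f = R.N := by
        rw [Subgroup.map_comap_eq, inf_eq_right]
        exact hNr
      have h3 : ⁅R.N, R.N⁆ = (⁅R.N.comap f, R.N.comap f⁆).map f := by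
        rw [Subgroup.map_commutator, h2]
      rw [h1, h3] at h
      obtain ⟨y, hy, hyx⟩ := h
      rwa [← hf hyx]
    κ_conj := by
      intro g n
      rw [hconj]
      exact R.κ_conj (f g) (e n)
    A_charpoly := fun g => R.A_charpoly _ }

theorem RootPre.exists_net {Γ : Type*} [Group Γ] (R : RootPre Γ) :
    ∃ (M : ℕ) (B : Subgroup ℂˣ), 0 < M ∧ (∀ z ∈ B, ∀ j : ℕ, 0 < j → z ^ j = 1 → z = 1) ∧
      ∀ i g, R.χ i g ^ M ∈ B := by
  classical
  obtain ⟨S, hS⟩ := R.pz.pc.fg
  let T : Set ℂˣ := ⋃ i, (R.χ i) '' (S : Set Γ)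
  have hTf : T.Finite := Set.finite_iUnion fun i => S.finite_toSet.image _
  let A₀ : Subgroup ℂˣ := Subgroup.closure T
  have hχ : ∀ i g, R.χ i g ∈ A₀ := by
    intro i g
    have hg : g ∈ Subgroup.closure (S : Set Γ) := by rw [hS]; trivial
    induction hg using Subgroup.closure_induction with
    | mem x hx => exact Subgroup.subset_closure (Set.mem_iUnion.mpr ⟨i, x, hx, rfl⟩)
    | one => rw [map_one]; exact A₀.one_mem
    | mul x y _ _ hx hy => rw [map_mul]; exact A₀.mul_mem hx hy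
    | inv x _ hx => rw [map_inv]; exact A₀.inv_mem hx
  have hfg : Group.FG A₀ := (Group.fg_iff_subgroup_fg A₀).mpr ⟨hTf.toFinset, by simp [A₀]⟩
  have hfin : Module.Finite ℤ (Additive A₀) :=
    Module.Finite.iff_addGroup_fg.mpr (GroupFG.iff_add_fg.mp hfg)
  set Tor : Submodule ℤ (Additive A₀) := Submodule.torsion ℤ (Additive A₀) with hTor
  have hTfin : Finite Tor := by
    have : Module.Finite ℤ Tor := inferInstance
    exact Module.finite_of_fg_torsion Tor Submodule.torsion_isTorsion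
  refine ⟨Nat.card Tor, A₀.map (powMonoidHom (Nat.card Tor)), Nat.card_pos, ?_, ?_⟩
  · rintro _ ⟨z, hz, rfl⟩ j hj h
    change z ^ Nat.card Tor = 1
    have h1 : (Additive.ofMul (⟨z, hz⟩ : A₀)) ∈ Tor := by
      refine (Submodule.mem_torsion_iff _).mpr ⟨⟨((Nat.card Tor * j : ℕ) : ℤ), ?_⟩, ?_⟩
      · rw [mem_nonZeroDivisors_iff_ne_zero]
        exact_mod_cast (Nat.mul_pos Nat.card_pos hj).ne'
      · change ((Nat.card Tor * j : ℕ) : ℤ) • Additive.ofMul (⟨z, hz⟩ : A₀) = 0
        rw [natCast_zsmul]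
        apply Additive.toMul.injective
        rw [toMul_nsmul, toMul_zero]
        apply Subtype.ext
        change z ^ (Nat.card Tor * j) = 1
        rw [pow_mul]; exact h
    have h2 : Nat.card Tor • (⟨Additive.ofMul (⟨z, hz⟩ : A₀), h1⟩ : Tor) = 0 :=
      card_nsmul_eq_zero'
    have h3 := congrArg (fun t : Tor => ((Additive.toMul (t : Additive A₀) : A₀) : ℂˣ)) h2
    exact h3
  · intro i g
    exact ⟨_, hχ i g, rfl⟩

/-- Existence of the root datum. -/
theorem exists_rootData {G : Type*} [Group G] (hG : IsVirtuallyPolycyclic G) {K : Subgroup G}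
    (hK : K.index ≠ 0) :
    ∃ G₁ : Subgroup G, G₁.Normal ∧ G₁.FiniteIndex ∧ G₁ ≤ K ∧ Nonempty (RootData G₁) := by
  obtain ⟨G₁, hn₁, hf₁, hGK, ⟨R⟩⟩ := exists_rootPre hG hK
  obtain ⟨M, B, hM, hBtf, hB⟩ := R.exists_net
  let P : Multiplicative (Fin R.k → ℤ) →* Multiplicative (Fin R.k → ℤ) := powMonoidHom M
  let Q : Subgroup G₁ := P.range.comap R.π
  have hQ : Q.index ≠ 0 := by
    rw [Subgroup.index_comap_of_surjective _ R.surj]
    exact index_pow_range hM
  -- `N` is normal in `G`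
  have hNG : ∀ (g : G) (n : G₁), n ∈ R.N → (⟨g * n * g⁻¹, hn₁.conj_mem n n.2 g⟩ : G₁) ∈ R.N := by
    intro g
    let c : G₁ ≃* G₁ := MulAut.conjNormal g
    have hc : ∀ x : G₁, c x = ⟨g * x * g⁻¹, hn₁.conj_mem x x.2 g⟩ := fun x => by
      apply Subtype.ext
      simp [c]
    have h1 : Group.IsNilpotent (R.N.map (c : G₁ →* G₁)) := by
      have := R.nilp
      exact Group.nilpotent_of_mulEquiv (R.N.equivMapOfInjective (c : G₁ →* G₁) c.injective)
    have h2 := R.maximal ⊤ (R.N.map (c : G₁ →* G₁)) (by simp) (by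
      rintro x - _ ⟨y, hy, rfl⟩
      refine ⟨c.symm x * y * (c.symm x)⁻¹, R.normal.conj_mem y hy _, ?_⟩
      simp) h1
    intro n hn
    rw [← hc]
    exact h2 ⟨n, hn, rfl⟩
  have hQn : (Q.map G₁.subtype).Normal := by
    constructor
    rintro _ ⟨x, ⟨v, hv⟩, rfl⟩ g
    obtain ⟨y, hy⟩ := R.surj v
    -- `x = y ^ M * n`
    have hn : (y ^ M)⁻¹ * x ∈ R.N := by
      rw [← R.mem_N, map_mul, map_inv, map_pow, hy, ← hv]
      change (v ^ M)⁻¹ * v ^ M = 1
      rw [inv_mul_cancel]
    refine ⟨⟨g * x * g⁻¹, hn₁.conj_mem x x.2 g⟩, ?_, rfl⟩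
    refine ⟨R.π ⟨g * y * g⁻¹, hn₁.conj_mem y y.2 g⟩, ?_⟩
    change (R.π ⟨g * y * g⁻¹, hn₁.conj_mem y y.2 g⟩) ^ M = _
    have e1 : (⟨g * x * g⁻¹, hn₁.conj_mem x x.2 g⟩ : G₁) =
        (⟨g * y * g⁻¹, hn₁.conj_mem y y.2 g⟩ : G₁) ^ M *
          ⟨g * ((y ^ M)⁻¹ * x : G₁) * g⁻¹, hn₁.conj_mem _ ((y ^ M)⁻¹ * x : G₁).2 g⟩ := by
      apply Subtype.ext
      simp only [Subgroup.coe_mul, Subgroup.coe_pow, Subgroup.coe_inv, conj_pow]
      group
    rw [e1, map_mul, (R.mem_N _).mpr (hNG g _ hn), mul_one, map_pow]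
  have hle : Q.map G₁.subtype ≤ G₁ := by
    rintro _ ⟨x, -, rfl⟩
    exact x.2
  refine ⟨Q.map G₁.subtype, hQn, ⟨?_⟩, hle.trans hGK, ?_⟩
  · rw [Subgroup.index_map_subtype]
    exact Nat.mul_ne_zero hQ hf₁.index_ne_zero
  · let f : (Q.map G₁.subtype) →* G₁ := Subgroup.inclusion hle
    have hr : ∀ x, x ∈ f.range ↔ ∃ v, v ^ M = R.π x := by
      intro x
      constructor
      · rintro ⟨⟨_, ⟨y, ⟨v, hv⟩, rfl⟩⟩, rfl⟩
        exact ⟨v, hv⟩
      · rintro ⟨v, hv⟩
        exact ⟨⟨x, ⟨x, ⟨v, hv⟩, rfl⟩⟩, rfl⟩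
    refine ⟨{ R.restr f (Subgroup.inclusion_injective hle) hM hr with
      B := B
      B_tf := hBtf
      χ_B := ?_ }⟩
    intro i g
    change R.χ i (f g) ∈ B
    obtain ⟨v, hv⟩ := (hr (f g)).mp ⟨g, rfl⟩
    obtain ⟨y, hy⟩ := R.surj v
    have hn : (y ^ M)⁻¹ * f g ∈ R.N := by
      rw [← R.mem_N, map_mul, map_inv, map_pow, hy, ← hv, inv_mul_cancel]
    have h1 := R.χ_N i _ hn
    rw [map_mul, map_inv, inv_mul_eq_one] at h1
    rw [← h1, map_pow]
    exact hB i y

end Crest.Agent.R182.Polyc
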