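/-
R182, module CORE (helper848): the real nilpotent group `E` of a `BModel` as a measurable
topological group with bi-invariant Haar measure; conjugations; the extension `Ψ̃` of a map.
-/
import Mathlib
import Crest.Agent.R182.Core

set_option autoImplicit false

open MeasureTheory

namespace Crest.Agent.R182.Core

open Crest.GroupTheory Crest.Geometry Crest.Agent.R182.QI Crest.Agent.R182.FinPath
  Crest.Agent.R182.FinRed Crest.Agent.R182.Bnd

variable {Γ : Type*} [Group Γ] {k : ℕ} {S : Set Γ} {π : Γ →* Multiplicative (Fin k → ℤ)}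

namespace BModel

variable (M : BModel S π)

/-- The group `E` in (exponential) coordinates. -/
def NN (M : BModel S π) : Type := Fin M.r → ℝ

noncomputable instance : NormedAddCommGroup M.NN := inferInstanceAs (NormedAddCommGroup (Fin M.r → ℝ))
noncomputable instance : NormedSpace ℝ M.NN := inferInstanceAs (NormedSpace ℝ (Fin M.r → ℝ))
instance : FiniteDimensional ℝ M.NN := inferInstanceAs (FiniteDimensional ℝ (Fin M.r → ℝ))
noncomputable instance : MeasureSpace M.NN := inferInstanceAs (MeasureSpace (Fin M.r → ℝ))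
instance : BorelSpace M.NN := inferInstanceAs (BorelSpace (Fin M.r → ℝ))
instance : SecondCountableTopology M.NN := inferInstanceAs (SecondCountableTopology (Fin M.r → ℝ))
instance : ProperSpace M.NN := inferInstanceAs (ProperSpace (Fin M.r → ℝ))
instance : SigmaFinite (volume : Measure M.NN) :=
  inferInstanceAs (SigmaFinite (volume : Measure (Fin M.r → ℝ)))
instance : (volume : Measure M.NN).IsAddHaarMeasure :=
  inferInstanceAs ((volume : Measure (Fin M.r → ℝ)).IsAddHaarMeasure)

/-- coordinates `NN ≃ L` -/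
noncomputable def E : M.NN ≃ₗ[ℝ] M.L := M.bas.equivFun.symm

theorem E_symm_apply (x : M.L) (i : Fin M.r) : M.E.symm x i = M.bas.repr x i := rfl

theorem repr_E (x : M.NN) (i : Fin M.r) : M.bas.repr (M.E x) i = x i := by
  have : M.E.symm (M.E x) i = x i := by rw [LinearEquiv.symm_apply_apply]
  rwa [E_symm_apply] at this

theorem E_eq_sum (x : M.NN) : M.E x = ∑ i, x i • M.bas i := by
  exact M.bas.equivFun_symm_apply x

/-- The group law. -/
noncomputable def opN (x y : M.NN) : M.NN := M.E.symm (M.star.op (M.E x) (M.E y))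

theorem op_neg' (x : M.L) : M.star.op (-x) x = 0 := by
  have := M.star.op_neg (-x)
  rwa [neg_neg] at this

noncomputable instance : Group M.NN where
  mul := M.opN
  one := (0 : M.NN)
  inv x := -x
  mul_assoc x y z := by
    change M.opN (M.opN x y) z = M.opN x (M.opN y z)
    unfold opN
    rw [LinearEquiv.apply_symm_apply, LinearEquiv.apply_symm_apply, M.star.assoc]
  one_mul x := by
    change M.opN 0 x = x
    unfold opN
    rw [map_zero, M.star.zero_op, LinearEquiv.symm_apply_apply]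
  mul_one x := by
    change M.opN x 0 = x
    unfold opN
    rw [map_zero, M.star.op_zero, LinearEquiv.symm_apply_apply]
  inv_mul_cancel x := by
    change M.opN (-x) x = 0
    unfold opN
    rw [map_neg, op_neg', map_zero]

theorem mul_def (x y : M.NN) : x * y = M.E.symm (M.star.op (M.E x) (M.E y)) := rfl
theorem one_def : (1 : M.NN) = 0 := rfl
theorem inv_def (x : M.NN) : x⁻¹ = -x := rfl
theorem E_mul (x y : M.NN) : M.E (x * y) = M.star.op (M.E x) (M.E y) := by
  rw [mul_def, LinearEquiv.apply_symm_apply]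

/-- the bracket in coordinates is continuous -/
theorem continuous_lie {X : Type*} [TopologicalSpace X] {f g : X → M.L}
    (hf : Continuous fun x => M.E.symm (f x)) (hg : Continuous fun x => M.E.symm (g x)) :
    Continuous fun x => M.E.symm ⁅f x, g x⁆ := by
  have key : ∀ x, M.E.symm ⁅f x, g x⁆ =
      ∑ i, ∑ j, (M.E.symm (f x) i * M.E.symm (g x) j) • M.E.symm ⁅M.bas i, M.bas j⁆ := by
    intro x
    have h1 : f x = ∑ i, M.E.symm (f x) i • M.bas i := by
      rw [← E_eq_sum, LinearEquiv.apply_symm_apply]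
    have h2 : g x = ∑ i, M.E.symm (g x) i • M.bas i := by
      rw [← E_eq_sum, LinearEquiv.apply_symm_apply]
    conv_lhs => rw [h1, h2]
    rw [sum_lie, map_sum]
    refine Finset.sum_congr rfl fun i _ => ?_
    rw [lie_sum, map_sum]
    refine Finset.sum_congr rfl fun j _ => ?_
    rw [smul_lie, lie_smul, smul_smul, map_smul]
  simp_rw [key]
  refine continuous_finsetSum _ fun i _ => continuous_finsetSum _ fun j _ => ?_
  have hc : ∀ i, Continuous fun y : M.NN => y i := fun i =>
    (continuous_apply i : Continuous fun y : Fin M.r → ℝ => y i)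
  have h1 : Continuous fun x => M.E.symm (f x) i * M.E.symm (g x) j :=
    ((hc i).comp hf).mul ((hc j).comp hg)
  have h2 : Continuous fun _ : X => M.E.symm ⁅M.bas i, M.bas j⁆ := continuous_const
  exact h1.smul h2

theorem continuous_mon {X σ : Type*} [TopologicalSpace X] {v : X → σ → M.L}
    (hv : ∀ s, Continuous fun x => M.E.symm (v x s)) (κ : List σ) :
    Continuous fun x => M.E.symm (Nb.mon (v x) κ) := by
  induction κ with
  | nil => simp only [Nb.mon_nil, map_zero]; exact continuous_const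
  | cons i κ ih =>
    by_cases h : κ = []
    · subst h; simp only [Nb.mon_single]; exact hv i
    · simp only [Nb.mon_cons _ i h]
      exact M.continuous_lie (hv i) ih

theorem continuous_LP {X σ : Type*} [TopologicalSpace X] {f : (σ → M.L) → M.L}
    (hf : f ∈ Nb.LP σ M.L) {v : X → σ → M.L} (hv : ∀ s, Continuous fun x => M.E.symm (v x s)) :
    Continuous fun x => M.E.symm (f (v x)) := by
  induction hf using Submodule.span_induction with
  | mem f hf =>
    obtain ⟨κ, rfl⟩ := hf
    exact M.continuous_mon hv κ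
  | zero => simp only [Pi.zero_apply, map_zero]; exact continuous_const
  | add f g _ _ hf hg =>
    simp only [Pi.add_apply, map_add]; exact hf.add hg
  | smul c f _ hf =>
    simp only [Pi.smul_apply, map_smul]; exact hf.const_smul c

theorem continuous_opN : Continuous fun p : M.NN × M.NN => M.opN p.1 p.2 := by
  have := M.continuous_LP (X := M.NN × M.NN) M.star.lp
    (v := fun p b => if b = false then M.E p.1 else M.E p.2) (by
      intro s
      cases s
      · simp only [if_true, LinearEquiv.symm_apply_apply]; exact continuous_fst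
      · simp only [Bool.true_eq_false, if_false, LinearEquiv.symm_apply_apply]
        exact continuous_snd)
  simpa [opN] using this

instance : ContinuousMul M.NN := ⟨M.continuous_opN⟩
instance : ContinuousInv M.NN := ⟨(continuous_neg : Continuous fun x : M.NN => -x)⟩
instance : IsTopologicalGroup M.NN where

instance : (volume : Measure M.NN).IsMulLeftInvariant where
  map_mul_left_eq_self g := (M.vol_left (M.E g)).map_eq

instance : (volume : Measure M.NN).IsMulRightInvariant where
  map_mul_right_eq_self g := (M.vol_right (M.E g)).map_eq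

instance : (volume : Measure M.NN).IsHaarMeasure where

/-- The embedding `E → G`. -/
noncomputable def toG : M.NN →* M.G where
  toFun x := M.ex (M.E x)
  map_one' := by
    have h := M.ex_op 0 0
    rw [M.star.op_zero] at h
    have h1 : M.E (1 : M.NN) = 0 := by rw [one_def, map_zero]
    rw [h1]
    exact mul_eq_left.1 h.symm
  map_mul' x y := by rw [E_mul, M.ex_op]

theorem toG_apply (x : M.NN) : M.toG x = M.ex (M.E x) := rfl

theorem toG_injective : Function.Injective M.toG := M.ex_inj.comp M.E.injective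

theorem h_toG (n : M.NN) : M.h (M.toG n) = 0 := M.h_ex _


/-- the size of an element of `E` is at most exponential in its length -/
theorem norm_le_exp (n : M.NN) : ‖n‖ ≤ Real.exp (M.a * M.len (M.toG n) + M.a) := by
  have h := M.le_len_ex (M.E n)
  have h1 : M.bas.equivFun (M.E n) = n := M.E.symm_apply_apply n
  rw [h1] at h
  exact h

/-- `E` is exponentially distorted -/
theorem len_toG_le (n : M.NN) : M.len (M.toG n) ≤ M.a * Real.log (2 + ‖n‖) := by
  have h := M.len_ex_le (M.E n)
  have h1 : M.bas.equivFun (M.E n) = n := M.E.symm_apply_apply n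
  rw [h1] at h
  exact h

theorem h_one : M.h 1 = 0 := by
  have := M.h_mul 1 1
  rw [mul_one] at this
  exact left_eq_add.1 this

theorem h_inv (g : M.G) : M.h g⁻¹ = - M.h g := by
  have := M.h_mul g g⁻¹
  rw [mul_inv_cancel, h_one] at this
  exact (neg_eq_of_add_eq_zero_right this.symm).symm


/-- Conjugation by `g` on `E`. -/
noncomputable def conjN (g : M.G) : M.NN ≃* M.NN where
  toFun n := M.E.symm (M.Ad g (M.E n))
  invFun n := M.E.symm (M.Ad g⁻¹ (M.E n))
  left_inv n := by
    change M.E.symm (M.Ad g⁻¹ (M.E (M.E.symm (M.Ad g (M.E n))))) = n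
    rw [LinearEquiv.apply_symm_apply, map_inv]
    have : (M.Ad g)⁻¹ (M.Ad g (M.E n)) = M.E n := by
      rw [← LinearEquiv.mul_apply, inv_mul_cancel, LinearEquiv.coe_one, id]
    rw [this, LinearEquiv.symm_apply_apply]
  right_inv n := by
    change M.E.symm (M.Ad g (M.E (M.E.symm (M.Ad g⁻¹ (M.E n))))) = n
    rw [LinearEquiv.apply_symm_apply, map_inv]
    have : (M.Ad g) ((M.Ad g)⁻¹ (M.E n)) = M.E n := by
      rw [← LinearEquiv.mul_apply, mul_inv_cancel, LinearEquiv.coe_one, id]
    rw [this, LinearEquiv.symm_apply_apply]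
  map_mul' x y := by
    apply M.toG_injective
    simp only [toG_apply, E_mul, M.ex_op, LinearEquiv.apply_symm_apply, ← M.conj_ex]
    group

theorem conjN_apply (g : M.G) (n : M.NN) : M.conjN g n = M.E.symm (M.Ad g (M.E n)) := rfl

theorem toG_conjN (g : M.G) (n : M.NN) : M.toG (M.conjN g n) = g * M.toG n * g⁻¹ := by
  rw [toG_apply, toG_apply, conjN_apply, LinearEquiv.apply_symm_apply, M.conj_ex]

theorem toG_conjN' (g : M.G) (n : M.NN) : M.toG (M.conjN g n) * g = g * M.toG n := by
  rw [toG_conjN]; group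

theorem conjN_mul (g g' : M.G) (n : M.NN) : M.conjN (g * g') n = M.conjN g (M.conjN g' n) := by
  apply M.toG_injective
  simp only [toG_conjN]; group

theorem conjN_one (n : M.NN) : M.conjN 1 n = n := by
  apply M.toG_injective
  simp only [toG_conjN]; group


theorem continuous_conjN (g : M.G) : Continuous (M.conjN g) := by
  have : Continuous ((M.E.symm.toLinearMap ∘ₗ (M.Ad g).toLinearMap) ∘ₗ M.E.toLinearMap) :=
    LinearMap.continuous_of_finiteDimensional _
  exact this

theorem measurePreserving_conjN (g : M.G) :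
    MeasurePreserving (M.conjN g) (volume : Measure M.NN) volume := M.vol_Ad g

/-- The extension of `Ψ : Γ → Γ` to the model. -/
noncomputable def ext (Ψ : Γ → Γ) (g : M.G) : M.G := M.ι (Ψ (M.rnd g))


theorem measurableSet_rnd (x g : M.G) (γ : Γ) :
    MeasurableSet {n : M.NN | M.rnd (x * M.toG n * g) = γ} := M.rnd_meas x g γ

/-- Every function of the rounded point is measurable along `E`. -/
theorem measurable_rnd [Countable Γ] {β : Type*} [MeasurableSpace β] (f : Γ → β) (x g : M.G) :
    Measurable fun n : M.NN => f (M.rnd (x * M.toG n * g)) := by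
  intro s _
  have : (fun n : M.NN => f (M.rnd (x * M.toG n * g))) ⁻¹' s =
      ⋃ γ ∈ f ⁻¹' s, {n : M.NN | M.rnd (x * M.toG n * g) = γ} := by
    ext n; simp
  rw [this]
  exact MeasurableSet.biUnion (Set.to_countable _) fun γ _ => M.measurableSet_rnd x g γ

theorem measurable_ext [Countable Γ] {β : Type*} [MeasurableSpace β] (f : M.G → β) (Ψ : Γ → Γ)
    (x g : M.G) : Measurable fun n : M.NN => f (M.ext Ψ (x * M.toG n * g)) :=
  M.measurable_rnd (fun γ => f (M.ι (Ψ γ))) x g

/-! ### the rounding and quasi-isometries -/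

theorem a0 : 0 ≤ M.a := zero_le_one.trans M.one_le_a

theorem len_nonneg (g : M.G) : 0 ≤ M.len g := M.isLen.nonneg g

theorem len_rnd' (g : M.G) : M.len (g⁻¹ * M.ι (M.rnd g)) ≤ M.a := by
  have h := M.len_rnd g
  rw [← M.isLen.inv]
  simpa using h

theorem len_rnd_rnd (g u : M.G) :
    M.len (M.ι ((M.rnd g)⁻¹ * M.rnd (g * u))) ≤ M.len u + 2 * M.a := by
  have h1 : M.ι ((M.rnd g)⁻¹ * M.rnd (g * u)) =
      (M.ι (M.rnd g))⁻¹ * g * u * ((g * u)⁻¹ * M.ι (M.rnd (g * u))) := by
    rw [map_mul, map_inv]; group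
  rw [h1]
  have e1 := M.isLen.mul ((M.ι (M.rnd g))⁻¹ * g * u) ((g * u)⁻¹ * M.ι (M.rnd (g * u)))
  have e2 := M.isLen.mul ((M.ι (M.rnd g))⁻¹ * g) u
  have e3 := M.len_rnd g
  have e4 := M.len_rnd' (g * u)
  linarith

/-- quasi-isometry constant of the extension -/
noncomputable def KQ (K : ℕ) : ℝ := 8 * M.a ^ 3 * (K + 1)

theorem ext_lip {Ψ : Γ → Γ} {K : ℕ} (hΨ : QIMap S S Ψ K) (g u : M.G) :
    M.len ((M.ext Ψ g)⁻¹ * M.ext Ψ (g * u)) ≤ M.KQ K * M.len u + M.KQ K := by
  have ha := M.a0
  have ha1 := M.one_le_a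
  have h1 : (M.ext Ψ g)⁻¹ * M.ext Ψ (g * u) = M.ι ((Ψ (M.rnd g))⁻¹ * Ψ (M.rnd (g * u))) := by
    unfold ext; rw [map_mul, map_inv]
  rw [h1]
  refine (M.len_ι _).trans ?_
  have h2 : (wordLength S ((Ψ (M.rnd g))⁻¹ * Ψ (M.rnd (g * u))) : ℝ) ≤
      K * wordLength S ((M.rnd g)⁻¹ * M.rnd (g * u)) + K := by exact_mod_cast hΨ.up _ _
  have h3 : (wordLength S ((M.rnd g)⁻¹ * M.rnd (g * u)) : ℝ) ≤ M.a * (M.len u + 2 * M.a) + M.a :=
    (M.ι_len _).trans (by gcongr; exact M.len_rnd_rnd g u)
  have h4 := M.len_nonneg u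
  have hK : (0:ℝ) ≤ K := Nat.cast_nonneg _
  have ha2 : 1 ≤ M.a ^ 2 := one_le_pow₀ ha1
  have ha3 : M.a ≤ M.a ^ 3 := by nlinarith
  have ha32 : M.a ^ 2 ≤ M.a ^ 3 := by nlinarith
  calc M.a * (wordLength S ((Ψ (M.rnd g))⁻¹ * Ψ (M.rnd (g * u))) : ℝ) ≤
        M.a * (K * (M.a * (M.len u + 2 * M.a) + M.a) + K) := by gcongr; exact h2.trans (by gcongr)
    _ = K * M.a ^ 2 * M.len u + K * (2 * M.a ^ 3 + M.a ^ 2 + M.a) := by ring
    _ ≤ K * M.a ^ 3 * M.len u + K * (4 * M.a ^ 3) := by gcongr; linarith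
    _ ≤ M.KQ K * M.len u + M.KQ K := by
      unfold KQ
      have hp : 0 ≤ M.a ^ 3 := by positivity
      nlinarith [mul_nonneg hp h4, mul_nonneg (mul_nonneg hK hp) h4, mul_nonneg hK hp]

theorem ext_colip {Ψ : Γ → Γ} {K : ℕ} (hΨ : QIMap S S Ψ K) (g u : M.G) :
    M.len u ≤ M.KQ K * M.len ((M.ext Ψ g)⁻¹ * M.ext Ψ (g * u)) + M.KQ K := by
  have ha := M.a0
  have ha1 := M.one_le_a
  set w := M.len ((M.ext Ψ g)⁻¹ * M.ext Ψ (g * u)) with hw
  have h1 : (M.ext Ψ g)⁻¹ * M.ext Ψ (g * u) = M.ι ((Ψ (M.rnd g))⁻¹ * Ψ (M.rnd (g * u))) := by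
    unfold ext; rw [map_mul, map_inv]
  have h2 : (wordLength S ((M.rnd g)⁻¹ * M.rnd (g * u)) : ℝ) ≤
      K * wordLength S ((Ψ (M.rnd g))⁻¹ * Ψ (M.rnd (g * u))) + K := by exact_mod_cast hΨ.lo _ _
  have h3 : (wordLength S ((Ψ (M.rnd g))⁻¹ * Ψ (M.rnd (g * u))) : ℝ) ≤ M.a * w + M.a := by
    rw [hw, h1]; exact M.ι_len _
  have h4 : u = (g⁻¹ * M.ι (M.rnd g)) * M.ι ((M.rnd g)⁻¹ * M.rnd (g * u)) *
      ((M.ι (M.rnd (g * u)))⁻¹ * (g * u)) := by
    rw [map_mul, map_inv]; group
  have h5 : M.len u ≤ 2 * M.a + M.a * wordLength S ((M.rnd g)⁻¹ * M.rnd (g * u)) := by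
    conv_lhs => rw [h4]
    have e1 := M.isLen.mul ((g⁻¹ * M.ι (M.rnd g)) * M.ι ((M.rnd g)⁻¹ * M.rnd (g * u)))
      ((M.ι (M.rnd (g * u)))⁻¹ * (g * u))
    have e2 := M.isLen.mul (g⁻¹ * M.ι (M.rnd g)) (M.ι ((M.rnd g)⁻¹ * M.rnd (g * u)))
    have e3 := M.len_rnd' g
    have e4 := M.len_rnd (g * u)
    have e5 := M.len_ι ((M.rnd g)⁻¹ * M.rnd (g * u))
    linarith
  have hw0 : 0 ≤ w := M.len_nonneg _
  have hK : (0:ℝ) ≤ K := Nat.cast_nonneg _
  have ha2 : 1 ≤ M.a ^ 2 := one_le_pow₀ ha1
  have ha3 : M.a ≤ M.a ^ 3 := by nlinarith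
  have ha32 : M.a ^ 2 ≤ M.a ^ 3 := by nlinarith
  have ha13 : 1 ≤ M.a ^ 3 := by nlinarith
  calc M.len u ≤ 2 * M.a + M.a * (K * (M.a * w + M.a) + K) := by
        refine h5.trans ?_
        gcongr
        exact h2.trans (by gcongr)
    _ = K * M.a ^ 2 * w + (2 * M.a + K * (M.a ^ 2 + M.a)) := by ring
    _ ≤ K * M.a ^ 3 * w + (2 * M.a ^ 3 + K * (2 * M.a ^ 3)) := by
      gcongr
      linarith
    _ ≤ M.KQ K * w + M.KQ K := by
      unfold KQ
      have hp : 0 ≤ M.a ^ 3 := by positivity
      nlinarith [mul_nonneg hp hw0, mul_nonneg (mul_nonneg hK hp) hw0, mul_nonneg hK hp]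

end BModel

end Crest.Agent.R182.Core
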