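/-
R182, module BOXGRP (helper468): boxes as subsets of the group `M.NN` of a `BModel`: compactness,
volumes, doubling of `K · U_w`, and the coupling lemma.
-/
import Mathlib
import Crest.Agent.R182.CoreN
import Crest.Agent.R182.BoxFam

set_option autoImplicit false
set_option linter.unusedSectionVars false

open MeasureTheory

namespace Crest.Agent.R182.Core

open Pointwise

variable {Γ : Type*} [Group Γ] {k : ℕ} {S : Set Γ} {π : Γ →* Multiplicative (Fin k → ℤ)}

namespace BModel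

variable (M : BModel S π) {σ : Type*} [Fintype σ]

/-- the box of a family, as a subset of the group `M.NN` -/
def NB (fam : σ → M.L) (s : ℝ) : Set M.NN := {n | M.E n ∈ Nb.Bx M.c fam s}

variable {M} {fam g g' : σ → M.L} {s t : ℝ} {x y : M.NN}

theorem mem_NB : x ∈ M.NB fam s ↔ M.E x ∈ Nb.Bx M.c fam s := Iff.rfl

theorem NB_mono (h : s ≤ t) : M.NB fam s ⊆ M.NB fam t := fun _ hx => Nb.Bx_mono h hx

theorem NB_one_mem (hs : 0 ≤ s) : (1 : M.NN) ∈ M.NB fam s := by
  rw [mem_NB, one_def, map_zero]; exact Nb.Bx_zero_mem hs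

theorem NB_inv (hx : x ∈ M.NB fam s) : x⁻¹ ∈ M.NB fam s := by
  rw [mem_NB, inv_def, map_neg]; exact Nb.Bx_neg hx


theorem E_inv (x : M.NN) : M.E x⁻¹ = - M.E x := by rw [inv_def, map_neg]

theorem E_conj (x y : M.NN) : M.E (x * y * x⁻¹) = M.star.cj (M.E x) (M.E y) := by
  rw [E_mul, E_mul, E_inv]; rfl

theorem E_prod (l : List M.NN) : M.E l.prod = M.star.prod (l.map M.E) := by
  induction l with
  | nil => rw [List.prod_nil, one_def, map_zero]; rfl
  | cons x l ih => rw [List.prod_cons, E_mul, ih, List.map_cons, Nb.Star.prod_cons]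

theorem Ad_mon {σ : Type*} (M : BModel S π) (a : M.G) (fam : σ → M.L) (κ : List σ) :
    Nb.mon (fun i => M.Ad a (fam i)) κ = M.Ad a (Nb.mon fam κ) := by
  induction κ with
  | nil => simp
  | cons i κ ih =>
    by_cases hκ : κ = []
    · subst hκ; rfl
    · rw [Nb.mon_cons _ i hκ, ih, Nb.mon_cons fam i hκ, M.Ad_lie]

theorem mem_Bx_Ad (a : M.G) (z : M.L) :
    M.Ad a z ∈ Nb.Bx M.c (fun i => M.Ad a (fam i)) s ↔ z ∈ Nb.Bx M.c fam s := by
  constructor
  · rintro ⟨c, hc, h⟩
    refine ⟨c, hc, (M.Ad a).injective ?_⟩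
    rw [h, map_sum]
    exact Finset.sum_congr rfl fun κ _ => by rw [Ad_mon, map_smul]
  · rintro ⟨c, hc, rfl⟩
    refine ⟨c, hc, ?_⟩
    rw [map_sum]
    exact Finset.sum_congr rfl fun κ _ => by rw [Ad_mon, map_smul]



theorem NB_eq_image (M : BModel S π) (fam : σ → M.L) (s : ℝ) :
    M.NB fam s = (fun a : (Nb.KL σ M.c) → ℝ => ∑ κ, a κ • M.E.symm (Nb.mon fam κ.1)) ''
      Set.pi Set.univ fun _ => Set.Icc (-s) s := by
  classical
  ext x
  constructor
  · rintro ⟨a, ha, hx⟩
    refine ⟨fun κ => a κ.1, fun κ _ => abs_le.1 (ha κ.1), ?_⟩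
    apply M.E.injective
    rw [hx, map_sum, ← Finset.sum_coe_sort (Nb.KL σ M.c) fun κ => a κ • Nb.mon fam κ]
    exact Finset.sum_congr rfl fun κ _ => by rw [map_smul, LinearEquiv.apply_symm_apply]
  · rintro ⟨a, ha, rfl⟩
    by_cases hs : 0 ≤ s
    · refine ⟨fun κ => if h : κ ∈ Nb.KL σ M.c then a ⟨κ, h⟩ else 0, fun κ => ?_, ?_⟩
      · beta_reduce
        split_ifs with h
        · exact abs_le.2 (ha ⟨κ, h⟩ (Set.mem_univ _))
        · rwa [abs_zero]
      · rw [map_sum, ← Finset.sum_coe_sort (Nb.KL σ M.c)]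
        refine Finset.sum_congr rfl fun κ _ => ?_
        rw [map_smul, LinearEquiv.apply_symm_apply]
        beta_reduce
        rw [dif_pos κ.2]
    · exfalso
      have hmem : ([] : List σ) ∈ Nb.KL σ M.c := Nb.mem_KL.2 (by simp)
      have h2 := ha ⟨[], hmem⟩ (Set.mem_univ _)
      rw [Set.mem_Icc] at h2
      linarith [h2.1, h2.2]

theorem isCompact_NB (M : BModel S π) (fam : σ → M.L) (s : ℝ) : IsCompact (M.NB fam s) := by
  rw [NB_eq_image]
  refine (isCompact_univ_pi fun _ => isCompact_Icc).image ?_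
  exact continuous_finsetSum _ fun κ _ => (continuous_apply κ).smul continuous_const

theorem measurableSet_NB (M : BModel S π) (fam : σ → M.L) (s : ℝ) :
    MeasurableSet (M.NB fam s) := (isCompact_NB M fam s).measurableSet

theorem volume_NB_lt_top (M : BModel S π) (fam : σ → M.L) (s : ℝ) :
    volume (M.NB fam s) < ⊤ := (isCompact_NB M fam s).measure_lt_top

theorem finrank_NN (M : BModel S π) : Module.finrank ℝ M.NN = M.r := by
  have : Module.finrank ℝ (Fin M.r → ℝ) = M.r := by simp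
  exact this

theorem volume_smul_NN (M : BModel S π) {r : ℝ} (hr : 0 < r) (A : Set M.NN) :
    volume (r • A) = ENNReal.ofReal (r ^ M.r) * volume A := by
  rw [Measure.addHaar_smul, finrank_NN, abs_of_pos (pow_pos hr _)]

theorem NB_smul {r : ℝ} (hr : 0 < r) : M.NB fam (r * s) = r • M.NB fam s := by
  ext x
  rw [mem_NB, Nb.Bx_eq_smul hr, Set.mem_smul_set]
  constructor
  · rintro ⟨y, hy, h⟩
    refine ⟨M.E.symm y, ?_, ?_⟩
    · rw [mem_NB, LinearEquiv.apply_symm_apply]; exact hy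
    · apply M.E.injective
      rw [map_smul, LinearEquiv.apply_symm_apply]; exact h
  · rintro ⟨y, hy, rfl⟩
    exact ⟨M.E y, hy, by rw [map_smul]⟩

theorem volume_NB_smul {r : ℝ} (hr : 0 < r) :
    volume (M.NB fam (r * s)) = ENNReal.ofReal (r ^ M.r) * volume (M.NB fam s) := by
  rw [NB_smul hr, volume_smul_NN M hr]


/-- the box of a family whose monomials span has positive volume -/
theorem volume_NB_pos (hN : Nb.Nil M.c fam)
    (hspan : ∀ x : M.L, x ∈ Submodule.span ℝ (Set.range fun κ : List σ => Nb.mon fam κ))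
    (hs : 0 < s) : 0 < volume (M.NB fam s) := by
  by_contra h
  have h0 : volume (M.NB fam s) = 0 := by simpa using h
  have h1 : ∀ n : ℕ, volume (M.NB fam ((n + 1 : ℝ) * s)) = 0 := by
    intro n
    rw [volume_NB_smul (by positivity), h0, mul_zero]
  have h2 : (⋃ n : ℕ, M.NB fam ((n + 1 : ℝ) * s)) = Set.univ := by
    rw [Set.eq_univ_iff_forall]
    intro x
    obtain ⟨t, ht, hx⟩ := Nb.exists_mem_Bx hspan hN (M.E x)
    obtain ⟨n, hn⟩ := exists_nat_gt (t / s)
    refine Set.mem_iUnion.2 ⟨n, Nb.Bx_mono ?_ hx⟩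
    rw [div_lt_iff₀ hs] at hn
    nlinarith
  have h3 : volume (⋃ n : ℕ, M.NB fam ((n + 1 : ℝ) * s)) = 0 := measure_iUnion_null h1
  rw [h2] at h3
  exact (isOpen_univ.measure_pos (volume : Measure M.NN) Set.univ_nonempty).ne' h3



end BModel

end Crest.Agent.R182.Core
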