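import Mathlib
import Crest.Agent.R182.BoxNN
import Crest.Agent.R182.BoxGen

-- ▼ part R182/BoxTop
section

set_option autoImplicit false
set_option linter.unusedSectionVars false

open MeasureTheory

namespace Crest.Agent.R182.Core

open Pointwise Topology

variable {Γ : Type*} [Group Γ] {k : ℕ} {S : Set Γ} {π : Γ →* Multiplicative (Fin k → ℤ)}

namespace BModel

variable {M : BModel S π} {σ : Type*} [Fintype σ] {fam g g' : σ → M.L} {s t : ℝ}

/-- the relation between `BModel.star_cj` and `Nb.Star.BCH1` -/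
theorem bch1 (M : BModel S π) : M.star.BCH1 M.c := fun x y => M.star_cj x y

theorem NB_mem_nhds (hspan : ∀ x : M.L, x ∈ Submodule.span ℝ (Set.range fun κ : List σ =>
    Nb.mon fam κ)) (hs : 0 < s) : M.NB fam s ∈ 𝓝 (1 : M.NN) := by
  classical
  have hN : Nb.Nil M.c fam := M.nilC.nil fam
  -- the linear parametrisation
  let T : ((Nb.KL σ M.c) → ℝ) →ₗ[ℝ] M.NN :=
    Fintype.linearCombination ℝ fun κ : Nb.KL σ M.c => M.E.symm (Nb.mon fam κ.1)
  have hT : ∀ a, T a = ∑ κ, a κ • M.E.symm (Nb.mon fam κ.1) := fun a =>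
    Fintype.linearCombination_apply _ _ _
  have hsurj : Function.Surjective T := by
    intro x
    obtain ⟨t, ht, a, ha, hx⟩ := Nb.exists_mem_Bx hspan hN (M.E x)
    refine ⟨fun κ => a κ.1, ?_⟩
    apply M.E.injective
    rw [hT, hx, map_sum, ← Finset.sum_coe_sort (Nb.KL σ M.c) fun κ => a κ • Nb.mon fam κ]
    exact Finset.sum_congr rfl fun κ _ => by rw [map_smul, LinearEquiv.apply_symm_apply]
  have hopen : IsOpenMap T := LinearMap.isOpenMap_of_finiteDimensional T hsurj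
  have hball : Metric.ball (0 : (Nb.KL σ M.c) → ℝ) s ∈ 𝓝 (0 : (Nb.KL σ M.c) → ℝ) :=
    Metric.ball_mem_nhds _ hs
  have h1 := hopen.image_mem_nhds hball
  rw [map_zero] at h1
  refine Filter.mem_of_superset h1 ?_
  rintro _ ⟨a, ha, rfl⟩
  rw [NB_eq_image]
  refine ⟨a, fun κ _ => ?_, (hT a).symm⟩
  rw [mem_ball_zero_iff] at ha
  have h2 := (norm_le_pi_norm a κ).trans ha.le
  rw [Real.norm_eq_abs] at h2
  exact abs_le.1 h2

instance : PreconnectedSpace M.NN :=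
  inferInstanceAs (PreconnectedSpace (Fin M.r → ℝ))

theorem closure_eq_top_of_mem_nhds {A : Set M.NN} (hA : A ∈ 𝓝 (1 : M.NN)) :
    Subgroup.closure A = ⊤ := by
  have h1 : IsOpen ((Subgroup.closure A : Subgroup M.NN) : Set M.NN) :=
    Subgroup.isOpen_of_mem_nhds _ (g := 1) (Filter.mem_of_superset hA Subgroup.subset_closure)
  have h2 : IsClosed ((Subgroup.closure A : Subgroup M.NN) : Set M.NN) :=
    Subgroup.isClosed_of_isOpen _ h1
  have h3 : ((Subgroup.closure A : Subgroup M.NN) : Set M.NN) = Set.univ :=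
    IsClopen.eq_univ ⟨h2, h1⟩ ⟨1, Subgroup.one_mem _⟩
  exact SetLike.coe_injective h3

theorem isCompact_pow {A : Set M.NN} (hA : IsCompact A) (n : ℕ) : IsCompact (A ^ n) := by
  induction n with
  | zero => rw [pow_zero]; exact isCompact_singleton
  | succ n ih => rw [pow_succ]; exact ih.mul hA

end BModel

end Crest.Agent.R182.Core

namespace Crest.Agent.R182.Nb

open Finset

variable {L : Type*} [LieRing L] [LieAlgebra ℝ L]

theorem rst_false {σ : Type*} (g : σ → L) : rst g (fun _ => False) = fun _ => 0 := by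
  funext i; unfold rst; simp

theorem Bx_zero_fam {σ : Type*} [Fintype σ] {c : ℕ} {s : ℝ} {x : L}
    (hx : x ∈ Bx c (fun _ : σ => (0 : L)) s) : x = 0 := by
  obtain ⟨a, _, rfl⟩ := hx
  refine Finset.sum_eq_zero fun κ _ => ?_
  have : mon (fun _ : σ => (0 : L)) κ = 0 := by
    induction κ with
    | nil => rfl
    | cons i κ ih =>
      by_cases hκ : κ = []
      · subst hκ; rfl
      · rw [mon_cons _ i hκ, zero_lie]
  rw [this, smul_zero]

/-- boxes of small families -/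
theorem exists_Bx_small (c : ℕ) (σ τ : Type*) [Fintype σ] [Fintype τ] :
    ∃ A : ℝ, 1 ≤ A ∧ ∀ {L : Type*} [LieRing L] [LieAlgebra ℝ L] (g : σ → L) (g' : τ → L), Nil c g →
      ∀ e, 0 ≤ e → e ≤ 1 → (∀ i, g' i ∈ Bx c g e) → ∀ s, 0 ≤ s → Bx c g' s ⊆ Bx c g (A * (e * s)) := by
  obtain ⟨A, hA, h⟩ := exists_Bx_split c σ τ 1 le_rfl
  refine ⟨A, hA, ?_⟩
  intro L _ _ g g' hN e he he1 hg s hs x hx
  obtain ⟨u, hu, k, hk, rfl⟩ := h g g' (fun _ => False) hN e he he1 (fun i hi => hi.elim)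
    (fun i _ => hg i) s hs x hx
  rw [rst_false] at hu
  rw [Bx_zero_fam hu, zero_add]
  exact hk

namespace Star

variable {S : Star L} {σ : Type*} [Fintype σ] {c : ℕ}

/-- **Bounded generation with partial products**: the factors are `r • g i`, `|r| ≤ A`, and all
partial products multiplied by an element of `Bx c g T` stay in `Bx c g A`. -/
theorem exists_gen_partial (hB : S.BCH1 c) (σ : Type*) [Fintype σ] (T : ℝ) (hT : 1 ≤ T) :
    ∃ (J : ℕ) (A : ℝ), 1 ≤ A ∧ ∀ g : σ → L, Nil c g → ∀ x ∈ Bx c g T, ∃ l : List (ℝ × σ),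
      l.length ≤ J ∧ (∀ p ∈ l, |p.1| ≤ A) ∧ S.prod (l.map fun p => p.1 • g p.2) = x ∧
      ∀ l', l' <+: l → ∀ s ∈ Bx c g T, S.op s (S.prod (l'.map fun p => p.1 • g p.2)) ∈ Bx c g A := by
  obtain ⟨J, A, hA, h⟩ := exists_gen (S := S) hB σ T (by linarith)
  set T' : ℝ := T + A with hT'
  obtain ⟨A', hA', h'⟩ := S.exists_prod_mem_T c σ T' (by linarith) (J + 1)
  refine ⟨J, A' * T' + A, by nlinarith, fun g hN x hx => ?_⟩
  obtain ⟨l, h1, h2, h3⟩ := h g hN x hx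
  refine ⟨l, h1, fun p hp => (h2 p hp).trans (by nlinarith), h3, fun l' hl' s hs => ?_⟩
  have h4 := h' g hN T' (by linarith) le_rfl (s :: l'.map fun p => p.1 • g p.2) (by
      rw [List.length_cons, List.length_map]
      have := hl'.length_le
      omega) (by
      intro y hy
      rcases List.mem_cons.1 hy with rfl | hy
      · exact Bx_mono (by linarith) hs
      · obtain ⟨p, hp, rfl⟩ := List.mem_map.1 hy
        have h5 := h2 p (hl'.subset hp)
        refine Bx_mono ?_ (Bx_smul (gen_mem_Bx hN p.2) p.1)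
        linarith)
  rw [S.prod_cons] at h4
  exact Bx_mono (by linarith) h4

end Star

end Crest.Agent.R182.Nb
end

-- ▼ part R182/BoxFacts

set_option autoImplicit false
set_option linter.unusedSectionVars false

open MeasureTheory

namespace Crest.Agent.R182.Nb

open Finset

variable {L : Type*} [LieRing L] [LieAlgebra ℝ L] {σ : Type*} [Fintype σ] {c : ℕ} {g g' : σ → L}
  {t s : ℝ} {x : L}

theorem Bx_small_fam {δ : ℝ} (hδ : 0 < δ) (hδ1 : δ ≤ 1) (ht : 0 ≤ t) (hx : x ∈ Bx c g (δ ^ c * t)) :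
    x ∈ Bx c (fun i => δ • g i) t := by
  have h1 : x ∈ Bx c (fun i => δ⁻¹ • ((fun i => δ • g i) i)) (δ ^ c * t) := by
    have : (fun i => δ⁻¹ • ((fun i => δ • g i) i)) = g := by
      funext i; rw [smul_smul, inv_mul_cancel₀ hδ.ne', one_smul]
    rw [this]; exact hx
  have h2 := Bx_unscale (one_le_inv₀ hδ |>.2 hδ1) (by positivity) h1
  refine Bx_mono (le_of_eq ?_) h2
  rw [← mul_assoc, ← mul_pow, inv_mul_cancel₀ hδ.ne', one_pow, one_mul]

theorem Bx_of_small_fam {δ : ℝ} (hδ : 0 < δ) (hδ1 : δ ≤ 1) (ht : 0 ≤ t)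
    (hx : x ∈ Bx c (fun i => δ • g i) t) : x ∈ Bx c g (δ * t) := by
  have h2 := Bx_scale (one_le_inv₀ hδ |>.2 hδ1) ht hx
  have : (fun i => δ⁻¹ • ((fun i => δ • g i) i)) = g := by
    funext i; rw [smul_smul, inv_mul_cancel₀ hδ.ne', one_smul]
  have h3 : (fun i => δ⁻¹ • δ • g i) = g := this
  rw [h3] at h2
  refine Bx_mono (le_of_eq ?_) h2
  rw [div_inv_eq_mul, mul_comm]

theorem rst_congr' {w : σ → Prop} [DecidablePred w] (h : ∀ i, w i → g i = g' i) :
    rst g w = rst g' w := by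
  funext i
  unfold rst
  split_ifs with hi
  · exact h i hi
  · rfl

theorem Bx_rst_le {w : σ → Prop} [DecidablePred w] (hs : 0 ≤ s) : Bx c (rst g w) s ⊆ Bx c g s := by
  classical
  rintro x ⟨a, ha, rfl⟩
  refine ⟨fun κ => if ∀ i ∈ κ, w i then a κ else 0, fun κ => ?_, ?_⟩
  · beta_reduce
    split_ifs
    · exact ha κ
    · rwa [abs_zero]
  · refine Finset.sum_congr rfl fun κ _ => ?_
    beta_reduce
    by_cases h : ∀ i ∈ κ, w i
    · rw [if_pos h, mon_rst_of w h]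
    · rw [if_neg h, zero_smul, mon_rst_not w h, smul_zero]

/-- **monotonicity of boxes**: the letters in `w` are the same, the others are small. -/
theorem exists_Bx_mono (c : ℕ) (σ : Type*) [Fintype σ] :
    ∃ A : ℝ, 1 ≤ A ∧ ∀ {L : Type*} [LieRing L] [LieAlgebra ℝ L] (g g' : σ → L) (w : σ → Prop)
      [DecidablePred w], Nil c g → ∀ e, 0 ≤ e → e ≤ 1 → (∀ i, w i → g' i = g i) →
      (∀ i, ¬ w i → g' i ∈ Bx c g e) → ∀ s, 0 ≤ s → Bx c g' s ⊆ Bx c g (s + A * e * s) := by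
  obtain ⟨A, hA, h⟩ := exists_Bx_split c σ σ 1 le_rfl
  refine ⟨A, hA, ?_⟩
  intro L _ _ g g' w _ hN e he he1 hw hw' s hs x hx
  obtain ⟨u, hu, k, hk, rfl⟩ := h g g' w hN e he he1
    (fun i hi => by rw [hw i hi]; exact gen_mem_Bx hN i) hw' s hs x hx
  rw [rst_congr' hw] at hu
  refine Bx_mono (le_of_eq ?_) (Bx_add (Bx_rst_le hs hu) hk)
  ring

namespace Star

variable {S : Star L}

/-- **Bounded generation of small boxes**, with partial products. -/
theorem exists_gen_small (hB : S.BCH1 c) (σ : Type*) [Fintype σ] :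
    ∃ (J : ℕ) (δ : ℝ), 0 < δ ∧ δ ≤ 1 ∧ ∀ g : σ → L, Nil c g → ∀ x ∈ Bx c g δ, ∃ l : List (ℝ × σ),
      l.length ≤ J ∧ (∀ p ∈ l, |p.1| ≤ 1) ∧ S.prod (l.map fun p => p.1 • g p.2) = x ∧
      ∀ l', l' <+: l → ∀ s ∈ Bx c g δ, S.op s (S.prod (l'.map fun p => p.1 • g p.2)) ∈ Bx c g 1 := by
  obtain ⟨J, A, hA, h⟩ := exists_gen_partial (S := S) hB σ 1 le_rfl
  have hA0 : 0 < A := by linarith
  have hδ1 : A⁻¹ ≤ 1 := inv_le_one_of_one_le₀ hA
  have hδ0 : 0 < A⁻¹ := inv_pos.2 hA0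
  refine ⟨J, A⁻¹ ^ c, by positivity, pow_le_one₀ hδ0.le hδ1, fun g hN x hx => ?_⟩
  have hN' : Nil c (fun i => A⁻¹ • g i) := hN.smul
  have hx' : x ∈ Bx c (fun i => A⁻¹ • g i) 1 := Bx_small_fam hδ0 hδ1 zero_le_one (by rwa [mul_one])
  obtain ⟨l, h1, h2, h3, h4⟩ := h _ hN' x hx'
  have e : ∀ l : List (ℝ × σ), (l.map fun p : ℝ × σ => (p.1 * A⁻¹, p.2)).map
      (fun p => p.1 • g p.2) = l.map fun p => p.1 • A⁻¹ • g p.2 := by
    intro l
    rw [List.map_map]
    refine List.map_congr_left fun p _ => ?_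
    change (p.1 * A⁻¹) • g p.2 = _
    rw [mul_smul]
  refine ⟨l.map fun p => (p.1 * A⁻¹, p.2), by rwa [List.length_map], ?_, ?_, ?_⟩
  · intro p hp
    obtain ⟨q, hq, rfl⟩ := List.mem_map.1 hp
    change |q.1 * A⁻¹| ≤ 1
    rw [abs_mul, abs_of_pos hδ0]
    calc |q.1| * A⁻¹ ≤ A * A⁻¹ := by gcongr; exact h2 q hq
      _ = 1 := mul_inv_cancel₀ hA0.ne'
  · rw [e]; exact h3
  · intro l' hl' s hs
    obtain ⟨l'', hl'', rfl⟩ := List.prefix_map_iff.1 hl'
    rw [e]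
    have h5 := h4 l'' hl'' s (Bx_small_fam hδ0 hδ1 zero_le_one (by rwa [mul_one]))
    refine Bx_mono (le_of_eq ?_) (Bx_of_small_fam hδ0 hδ1 hA0.le h5)
    exact inv_mul_cancel₀ hA0.ne'

end Star

end Crest.Agent.R182.Nb

namespace Crest.Agent.R182.Core

open Pointwise Topology

variable {Γ : Type*} [Group Γ] {k : ℕ} {S : Set Γ} {π : Γ →* Multiplicative (Fin k → ℤ)}

namespace BModel

variable {M : BModel S π}

/-- powers of small boxes -/
theorem exists_NB_pow (M : BModel S π) (σ : Type*) [Fintype σ] (q : ℕ) (δ : ℝ) (hδ : 0 < δ)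
    (hδ1 : δ ≤ 1) : ∃ c₁ : ℝ, 0 < c₁ ∧ c₁ ≤ δ ∧ ∀ (fam : σ → M.L), ∀ n ≤ q,
      (M.NB fam c₁) ^ n ⊆ M.NB fam δ := by
  obtain ⟨A, hA, h⟩ := M.star.exists_prod_mem_T M.c σ 1 le_rfl q
  have hA0 : 0 < A := by linarith
  refine ⟨δ / A, by positivity, div_le_self hδ.le hA, fun fam n hn u hu => ?_⟩
  obtain ⟨f, rfl⟩ := Set.mem_pow.1 hu
  rw [mem_NB, E_prod]
  have h1 := h fam (M.nilC.nil fam) (δ / A) (by positivity)
    ((div_le_self hδ.le hA).trans hδ1) ((List.ofFn fun i => (f i : M.NN)).map M.E)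
    (by rw [List.length_map, List.length_ofFn]; exact hn) (by
      intro x hx
      obtain ⟨y, hy, rfl⟩ := List.mem_map.1 hx
      obtain ⟨i, rfl⟩ := List.mem_ofFn.1 hy
      exact (f i).2)
  refine Nb.Bx_mono (le_of_eq ?_) h1
  field_simp

/-- **bounded generation** of the small boxes by the one-parameter moves, with partial products -/
theorem exists_NB_gen (M : BModel S π) (σ : Type*) [Fintype σ] :
    ∃ (J : ℕ) (c₁ : ℝ), 0 < c₁ ∧ c₁ ≤ 1 ∧ ∀ fam : σ → M.L,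
      (∀ n ≤ 10, (M.NB fam c₁) ^ n ⊆ M.NB fam 1) ∧
      ∀ u ∈ (M.NB fam c₁) ^ 10, ∃ l : List (ℝ × σ), l.length ≤ J ∧ (∀ p ∈ l, |p.1| ≤ 1) ∧
        (l.map fun p => M.E.symm (p.1 • fam p.2)).prod = u ∧
        ∀ l', l' <+: l → ∀ s ∈ (M.NB fam c₁) ^ 5,
          s * (l'.map fun p => M.E.symm (p.1 • fam p.2)).prod ∈ M.NB fam 1 := by
  obtain ⟨J, δ, hδ, hδ1, h⟩ := Nb.Star.exists_gen_small (bch1 M) σ
  obtain ⟨c₁, hc, hc1, h'⟩ := exists_NB_pow M σ 10 δ hδ hδ1
  refine ⟨J, c₁, hc, hc1.trans hδ1, fun fam => ⟨fun n hn => (h' fam n hn).trans (NB_mono hδ1), ?_⟩⟩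
  intro u hu
  obtain ⟨l, h1, h2, h3, h4⟩ := h fam (M.nilC.nil fam) (M.E u) (h' fam 10 le_rfl hu)
  have e : ∀ l : List (ℝ × σ), M.E (l.map fun p => M.E.symm (p.1 • fam p.2)).prod =
      M.star.prod (l.map fun p => p.1 • fam p.2) := by
    intro l
    rw [E_prod, List.map_map]
    congr 1
    refine List.map_congr_left fun p _ => ?_
    exact LinearEquiv.apply_symm_apply _ _
  refine ⟨l, h1, h2, M.E.injective (by rw [e, h3]), fun l' hl' s hs => ?_⟩
  rw [mem_NB, E_mul, e]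
  exact h4 l' hl' _ (h' fam 5 (by norm_num) hs)

/-- the moves of the bounded generation -/
theorem E_symm_mem_rst {σ : Type*} [Fintype σ] {fam : σ → M.L} {w : σ → Prop} [DecidablePred w]
    {i : σ} (hi : w i) {r : ℝ} (hr : |r| ≤ 1) :
    M.E.symm (r • fam i) ∈ M.NB (Nb.rst fam w) 1 := by
  rw [mem_NB, LinearEquiv.apply_symm_apply]
  have h1 := Nb.Bx_smul (Nb.gen_mem_Bx (M.nilC.nil (Nb.rst fam w)) i) r
  have h2 : Nb.rst fam w i = fam i := if_pos hi
  rw [h2] at h1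
  exact Nb.Bx_mono (by linarith) h1

/-- **monotonicity** -/
theorem exists_NB_mono' (M : BModel S π) (σ : Type*) [Fintype σ] :
    ∃ A : ℝ, 1 ≤ A ∧ ∀ (g g' : σ → M.L) (w : σ → Prop) [DecidablePred w], ∀ e, 0 ≤ e → e ≤ 1 →
      (∀ i, w i → g' i = g i) → (∀ i, ¬ w i → g' i ∈ Nb.Bx M.c g e) → ∀ s, 0 ≤ s →
      M.NB g' s ⊆ M.NB g (s + A * e * s) := by
  obtain ⟨A, hA, h⟩ := Nb.exists_Bx_mono M.c σ
  refine ⟨A, hA, ?_⟩
  intro g g' w _ e he he1 hw hw' s hs x hx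
  exact h g g' w (M.nilC.nil g) e he he1 hw hw' s hs hx

theorem pow_meas {A : Set M.NN} (hA : IsCompact A) (n : ℕ) : MeasurableSet (A ^ n) :=
  (isCompact_pow hA n).measurableSet

end BModel

end Crest.Agent.R182.Core
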