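/-
R182, module BOXREACH (helper329): the reachable set of bounded heights is contained in a box
(containment form of REACH), over `Core.BModel`.
-/
import Mathlib
import Crest.Agent.R182.CoreN
import Crest.Agent.R182.BoxFam
import Crest.Agent.R182.NbGen

set_option autoImplicit false
set_option linter.unusedSectionVars false

namespace Crest.Agent.R182.Nb

open Finset

variable {L : Type*} [LieRing L] [LieAlgebra ℝ L] {σ : Type*} [Fintype σ]

/-- **products of many elements**, polynomial form -/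
theorem Star.exists_prod_poly (S : Star L) (σ : Type*) [Fintype σ] (c : ℕ) (hL : NilC c L) :
    ∃ A : ℝ, 1 ≤ A ∧ ∀ g : σ → L, ∀ T : ℝ, 1 ≤ T → ∀ l : List L, (∀ x ∈ l, x ∈ Bx c g T) →
      S.prod l ∈ Bx c g (A * ((1 + l.length) * T) ^ c) := by
  obtain ⟨C, hC, h⟩ := S.exists_prod_mem σ c hL
  refine ⟨2 * C ^ c, by nlinarith [one_le_pow₀ (n := c) hC], fun g T hT l hl => ?_⟩
  have hn : (0:ℝ) ≤ l.length := Nat.cast_nonneg _
  set R : ℝ := C * (l.length + 1) with hR
  have hR1 : 1 ≤ R := by nlinarith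
  have h1 := h (fun i => T • g i) l (fun x hx => by
    have := Bx_scale hT (by linarith : (0:ℝ) ≤ T) (hl x hx)
    rwa [div_self (by linarith : T ≠ 0)] at this) R le_rfl
  have h2 := Bx_unscale hR1 (by positivity) h1
  have h3 := Bx_unscale hT (by positivity) h2
  refine Bx_mono ?_ h3
  have h4 : 2 * (l.length : ℝ) / R ≤ 2 := by
    rw [div_le_iff₀ (by linarith)]
    nlinarith
  have h5 : (0:ℝ) ≤ T ^ c * R ^ c := by positivity
  calc T ^ c * (R ^ c * (2 * l.length / R)) = (T ^ c * R ^ c) * (2 * l.length / R) := by ring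
    _ ≤ (T ^ c * R ^ c) * 2 := mul_le_mul_of_nonneg_left h4 h5
    _ = 2 * C ^ c * ((1 + l.length) * T) ^ c := by
      rw [hR, mul_pow, mul_pow, add_comm (1:ℝ)]
      ring

end Crest.Agent.R182.Nb

namespace Crest.Agent.R182.Core

open Crest.GroupTheory Crest.Geometry Crest.Agent.R182.QI Crest.Agent.R182.FinPath
  Crest.Agent.R182.FinRed Crest.Agent.R182.Bnd Nb

variable {Γ : Type*} [Group Γ] {k : ℕ} {S : Set Γ} {π : Γ →* Multiplicative (Fin k → ℤ)}

namespace BModel

variable (M : BModel S π)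

/-- every basis vector is a combination of monomials of its own weight in the generators -/
def MonSpan (M : BModel S π) : Prop := ∀ i : Fin M.r,
  M.bas i ∈ Submodule.span ℝ {x : M.L | ∃ κ : List (GI M), (κ.map (wg M)).sum = M.wt i ∧
    x = mon (eg M) κ}

/-- projection onto a weight space -/
noncomputable def wpr (M : BModel S π) (ν : (Fin k → ℝ) →ₗ[ℝ] ℝ) : M.L →ₗ[ℝ] M.L :=
  M.bas.constr ℝ fun i => by classical exact if M.wt i = ν then M.bas i else 0

theorem wpr_apply (ν : (Fin k → ℝ) →ₗ[ℝ] ℝ) (x : M.L) :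
    M.wpr ν x = ∑ i, M.bas.repr x i • (by classical exact if M.wt i = ν then M.bas i else 0) := by
  rw [wpr, Module.Basis.constr_apply_fintype]
  rfl

theorem wpr_mon (ν : (Fin k → ℝ) →ₗ[ℝ] ℝ) (κ : List (GI M)) (h : (κ.map (wg M)).sum = ν) :
    M.wpr ν (mon (eg M) κ) = mon (eg M) κ := by
  classical
  rw [wpr_apply]
  conv_rhs => rw [← M.bas.sum_repr (mon (eg M) κ)]
  refine Finset.sum_congr rfl fun i _ => ?_
  by_cases hi : M.bas.repr (mon (eg M) κ) i = 0
  · rw [hi, zero_smul, zero_smul]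
  · have h1 := mon_wt M (fun i : GI M => (i : Fin M.r)) κ i hi
    have h2 : M.wt i = ν := h1.trans h
    rw [if_pos h2]

theorem wpr_mon_ne (ν : (Fin k → ℝ) →ₗ[ℝ] ℝ) (κ : List (GI M)) (h : (κ.map (wg M)).sum ≠ ν) :
    M.wpr ν (mon (eg M) κ) = 0 := by
  classical
  rw [wpr_apply]
  refine Finset.sum_eq_zero fun i _ => ?_
  by_cases hi : M.bas.repr (mon (eg M) κ) i = 0
  · rw [hi, zero_smul]
  · have h1 := mon_wt M (fun i : GI M => (i : Fin M.r)) κ i hi
    have h2 : ¬ M.wt i = ν := fun h2 => h (h1.symm.trans h2)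
    rw [if_neg h2, smul_zero]

theorem monSpan : M.MonSpan := by
  classical
  intro i
  have h1 : M.bas i ∈ Submodule.span ℝ (Set.range fun κ : List (GI M) => mon (eg M) κ) := by
    have := span_mon M
    unfold Pm at this
    rw [this]; exact Submodule.mem_top
  have h2 : M.wpr (M.wt i) (M.bas i) = M.bas i := by
    rw [wpr, Module.Basis.constr_basis, if_pos rfl]
  have h3 : ∀ x ∈ Submodule.span ℝ (Set.range fun κ : List (GI M) => mon (eg M) κ),
      M.wpr (M.wt i) x ∈ Submodule.span ℝ {x : M.L | ∃ κ : List (GI M),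
        (κ.map (wg M)).sum = M.wt i ∧ x = mon (eg M) κ} := by
    intro x hx
    induction hx using Submodule.span_induction with
    | mem x hx =>
      obtain ⟨κ, rfl⟩ := hx
      by_cases h : (κ.map (wg M)).sum = M.wt i
      · rw [M.wpr_mon _ κ h]; exact Submodule.subset_span ⟨κ, h, rfl⟩
      · rw [M.wpr_mon_ne _ κ h]; exact Submodule.zero_mem _
    | zero => rw [map_zero]; exact Submodule.zero_mem _
    | add x y _ _ hx hy => rw [map_add]; exact Submodule.add_mem _ hx hy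
    | smul a x _ hx => rw [map_smul]; exact Submodule.smul_mem _ _ hx
  have h4 := h3 _ h1
  rwa [h2] at h4

theorem sum_wt_apply (κ : List (GI M)) (u : Fin k → ℝ) :
    (κ.map (wg M)).sum u = (κ.map fun j => wg M j u).sum := by
  induction κ with
  | nil => simp
  | cons i κ ih => simp only [List.map_cons, List.sum_cons, LinearMap.add_apply, ih]

theorem bas_mem : ∃ A : ℝ, 0 ≤ A ∧ ∀ (i : Fin M.r) (Z : GI M → ℝ)
    (u : Fin k → ℝ), (∀ j : GI M, wg M j u ≤ Z j) →
      Real.exp (M.wt i u) • M.bas i ∈ Bx M.c (gZ (eg M) Z) A := by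
  have key : ∀ i : Fin M.r, ∃ A : ℝ, 0 ≤ A ∧ ∀ (Z : GI M → ℝ) (u : Fin k → ℝ),
      (∀ j : GI M, wg M j u ≤ Z j) → Real.exp (M.wt i u) • M.bas i ∈ Bx M.c (gZ (eg M) Z) A := by
    intro i
    have h := M.monSpan i
    generalize M.bas i = x at h
    induction h using Submodule.span_induction with
    | mem x hx =>
      obtain ⟨κ, hκ, rfl⟩ := hx
      refine ⟨1, zero_le_one, fun Z u hZ => ?_⟩
      have h1 : Real.exp (M.wt i u) • mon (eg M) κ =
          Real.exp (M.wt i u - (κ.map Z).sum) • mon (gZ (eg M) Z) κ := by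
        rw [mon_gZ, smul_smul, ← Real.exp_add]; congr 2; ring
      rw [h1]
      have h2 : M.wt i u ≤ (κ.map Z).sum := by
        rw [← hκ, M.sum_wt_apply]; exact sum_map_le hZ
      have h3 := Bx_smul (mon_mem_Bx ((M.nilC.nil (eg M)).gZ Z) κ)
        (Real.exp (M.wt i u - (κ.map Z).sum))
      refine Bx_mono ?_ h3
      rw [abs_of_pos (Real.exp_pos _), mul_one]
      exact Real.exp_le_one_iff.2 (by linarith)
    | zero => exact ⟨0, le_rfl, fun Z u _ => by rw [smul_zero]; exact Bx_zero_mem le_rfl⟩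
    | add x y _ _ hx hy =>
      obtain ⟨A, hA, h1⟩ := hx
      obtain ⟨B, hB, h2⟩ := hy
      exact ⟨A + B, add_nonneg hA hB, fun Z u hZ => by
        rw [smul_add]; exact Bx_add (h1 Z u hZ) (h2 Z u hZ)⟩
    | smul a x _ hx =>
      obtain ⟨A, hA, h1⟩ := hx
      exact ⟨|a| * A, by positivity, fun Z u hZ => by
        rw [smul_comm]; exact Bx_smul (h1 Z u hZ) a⟩
  choose A hA h using key
  refine ⟨∑ i, A i, Finset.sum_nonneg fun i _ => hA i, fun i Z u hZ => ?_⟩
  exact Bx_mono (Finset.single_le_sum (f := A) (fun j _ => hA j) (Finset.mem_univ i)) (h i Z u hZ)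

/-- the image of a bounded element under a vertical word whose heights are `≤ Z` -/
theorem ad_mem (R R' : ℝ) : ∃ A : ℝ, 1 ≤ A ∧ ∀ l : List M.G,
    (∀ s ∈ l, s ∈ M.C ∧ M.len s ≤ R) → ∀ x : M.L, ‖M.bas.equivFun x‖ ≤ R' → ∀ Z : GI M → ℝ,
      (∀ j : GI M, wg M j (M.h l.prod) ≤ Z j) →
      M.Ad l.prod x ∈ Bx M.c (gZ (eg M) Z) (A * (1 + l.length) ^ M.d) := by
  obtain ⟨A₀, hA₀, h0⟩ := M.bas_mem
  obtain ⟨A₁, h1⟩ := M.Ad_C_le R
  refine ⟨(M.r : ℝ) * M.r * (|R'| * |A₁| * A₀) + 1, by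
    have : 0 ≤ (M.r : ℝ) * M.r * (|R'| * |A₁| * A₀) := by positivity
    linarith, fun l hl x hx Z hZ => ?_⟩
  have hx1 : x = ∑ j, M.bas.equivFun x j • M.bas j := (M.bas.sum_equivFun x).symm
  have hn : (1:ℝ) ≤ (1 + (l.length : ℝ)) ^ M.d :=
    one_le_pow₀ (by linarith [Nat.cast_nonneg (α := ℝ) l.length])
  have h2 : M.Ad l.prod x = ∑ j, ∑ i, (M.bas.equivFun x j * M.bas.repr (M.Ad l.prod (M.bas j)) i *
      Real.exp (-(M.wt i (M.h l.prod)))) • (Real.exp (M.wt i (M.h l.prod)) • M.bas i) := by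
    conv_lhs => rw [hx1, map_sum]
    refine Finset.sum_congr rfl fun j _ => ?_
    rw [map_smul]
    conv_lhs => rw [← M.bas.sum_repr (M.Ad l.prod (M.bas j)), Finset.smul_sum]
    refine Finset.sum_congr rfl fun i _ => ?_
    rw [smul_smul, smul_smul, mul_assoc, ← Real.exp_add, neg_add_cancel, Real.exp_zero, mul_one]
  rw [h2]
  have h3 : ∀ j i, (M.bas.equivFun x j * M.bas.repr (M.Ad l.prod (M.bas j)) i *
      Real.exp (-(M.wt i (M.h l.prod)))) • (Real.exp (M.wt i (M.h l.prod)) • M.bas i) ∈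
      Bx M.c (gZ (eg M) Z) ((|R'| * |A₁| * A₀) * (1 + l.length) ^ M.d) := by
    intro j i
    refine Bx_mono ?_ (Bx_smul (h0 i Z _ hZ) _)
    rw [abs_mul, abs_mul, abs_of_pos (Real.exp_pos _)]
    have e1 : |M.bas.equivFun x j| ≤ |R'| := by
      have := norm_le_pi_norm (M.bas.equivFun x) j
      rw [Real.norm_eq_abs] at this
      exact (this.trans hx).trans (le_abs_self _)
    have e2 : |M.bas.repr (M.Ad l.prod (M.bas j)) i| * Real.exp (-(M.wt i (M.h l.prod))) ≤
        |A₁| * (1 + l.length) ^ M.d := by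
      have h4 := h1 l hl i j
      have h5 : |M.bas.repr (M.Ad l.prod (M.bas j)) i| ≤
          |A₁| * (1 + l.length) ^ M.d * Real.exp (M.wt i (M.h l.prod)) := by
        refine h4.trans ?_
        gcongr
        exact le_abs_self _
      calc _ ≤ |A₁| * (1 + l.length) ^ M.d * Real.exp (M.wt i (M.h l.prod)) *
            Real.exp (-(M.wt i (M.h l.prod))) := by gcongr
        _ = _ := by rw [mul_assoc, ← Real.exp_add, add_neg_cancel, Real.exp_zero, mul_one]
    calc |M.bas.equivFun x j| * |M.bas.repr (M.Ad l.prod (M.bas j)) i| *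
          Real.exp (-(M.wt i (M.h l.prod))) * A₀
        = |M.bas.equivFun x j| * (|M.bas.repr (M.Ad l.prod (M.bas j)) i| *
          Real.exp (-(M.wt i (M.h l.prod)))) * A₀ := by ring
      _ ≤ |R'| * (|A₁| * (1 + l.length) ^ M.d) * A₀ := by gcongr
      _ = _ := by ring
  refine Bx_mono ?_ (Bx_sum _ _ _ fun j _ => Bx_sum _ _ _ fun i _ => h3 j i)
  rw [Finset.sum_const, Finset.sum_const, Finset.card_univ, Fintype.card_fin, nsmul_eq_mul,
    nsmul_eq_mul, add_mul, one_mul]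
  have : (M.r : ℝ) * (M.r * ((|R'| * |A₁| * A₀) * (1 + l.length) ^ M.d)) =
      (M.r : ℝ) * M.r * (|R'| * |A₁| * A₀) * (1 + l.length) ^ M.d := by ring
  rw [this]
  linarith

/-- pushing an element of `E` to the left -/
theorem mul_ex (g : M.G) (x : M.L) : g * M.ex x = M.ex (M.Ad g x) * g := by
  rw [← M.conj_ex]; group


theorem ex_zero : M.ex 0 = 1 := by
  have h := M.ex_op 0 0
  rw [M.star.op_zero] at h
  exact mul_eq_left.1 h.symm

/-- **Containment form of REACH** (from an arbitrary start). -/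
theorem reach_mem (R R₀ : ℝ) : ∃ (A : ℝ) (D : ℕ), 1 ≤ A ∧
    ∀ (Z : GI M → ℝ) (p : ℕ → M.G) (m : ℕ) (x₀ : M.L) (l₀ : List M.G),
      (∀ s ∈ l₀, s ∈ M.C ∧ M.len s ≤ R₀) → p 0 = M.ex x₀ * l₀.prod →
      (∀ j < m, M.len ((p j)⁻¹ * p (j + 1)) ≤ R) →
      (∀ j ≤ m, ∀ i : GI M, wg M i (M.h (p j)) ≤ Z i) →
      ∃ (y : M.L) (l : List M.G), l.length = m ∧ (∀ s ∈ l, s ∈ M.C ∧ M.len s ≤ A) ∧
        p m = M.ex (M.star.op x₀ y) * (l₀.prod * l.prod) ∧
        y ∈ Bx M.c (gZ (eg M) Z) (A * (1 + l₀.length + m) ^ D) := by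
  obtain ⟨R', hdec⟩ := M.dec R
  obtain ⟨A₁, hA₁, hpow⟩ := M.star.exists_prod_poly (GI M) M.c M.nilC
  obtain ⟨A₂, hA₂, had⟩ := M.ad_mem (max R₀ R') R'
  refine ⟨max (max 1 R') (A₁ * A₂ ^ M.c), (1 + M.d) * M.c, le_max_of_le_left (le_max_left _ _), ?_⟩
  intro Z p m x₀ l₀ hl₀ hp0 hstep hhgt
  set A : ℝ := max (max 1 R') (A₁ * A₂ ^ M.c) with hA
  have hR'A : R' ≤ A := le_max_of_le_left (le_max_right _ _)
  have key : ∀ j ≤ m, ∃ (xs : List M.L) (l : List M.G), xs.length = j ∧ l.length = j ∧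
      (∀ s ∈ l, s ∈ M.C ∧ M.len s ≤ R') ∧
      p j = M.ex (M.star.op x₀ (M.star.prod xs)) * (l₀.prod * l.prod) ∧
      ∀ x ∈ xs, x ∈ Bx M.c (gZ (eg M) Z) (A₂ * (1 + (l₀.length + m : ℕ)) ^ M.d) := by
    intro j
    induction j with
    | zero =>
      intro _
      refine ⟨[], [], rfl, rfl, by simp, ?_, by simp⟩
      rw [Nb.Star.prod_nil, M.star.op_zero, List.prod_nil, mul_one]; exact hp0
    | succ j ih =>
      intro hj
      obtain ⟨xs, l, h1, h2, h3, h4, h5⟩ := ih (by omega)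
      obtain ⟨x, g', hg', hs', hx, hlen⟩ := hdec _ (hstep j (by omega))
      have hlet : ∀ s ∈ l₀ ++ l, s ∈ M.C ∧ M.len s ≤ max R₀ R' := by
        intro s hs
        rcases List.mem_append.1 hs with h | h
        · exact ⟨(hl₀ s h).1, (hl₀ s h).2.trans (le_max_left _ _)⟩
        · exact ⟨(h3 s h).1, (h3 s h).2.trans (le_max_right _ _)⟩
      have hh : M.h (p j) = M.h (l₀ ++ l).prod := by
        rw [h4, M.h_mul, M.h_ex, zero_add, List.prod_append]
      have hy := had (l₀ ++ l) hlet x hx Z (fun i => by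
        rw [← hh]; exact hhgt j (by omega) i)
      refine ⟨xs ++ [M.Ad (l₀ ++ l).prod x], l ++ [g'], by simp [h1], by simp [h2], ?_, ?_, ?_⟩
      · intro s hs
        rcases List.mem_append.1 hs with h | h
        · exact h3 s h
        · rw [List.mem_singleton.1 h]; exact ⟨hg', hlen⟩
      · have e1 : p (j + 1) = p j * ((p j)⁻¹ * p (j + 1)) := by group
        rw [e1, hs', h4, Nb.Star.prod_append, Nb.Star.prod_cons, Nb.Star.prod_nil, M.star.op_zero,
          ← M.star.assoc, M.ex_op (M.star.op x₀ (M.star.prod xs)), List.prod_append,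
          List.prod_append, List.prod_singleton]
        have e2 := M.mul_ex (l₀.prod * l.prod) x
        calc M.ex (M.star.op x₀ (M.star.prod xs)) * (l₀.prod * l.prod) * (M.ex x * g')
            = M.ex (M.star.op x₀ (M.star.prod xs)) * ((l₀.prod * l.prod) * M.ex x) * g' := by
              group
          _ = M.ex (M.star.op x₀ (M.star.prod xs)) *
              (M.ex (M.Ad (l₀.prod * l.prod) x) * (l₀.prod * l.prod)) * g' := by rw [e2]
          _ = _ := by group
      · intro z hz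
        rcases List.mem_append.1 hz with h | h
        · exact h5 z h
        · rw [List.mem_singleton.1 h]
          refine Bx_mono ?_ hy
          have h6 : (l₀ ++ l).length ≤ l₀.length + m := by
            rw [List.length_append, h2]; omega
          have h7 : (((l₀ ++ l).length : ℕ) : ℝ) ≤ ((l₀.length + m : ℕ) : ℝ) := by exact_mod_cast h6
          gcongr
  obtain ⟨xs, l, h1, h2, h3, h4, h5⟩ := key m le_rfl
  refine ⟨M.star.prod xs, l, h2, fun s hs => ⟨(h3 s hs).1, (h3 s hs).2.trans hR'A⟩, h4, ?_⟩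
  have hn : (1:ℝ) ≤ 1 + ((l₀.length + m : ℕ) : ℝ) := by
    have : (0:ℝ) ≤ ((l₀.length + m : ℕ) : ℝ) := Nat.cast_nonneg _
    linarith
  have hT : (1:ℝ) ≤ A₂ * (1 + ((l₀.length + m : ℕ) : ℝ)) ^ M.d := by
    have := one_le_pow₀ (n := M.d) hn
    nlinarith
  refine Bx_mono ?_ (hpow _ _ hT xs h5)
  rw [h1]
  have hn' : 1 + (l₀.length : ℝ) + m = 1 + ((l₀.length + m : ℕ) : ℝ) := by push_cast; ring
  rw [hn']
  set n : ℝ := 1 + ((l₀.length + m : ℕ) : ℝ) with hndef
  have h6 : (1 + (m : ℝ)) ≤ n := by rw [hndef]; push_cast; linarith [Nat.cast_nonneg (α := ℝ) l₀.length]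
  calc A₁ * ((1 + (m : ℝ)) * (A₂ * n ^ M.d)) ^ M.c
      ≤ A₁ * (n * (A₂ * n ^ M.d)) ^ M.c := by gcongr
    _ = (A₁ * A₂ ^ M.c) * n ^ ((1 + M.d) * M.c) := by
        rw [pow_mul, pow_add, pow_one, mul_pow, mul_pow, mul_pow]
        ring
    _ ≤ A * n ^ ((1 + M.d) * M.c) := by
        gcongr
        exact le_max_right _ _

end BModel

end Crest.Agent.R182.Core
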