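import Mathlib
import Crest.Agent.R182.ConvG

-- ▼ part R182/ConvReg
section

set_option autoImplicit false

namespace Crest.Agent.R182.Conv

open Finset

variable {ι : Type*} [Fintype ι] {E : Type*} [AddCommGroup E] [Module ℝ E]

namespace GenSys

variable (S : GenSys ι E) {α : Type*}

/-- support function of the finite family `p a, a ∈ s` in the direction of the weight `i` -/
noncomputable def sup (s : Finset α) (hs : s.Nonempty) (p : α → E) (i : ι) : ℝ :=
  s.sup' hs (fun a => S.l i (p a))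

/-- exponent of the polytope spanned by the family -/
noncomputable def reg (s : Finset α) (hs : s.Nonempty) (p : α → E) : ℝ := S.Gt (S.sup s hs p)

theorem le_sup {s : Finset α} (hs : s.Nonempty) (p : α → E) (i : ι) {a : α} (ha : a ∈ s) :
    S.l i (p a) ≤ S.sup s hs p i := Finset.le_sup' (fun a => S.l i (p a)) ha

theorem sup_le {s : Finset α} (hs : s.Nonempty) (p : α → E) (i : ι) {c : ℝ}
    (h : ∀ a ∈ s, S.l i (p a) ≤ c) : S.sup s hs p i ≤ c := Finset.sup'_le hs _ h







/-! ### types -/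

/-- a type: a linear map preserving the exponents of all polytopes -/
def IsType (L : E →ₗ[ℝ] E) : Prop :=
  ∀ (n : ℕ) (p : Fin (n + 1) → E),
    S.reg Finset.univ Finset.univ_nonempty (fun a => L (p a))
      = S.reg Finset.univ Finset.univ_nonempty p

variable {S}

theorem IsType.g_eq {L : E →ₗ[ℝ] E} (hL : S.IsType L) (x : E) : S.g (L x) = S.g x := by
  have h := hL 1 ![x, 0]
  unfold reg at h
  have h1 : ∀ y : E, S.sup Finset.univ Finset.univ_nonempty (![y, 0] : Fin 2 → E)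
      = fun i => max (S.l i y) 0 := by
    intro y
    funext i
    apply le_antisymm
    · refine S.sup_le _ _ i fun a _ => ?_
      fin_cases a
      · simp
      · simp
    · refine max_le ?_ ?_
      · have := S.le_sup (Finset.univ_nonempty (α := Fin 2)) (![y, 0] : Fin 2 → E) i
          (Finset.mem_univ 0)
        simpa using this
      · have := S.le_sup (Finset.univ_nonempty (α := Fin 2)) (![y, 0] : Fin 2 → E) i
          (Finset.mem_univ 1)
        simpa using this
  have h2 : (fun a : Fin 2 => L ((![x, 0] : Fin 2 → E) a)) = ![L x, 0] := by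
    funext a; fin_cases a <;> simp
  have h3 : S.Gt (S.sup Finset.univ Finset.univ_nonempty
      (fun a : Fin 2 => L ((![x, 0] : Fin 2 → E) a)))
      = S.Gt (S.sup Finset.univ Finset.univ_nonempty (![x, 0] : Fin 2 → E)) := h
  rw [h2, h1, h1] at h3
  exact h3

theorem inj_of_g {L : E →ₗ[ℝ] E} (hL : ∀ x, S.g (L x) = S.g x) : Function.Injective L := by
  rw [injective_iff_map_eq_zero]
  intro x hx
  apply S.eq_zero_of_g_eq_zero
  rw [← hL x, hx, S.g_zero]

/-- two `g`-isometries whose weights are positively proportional coincide. -/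
theorem eq_of_prop [FiniteDimensional ℝ E] {L₁ L₂ : E →ₗ[ℝ] E} (h₁ : ∀ x, S.g (L₁ x) = S.g x)
    (h₂ : ∀ x, S.g (L₂ x) = S.g x)
    (h : ∀ i, ∃ r : ℝ, 0 < r ∧ ∀ x, S.l i (L₁ x) = r * S.l i (L₂ x)) : L₁ = L₂ := by
  -- one-sided statement
  have key : ∀ (A B : E →ₗ[ℝ] E), (∀ x, S.g (A x) = S.g x) → (∀ x, S.g (B x) = S.g x) →
      ∀ i (r : ℝ), 0 < r → (∀ x, S.l i (A x) = r * S.l i (B x)) → (∃ x, S.l i x ≠ 0) → r ≤ 1 := by
    intro A B hA hB i r hr hAB ⟨y, hy⟩
    have hBs : Function.Surjective B := LinearMap.surjective_of_injective (inj_of_g hB)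
    -- sequence of preimages
    have hseq : ∀ n : ℕ, ∃ z : E, S.g z = S.g y ∧ S.l i z = r ^ n * S.l i y := by
      intro n
      induction n with
      | zero => exact ⟨y, rfl, by simp⟩
      | succ n ih =>
        obtain ⟨z, hz1, hz2⟩ := ih
        obtain ⟨w, hw⟩ := hBs z
        refine ⟨A w, ?_, ?_⟩
        · rw [hA, ← hB, hw, hz1]
        · rw [hAB, hw, hz2]; ring
    by_contra hr1
    push Not at hr1
    have hpos : 0 < |S.l i y| := abs_pos.2 hy
    obtain ⟨n, hn⟩ := pow_unbounded_of_one_lt (S.g y / |S.l i y|) hr1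
    obtain ⟨z, hz1, hz2⟩ := hseq n
    have h3 := S.abs_l_le_g i z
    rw [hz1, hz2, abs_mul, abs_of_pos (pow_pos hr n)] at h3
    rw [div_lt_iff₀ hpos] at hn
    linarith
  refine LinearMap.ext fun x => ?_
  have hx : ∀ i, S.l i (L₁ x - L₂ x) = 0 := by
    intro i
    rw [map_sub, sub_eq_zero]
    by_cases hi : ∃ y, S.l i y ≠ 0
    · obtain ⟨r, hr, hrr⟩ := h i
      have h1 : r ≤ 1 := key L₁ L₂ h₁ h₂ i r hr hrr hi
      have h2 : r⁻¹ ≤ 1 := by
        refine key L₂ L₁ h₂ h₁ i r⁻¹ (inv_pos.2 hr) (fun x => ?_) hi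
        rw [hrr x]; field_simp
      have h3 : 1 ≤ r := by
        have := (inv_le_one₀ hr).1 h2
        exact this
      have h4 : r = 1 := le_antisymm h1 h3
      rw [hrr x, h4, one_mul]
    · push Not at hi
      rw [hi, hi]
  exact sub_eq_zero.1 (S.sep _ hx)


end GenSys

end Crest.Agent.R182.Conv
end

-- ▼ part R182/ConvType

set_option autoImplicit false

namespace Crest.Agent.R182.Conv

open Finset

variable {ι : Type*} [Fintype ι] {E : Type*} [AddCommGroup E] [Module ℝ E]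

/-- a functional which is `≤ 0` wherever `ξ < 0` is a nonnegative multiple of `ξ`. -/
theorem exists_nonneg_mul {ξ η : E →ₗ[ℝ] ℝ} (hξ : ∃ x, ξ x ≠ 0)
    (h : ∀ w, ξ w < 0 → η w ≤ 0) : ∃ c : ℝ, 0 ≤ c ∧ ∀ x, η x = c * ξ x := by
  obtain ⟨x₀, hx₀⟩ := hξ
  obtain ⟨u, hξu⟩ : ∃ u, ξ u = -1 := by
    refine ⟨(-(ξ x₀)⁻¹) • x₀, ?_⟩
    rw [map_smul, smul_eq_mul, neg_mul, inv_mul_cancel₀ hx₀]
  have hηu : η u ≤ 0 := h u (by rw [hξu]; norm_num)
  have hker : ∀ x, ξ x = 0 → η x = 0 := by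
    intro x hx
    by_contra hne
    set t : ℝ := (1 - η u) / η x with ht
    have h1 : η (u + t • x) = 1 := by
      rw [map_add, map_smul, smul_eq_mul, ht, div_mul_cancel₀ _ hne]; ring
    have h2 : ξ (u + t • x) = -1 := by
      rw [map_add, map_smul, hx, smul_zero, add_zero, hξu]
    have := h (u + t • x) (by rw [h2]; norm_num)
    linarith
  refine ⟨-(η u), by linarith, fun x => ?_⟩
  have h3 : ξ (x + ξ x • u) = 0 := by
    rw [map_add, map_smul, hξu, smul_eq_mul]; ring
  have h4 := hker _ h3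
  rw [map_add, map_smul, smul_eq_mul] at h4
  linarith

namespace GenSys

variable (S : GenSys ι E)

/-- nonzero weights -/
def NZ (i : ι) : Prop := ∃ x, S.l i x ≠ 0

/-- positive proportionality of nonzero weights -/
def raySetoid : Setoid {i : ι // S.NZ i} where
  r i j := ∃ c : ℝ, 0 < c ∧ ∀ x, S.l j x = c * S.l i x
  iseqv :=
    ⟨fun i => ⟨1, one_pos, fun x => (one_mul _).symm⟩,
     fun {i j} ⟨c, hc, h⟩ => ⟨c⁻¹, inv_pos.2 hc, fun x => by rw [h x]; field_simp⟩,
     fun {i j k} ⟨c, hc, h⟩ ⟨d, hd, h'⟩ => ⟨d * c, mul_pos hd hc, fun x => by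
      rw [h' x, h x]; ring⟩⟩

/-- rays of nonzero weights -/
abbrev Ray := Quotient S.raySetoid



variable {S}

instance : Finite S.Ray := Quotient.finite _

theorem IsType.surj [FiniteDimensional ℝ E] {L : E →ₗ[ℝ] E} (hL : S.IsType L) :
    Function.Surjective L :=
  LinearMap.surjective_of_injective (inj_of_g hL.g_eq)




/-- different types are separated by a sign of some weight at some vector -/
theorem exists_sep [FiniteDimensional ℝ E] {L₁ L₂ : E →ₗ[ℝ] E} (h₁ : S.IsType L₁)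
    (h₂ : S.IsType L₂) (hne : L₁ ≠ L₂) : ∃ b i, S.l i (L₁ b) < 0 ∧ 0 < S.l i (L₂ b) := by
  by_contra hcon
  push Not at hcon
  apply hne
  refine eq_of_prop (S := S) h₁.g_eq h₂.g_eq fun i => ?_
  by_cases hi : ∃ x, S.l i x ≠ 0
  · have hx1 : ∃ x, (S.l i ∘ₗ L₁) x ≠ 0 := by
      obtain ⟨y, hy⟩ := hi
      obtain ⟨z, hz⟩ := h₁.surj y
      exact ⟨z, by rw [LinearMap.comp_apply, hz]; exact hy⟩
    have hx2 : ∃ x, (S.l i ∘ₗ L₂) x ≠ 0 := by
      obtain ⟨y, hy⟩ := hi
      obtain ⟨z, hz⟩ := h₂.surj y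
      exact ⟨z, by rw [LinearMap.comp_apply, hz]; exact hy⟩
    obtain ⟨c, hc, h⟩ := exists_nonneg_mul (ξ := S.l i ∘ₗ L₁) (η := S.l i ∘ₗ L₂) hx1
      (fun w hw => hcon w i hw)
    have hc0 : c ≠ 0 := by
      rintro rfl
      obtain ⟨z, hz⟩ := hx2
      exact hz (by rw [h z, zero_mul])
    have hcpos : 0 < c := lt_of_le_of_ne hc (Ne.symm hc0)
    refine ⟨c⁻¹, inv_pos.2 hcpos, fun x => ?_⟩
    have := h x
    simp only [LinearMap.comp_apply] at this
    rw [this]; field_simp
  · push Not at hi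
    exact ⟨1, one_pos, fun x => by rw [hi, hi, mul_zero]⟩

end GenSys

end Crest.Agent.R182.Conv
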