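import Mathlib
import Crest.Agent.R182.BoxReach
import Crest.Agent.R182.BoxNN
import Crest.Agent.R182.CoreN
import Crest.Agent.R182.QIBasic
import Crest.Agent.R182.CapModel

-- ▼ part R182/CapReach
section

set_option autoImplicit false
set_option linter.unusedSectionVars false

open MeasureTheory

namespace Crest.Agent.R182.Core

open Crest.GroupTheory Crest.Geometry Crest.Agent.R182.QI Crest.Agent.R182.FinPath
  Crest.Agent.R182.FinRed Crest.Agent.R182.Bnd Nb

variable {Γ : Type*} [Group Γ] {k : ℕ} {S : Set Γ} {π : Γ →* Multiplicative (Fin k → ℤ)}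

namespace BModel

variable (M : BModel S π)

/-- polynomial growth of `C`. -/
def CGrowth (M : BModel S π) : Prop := ∀ R : ℝ, ∃ A : ℕ, ∀ n : ℕ, ∃ F : Finset M.G,
  F.card ≤ A * (1 + n) ^ A ∧ ∀ l : List M.G, l.length ≤ n → (∀ s ∈ l, s ∈ M.C ∧ M.len s ≤ R) →
    ∃ f ∈ F, f ∈ M.C ∧ M.len (f⁻¹ * l.prod) ≤ M.a

theorem exists_wt_le (M : BModel S π) : ∃ C : ℝ, 0 ≤ C ∧ ∀ (i : Fin M.r) (v : Fin k → ℝ),
    |M.wt i v| ≤ C * ‖v‖ := by
  refine ⟨∑ i, ‖LinearMap.toContinuousLinearMap (M.wt i)‖, Finset.sum_nonneg fun i _ =>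
    norm_nonneg _, fun i v => ?_⟩
  have h1 := (LinearMap.toContinuousLinearMap (M.wt i)).le_opNorm v
  rw [Real.norm_eq_abs] at h1
  refine h1.trans (mul_le_mul_of_nonneg_right ?_ (norm_nonneg v))
  exact Finset.single_le_sum (f := fun i => ‖LinearMap.toContinuousLinearMap (M.wt i)‖)
    (fun j _ => norm_nonneg _) (Finset.mem_univ i)

theorem norm_h_le (g : M.G) : ‖M.h g‖ ≤ M.a * M.len g := by
  rw [pi_norm_le_iff_of_nonneg (mul_nonneg M.a0 (M.len_nonneg g))]
  intro i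
  rw [Real.norm_eq_abs]; exact M.h_le g i

/-- **(F7)** -/
theorem reach_card (hC : M.CGrowth) (R : ℝ) : ∃ (A : ℝ) (D : ℕ), 0 < A ∧
    ∀ (Z : GI M → ℝ) (m : ℕ) (F : Finset M.G),
      (∀ y ∈ F, ∃ p : ℕ → M.G, p 0 = 1 ∧ p m = y ∧ (∀ j < m, M.len ((p j)⁻¹ * p (j + 1)) ≤ R) ∧
        ∀ j ≤ m, ∀ i : GI M, wg M i (M.h (p j)) ≤ Z i) →
      (∀ y ∈ F, ∀ z ∈ F, y ≠ z → 10 * M.a < M.len (y⁻¹ * z)) →
      (F.card : ℝ) ≤ A * (1 + m) ^ D * Real.exp ((gsys M).Gt Z) := by
  classical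
  obtain ⟨A₁, D₁, hA₁, hreach⟩ := M.reach_mem R 0
  obtain ⟨A₂, hgrow⟩ := hC A₁
  obtain ⟨A₃, hA₃, had⟩ := M.ad_mem (max A₁ M.a) 1
  obtain ⟨A₄, hA₄, hpow⟩ := M.star.exists_prod_poly (GI M) M.c M.nilC
  obtain ⟨A₅, hA₅, hMD⟩ := MD_scaled_le M
  obtain ⟨Cw, hCw, hwt⟩ := M.exists_wt_le
  set C₁ : ℝ := Cw * (M.a * M.a) with hC₁
  have ha := M.a0
  have hC₁0 : 0 ≤ C₁ := by positivity
  -- the size of the box
  set D₂ : ℕ := D₁ + M.d with hD₂
  set A₆ : ℝ := A₁ + Real.exp C₁ ^ M.c * (A₃ * 2 ^ M.d) with hA₆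
  have hA₆1 : 1 ≤ A₆ := by
    have : 0 ≤ Real.exp C₁ ^ M.c * (A₃ * 2 ^ M.d) := by positivity
    linarith
  set K₀ : ℝ := 2 * ((KL (GI M) M.c).card : ℝ) with hK₀
  -- the volume of the unit ball
  set v₀ : ENNReal := volume (Metric.closedBall (0 : M.NN) 1) with hv₀
  have hv₀0 : v₀ ≠ 0 := (Metric.measure_closedBall_pos volume _ one_pos).ne'
  have hv₀t : v₀ ≠ ⊤ := measure_closedBall_lt_top.ne
  have hv₀r : 0 < v₀.toReal := ENNReal.toReal_pos hv₀0 hv₀t
  refine ⟨A₂ * ((K₀ * (A₄ * (3 * A₆) ^ M.c)) ^ M.r * A₅ / v₀.toReal) + 1,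
    A₂ + D₂ * M.c * M.r, by positivity, ?_⟩
  intro Z m F hF hsep
  have hm1 : (1:ℝ) ≤ 1 + (m:ℝ) := by linarith [Nat.cast_nonneg (α := ℝ) m]
  obtain ⟨FC, hFC, hFCmem⟩ := hgrow m
  -- the data of the points of `F`
  have hdata : ∀ y ∈ F, ∃ (x : M.L) (f : M.G), f ∈ FC ∧ f ∈ M.C ∧
      M.len ((M.ex x * f)⁻¹ * y) ≤ M.a ∧ x ∈ Bx M.c (gZ (eg M) Z) (A₁ * (1 + m) ^ D₁) ∧
      ∀ b : M.L, ‖M.bas.equivFun b‖ ≤ 1 → M.Ad f b ∈ Bx M.c (gZ (eg M) Z)
        (Real.exp C₁ ^ M.c * (A₃ * (2 + m) ^ M.d)) := by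
    intro y hy
    obtain ⟨p, hp0, hpm, hstep, hh⟩ := hF y hy
    obtain ⟨x, l, hl, hlC, hpx, hx⟩ := hreach Z p m 0 [] (by simp) (by
      rw [List.prod_nil, mul_one, M.ex_zero, hp0]) hstep hh
    rw [M.star.zero_op, List.prod_nil, one_mul, hpm] at hpx
    obtain ⟨f, hfF, hfC, hfl⟩ := hFCmem l hl.le hlC
    refine ⟨x, f, hfF, hfC, ?_, ?_, ?_⟩
    · rw [hpx]
      have : (M.ex x * f)⁻¹ * (M.ex x * l.prod) = f⁻¹ * l.prod := by group
      rw [this]; exact hfl
    · refine Bx_mono (le_of_eq ?_) hx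
      simp
    · intro b hb
      -- `f` as a product of letters
      have hlp : l.prod ∈ M.C := Subgroup.list_prod_mem _ fun s hs => (hlC s hs).1
      have hf : f = (l ++ [(f⁻¹ * l.prod)⁻¹]).prod := by
        rw [List.prod_append, List.prod_singleton]; group
      have hlet : ∀ s ∈ l ++ [(f⁻¹ * l.prod)⁻¹], s ∈ M.C ∧ M.len s ≤ max A₁ M.a := by
        intro s hs
        rcases List.mem_append.1 hs with h | h
        · exact ⟨(hlC s h).1, (hlC s h).2.trans (le_max_left _ _)⟩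
        · rw [List.mem_singleton.1 h]
          refine ⟨M.C.inv_mem (M.C.mul_mem (M.C.inv_mem hfC) hlp), ?_⟩
          rw [M.isLen.inv]; exact hfl.trans (le_max_right _ _)
      have hhf : ∀ j : GI M, wg M j (M.h (l ++ [(f⁻¹ * l.prod)⁻¹]).prod) ≤ Z j + C₁ := by
        intro j
        rw [← hf]
        have h1 : M.h y = M.h f + M.h (f⁻¹ * l.prod) := by
          rw [← M.h_mul, hpx, M.h_mul, M.h_ex, zero_add]; congr 1; group
        have h2 := hh m le_rfl j
        rw [hpm, h1, map_add] at h2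
        have h3 := (neg_le_abs _).trans ((hwt j (M.h (f⁻¹ * l.prod))).trans
          (mul_le_mul_of_nonneg_left ((M.norm_h_le _).trans
            (mul_le_mul_of_nonneg_left hfl ha)) hCw))
        change _ ≤ Z j + Cw * (M.a * M.a)
        change -(wg M j) (M.h (f⁻¹ * l.prod)) ≤ _ at h3
        linarith
      have h1 := had _ hlet b hb (fun j => Z j + C₁) hhf
      rw [← hf] at h1
      have h2 : gZ (eg M) (fun j => Z j + C₁) = fun i => Real.exp C₁ • gZ (eg M) Z i := by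
        funext i
        rw [gZ, gZ, smul_smul, ← Real.exp_add, add_comm]
      rw [h2] at h1
      have h3 := Bx_unscale (Real.one_le_exp hC₁0) (by positivity) h1
      refine Bx_mono ?_ h3
      have h4 : (1 + (((l ++ [(f⁻¹ * l.prod)⁻¹]).length : ℕ) : ℝ)) = 2 + m := by
        rw [List.length_append, hl]; push_cast; simp; ring
      rw [h4]
  choose! x f hfF hfC hxf hx hadf using hdata
  -- the number of points over one `f₀`
  have hone : ∀ f₀ ∈ FC, (((F.filter fun y => f y = f₀).card : ℕ) : ℝ) ≤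
      (K₀ * (A₄ * (3 * A₆) ^ M.c)) ^ M.r * A₅ / v₀.toReal *
        ((1 + (m:ℝ)) ^ (D₂ * M.c * M.r) * Real.exp ((gsys M).Gt Z)) := by
    intro f₀ _
    set F₀ := F.filter fun y => f y = f₀ with hF₀
    have hF₀m : ∀ y ∈ F₀, y ∈ F ∧ f y = f₀ := fun y hy => Finset.mem_filter.1 hy
    let φ : M.G → M.NN → M.NN := fun y n => M.conjN f₀⁻¹ ((M.E.symm (x y))⁻¹ * n)
    have hφ : ∀ y, MeasurePreserving (φ y) volume volume := fun y =>
      (M.measurePreserving_conjN f₀⁻¹).comp (measurePreserving_mul_left volume _)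
    let T : M.G → Set M.NN := fun y => φ y ⁻¹' Metric.closedBall 0 1
    have hTv : ∀ y, volume (T y) = v₀ := fun y =>
      (hφ y).measure_preimage measurableSet_closedBall.nullMeasurableSet
    have hTm : ∀ y, MeasurableSet (T y) := fun y => (hφ y).measurable measurableSet_closedBall
    -- the group element
    have hTG : ∀ y, ∀ n, M.toG n = M.ex (x y) * f₀ * M.toG (φ y n) * f₀⁻¹ := by
      intro y n
      have h1 : M.toG (φ y n) = f₀⁻¹ * M.toG ((M.E.symm (x y))⁻¹ * n) * f₀ := by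
        change M.toG (M.conjN f₀⁻¹ _) = _
        rw [M.toG_conjN, inv_inv]
      rw [h1, map_mul, map_inv]
      have h2 : M.toG (M.E.symm (x y)) = M.ex (x y) := by
        rw [M.toG_apply, LinearEquiv.apply_symm_apply]
      rw [h2]; group
    have hball : ∀ n : M.NN, n ∈ Metric.closedBall (0 : M.NN) 1 → M.len (M.toG n) ≤ 2 * M.a := by
      intro n hn
      rw [mem_closedBall_zero_iff] at hn
      refine (M.len_toG_le n).trans ?_
      have h1 : Real.log (2 + ‖n‖) ≤ 2 := by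
        have h2 : Real.log (2 + ‖n‖) ≤ Real.log 3 :=
          Real.log_le_log (by positivity) (by linarith)
        have h3 := Real.log_le_sub_one_of_pos (by norm_num : (0:ℝ) < 3)
        linarith
      nlinarith
    have hdisj : ∀ y ∈ F₀, ∀ z ∈ F₀, y ≠ z → Disjoint (T y) (T z) := by
      intro y hy z hz hne
      rw [Set.disjoint_left]
      intro n hn hn'
      have h1 := hTG y n
      have h2 := hTG z n
      have e1 : (M.ex (x y) * f₀)⁻¹ * (M.ex (x z) * f₀) =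
          M.toG (φ y n) * (M.toG (φ z n))⁻¹ := by
        have h3 : M.ex (x y) * f₀ * M.toG (φ y n) = M.ex (x z) * f₀ * M.toG (φ z n) := by
          rw [h1] at h2
          exact mul_right_cancel h2
        have h4 : M.ex (x z) * f₀ = M.ex (x y) * f₀ * M.toG (φ y n) * (M.toG (φ z n))⁻¹ := by
          rw [h3]; group
        rw [h4]; group
      have l1 := hball _ hn
      have l2 := hball _ hn'
      have l3 := hxf y (hF₀m y hy).1
      have l4 := hxf z (hF₀m z hz).1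
      rw [(hF₀m y hy).2] at l3
      rw [(hF₀m z hz).2] at l4
      have e2 : y⁻¹ * z = ((M.ex (x y) * f₀)⁻¹ * y)⁻¹ * ((M.ex (x y) * f₀)⁻¹ * (M.ex (x z) * f₀)) *
          ((M.ex (x z) * f₀)⁻¹ * z) := by group
      have h5 := hsep y (hF₀m y hy).1 z (hF₀m z hz).1 hne
      rw [e2, e1] at h5
      have h6 := M.isLen.mul (((M.ex (x y) * f₀)⁻¹ * y)⁻¹ * (M.toG (φ y n) * (M.toG (φ z n))⁻¹))
        ((M.ex (x z) * f₀)⁻¹ * z)
      have h7 := M.isLen.mul (((M.ex (x y) * f₀)⁻¹ * y)⁻¹) (M.toG (φ y n) * (M.toG (φ z n))⁻¹)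
      have h8 := M.isLen.mul (M.toG (φ y n)) (M.toG (φ z n))⁻¹
      rw [M.isLen.inv] at h7 h8
      linarith [M.one_le_a]
    -- the box
    set t : ℝ := A₆ * (1 + m) ^ D₂ with ht
    have ht1 : 1 ≤ t := by
      have := one_le_pow₀ (n := D₂) hm1
      nlinarith
    have hTsub : ∀ y ∈ F₀, T y ⊆ M.NB (gZ (eg M) Z) (A₄ * ((1 + (2:ℕ)) * t) ^ M.c) := by
      intro y hy n hn
      rw [M.mem_NB]
      have h1 : M.E n = M.star.prod [x y, M.Ad f₀ (M.E (φ y n))] := by
        have h2 : n = M.E.symm (x y) * M.conjN f₀ (φ y n) := by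
          change n = _ * M.conjN f₀ (M.conjN f₀⁻¹ ((M.E.symm (x y))⁻¹ * n))
          rw [← M.conjN_mul, mul_inv_cancel, M.conjN_one]; group
        conv_lhs => rw [h2]
        rw [M.E_mul, LinearEquiv.apply_symm_apply, Nb.Star.prod_cons, Nb.Star.prod_cons,
          Nb.Star.prod_nil, M.star.op_zero, M.conjN_apply, LinearEquiv.apply_symm_apply]
      rw [h1]
      have h2 := hpow (gZ (eg M) Z) t ht1 [x y, M.Ad f₀ (M.E (φ y n))] (by
        intro w hw
        rcases List.mem_cons.1 hw with rfl | hw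
        · refine Bx_mono ?_ (hx y (hF₀m y hy).1)
          rw [ht]
          have e1 : (1 + (m:ℝ)) ^ D₁ ≤ (1 + (m:ℝ)) ^ D₂ := pow_le_pow_right₀ hm1 (by omega)
          have e2 : A₁ ≤ A₆ := by
            have : 0 ≤ Real.exp C₁ ^ M.c * (A₃ * 2 ^ M.d) := by positivity
            linarith
          gcongr
        · rw [List.mem_singleton.1 hw]
          have h3 := hadf y (hF₀m y hy).1 (M.E (φ y n)) (by
            have h4 : M.bas.equivFun (M.E (φ y n)) = φ y n := M.E.symm_apply_apply _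
            rw [h4]
            exact mem_closedBall_zero_iff.1 hn)
          rw [(hF₀m y hy).2] at h3
          refine Bx_mono ?_ h3
          have e1 : (2 + (m:ℝ)) ^ M.d ≤ (2 * (1 + (m:ℝ))) ^ M.d := by
            gcongr; linarith
          rw [mul_pow] at e1
          have e2 : (1 + (m:ℝ)) ^ M.d ≤ (1 + (m:ℝ)) ^ D₂ := pow_le_pow_right₀ hm1 (by omega)
          rw [ht]
          calc Real.exp C₁ ^ M.c * (A₃ * (2 + (m:ℝ)) ^ M.d)
              ≤ Real.exp C₁ ^ M.c * (A₃ * (2 ^ M.d * (1 + (m:ℝ)) ^ M.d)) := by gcongr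
            _ ≤ Real.exp C₁ ^ M.c * (A₃ * (2 ^ M.d * (1 + (m:ℝ)) ^ D₂)) := by gcongr
            _ = (Real.exp C₁ ^ M.c * (A₃ * 2 ^ M.d)) * (1 + (m:ℝ)) ^ D₂ := by ring
            _ ≤ A₆ * (1 + (m:ℝ)) ^ D₂ := by gcongr; linarith)
      exact h2
    -- volumes
    have hsum : (F₀.card : ENNReal) * v₀ ≤ volume (M.NB (gZ (eg M) Z)
        (A₄ * ((1 + (2:ℕ)) * t) ^ M.c)) := by
      calc (F₀.card : ENNReal) * v₀ = ∑ y ∈ F₀, volume (T y) := by
            rw [Finset.sum_congr rfl fun y _ => hTv y, Finset.sum_const, nsmul_eq_mul]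
        _ = volume (⋃ y ∈ F₀, T y) := (measure_biUnion_finset (fun y hy z hz hne =>
            hdisj y hy z hz hne) fun y _ => hTm y).symm
        _ ≤ _ := measure_mono (Set.iUnion₂_subset hTsub)
    have hgZ : gZ (eg M) Z = fun i => (1 * Real.exp (Z i)) • eg M i := by
      funext i; rw [one_mul]; rfl
    have hMDpos : 0 < MD M.bas M.c (gZ (eg M) Z) := by
      obtain ⟨c0, hc0, h⟩ := le_MD_scaled M
      exact lt_of_lt_of_le (mul_pos hc0 (Real.exp_pos _)) (h Z)
    have hvol : volume (M.NB (gZ (eg M) Z) (A₄ * ((1 + (2:ℕ)) * t) ^ M.c)) ≤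
        ENNReal.ofReal ((K₀ * (A₄ * ((1 + (2:ℕ)) * t) ^ M.c)) ^ M.r *
          (A₅ * Real.exp ((gsys M).Gt Z))) := by
      have h1 := vb_Bx_le (b := M.bas) (c := M.c) (g := gZ (eg M) Z) hMDpos
        (t := A₄ * ((1 + (2:ℕ)) * t) ^ M.c) (by positivity)
      refine le_trans h1 (ENNReal.ofReal_le_ofReal ?_)
      have h2 := hMD 1 Z le_rfl
      rw [← hgZ, one_pow, mul_one] at h2
      gcongr
    have hfin := hsum.trans hvol
    have h3 : (F₀.card : ℝ) * v₀.toReal ≤ (K₀ * (A₄ * ((1 + (2:ℕ)) * t) ^ M.c)) ^ M.r *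
        (A₅ * Real.exp ((gsys M).Gt Z)) := by
      have h4 := ENNReal.toReal_mono ENNReal.ofReal_ne_top hfin
      rw [ENNReal.toReal_mul, ENNReal.toReal_natCast, ENNReal.toReal_ofReal (by positivity)] at h4
      exact h4
    rw [← le_div_iff₀ hv₀r] at h3
    refine h3.trans (le_of_eq ?_)
    rw [ht]
    push_cast
    have e1 : (K₀ * (A₄ * ((1 + 2) * (A₆ * (1 + (m:ℝ)) ^ D₂)) ^ M.c)) ^ M.r =
        (K₀ * (A₄ * (3 * A₆) ^ M.c)) ^ M.r * (1 + (m:ℝ)) ^ (D₂ * M.c * M.r) := by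
      rw [pow_mul, pow_mul, ← mul_pow]
      congr 1
      rw [show (1 + 2 : ℝ) = 3 by norm_num, ← mul_assoc 3, mul_pow (3 * A₆)]
      ring
    rw [e1]
    ring
  have hcard : F.card = ∑ f₀ ∈ FC, (F.filter fun y => f y = f₀).card :=
    Finset.card_eq_sum_card_fiberwise fun y hy => hfF y hy
  have hX0 : 0 ≤ (K₀ * (A₄ * (3 * A₆) ^ M.c)) ^ M.r * A₅ / v₀.toReal := by positivity
  set X : ℝ := (K₀ * (A₄ * (3 * A₆) ^ M.c)) ^ M.r * A₅ / v₀.toReal with hX
  calc (F.card : ℝ) = ∑ f₀ ∈ FC, (((F.filter fun y => f y = f₀).card : ℕ) : ℝ) := by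
        rw [hcard]; push_cast; rfl
    _ ≤ ∑ _f₀ ∈ FC, X * ((1 + (m:ℝ)) ^ (D₂ * M.c * M.r) * Real.exp ((gsys M).Gt Z)) :=
        Finset.sum_le_sum hone
    _ = FC.card * (X * ((1 + (m:ℝ)) ^ (D₂ * M.c * M.r) * Real.exp ((gsys M).Gt Z))) := by
        rw [Finset.sum_const, nsmul_eq_mul]
    _ ≤ (A₂ * (1 + (m:ℝ)) ^ A₂) *
        (X * ((1 + (m:ℝ)) ^ (D₂ * M.c * M.r) * Real.exp ((gsys M).Gt Z))) := by
        have : (FC.card : ℝ) ≤ A₂ * (1 + (m:ℝ)) ^ A₂ := by exact_mod_cast hFC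
        gcongr
    _ = A₂ * X * (1 + (m:ℝ)) ^ (A₂ + D₂ * M.c * M.r) * Real.exp ((gsys M).Gt Z) := by
        rw [pow_add]; ring
    _ ≤ (A₂ * X + 1) * (1 + (m:ℝ)) ^ (A₂ + D₂ * M.c * M.r) * Real.exp ((gsys M).Gt Z) := by
        gcongr; linarith

end BModel

end Crest.Agent.R182.Core
end

-- ▼ part R182/CoreV
section

set_option autoImplicit false

open MeasureTheory

namespace Crest.Agent.R182.Core

open Crest.GroupTheory Crest.Geometry Crest.Agent.R182.QI Crest.Agent.R182.FinPath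
  Crest.Agent.R182.FinRed Crest.Agent.R182.Bnd

variable {Γ : Type*} [Group Γ] {k : ℕ} {S : Set Γ} {π : Γ →* Multiplicative (Fin k → ℤ)}

theorem countable_of_closure (hS : S.Finite) (hcl : Subgroup.closure S = ⊤) : Countable Γ := by
  classical
  have hcl' : Subgroup.closure ((hS.toFinset : Finset Γ) : Set Γ) = ⊤ := by
    rw [Set.Finite.coe_toFinset]; exact hcl
  have h : (Set.univ : Set Γ) = ⋃ n : ℕ, {g : Γ | wordLength (hS.toFinset : Set Γ) g ≤ n} := by
    ext g; simp only [Set.mem_univ, Set.mem_iUnion, Set.mem_ofPred_eq, true_iff]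
    exact ⟨_, le_rfl⟩
  rw [← Set.countable_univ_iff, h]
  exact Set.countable_iUnion fun n => (ball_finite hcl' n).countable

namespace BModel

variable (M : BModel S π)

/-- volume of a coordinate ball -/
theorem volume_closedBall_lt_top (ρ : ℝ) : volume (Metric.closedBall (0 : M.NN) ρ) < ⊤ :=
  (isCompact_closedBall (0 : M.NN) ρ).measure_lt_top

/-- Uniformly bounded volume of a bounded piece of `y E g`. -/
theorem volume_near (R : ℝ) : ∃ C : ENNReal, C ≠ ⊤ ∧ ∀ y g : M.G,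
    volume {n : M.NN | M.len (y * M.toG n * g) ≤ R} ≤ C := by
  refine ⟨volume (Metric.closedBall (0 : M.NN) (Real.exp (M.a * (2 * R) + M.a))),
    (M.volume_closedBall_lt_top _).ne, fun y g => ?_⟩
  by_cases hne : ({n : M.NN | M.len (y * M.toG n * g) ≤ R}).Nonempty
  · obtain ⟨n₀, h₀⟩ := hne
    have hsub : {n : M.NN | M.len (y * M.toG n * g) ≤ R} ⊆
        (fun n => n₀⁻¹ * n) ⁻¹' ((M.conjN g⁻¹) ⁻¹'
          (Metric.closedBall (0 : M.NN) (Real.exp (M.a * (2 * R) + M.a)))) := by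
      intro n hn
      simp only [Set.mem_preimage, Metric.mem_closedBall, dist_zero_right]
      refine (M.norm_le_exp _).trans (Real.exp_le_exp.2 ?_)
      have h1 : M.toG (M.conjN g⁻¹ (n₀⁻¹ * n)) = (y * M.toG n₀ * g)⁻¹ * (y * M.toG n * g) := by
        rw [toG_conjN, map_mul, map_inv]; group
      have h2 := M.isLen.mul (y * M.toG n₀ * g)⁻¹ (y * M.toG n * g)
      rw [M.isLen.inv] at h2
      have h3 : M.len (y * M.toG n₀ * g) ≤ R := h₀
      have h4 : M.len (y * M.toG n * g) ≤ R := hn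
      rw [h1]
      have ha := M.a0
      have h5 : M.len ((y * M.toG n₀ * g)⁻¹ * (y * M.toG n * g)) ≤ 2 * R := by linarith
      gcongr
    refine (measure_mono hsub).trans ?_
    rw [measure_preimage_mul, (M.measurePreserving_conjN g⁻¹).measure_preimage
      Metric.isClosed_closedBall.measurableSet.nullMeasurableSet]
  · rw [Set.not_nonempty_iff_eq_empty.1 hne]; simp


/-- finite multiplicity of quasi-isometries -/
theorem exists_card_fiber (hS : S.Finite) (hcl : Subgroup.closure S = ⊤) (K : ℕ) (R : ℝ) :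
    ∃ m : ℕ, ∀ Ψ : Γ → Γ, QIMap S S Ψ K → ∀ g : M.G,
      ({γ : Γ | M.len (g⁻¹ * M.ι (Ψ γ)) ≤ R}).Finite ∧
        ({γ : Γ | M.len (g⁻¹ * M.ι (Ψ γ)) ≤ R}).ncard ≤ m := by
  classical
  have hcl' : Subgroup.closure ((hS.toFinset : Finset Γ) : Set Γ) = ⊤ := by
    rw [Set.Finite.coe_toFinset]; exact hcl
  have hSe : ((hS.toFinset : Finset Γ) : Set Γ) = S := hS.coe_toFinset
  obtain ⟨K', hK'⟩ : ∃ K' : ℕ, (K:ℝ) * (M.a * (2 * R) + M.a) + K ≤ K' := exists_nat_ge _
  have hfin : ({g : Γ | wordLength S g ≤ K'}).Finite := by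
    have := ball_finite hcl' K'
    rwa [hSe] at this
  refine ⟨({g : Γ | wordLength S g ≤ K'}).ncard, fun Ψ hΨ g => ?_⟩
  by_cases hne : ({γ : Γ | M.len (g⁻¹ * M.ι (Ψ γ)) ≤ R}).Nonempty
  · obtain ⟨γ₀, h₀⟩ := hne
    have hinj : Function.Injective fun γ : Γ => γ₀⁻¹ * γ := mul_right_injective _
    have hmaps : Set.MapsTo (fun γ : Γ => γ₀⁻¹ * γ) {γ : Γ | M.len (g⁻¹ * M.ι (Ψ γ)) ≤ R}
        {g : Γ | wordLength S g ≤ K'} := by
      intro γ hγ
      have h1 : M.ι ((Ψ γ₀)⁻¹ * Ψ γ) = (g⁻¹ * M.ι (Ψ γ₀))⁻¹ * (g⁻¹ * M.ι (Ψ γ)) := by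
        rw [map_mul, map_inv]; group
      have h2 := M.isLen.mul (g⁻¹ * M.ι (Ψ γ₀))⁻¹ (g⁻¹ * M.ι (Ψ γ))
      rw [M.isLen.inv, ← h1] at h2
      have h3 : M.len (g⁻¹ * M.ι (Ψ γ₀)) ≤ R := h₀
      have h4 : M.len (g⁻¹ * M.ι (Ψ γ)) ≤ R := hγ
      have h5 := M.ι_len ((Ψ γ₀)⁻¹ * Ψ γ)
      have ha := M.a0
      have h6 : (wordLength S ((Ψ γ₀)⁻¹ * Ψ γ) : ℝ) ≤ M.a * (2 * R) + M.a := by
        refine h5.trans ?_
        have : M.len (M.ι ((Ψ γ₀)⁻¹ * Ψ γ)) ≤ 2 * R := by linarith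
        gcongr
      have h7 : (wordLength S (γ₀⁻¹ * γ) : ℝ) ≤ K * wordLength S ((Ψ γ₀)⁻¹ * Ψ γ) + K := by
        exact_mod_cast hΨ.lo γ₀ γ
      have h8 : (wordLength S (γ₀⁻¹ * γ) : ℝ) ≤ K' := by
        refine h7.trans (le_trans ?_ hK')
        gcongr
      exact_mod_cast h8
    exact ⟨Set.Finite.of_injOn hmaps hinj.injOn hfin,
      Set.ncard_le_ncard_of_injOn _ hmaps hinj.injOn hfin⟩
  · rw [Set.not_nonempty_iff_eq_empty.1 hne]; simp

/-- The set of `n ∈ E` whose rounded point is `γ` has bounded volume. -/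
theorem volume_rnd_le : ∃ C : ENNReal, C ≠ ⊤ ∧ ∀ (x g : M.G) (γ : Γ),
    volume {n : M.NN | M.rnd (x * M.toG n * g) = γ} ≤ C := by
  obtain ⟨C, hC, h⟩ := M.volume_near M.a
  refine ⟨C, hC, fun x g γ => le_trans (measure_mono ?_) (h ((M.ι γ)⁻¹ * x) g)⟩
  rintro n rfl
  have := M.len_rnd (x * M.toG n * g)
  simpa [mul_assoc] using this

theorem volume_rnd_mem_le : ∃ C : ENNReal, C ≠ ⊤ ∧ ∀ (x g : M.G) (F : Set Γ), F.Finite →
    volume {n : M.NN | M.rnd (x * M.toG n * g) ∈ F} ≤ C * F.ncard := by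
  obtain ⟨C, hC, h⟩ := M.volume_rnd_le
  refine ⟨C, hC, fun x g F hF => ?_⟩
  have h1 : {n : M.NN | M.rnd (x * M.toG n * g) ∈ F} ⊆
      ⋃ γ ∈ hF.toFinset, {n : M.NN | M.rnd (x * M.toG n * g) = γ} := by
    intro n hn
    simp only [Set.mem_iUnion, Set.Finite.mem_toFinset, Set.mem_ofPred_eq, exists_prop,
      exists_eq_right']
    exact hn
  refine (measure_mono h1).trans ((measure_biUnion_finset_le _ _).trans ?_)
  refine (Finset.sum_le_sum fun γ _ => h x g γ).trans ?_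
  rw [Finset.sum_const, nsmul_eq_mul, mul_comm, Set.ncard_eq_toFinset_card F hF]

/-- **Counting**: points of `x E g` whose image is `R`-close to one of finitely many points `T`. -/
theorem volume_preimage_le (hS : S.Finite) (hcl : Subgroup.closure S = ⊤) (K : ℕ) (R : ℝ) :
    ∃ C : ENNReal, C ≠ ⊤ ∧ ∀ Ψ : Γ → Γ, QIMap S S Ψ K → ∀ (x g : M.G) (T : Finset M.G),
      volume {n : M.NN | ∃ p ∈ T, M.len (p⁻¹ * M.ext Ψ (x * M.toG n * g)) ≤ R} ≤ C * T.card := by
  classical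
  obtain ⟨m, hm⟩ := M.exists_card_fiber hS hcl K R
  obtain ⟨C, hC, h⟩ := M.volume_rnd_mem_le
  refine ⟨C * m, ENNReal.mul_ne_top hC (ENNReal.natCast_ne_top _), fun Ψ hΨ x g T => ?_⟩
  have h1 : {n : M.NN | ∃ p ∈ T, M.len (p⁻¹ * M.ext Ψ (x * M.toG n * g)) ≤ R} ⊆
      ⋃ p ∈ T, {n : M.NN | M.rnd (x * M.toG n * g) ∈ {γ : Γ | M.len (p⁻¹ * M.ι (Ψ γ)) ≤ R}} := by
    rintro n ⟨p, hp, hn⟩
    simp only [Set.mem_iUnion, exists_prop]
    exact ⟨p, hp, hn⟩
  refine (measure_mono h1).trans ((measure_biUnion_finset_le _ _).trans ?_)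
  have h2 : ∀ p ∈ T,
      volume {n : M.NN | M.rnd (x * M.toG n * g) ∈ {γ : Γ | M.len (p⁻¹ * M.ι (Ψ γ)) ≤ R}} ≤
        C * m := by
    intro p _
    refine (h x g _ (hm Ψ hΨ p).1).trans ?_
    gcongr
    exact (hm Ψ hΨ p).2
  refine (Finset.sum_le_sum h2).trans ?_
  rw [Finset.sum_const, nsmul_eq_mul, mul_comm]


end BModel

end Crest.Agent.R182.Core
end

-- ▼ part R182/CapInst

set_option autoImplicit false
set_option linter.unusedSectionVars false

open MeasureTheory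

namespace Crest.Agent.R182.Core

open Crest.GroupTheory Crest.Geometry Crest.Agent.R182.QI Crest.Agent.R182.FinPath
  Crest.Agent.R182.FinRed Crest.Agent.R182.Bnd Nb

variable {Γ : Type*} [Group Γ] {k : ℕ} {S : Set Γ} {π : Γ →* Multiplicative (Fin k → ℤ)}

namespace BModel

variable (M : BModel S π) {E : Type*} [NormedAddCommGroup E] [NormedSpace ℝ E]

/-- the constants of the `CapModel` of a `BModel`: `T` = identification of the height space,
`V` = the unit ball of moves, `RC` = length of the vertical letters, the length is `s * len`,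
the constant `C0` is `s * R0`. -/
structure CapPar (M : BModel S π) (T : (Fin k → ℝ) ≃ₗ[ℝ] E) (V : Set M.NN) (RC : ℝ) where
  s : ℝ
  R0 : ℝ
  one_le_s : 1 ≤ s
  one_le_R0 : 1 ≤ R0
  two_a_le : 2 * M.a ≤ R0
  ka_le : 2 * k * M.a ≤ R0
  RC_le : RC ≤ R0
  V_meas : MeasurableSet V
  V_le : ∀ n ∈ V, M.len (M.toG n) ≤ R0
  V_pos : volume V ≠ 0
  V_fin : volume V ≠ ⊤
  two_le_s : 2 ≤ s
  T_le : ∀ v, ‖T v‖ ≤ s * ‖v‖
  Ta_le : ∀ v, ‖T v‖ * M.a ≤ s * ‖v‖
  Ts_le : ∀ x, ‖T.symm x‖ ≤ s * ‖x‖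
  wt_le : ∀ (i : GI M) (x : E), |wg M i (T.symm x)| ≤ s * ‖x‖
  jj : GI M → Fin M.m
  Λ_jj : ∀ i, M.Λ (jj i) = wg M i
  i0 : GI M → Fin M.r
  i0_ne : ∀ i, M.lδ (jj i) (M.bas (i0 i)) ≠ 0
  δ_le : ∀ i y, M.len y ≤ R0 → ‖M.δ (jj i) y / M.lδ (jj i) (M.bas (i0 i))‖ ≤ s

theorem exists_capPar (T : (Fin k → ℝ) ≃ₗ[ℝ] E) {V : Set M.NN} (RC : ℝ) (hVm : MeasurableSet V)
    (hVb : Bornology.IsBounded V) (hV0 : volume V ≠ 0) : Nonempty (CapPar M T V RC) := by
  classical
  obtain ⟨ρ, hρ⟩ := hVb.exists_norm_le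
  have hfd : FiniteDimensional ℝ E := T.finiteDimensional
  choose jj hjj using fun i : GI M => M.Λ_surj i i.2
  choose i0 hi0 using fun i : GI M => M.lδ_ne (jj i)
  choose c B hcB using fun i : GI M => M.crossed (jj i)
  obtain ⟨Cw, hCw, hwt⟩ := M.exists_wt_le
  set R0 : ℝ := max (max (max 1 (2 * M.a)) (max (2 * k * M.a) RC)) (M.a * Real.log (2 + ρ)) with hR0
  set t1 : ℝ := ‖LinearMap.toContinuousLinearMap (T : (Fin k → ℝ) →ₗ[ℝ] E)‖ with ht1
  set t2 : ℝ := ‖LinearMap.toContinuousLinearMap (T.symm : E →ₗ[ℝ] (Fin k → ℝ))‖ with ht2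
  have hT1 : ∀ v, ‖T v‖ ≤ t1 * ‖v‖ := fun v =>
    (LinearMap.toContinuousLinearMap (T : (Fin k → ℝ) →ₗ[ℝ] E)).le_opNorm v
  have hT2 : ∀ x, ‖T.symm x‖ ≤ t2 * ‖x‖ := fun x =>
    (LinearMap.toContinuousLinearMap (T.symm : E →ₗ[ℝ] (Fin k → ℝ))).le_opNorm x
  have ht10 : 0 ≤ t1 := norm_nonneg _
  have ht20 : 0 ≤ t2 := norm_nonneg _
  have ha := M.a0
  set b : GI M → ℝ := fun i => |B i * Real.exp (c i * R0)| / ‖M.lδ (jj i) (M.bas (i0 i))‖ with hb
  have hb0 : ∀ i, 0 ≤ b i := fun i => by rw [hb]; positivity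
  set s : ℝ := 2 + t1 + t1 * M.a + t2 + Cw * t2 + ∑ i, b i with hs
  have hsum : 0 ≤ ∑ i, b i := Finset.sum_nonneg fun i _ => hb0 i
  have p1 : 0 ≤ t1 * M.a := by positivity
  have p2 : 0 ≤ Cw * t2 := by positivity
  refine ⟨{
    s := s
    R0 := R0
    one_le_s := by linarith
    one_le_R0 := le_max_of_le_left (le_max_of_le_left (le_max_left _ _))
    two_a_le := le_max_of_le_left (le_max_of_le_left (le_max_right _ _))
    ka_le := le_max_of_le_left (le_max_of_le_right (le_max_left _ _))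
    RC_le := le_max_of_le_left (le_max_of_le_right (le_max_right _ _))
    V_meas := hVm
    V_le := ?_
    V_pos := hV0
    V_fin := hVb.measure_lt_top.ne
    two_le_s := by linarith
    T_le := fun v => (hT1 v).trans (mul_le_mul_of_nonneg_right (by linarith) (norm_nonneg v))
    Ta_le := ?_
    Ts_le := fun x => (hT2 x).trans (mul_le_mul_of_nonneg_right (by linarith) (norm_nonneg x))
    wt_le := ?_
    jj := jj
    Λ_jj := hjj
    i0 := i0
    i0_ne := hi0
    δ_le := ?_ }⟩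
  · intro n hn
    refine (M.len_toG_le n).trans ((mul_le_mul_of_nonneg_left (Real.log_le_log (by positivity)
      ?_) ha).trans (le_max_right _ _))
    linarith [hρ n hn]
  · intro v
    have h1 := mul_le_mul_of_nonneg_right (hT1 v) ha
    have h2 : t1 * ‖v‖ * M.a = (t1 * M.a) * ‖v‖ := by ring
    rw [h2] at h1
    exact h1.trans (mul_le_mul_of_nonneg_right (by linarith) (norm_nonneg v))
  · intro i x
    refine (hwt i (T.symm x)).trans ?_
    have h1 := mul_le_mul_of_nonneg_left (hT2 x) hCw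
    rw [← mul_assoc] at h1
    exact h1.trans (mul_le_mul_of_nonneg_right (by linarith) (norm_nonneg x))
  · intro i y hy
    rw [norm_div]
    have h1 := (hcB i).δ_le y
    have h2 : B i * Real.exp (c i * M.len y) ≤ |B i * Real.exp (c i * R0)| := by
      refine le_trans ?_ (le_abs_self _)
      exact mul_le_mul_of_nonneg_left (Real.exp_le_exp.2
        (mul_le_mul_of_nonneg_left hy (hcB i).c_nonneg)) (hcB i).A_nonneg
    have h3 : ‖M.δ (jj i) y‖ / ‖M.lδ (jj i) (M.bas (i0 i))‖ ≤ b i := by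
      rw [hb]
      exact div_le_div_of_nonneg_right (h1.trans h2) (norm_nonneg _)
    refine h3.trans ?_
    have h4 := Finset.single_le_sum (f := b) (fun j _ => hb0 j) (Finset.mem_univ i)
    linarith

/-- the transported generating system -/
noncomputable def gsysT (M : BModel S π) (T : (Fin k → ℝ) ≃ₗ[ℝ] E) : Conv.GenSys (GI M) E where
  l i := (wg M i) ∘ₗ (T.symm : E →ₗ[ℝ] (Fin k → ℝ))
  B := (gsys M).B
  ne := (gsys M).ne
  one_le := (gsys M).one_le
  tr n hn v := (gsys M).tr n hn (T.symm v)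
  sep v hv := by
    have h := (gsys M).sep (T.symm v) fun i => hv i
    exact (LinearEquiv.map_eq_zero_iff T.symm).1 h

theorem gsysT_l (T : (Fin k → ℝ) ≃ₗ[ℝ] E) (i : GI M) (v : Fin k → ℝ) :
    (M.gsysT T).l i (T v) = wg M i v := by
  change wg M i (T.symm (T v)) = _
  rw [LinearEquiv.symm_apply_apply]

theorem gsysT_Gt (T : (Fin k → ℝ) ≃ₗ[ℝ] E) (Z : GI M → ℝ) : (M.gsysT T).Gt Z = (gsys M).Gt Z := rfl

/-- a vertical staircase along a segment -/
theorem exists_stairs (u : Fin k → ℝ) (m : ℕ) (hm : 0 < m) (hu : ‖u‖ ≤ m) :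
    ∃ p : ℕ → M.G, p 0 = 1 ∧ (∀ j, M.len ((p j)⁻¹ * p (j + 1)) ≤ 2 * k * M.a) ∧
      (∀ j, p j ∈ M.C) ∧ ∀ j, ‖M.h (p j) - ((j : ℝ) / m) • u‖ ≤ 1 := by
  have hm0 : (0:ℝ) < m := by exact_mod_cast hm
  -- the lattice points
  let U : ℕ → Fin k → ℤ := fun j i => round (((j : ℝ) / m) * u i)
  have hU0 : U 0 = 0 := by funext i; simp [U]
  have hU : ∀ j i, |(U j i : ℝ) - ((j : ℝ) / m) * u i| ≤ 1 / 2 := by
    intro j i
    rw [abs_sub_comm]
    exact abs_sub_round _
  have hUd : ∀ j i, ((U (j + 1) i - U j i : ℤ)).natAbs ≤ 2 := by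
    intro j i
    have h1 := hU j i
    have h2 := hU (j + 1) i
    have h3 : |u i| ≤ m := by
      have := norm_le_pi_norm u i
      rw [Real.norm_eq_abs] at this
      exact this.trans hu
    have h4 : |((j + 1 : ℕ) : ℝ) / m * u i - (j : ℝ) / m * u i| ≤ 1 := by
      have : ((j + 1 : ℕ) : ℝ) / m * u i - (j : ℝ) / m * u i = u i / m := by
        push_cast; field_simp; ring
      rw [this, abs_div, abs_of_pos hm0, div_le_one hm0]; exact h3
    have h5 : |((U (j + 1) i - U j i : ℤ) : ℝ)| ≤ 2 := by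
      push_cast
      rw [abs_le] at h1 h2 h4 ⊢
      constructor <;> linarith [h1.1, h1.2, h2.1, h2.2, h4.1, h4.2]
    have h6 : |(U (j + 1) i - U j i : ℤ)| ≤ 2 := by exact_mod_cast h5
    rw [Int.abs_eq_natAbs] at h6
    exact_mod_cast h6
  let p : ℕ → M.G := fun j => Nat.rec 1 (fun j g => g * M.t (U (j + 1) - U j)) j
  have hp0 : p 0 = 1 := rfl
  have hps : ∀ j, p (j + 1) = p j * M.t (U (j + 1) - U j) := fun j => rfl
  have hph : ∀ j i, M.h (p j) i = U j i := by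
    intro j
    induction j with
    | zero => intro i; rw [hp0, M.h_one, hU0]; simp
    | succ j ih =>
      intro i
      rw [hps, M.h_mul, Pi.add_apply, ih, M.h_t]
      simp
  have htC : ∀ v, M.t v ∈ M.C := by
    intro v
    obtain ⟨l, hl, _, h⟩ := M.t_list v
    rw [hl]; exact Subgroup.list_prod_mem _ fun s hs => M.CN_le (h s hs).1
  have htl : ∀ v, M.len (M.t v) ≤ n1 v * M.a := by
    intro v
    obtain ⟨l, hl, hlen, h⟩ := M.t_list v
    rw [hl]
    have key : ∀ l : List M.G, (∀ s ∈ l, M.len s ≤ M.a) → M.len l.prod ≤ l.length * M.a := by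
      intro l
      induction l with
      | nil => intro _; simp [M.isLen.one]
      | cons g l ih =>
        intro h
        rw [List.prod_cons]
        have h1 := M.isLen.mul g l.prod
        have h2 := ih fun s hs => h s (List.mem_cons_of_mem _ hs)
        have h3 := h g List.mem_cons_self
        rw [List.length_cons]; push_cast; linarith
    refine (key l fun s hs => (h s hs).2).trans ?_
    have h1 : (l.length : ℝ) ≤ n1 v := by exact_mod_cast hlen
    exact mul_le_mul_of_nonneg_right h1 M.a0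
  refine ⟨p, hp0, ?_, ?_, ?_⟩
  · intro j
    rw [hps, inv_mul_cancel_left]
    refine (htl _).trans ?_
    have h1 : n1 (U (j + 1) - U j) ≤ 2 * k := by
      unfold n1
      calc ∑ i, ((U (j + 1) - U j) i).natAbs ≤ ∑ _i : Fin k, 2 :=
            Finset.sum_le_sum fun i _ => hUd j i
        _ = 2 * k := by simp [mul_comm]
    have h2 : (n1 (U (j + 1) - U j) : ℝ) ≤ 2 * k := by exact_mod_cast h1
    exact mul_le_mul_of_nonneg_right h2 M.a0
  · intro j
    induction j with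
    | zero => exact M.C.one_mem
    | succ j ih => rw [hps]; exact M.C.mul_mem ih (htC _)
  · intro j
    rw [pi_norm_le_iff_of_nonneg zero_le_one]
    intro i
    rw [Pi.sub_apply, hph, Pi.smul_apply, smul_eq_mul, Real.norm_eq_abs]
    exact (hU j i).trans (by norm_num)

/-- products of at most `m` elements of `C` of length `≤ RC` -/
def ClSet (M : BModel S π) (RC : ℝ) (m : ℕ) : Set M.G :=
  {g | ∃ l : List M.G, l.length ≤ m ∧ (∀ s ∈ l, s ∈ M.C ∧ M.len s ≤ RC) ∧ g = l.prod}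

theorem len_list_le {R : ℝ} (l : List M.G) (h : ∀ s ∈ l, M.len s ≤ R) :
    M.len l.prod ≤ l.length * R := by
  induction l with
  | nil => simp [M.isLen.one]
  | cons g l ih =>
    rw [List.prod_cons]
    have h1 := M.isLen.mul g l.prod
    have h2 := ih fun s hs => h s (List.mem_cons_of_mem _ hs)
    have h3 := h g List.mem_cons_self
    rw [List.length_cons]; push_cast; linarith

/-- **the `CapModel` of a `BModel`.** -/
noncomputable def toCap (M : BModel S π) [Countable Γ] {T : (Fin k → ℝ) ≃ₗ[ℝ] E} {V : Set M.NN}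
    {RC : ℝ} (P : CapPar M T V RC) : Cap.CapModel M.G M.NN (GI M) E where
  S := M.gsysT T
  emb := M.toG
  emb_inj := M.toG_injective
  len y := P.s * M.len y
  C0 := P.s * P.R0
  one_le_C0 := by nlinarith [P.one_le_s, P.one_le_R0]
  len_nonneg y := mul_nonneg (by linarith [P.one_le_s]) (M.len_nonneg y)
  len_one := by rw [M.isLen.one, mul_zero]
  len_inv y := by rw [M.isLen.inv]
  len_mul y z := by
    rw [← mul_add]
    exact mul_le_mul_of_nonneg_left (M.isLen.mul y z) (by linarith [P.one_le_s])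
  chain y := by
    obtain ⟨l, hy, hl, hla⟩ := M.letters y
    refine ⟨l.length, fun j => (l.take j).prod, ?_, by simp, by simp [hy], ?_⟩
    · have h1 := M.len_nonneg y
      have h2 := P.one_le_s
      have h3 := P.one_le_R0
      have h4 : M.len y ≤ P.s * M.len y := by nlinarith
      have h5 : 1 ≤ P.s * P.R0 := by nlinarith
      nlinarith [mul_nonneg (by linarith : (0:ℝ) ≤ P.s) h1]
    · intro j hj
      have h1 : (l.take (j + 1)).prod = (l.take j).prod * l[j] := by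
        rw [List.take_succ_eq_append_getElem hj, List.prod_append, List.prod_singleton]
      beta_reduce
      rw [h1, inv_mul_cancel_left]
      have h2 := hla _ (List.getElem_mem hj)
      have h3 := P.two_a_le
      have h4 := M.one_le_a
      exact mul_le_mul_of_nonneg_left (by linarith) (by linarith [P.one_le_s])
  hgt y := T (M.h y)
  hgt_mul y z := by rw [M.h_mul, map_add]
  hgt_le y := by
    have h1 := P.T_le (M.h y)
    have h2 := M.norm_h_le y
    have h3 := P.one_le_s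
    have h4 := P.two_a_le
    have h5 := M.len_nonneg y
    have h6 := M.one_le_a
    have h7 : P.s * ‖M.h y‖ ≤ P.s * (M.a * M.len y) := mul_le_mul_of_nonneg_left h2 (by linarith)
    have h8 : P.s * (M.a * M.len y) ≤ P.s * (P.R0 * M.len y) := by
      gcongr
      linarith
    have h9 : P.s * (P.R0 * M.len y) ≤ P.s * P.R0 * (P.s * M.len y) := by
      have : 0 ≤ P.s * (P.R0 * M.len y) := by
        have := P.one_le_R0
        positivity
      nlinarith
    linarith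
  hgt_emb n := by rw [M.h_toG, map_zero]
  l_le i x := by
    have h1 := P.wt_le i x
    have h2 := P.one_le_R0
    have h3 := P.one_le_s
    change |wg M i (T.symm x)| ≤ _
    have h4 : P.s * ‖x‖ ≤ P.s * P.R0 * ‖x‖ := by
      have : 0 ≤ P.s * ‖x‖ := by positivity
      nlinarith
    linarith
  χ i := M.χ (P.jj i)
  δ i y := M.δ (P.jj i) y / M.lδ (P.jj i) (M.bas (P.i0 i))
  crossed i _ y z := by
    obtain ⟨c, B, h⟩ := M.crossed (P.jj i)
    rw [h.δ_mul, add_div, mul_div_assoc]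
  χ_norm i _ y := by
    obtain ⟨c, B, h⟩ := M.crossed (P.jj i)
    rw [h.χ_norm, M.gsysT_l, ← P.Λ_jj]
  χ_emb i _ n := M.χ_one _ _ (M.h_toG n)
  δ_le i _ y hy := by
    have h1 : M.len y ≤ P.R0 := le_of_mul_le_mul_left hy (by linarith [P.one_le_s])
    have h2 := P.δ_le i y h1
    nlinarith [P.one_le_s, P.one_le_R0]
  exists_u i _ t ht0 ht1 := by
    refine ⟨M.E.symm (t • M.bas (P.i0 i)), ?_, ?_⟩
    · have h1 := M.len_toG_le (M.E.symm (t • M.bas (P.i0 i)))
      have h2 : ‖M.E.symm (t • M.bas (P.i0 i))‖ ≤ 1 := by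
        have : (0:ℝ) ≤ 1 := zero_le_one
        refine (pi_norm_le_iff_of_nonneg this).2 fun j => ?_
        rw [M.E_symm_apply, map_smul, Finsupp.smul_apply, Module.Basis.repr_self,
          Finsupp.single_apply, smul_eq_mul, Real.norm_eq_abs]
        split_ifs
        · rw [mul_one, abs_of_nonneg ht0]; exact ht1
        · simp
      have h3 : Real.log (2 + ‖M.E.symm (t • M.bas (P.i0 i))‖) ≤ 2 := by
        have h4 := Real.log_le_log (by positivity) (by linarith :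
          2 + ‖M.E.symm (t • M.bas (P.i0 i))‖ ≤ 3)
        have h5 := Real.log_le_sub_one_of_pos (by norm_num : (0:ℝ) < 3)
        linarith
      have h4 := P.two_a_le
      have h5 := M.one_le_a
      have h6 : M.len (M.toG (M.E.symm (t • M.bas (P.i0 i)))) ≤ P.R0 := by nlinarith
      exact mul_le_mul_of_nonneg_left h6 (by linarith [P.one_le_s])
    · rw [M.toG_apply, LinearEquiv.apply_symm_apply, M.δ_ex, map_smul, Complex.real_smul,
        mul_div_assoc, div_self (P.i0_ne i), mul_one]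
  vert v := by
    set u := T.symm v with hu
    obtain ⟨p, hp0, hstep, _, hh⟩ := M.exists_stairs u (⌈‖u‖⌉₊ + 1) (Nat.succ_pos _)
      ((Nat.le_ceil _).trans (by push_cast; linarith))
    have hTu : T u = v := by rw [hu, LinearEquiv.apply_symm_apply]
    have hs := P.one_le_s
    have hs2 := P.two_le_s
    have hR := P.one_le_R0
    have key : ∀ j, ‖T (M.h (p j)) - ((j : ℝ) / ((⌈‖u‖⌉₊ + 1 : ℕ) : ℝ)) • v‖ ≤ P.s * P.R0 := by
      intro j
      have h1 : T (M.h (p j)) - ((j : ℝ) / ((⌈‖u‖⌉₊ + 1 : ℕ) : ℝ)) • v =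
          T (M.h (p j) - ((j : ℝ) / ((⌈‖u‖⌉₊ + 1 : ℕ) : ℝ)) • u) := by
        rw [map_sub, map_smul, hTu]
      rw [h1]
      have h2 := P.T_le (M.h (p j) - ((j : ℝ) / ((⌈‖u‖⌉₊ + 1 : ℕ) : ℝ)) • u)
      have h3 := hh j
      have h4 : P.s * ‖M.h (p j) - ((j : ℝ) / ((⌈‖u‖⌉₊ + 1 : ℕ) : ℝ)) • u‖ ≤ P.s * 1 :=
        mul_le_mul_of_nonneg_left h3 (by linarith)
      nlinarith
    refine ⟨⌈‖u‖⌉₊ + 1, p, ?_, hp0, ?_, ?_, ?_⟩
    · push_cast
      have h1 := (Nat.ceil_lt_add_one (norm_nonneg u)).le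
      have h2 := P.Ts_le v
      rw [← hu] at h2
      have h3 : P.s * ‖v‖ ≤ P.s * P.R0 * ‖v‖ := by
        have : 0 ≤ P.s * ‖v‖ := by positivity
        nlinarith
      nlinarith
    · have h1 := key (⌈‖u‖⌉₊ + 1)
      rwa [div_self (by positivity), one_smul] at h1
    · intro j _
      exact mul_le_mul_of_nonneg_left ((hstep j).trans P.ka_le) (by linarith)
    · intro j hj
      refine ⟨(j : ℝ) / ((⌈‖u‖⌉₊ + 1 : ℕ) : ℝ), by positivity, ?_, key j⟩
      rw [div_le_one (by positivity)]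
      exact_mod_cast hj
  μ := volume
  cj := M.conjN
  emb_cj := M.toG_conjN
  cj_meas g := (M.continuous_conjN g).measurable
  cj_map g := (M.measurePreserving_conjN g).map_eq
  mul_left n := (measurePreserving_mul_left volume n).map_eq
  mul_right n := (measurePreserving_mul_right volume n).map_eq
  sfin := inferInstance
  rd y := M.ι (M.rnd y)
  rd_le y := by
    have h1 := M.len_rnd y
    have h2 := P.two_a_le
    have h3 := M.one_le_a
    exact mul_le_mul_of_nonneg_left (by linarith) (by linarith [P.one_le_s])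
  rd_meas x g A := by
    have h1 := M.measurable_rnd (β := Prop) (fun γ => M.ι γ ∈ A) x g
    exact measurableSet_setOfPred.2 h1
  ball_le R := by
    obtain ⟨C, hC, h⟩ := M.volume_near R
    refine ⟨C.toReal + 1, by positivity, fun y => ?_⟩
    refine le_trans (measure_mono ?_) ((h y⁻¹ 1).trans ?_)
    · intro n hn
      have h1 : P.s * M.len (y⁻¹ * M.toG n) ≤ R := hn
      change M.len (y⁻¹ * M.toG n * 1) ≤ R
      rw [mul_one]
      have h2 := M.len_nonneg (y⁻¹ * M.toG n)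
      nlinarith [P.one_le_s]
    · rw [← ENNReal.ofReal_toReal hC]
      exact ENNReal.ofReal_le_ofReal (by simp [ENNReal.toReal_ofReal])
  V := V
  V_meas := P.V_meas
  V_le n hn := mul_le_mul_of_nonneg_left (P.V_le n hn) (by linarith [P.one_le_s])
  V_pos := P.V_pos
  V_fin := P.V_fin
  Cl := M.ClSet RC
  one_mem_Cl := ⟨[], by simp, by simp, by simp⟩
  Cl_mono := by
    rintro m m' h g ⟨l, hl, hC, rfl⟩
    exact ⟨l, hl.trans h, hC, rfl⟩
  Cl_mul := by
    rintro m m' g g' ⟨l, hl, hC, rfl⟩ ⟨l', hl', hC', rfl⟩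
    refine ⟨l ++ l', by rw [List.length_append]; omega, ?_, by rw [List.prod_append]⟩
    intro s hs
    rcases List.mem_append.1 hs with h | h
    · exact hC s h
    · exact hC' s h
  Cl_inv := by
    rintro m g ⟨l, hl, hC, rfl⟩
    refine ⟨(l.map (·⁻¹)).reverse, by simpa using hl, ?_, by rw [List.prod_inv_reverse]⟩
    intro s hs
    rw [List.mem_reverse, List.mem_map] at hs
    obtain ⟨s', hs', rfl⟩ := hs
    exact ⟨M.C.inv_mem (hC s' hs').1, by rw [M.isLen.inv]; exact (hC s' hs').2⟩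
  len_Cl := by
    rintro m g ⟨l, hl, hC, rfl⟩
    have h1 := M.len_list_le l (R := P.R0) fun s hs => (hC s hs).2.trans P.RC_le
    have h2 : (l.length : ℝ) ≤ m := by exact_mod_cast hl
    have h3 := P.one_le_s
    have h4 := P.one_le_R0
    calc P.s * M.len l.prod ≤ P.s * (l.length * P.R0) := mul_le_mul_of_nonneg_left h1 (by linarith)
      _ ≤ P.s * (m * P.R0) := by gcongr
      _ = P.s * P.R0 * m := by ring

end BModel

end Crest.Agent.R182.Core
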