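/-
R182, module NILBOX (helper89): volume of boxes, the maximal determinant of monomials.
-/
import Mathlib
import Crest.Agent.R182.NbStar

set_option autoImplicit false
set_option linter.unusedSectionVars false

namespace Crest.Agent.R182.Nb

open MeasureTheory Finset Module

section vol

variable {L : Type*} [AddCommGroup L] [Module ℝ L] {d : ℕ} (b : Basis (Fin d) ℝ L)

/-- volume in the coordinates of a basis -/
noncomputable def vb (A : Set L) : ENNReal := volume {y : Fin d → ℝ | b.equivFun.symm y ∈ A}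

/-- measurability in coordinates -/
def MeasL (A : Set L) : Prop := MeasurableSet {y : Fin d → ℝ | b.equivFun.symm y ∈ A}


/-- the linear map to the coordinates of `b` -/
noncomputable def chg (m : Fin d → L) : (Fin d → ℝ) →ₗ[ℝ] (Fin d → ℝ) :=
  Matrix.toLin' (b.toMatrix m)

theorem chg_apply (m : Fin d → L) (y : Fin d → ℝ) :
    b.equivFun.symm (chg b m y) = ∑ k, y k • m k := by
  rw [Basis.equivFun_symm_apply, chg, Matrix.toLin'_apply]
  simp only [Matrix.mulVec, dotProduct, Basis.toMatrix_apply, Finset.sum_smul]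
  rw [Finset.sum_comm]
  refine Finset.sum_congr rfl fun k _ => ?_
  conv_rhs => rw [← b.sum_repr (m k), Finset.smul_sum]
  refine Finset.sum_congr rfl fun i _ => ?_
  rw [smul_smul, mul_comm]

theorem det_chg (m : Fin d → L) : LinearMap.det (chg b m) = b.det m := by
  rw [chg, LinearMap.det_toLin', Basis.det_apply]

theorem measL_iff {A : Set L} (hA : MeasL b A) (m : Fin d → L) :
    MeasurableSet {y : Fin d → ℝ | ∑ k, y k • m k ∈ A} := by
  have : {y : Fin d → ℝ | ∑ k, y k • m k ∈ A} =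
      (chg b m) ⁻¹' {y : Fin d → ℝ | b.equivFun.symm y ∈ A} := by
    ext y
    simp only [Set.mem_ofPred_eq, Set.mem_preimage, chg_apply]
  rw [this]
  exact (LinearMap.continuous_of_finiteDimensional (chg b m)).measurable hA

theorem vb_eq {m : Fin d → L} (hm : b.det m ≠ 0) (A : Set L) :
    vb b A = ENNReal.ofReal |b.det m| * volume {y : Fin d → ℝ | ∑ k, y k • m k ∈ A} := by
  have hdet : LinearMap.det (chg b m) ≠ 0 := by rw [det_chg]; exact hm
  have hsurj : Function.Surjective (chg b m) := by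
    have h1 : IsUnit (LinearMap.det (chg b m)) := isUnit_iff_ne_zero.mpr hdet
    exact (LinearEquiv.ofIsUnitDet (v := Pi.basisFun ℝ (Fin d)) (v' := Pi.basisFun ℝ (Fin d))
      (f := chg b m) (by rwa [LinearMap.det_toMatrix])).surjective
  have h1 : {y : Fin d → ℝ | b.equivFun.symm y ∈ A} =
      (chg b m) '' {y : Fin d → ℝ | ∑ k, y k • m k ∈ A} := by
    ext y
    constructor
    · intro hy
      obtain ⟨x, rfl⟩ := hsurj y
      exact ⟨x, by rw [Set.mem_ofPred_eq, ← chg_apply b m x]; exact hy, rfl⟩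
    · rintro ⟨x, hx, rfl⟩
      rw [Set.mem_ofPred_eq, chg_apply]; exact hx
  rw [vb, h1, Measure.addHaar_image_linearMap, det_chg]

/-- Cramer: coordinates with respect to a family of maximal determinant -/
theorem cramer {m : Fin d → L} (hm : b.det m ≠ 0) (x : L) {T : ℝ}
    (hx : ∀ k, |b.det (Function.update m k x)| ≤ T * |b.det m|) :
    ∃ θ : Fin d → ℝ, (∀ k, |θ k| ≤ T) ∧ x = ∑ k, θ k • m k := by
  have hb := (Basis.is_basis_iff_det b).mpr (isUnit_iff_ne_zero.mpr hm)
  set B := Basis.mk hb.1 hb.2.ge with hB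
  refine ⟨fun k => B.coord k x, fun k => ?_, ?_⟩
  · have h1 := Basis.det_smul_mk_coord_eq_det_update b hb.1 hb.2.ge k
    have h2 := LinearMap.congr_fun h1 x
    rw [LinearMap.smul_apply, MultilinearMap.toLinearMap_apply, smul_eq_mul] at h2
    have h3 : |b.det m| * |B.coord k x| ≤ T * |b.det m| := by
      rw [← abs_mul, h2]
      exact hx k
    have h4 : 0 < |b.det m| := abs_pos.mpr hm
    have h5 : |b.det m| * |B.coord k x| ≤ |b.det m| * T := by linarith
    exact le_of_mul_le_mul_left h5 h4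
  · conv_lhs => rw [← B.sum_repr x]
    refine Finset.sum_congr rfl fun k _ => ?_
    rw [Basis.mk_apply]; rfl

/-- determinant of a family with bounded coordinates -/
theorem det_le_of_coord {m : Fin d → L} (hm : b.det m ≠ 0) {v : Fin d → L} {T : ℝ}
    (hv : ∀ j, ∃ θ : Fin d → ℝ, (∀ k, |θ k| ≤ T) ∧ v j = ∑ k, θ k • m k) :
    |b.det v| ≤ d.factorial * T ^ d * |b.det m| := by
  have hb := (Basis.is_basis_iff_det b).mpr (isUnit_iff_ne_zero.mpr hm)
  set B := Basis.mk hb.1 hb.2.ge with hB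
  have hBm : ∀ k, B k = m k := fun k => Basis.mk_apply _ _ _
  have h1 : b.det v = b.det B * B.det v := by
    have := AlternatingMap.congr_fun (AlternatingMap.eq_smul_basis_det B b.det) v
    rwa [AlternatingMap.smul_apply, smul_eq_mul] at this
  have h2 : b.det B = b.det m := by
    congr 1; funext k; exact hBm k
  rw [h1, h2, abs_mul, mul_comm]
  gcongr
  rw [Basis.det_apply]
  have h3 := Matrix.det_le (A := B.toMatrix v) (abv := AbsoluteValue.abs) (x := T) (fun i j => by
    obtain ⟨θ, hθ, hj⟩ := hv j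
    rw [Basis.toMatrix_apply, hj]
    have : B.repr (∑ k, θ k • m k) i = θ i := by
      have e : ∑ k, θ k • m k = ∑ k, θ k • B k := by
        refine Finset.sum_congr rfl fun k _ => by rw [hBm]
      rw [e, Basis.repr_sum_self]
    rw [this]
    exact hθ i)
  simpa using h3

end vol

section MD

variable {L : Type*} [LieRing L] [LieAlgebra ℝ L] {d : ℕ} (b : Basis (Fin d) ℝ L)
  {σ τ : Type*} [Fintype σ] [Fintype τ]

/-- tuples of lists -/
abbrev Tup (σ : Type*) [Fintype σ] (c d : ℕ) := Fin d → KL σ c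

instance (c : ℕ) : Nonempty (KL σ c) := ⟨⟨[], mem_KL.mpr (Nat.zero_le _)⟩⟩

/-- determinant of a tuple of monomials -/
noncomputable def dt {c : ℕ} (g : σ → L) (κ : Tup σ c d) : ℝ :=
  b.det fun k => mon g (κ k : List σ)

/-- maximal determinant -/
noncomputable def MD (c : ℕ) (g : σ → L) : ℝ :=
  (Finset.univ : Finset (Tup σ c d)).sup' Finset.univ_nonempty fun κ => |dt b g κ|

variable {b} {c : ℕ} {g : σ → L}

theorem le_MD (κ : Tup σ c d) : |dt b g κ| ≤ MD b c g :=
  Finset.le_sup' (fun κ => |dt b g κ|) (Finset.mem_univ κ)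

theorem exists_MD : ∃ κ : Tup σ c d, MD b c g = |dt b g κ| := by
  obtain ⟨κ, _, h⟩ := Finset.exists_mem_eq_sup' (Finset.univ_nonempty (α := Tup σ c d))
    fun κ => |dt b g κ|
  exact ⟨κ, h⟩

theorem MD_nonneg : 0 ≤ MD b c g := by
  obtain ⟨κ, h⟩ := exists_MD (b := b) (c := c) (g := g)
  rw [h]; exact abs_nonneg _

theorem MD_le {T : ℝ} (h : ∀ κ : Tup σ c d, |dt b g κ| ≤ T) : MD b c g ≤ T := by
  obtain ⟨κ, h'⟩ := exists_MD (b := b) (c := c) (g := g)
  rw [h']; exact h κ

/-- coordinates of the monomials with respect to a maximal tuple -/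
theorem coord_of_max {κ : Tup σ c d} (hκ : MD b c g = |dt b g κ|) (hpos : 0 < MD b c g)
    (κ' : KL σ c) : ∃ θ : Fin d → ℝ, (∀ k, |θ k| ≤ 1) ∧
      mon g (κ' : List σ) = ∑ k, θ k • mon g (κ k : List σ) := by
  classical
  have hdt : |dt b g κ| ≠ 0 := by rw [← hκ]; exact hpos.ne'
  have hm : b.det (fun k => mon g (κ k : List σ)) ≠ 0 := abs_ne_zero.mp hdt
  refine cramer b hm _ fun k => ?_
  rw [one_mul]
  change _ ≤ |dt b g κ|
  rw [← hκ]
  have e : (Function.update (fun k => mon g (κ k : List σ)) k (mon g (κ' : List σ))) =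
      fun j => mon g (Function.update κ k κ' j : List σ) := by
    funext j
    by_cases h : j = k
    · subst h; simp
    · simp [Function.update_of_ne h]
  rw [e]
  exact le_MD (Function.update κ k κ')

/-- coordinates of the elements of a box with respect to a maximal tuple -/
theorem coord_of_mem_Bx {κ : Tup σ c d} (hκ : MD b c g = |dt b g κ|) (hpos : 0 < MD b c g)
    {t : ℝ} (ht : 0 ≤ t) {x : L} (hx : x ∈ Bx c g t) : ∃ θ : Fin d → ℝ,
      (∀ k, |θ k| ≤ (KL σ c).card * t) ∧ x = ∑ k, θ k • mon g (κ k : List σ) := by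
  obtain ⟨s, hs, rfl⟩ := hx
  choose θ hθ h using fun κ' : KL σ c => coord_of_max hκ hpos κ'
  refine ⟨fun k => ∑ κ' : KL σ c, s κ' * θ κ' k, fun k => ?_, ?_⟩
  · refine (Finset.abs_sum_le_sum_abs _ _).trans ?_
    calc ∑ κ' : KL σ c, |s κ' * θ κ' k| ≤ ∑ _κ' : KL σ c, t := by
          refine Finset.sum_le_sum fun κ' _ => ?_
          rw [abs_mul]
          have h1 := hs κ'
          have h2 := hθ κ' k
          calc |s κ'| * |θ κ' k| ≤ t * 1 := by gcongr
            _ = t := mul_one t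
      _ = (KL σ c).card * t := by simp
  · rw [← Finset.sum_coe_sort (KL σ c) fun κ' => s κ' • mon g κ']
    simp only [Finset.sum_smul]
    rw [Finset.sum_comm]
    refine Finset.sum_congr rfl fun κ' _ => ?_
    conv_lhs => rw [h κ', Finset.smul_sum]
    exact Finset.sum_congr rfl fun k _ => smul_smul _ _ _

/-- **volume of a box** -/
theorem vb_Bx_le (hpos : 0 < MD b c g) {t : ℝ} (ht : 0 ≤ t) :
    vb b (Bx c g t) ≤ ENNReal.ofReal ((2 * (KL σ c).card * t) ^ d * MD b c g) := by
  obtain ⟨κ, hκ⟩ := exists_MD (b := b) (c := c) (g := g)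
  have hdt : |dt b g κ| ≠ 0 := by rw [← hκ]; exact hpos.ne'
  have hm : b.det (fun k => mon g (κ k : List σ)) ≠ 0 := abs_ne_zero.mp hdt
  rw [vb_eq b hm]
  have hb := (Basis.is_basis_iff_det b).mpr (isUnit_iff_ne_zero.mpr hm)
  have h1 : volume {y : Fin d → ℝ | ∑ k, y k • mon g (κ k : List σ) ∈ Bx c g t} ≤
      ENNReal.ofReal ((2 * ((KL σ c).card * t)) ^ d) := by
    have h2 := Real.volume_pi_closedBall (0 : Fin d → ℝ) (r := (KL σ c).card * t) (by positivity)
    rw [Fintype.card_fin] at h2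
    rw [← h2]
    refine measure_mono fun y hy => ?_
    obtain ⟨θ, hθ, hyθ⟩ := coord_of_mem_Bx hκ hpos ht hy
    have h3 : y = θ := by
      have h4 : ∑ k, (y k - θ k) • mon g (κ k : List σ) = 0 := by
        simp only [sub_smul, Finset.sum_sub_distrib]
        rw [hyθ, sub_self]
      have h5 := Fintype.linearIndependent_iff.mp hb.1 _ h4
      funext k
      exact sub_eq_zero.mp (h5 k)
    rw [mem_closedBall_zero_iff, h3, pi_norm_le_iff_of_nonneg (by positivity)]
    exact hθ
  refine (mul_le_mul_right h1 _).trans ?_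
  rw [← ENNReal.ofReal_mul (abs_nonneg _)]
  refine ENNReal.ofReal_le_ofReal ?_
  change |dt b g κ| * _ ≤ _
  rw [← hκ, mul_comm, mul_assoc]

/-- **comparison of families** -/
theorem exists_MD_le (hL : NilC c L) (σ τ : Type*) [Fintype σ] [Fintype τ] :
    ∃ C : ℝ, 0 < C ∧ ∀ (g : σ → L) (v : τ → L) (t : ℝ), 1 ≤ t → 0 < MD b c g →
      (∀ i, v i ∈ Bx c g t) → MD b c v ≤ C * t ^ (c * d) * MD b c g := by
  set B : ℝ := (KL σ c).card * brC σ c ^ c with hB
  have hcard : (1:ℝ) ≤ (KL σ c).card := by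
    have : (KL σ c).Nonempty := ⟨[], mem_KL.mpr (Nat.zero_le _)⟩
    exact_mod_cast this.card_pos
  have hbr := brC_pos σ c
  have hB0 : 0 < B := by positivity
  refine ⟨d.factorial * B ^ d, by positivity, fun g v t ht hpos hv => ?_⟩
  refine MD_le fun κ => ?_
  obtain ⟨κ₀, hκ₀⟩ := exists_MD (b := b) (c := c) (g := g)
  have hdt : |dt b g κ₀| ≠ 0 := by rw [← hκ₀]; exact hpos.ne'
  have hm : b.det (fun k => mon g (κ₀ k : List σ)) ≠ 0 := abs_ne_zero.mp hdt
  have h1 : ∀ j, ∃ θ : Fin d → ℝ, (∀ k, |θ k| ≤ B * t ^ c) ∧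
      mon v (κ j : List τ) = ∑ k, θ k • mon g (κ₀ k : List σ) := by
    intro j
    have h2 := mon_comp_mem (hL.nil g) (v := v) (t := fun _ => t) (fun _ => by linarith) hv
      (κ j : List τ)
    have h3 : mon v (κ j : List τ) ∈ Bx c g (brC σ c ^ c * t ^ c) := by
      refine Bx_mono ?_ h2
      have h4 : ((κ j : List τ).map fun _ => t).prod = t ^ (κ j : List τ).length := by simp
      rw [h4]
      have h5 := mem_KL.mp (κ j).2
      have h6 : brC σ c ^ (κ j : List τ).length ≤ brC σ c ^ c := pow_le_pow_right₀ hbr h5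
      have h7 : t ^ (κ j : List τ).length ≤ t ^ c := pow_le_pow_right₀ ht h5
      gcongr
    obtain ⟨θ, hθ, h⟩ := coord_of_mem_Bx hκ₀ hpos (by positivity) h3
    exact ⟨θ, fun k => (hθ k).trans (le_of_eq (by rw [hB]; ring)), h⟩
  have h2 := det_le_of_coord b hm h1
  change |dt b v κ| ≤ _ * |dt b g κ₀| at h2
  rw [← hκ₀] at h2
  refine h2.trans (le_of_eq ?_)
  rw [mul_pow, ← pow_mul]; ring

end MD

end Crest.Agent.R182.Nb
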