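import Mathlib
import Crest.Agent.R182.ModelJac
import Crest.Agent.R182.NbJet
import Crest.Agent.R182.NbVol
import Crest.Agent.R182.NbGen
import Crest.Agent.R182.NbAd
import Crest.Agent.R182.CoreN
import Crest.Agent.R182.StarClean

-- ▼ part R182/NbSmall
section

set_option autoImplicit false
set_option linter.unusedSectionVars false

namespace Crest.Agent.R182.Nb

open MeasureTheory Finset

/-- choice of separated points in a set of large measure -/
theorem exists_separated {E : Set ℝ} {h : ℝ} (hh : 0 < h) (n : ℕ)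
    (hE : ENNReal.ofReal (2 * n * h) < volume E) :
    ∃ v : ℕ → ℝ, (∀ i ≤ n, v i ∈ E) ∧ ∀ i ≤ n, ∀ j ≤ n, i ≠ j → h ≤ |v i - v j| := by
  induction n with
  | zero =>
    have : E.Nonempty := by
      by_contra hcon
      rw [Set.not_nonempty_iff_eq_empty] at hcon
      rw [hcon] at hE; simp at hE
    obtain ⟨x, hx⟩ := this
    exact ⟨fun _ => x, fun _ _ => hx, fun i hi j hj hij => by omega⟩
  | succ n ih =>
    have hE' : ENNReal.ofReal (2 * n * h) < volume E := by
      refine lt_of_le_of_lt (ENNReal.ofReal_le_ofReal ?_) hE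
      push_cast; nlinarith
    obtain ⟨v, hv, hsep⟩ := ih hE'
    -- remove the balls
    have hU : volume (⋃ i ∈ Finset.range (n + 1), Metric.ball (v i) h) ≤
        ENNReal.ofReal (2 * (n + 1 : ℕ) * h) := by
      refine (measure_biUnion_finset_le _ _).trans ?_
      have : ∀ i ∈ Finset.range (n + 1), volume (Metric.ball (v i) h) = ENNReal.ofReal (2 * h) :=
        fun i _ => Real.volume_ball _ _
      rw [Finset.sum_congr rfl this, Finset.sum_const, Finset.card_range, nsmul_eq_mul]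
      rw [← ENNReal.ofReal_natCast, ← ENNReal.ofReal_mul (by positivity)]
      exact ENNReal.ofReal_le_ofReal (by push_cast; linarith)
    have hne : (E \ ⋃ i ∈ Finset.range (n + 1), Metric.ball (v i) h).Nonempty := by
      by_contra hcon
      rw [Set.not_nonempty_iff_eq_empty, Set.sdiff_eq_empty] at hcon
      exact absurd (lt_of_lt_of_le hE ((measure_mono hcon).trans hU)) (lt_irrefl _)
    obtain ⟨x, hxE, hx⟩ := hne
    have hx' : ∀ i ≤ n, h ≤ |x - v i| := by
      intro i hi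
      by_contra hcon
      apply hx
      simp only [Set.mem_iUnion]
      exact ⟨i, Finset.mem_range.mpr (by omega), by rw [Metric.mem_ball, Real.dist_eq]; linarith⟩
    refine ⟨fun i => if i = n + 1 then x else v i, fun i hi => ?_, fun i hi j hj hij => ?_⟩
    · beta_reduce
      split_ifs with h1
      · exact hxE
      · exact hv i (by omega)
    · beta_reduce
      split_ifs with h1 h2 h2
      · omega
      · exact hx' j (by omega)
      · rw [abs_sub_comm]; exact hx' i (by omega)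
      · exact hsep i (by omega) j (by omega) hij

/-- **small values of a polynomial of one variable** -/
theorem small_one {D : ℕ} {p : Polynomial ℝ} (hp : p.natDegree ≤ D) {ρ a τ t₀ : ℝ} (hρ : 0 < ρ)
    (ht₀ : |t₀| ≤ ρ) (ha : 0 < a) (hpt : a ≤ |p.eval t₀|) (hτ : 0 < τ) (hτ1 : τ ≤ 1) :
    volume {t : ℝ | |t| ≤ ρ ∧ |p.eval t| < a * τ ^ (D + 1) / (D + 2)} ≤
      ENNReal.ofReal (4 * D * ρ * τ) := by
  by_contra hcon
  rw [not_le] at hcon
  set h : ℝ := 2 * ρ * τ with hh
  have hh0 : 0 < h := by positivity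
  obtain ⟨v, hv, hsep⟩ := exists_separated hh0 D (lt_of_le_of_lt
    (ENNReal.ofReal_le_ofReal (by rw [hh]; nlinarith)) hcon)
  have hinj : Set.InjOn v (Finset.range (D + 1) : Set ℕ) := by
    intro i hi j hj hij
    by_contra hne
    have := hsep i (by simpa [Nat.lt_succ_iff] using hi) j (by simpa [Nat.lt_succ_iff] using hj) hne
    rw [hij, sub_self, abs_zero] at this
    linarith
  have hdeg : p.degree < (#(Finset.range (D + 1)) : WithBot ℕ) := by
    rw [Finset.card_range]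
    exact lt_of_le_of_lt Polynomial.degree_le_natDegree (by exact_mod_cast Nat.lt_succ_of_le hp)
  have h1 := Lagrange.eq_interpolate hinj hdeg
  have h2 : p.eval t₀ = ∑ i ∈ Finset.range (D + 1), p.eval (v i) *
      ∏ j ∈ (Finset.range (D + 1)).erase i, (v i - v j)⁻¹ * (t₀ - v j) := by
    conv_lhs => rw [h1, Lagrange.interpolate_apply, Polynomial.eval_finsetSum]
    refine Finset.sum_congr rfl fun i _ => ?_
    rw [Polynomial.eval_mul, Polynomial.eval_C, Lagrange.basis, Polynomial.eval_prod]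
    congr 1
    refine Finset.prod_congr rfl fun j _ => ?_
    rw [Lagrange.basisDivisor, Polynomial.eval_mul, Polynomial.eval_C, Polynomial.eval_sub,
      Polynomial.eval_X, Polynomial.eval_C]
  have h3 : ∀ i ∈ Finset.range (D + 1), |p.eval (v i) *
      ∏ j ∈ (Finset.range (D + 1)).erase i, (v i - v j)⁻¹ * (t₀ - v j)| ≤
      (a * τ ^ (D + 1) / (D + 2)) * (τ⁻¹) ^ D := by
    intro i hi
    have hi' : i ≤ D := by rw [Finset.mem_range] at hi; omega
    rw [abs_mul, Finset.abs_prod]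
    have h4 : ∏ j ∈ (Finset.range (D + 1)).erase i, |(v i - v j)⁻¹ * (t₀ - v j)| ≤ (τ⁻¹) ^ D := by
      have h5 : ∀ j ∈ (Finset.range (D + 1)).erase i, |(v i - v j)⁻¹ * (t₀ - v j)| ≤ τ⁻¹ := by
        intro j hj
        rw [Finset.mem_erase, Finset.mem_range] at hj
        have h6 := hsep i hi' j (by omega) (Ne.symm hj.1)
        have h7 : |t₀ - v j| ≤ 2 * ρ := by
          have := (hv j (by omega)).1
          calc |t₀ - v j| ≤ |t₀| + |v j| := abs_sub _ _
            _ ≤ 2 * ρ := by linarith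
        rw [abs_mul, abs_inv]
        have h8 : 0 < |v i - v j| := lt_of_lt_of_le hh0 h6
        rw [inv_mul_le_iff₀ h8]
        calc |t₀ - v j| ≤ 2 * ρ := h7
          _ = h * τ⁻¹ := by rw [hh]; field_simp
          _ ≤ |v i - v j| * τ⁻¹ := by gcongr
      calc _ ≤ ∏ j ∈ (Finset.range (D + 1)).erase i, τ⁻¹ :=
            Finset.prod_le_prod (fun _ _ => abs_nonneg _) h5
        _ = (τ⁻¹) ^ D := by
            rw [Finset.prod_const, Finset.card_erase_of_mem hi, Finset.card_range,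
              Nat.add_sub_cancel]
    have h9 := (hv i hi').2.le
    have h10 : 0 ≤ ∏ j ∈ (Finset.range (D + 1)).erase i, |(v i - v j)⁻¹ * (t₀ - v j)| :=
      Finset.prod_nonneg fun _ _ => abs_nonneg _
    gcongr
  have h4 : |p.eval t₀| ≤ ∑ i ∈ Finset.range (D + 1), (a * τ ^ (D + 1) / (D + 2)) * (τ⁻¹) ^ D := by
    rw [h2]
    exact (Finset.abs_sum_le_sum_abs _ _).trans (Finset.sum_le_sum h3)
  rw [Finset.sum_const, Finset.card_range, nsmul_eq_mul] at h4
  have h5 : ((D + 1 : ℕ) : ℝ) * ((a * τ ^ (D + 1) / (D + 2)) * (τ⁻¹) ^ D) < a := by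
    have h6 : τ ^ (D + 1) * (τ⁻¹) ^ D = τ := by
      rw [pow_succ, mul_assoc, mul_comm τ, ← mul_assoc, ← mul_pow, mul_inv_cancel₀ hτ.ne', one_pow,
        one_mul]
    have h7 : ((D + 1 : ℕ) : ℝ) * ((a * τ ^ (D + 1) / (D + 2)) * (τ⁻¹) ^ D) =
        a * (((D : ℝ) + 1) / (D + 2)) * τ := by
      calc ((D + 1 : ℕ) : ℝ) * ((a * τ ^ (D + 1) / (D + 2)) * (τ⁻¹) ^ D)
          = a * (((D : ℝ) + 1) / (D + 2)) * (τ ^ (D + 1) * (τ⁻¹) ^ D) := by push_cast; ring
        _ = _ := by rw [h6]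
    rw [h7]
    have h8 : ((D : ℝ) + 1) / (D + 2) < 1 := by
      rw [div_lt_one (by positivity)]; linarith
    have h9 : 0 ≤ ((D : ℝ) + 1) / (D + 2) := by positivity
    calc a * (((D : ℝ) + 1) / (D + 2)) * τ ≤ a * (((D : ℝ) + 1) / (D + 2)) * 1 := by gcongr
      _ < a * 1 := by rw [mul_one]; exact mul_lt_mul_of_pos_left h8 ha
      _ = a := mul_one a
  linarith

/-- polynomial functions of one variable -/
def PolyD (D : ℕ) (f : ℝ → ℝ) : Prop := ∃ p : Polynomial ℝ, p.natDegree ≤ D ∧ ∀ t, f t = p.eval t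

namespace PolyD

theorem const (D : ℕ) (a : ℝ) : PolyD D fun _ => a :=
  ⟨Polynomial.C a, by simp, fun t => by simp⟩

theorem mono {D D' : ℕ} {f : ℝ → ℝ} (hf : PolyD D f) (h : D ≤ D') : PolyD D' f := by
  obtain ⟨p, hp, h'⟩ := hf
  exact ⟨p, hp.trans h, h'⟩

theorem add {D : ℕ} {f g : ℝ → ℝ} (hf : PolyD D f) (hg : PolyD D g) :
    PolyD D fun t => f t + g t := by
  obtain ⟨p, hp, h⟩ := hf
  obtain ⟨q, hq, h'⟩ := hg
  exact ⟨p + q, Polynomial.natDegree_add_le_of_degree_le hp hq, fun t => by simp [h, h']⟩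

theorem mul {D D' : ℕ} {f g : ℝ → ℝ} (hf : PolyD D f) (hg : PolyD D' g) :
    PolyD (D + D') fun t => f t * g t := by
  obtain ⟨p, hp, h⟩ := hf
  obtain ⟨q, hq, h'⟩ := hg
  exact ⟨p * q, Polynomial.natDegree_mul_le_of_le hp hq, fun t => by simp [h, h']⟩

theorem smul {D : ℕ} {f : ℝ → ℝ} (a : ℝ) (hf : PolyD D f) : PolyD D fun t => a * f t := by
  have := (const 0 a).mul hf
  rwa [zero_add] at this

theorem sum {ι : Type*} {D : ℕ} (s : Finset ι) {f : ι → ℝ → ℝ} (hf : ∀ i ∈ s, PolyD D (f i)) :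
    PolyD D fun t => ∑ i ∈ s, f i t := by
  classical
  induction s using Finset.induction_on with
  | empty => simpa using const D 0
  | insert a s ha ih =>
    simp only [Finset.sum_insert ha]
    exact (hf a (Finset.mem_insert_self a s)).add
      (ih fun i hi => hf i (Finset.mem_insert_of_mem hi))

theorem prod {ι : Type*} {D : ℕ} (s : Finset ι) {f : ι → ℝ → ℝ} (hf : ∀ i ∈ s, PolyD D (f i)) :
    PolyD (s.card * D) fun t => ∏ i ∈ s, f i t := by
  classical
  induction s using Finset.induction_on with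
  | empty => simpa using const 0 1
  | insert a s ha ih =>
    simp only [Finset.prod_insert ha, Finset.card_insert_of_notMem ha]
    refine ((hf a (Finset.mem_insert_self a s)).mul
      (ih fun i hi => hf i (Finset.mem_insert_of_mem hi))).mono ?_
    rw [add_mul]; omega

theorem det {n D : ℕ} {M : ℝ → Matrix (Fin n) (Fin n) ℝ} (h : ∀ i j, PolyD D fun t => M t i j) :
    PolyD (n * D) fun t => (M t).det := by
  simp only [Matrix.det_apply']
  refine sum _ fun σ _ => smul _ ?_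
  have := prod (Finset.univ : Finset (Fin n)) (f := fun i t => M t (σ i) i) fun i _ => h _ _
  simpa using this

end PolyD

/-- the small value lemma for functions -/
theorem PolyD.small {D : ℕ} {f : ℝ → ℝ} (hf : PolyD D f) {ρ a τ t₀ : ℝ} (hρ : 0 < ρ)
    (ht₀ : |t₀| ≤ ρ) (ha : 0 < a) (hpt : a ≤ |f t₀|) (hτ : 0 < τ) (hτ1 : τ ≤ 1) :
    volume {t : ℝ | |t| ≤ ρ ∧ |f t| < a * τ ^ (D + 1) / (D + 2)} ≤
      ENNReal.ofReal (4 * D * ρ * τ) := by
  obtain ⟨p, hp, h⟩ := hf
  rw [h] at hpt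
  have := small_one hp hρ ht₀ ha hpt hτ hτ1
  simpa only [h] using this

variable {W : Type*} [Fintype W]

/-- **small values in several variables**: if `P` has value `≥ 1` at a point of the ball and is
polynomial of degree `≤ D` along all lines through it. -/
theorem small_multi (D : ℕ) (ρ : ℝ) (hρ : 0 < ρ) : ∃ C : ℝ, 0 ≤ C ∧
    ∀ (P : (W → ℝ) → ℝ) (w₀ : W → ℝ), Continuous P → ‖w₀‖ ≤ ρ → 1 ≤ |P w₀| →
      (∀ v : W → ℝ, PolyD D fun s => P (w₀ + s • v)) → ∀ τ : ℝ, 0 < τ → τ ≤ 1 →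
      volume {w : W → ℝ | ‖w‖ ≤ ρ ∧ |P w| < τ ^ (D + 1) / (D + 2)} ≤ ENNReal.ofReal (C * τ) := by
  set m := Fintype.card W with hm
  set VB : ℝ := (volume (Metric.closedBall (0 : W → ℝ) ρ)).toReal with hVB
  refine ⟨2 ^ m * VB * (8 * D), by positivity, fun P w₀ hP hw₀ hP₀ hline τ hτ hτ1 => ?_⟩
  set E : Set (W → ℝ) := {w : W → ℝ | ‖w‖ ≤ ρ ∧ |P w| < τ ^ (D + 1) / (D + 2)} with hE
  have hEm : MeasurableSet E := by
    refine MeasurableSet.inter ?_ ?_
    · exact measurableSet_le measurable_norm measurable_const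
    · exact measurableSet_lt (hP.abs.measurable) measurable_const
  -- the map
  set Φ : ℝ × (W → ℝ) → (W → ℝ) := fun z => w₀ + z.1 • (z.2 - w₀) with hΦ
  have hΦc : Continuous Φ := by rw [hΦ]; fun_prop
  set T : Set (ℝ × (W → ℝ)) := (Set.Icc 1 2 ×ˢ Set.univ) ∩ Φ ⁻¹' E with hT
  have hTm : MeasurableSet T := (measurableSet_Icc.prod MeasurableSet.univ).inter
    (hΦc.measurable hEm)
  have h1 : (volume : Measure (ℝ × (W → ℝ))) T =
      ∫⁻ s, volume (Prod.mk s ⁻¹' T) := by
    rw [Measure.volume_eq_prod]; exact Measure.prod_apply hTm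
  have h2 : (volume : Measure (ℝ × (W → ℝ))) T =
      ∫⁻ w, volume ((fun s => (s, w)) ⁻¹' T) := by
    rw [Measure.volume_eq_prod]; exact Measure.prod_apply_symm hTm
  -- lower bound
  have hlow : ENNReal.ofReal ((2 ^ m)⁻¹) * volume E ≤ (volume : Measure (ℝ × (W → ℝ))) T := by
    rw [h1]
    have h3 : ∀ s ∈ Set.Icc (1 : ℝ) 2, ENNReal.ofReal ((2 ^ m)⁻¹) * volume E ≤
        volume (Prod.mk s ⁻¹' T) := by
      intro s hs
      have hs0 : 0 < s := by linarith [hs.1]
      have e1 : Prod.mk s ⁻¹' T = (fun w => w₀ + s • (w - w₀)) ⁻¹' E := by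
        ext w
        simp only [hT, hΦ, Set.mem_preimage, Set.mem_inter_iff, Set.mem_prod, Set.mem_univ,
          and_true]
        exact ⟨fun h => h.2, fun h => ⟨hs, h⟩⟩
      have e2 : (fun w => w₀ + s • (w - w₀)) ⁻¹' E =
          (fun w => w + -w₀) ⁻¹' ((fun w => s • w) ⁻¹' ((fun w => w₀ + w) ⁻¹' E)) := by
        ext w; simp only [Set.mem_preimage, sub_eq_add_neg]
      rw [e1, e2, measure_preimage_add_right, Measure.addHaar_preimage_smul _ hs0.ne',
        measure_preimage_add]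
      gcongr
      rw [abs_of_pos (by positivity), Module.finrank_fintype_fun_eq_card]
      have : s ^ m ≤ 2 ^ m := pow_le_pow_left₀ hs0.le hs.2 m
      exact inv_anti₀ (by positivity) this
    calc ENNReal.ofReal ((2 ^ m)⁻¹) * volume E
        = ∫⁻ _ in Set.Icc (1 : ℝ) 2, ENNReal.ofReal ((2 ^ m)⁻¹) * volume E := by
          rw [lintegral_const, Measure.restrict_apply_univ, Real.volume_Icc]
          norm_num
      _ ≤ ∫⁻ s in Set.Icc (1 : ℝ) 2, volume (Prod.mk s ⁻¹' T) :=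
          setLIntegral_mono' measurableSet_Icc h3
      _ ≤ ∫⁻ s, volume (Prod.mk s ⁻¹' T) := setLIntegral_le_lintegral _ _
  -- upper bound
  have hup : (volume : Measure (ℝ × (W → ℝ))) T ≤
      ENNReal.ofReal (8 * D * τ) * volume (Metric.closedBall (0 : W → ℝ) ρ) := by
    rw [h2]
    have h3 : ∀ w, volume ((fun s => (s, w)) ⁻¹' T) ≤
        (Metric.closedBall (0 : W → ℝ) ρ).indicator (fun _ => ENNReal.ofReal (8 * D * τ)) w := by
      intro w
      by_cases hw : w ∈ Metric.closedBall (0 : W → ℝ) ρ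
      · rw [Set.indicator_of_mem hw]
        have h4 := (hline (w - w₀)).small (ρ := 2) (a := 1) (t₀ := 0) (by norm_num) (by norm_num)
          one_pos (by simpa using hP₀) hτ hτ1
        refine (measure_mono ?_).trans (h4.trans (ENNReal.ofReal_le_ofReal (by
          have : (0:ℝ) ≤ D := Nat.cast_nonneg _
          nlinarith)))
        rintro s ⟨⟨hs, -⟩, hs'⟩
        refine ⟨?_, ?_⟩
        · rw [abs_of_nonneg (by linarith [hs.1])]; exact hs.2
        · rw [one_mul]; exact hs'.2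
      · rw [Set.indicator_of_notMem hw, nonpos_iff_eq_zero]
        have : (fun s => (s, w)) ⁻¹' T = ∅ := by
          rw [Set.eq_empty_iff_forall_notMem]
          rintro s ⟨⟨hs, -⟩, hs'⟩
          apply hw
          rw [mem_closedBall_zero_iff]
          have hn : ‖w₀ + s • (w - w₀)‖ ≤ ρ := hs'.1
          have hs1 : 1 ≤ s := hs.1
          have hs0 : 0 < s := by linarith
          have e : w = (1 / s) • (w₀ + s • (w - w₀)) + (1 - 1 / s) • w₀ := by
            rw [smul_add, smul_smul, one_div, inv_mul_cancel₀ hs0.ne', one_smul, sub_smul,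
              one_smul]
            abel
          rw [e]
          have h5 : 1 / s ≤ 1 := by rw [div_le_one hs0]; exact hs1
          calc ‖(1 / s) • (w₀ + s • (w - w₀)) + (1 - 1 / s) • w₀‖
              ≤ ‖(1 / s) • (w₀ + s • (w - w₀))‖ + ‖(1 - 1 / s) • w₀‖ := norm_add_le _ _
            _ = (1 / s) * ‖w₀ + s • (w - w₀)‖ + (1 - 1 / s) * ‖w₀‖ := by
                rw [norm_smul, norm_smul, Real.norm_of_nonneg (by positivity),
                  Real.norm_of_nonneg (by linarith)]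
            _ ≤ (1 / s) * ρ + (1 - 1 / s) * ρ := by
                gcongr
            _ = ρ := by ring
        rw [this, measure_empty]
    calc ∫⁻ w, volume ((fun s => (s, w)) ⁻¹' T)
        ≤ ∫⁻ w, (Metric.closedBall (0 : W → ℝ) ρ).indicator
            (fun _ => ENNReal.ofReal (8 * D * τ)) w := lintegral_mono h3
      _ = ENNReal.ofReal (8 * D * τ) * volume (Metric.closedBall (0 : W → ℝ) ρ) :=
          lintegral_indicator_const Metric.isClosed_closedBall.measurableSet _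
  have hfin : volume (Metric.closedBall (0 : W → ℝ) ρ) ≠ ⊤ :=
    (isCompact_closedBall (0 : W → ℝ) ρ).measure_lt_top.ne
  have hcomb := hlow.trans hup
  have h6 : volume (Metric.closedBall (0 : W → ℝ) ρ) = ENNReal.ofReal VB :=
    (ENNReal.ofReal_toReal hfin).symm
  rw [h6, ← ENNReal.ofReal_mul (by positivity)] at hcomb
  have h7 : volume E = ENNReal.ofReal (2 ^ m) * (ENNReal.ofReal ((2 ^ m)⁻¹) * volume E) := by
    rw [← mul_assoc, ← ENNReal.ofReal_mul (by positivity), mul_inv_cancel₀ (by positivity),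
      ENNReal.ofReal_one, one_mul]
  rw [h7]
  calc ENNReal.ofReal (2 ^ m) * (ENNReal.ofReal ((2 ^ m)⁻¹) * volume E)
      ≤ ENNReal.ofReal (2 ^ m) * ENNReal.ofReal (8 * D * τ * VB) := by gcongr
    _ = ENNReal.ofReal (2 ^ m * VB * (8 * D) * τ) := by
        rw [← ENNReal.ofReal_mul (by positivity)]
        congr 1; ring

end Crest.Agent.R182.Nb
end

-- ▼ part R182/NbPoly
section

set_option autoImplicit false
set_option linter.unusedSectionVars false

namespace Crest.Agent.R182.Nb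

open MeasureTheory Finset MvPolynomial ModelCount

variable {W : Type*} [Fintype W]

theorem poly_lip (q : MvPolynomial W ℝ) (ρ : ℝ) : ∃ C : ℝ, 0 ≤ C ∧
    (∀ w : W → ℝ, ‖w‖ ≤ ρ → |eval w q| ≤ C) ∧
    ∀ w w' : W → ℝ, ‖w‖ ≤ ρ → ‖w'‖ ≤ ρ → |eval w q - eval w' q| ≤ C * ‖w - w'‖ := by
  induction q using MvPolynomial.induction_on with
  | C a => exact ⟨|a|, abs_nonneg _, fun w _ => by simp, fun w w' _ _ => by simp; positivity⟩
  | add p q hp hq =>
    obtain ⟨C₁, h₁, h₁', h₁''⟩ := hp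
    obtain ⟨C₂, h₂, h₂', h₂''⟩ := hq
    refine ⟨C₁ + C₂, by positivity, fun w hw => ?_, fun w w' hw hw' => ?_⟩
    · rw [map_add]; exact (abs_add_le _ _).trans (add_le_add (h₁' w hw) (h₂' w hw))
    · rw [map_add, map_add, add_sub_add_comm, add_mul]
      exact (abs_add_le _ _).trans (add_le_add (h₁'' w w' hw hw') (h₂'' w w' hw hw'))
  | mul_X p i hp =>
    obtain ⟨C₁, h₁, h₁', h₁''⟩ := hp
    refine ⟨C₁ * |ρ| + C₁, by positivity, fun w hw => ?_, fun w w' hw hw' => ?_⟩
    · rw [map_mul, eval_X, abs_mul]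
      have h3 : |w i| ≤ |ρ| := ((norm_le_pi_norm w i).trans hw).trans (le_abs_self _)
      have h4 := h₁' w hw
      calc |eval w p| * |w i| ≤ C₁ * |ρ| := by gcongr
        _ ≤ _ := by linarith
    · rw [map_mul, map_mul, eval_X, eval_X]
      have h3 : |w i| ≤ |ρ| := ((norm_le_pi_norm w i).trans hw).trans (le_abs_self _)
      have h4 := h₁' w' hw'
      have h5 : |w i - w' i| ≤ ‖w - w'‖ := norm_le_pi_norm (w - w') i
      have h6 := h₁'' w w' hw hw'
      have e : eval w p * w i - eval w' p * w' i = (eval w p - eval w' p) * w i +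
          eval w' p * (w i - w' i) := by ring
      rw [e]
      refine (abs_add_le _ _).trans ?_
      rw [abs_mul, abs_mul]
      calc |eval w p - eval w' p| * |w i| + |eval w' p| * |w i - w' i|
          ≤ (C₁ * ‖w - w'‖) * |ρ| + C₁ * ‖w - w'‖ := by gcongr
        _ = (C₁ * |ρ| + C₁) * ‖w - w'‖ := by ring

theorem poly_line (q : MvPolynomial W ℝ) : ∃ D : ℕ, ∀ x v : W → ℝ,
    PolyD D fun s => eval (x + s • v) q := by
  induction q using MvPolynomial.induction_on with
  | C a => exact ⟨0, fun x v => by simpa using PolyD.const 0 a⟩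
  | add p q hp hq =>
    obtain ⟨D₁, h₁⟩ := hp
    obtain ⟨D₂, h₂⟩ := hq
    refine ⟨max D₁ D₂, fun x v => ?_⟩
    simp only [map_add]
    exact ((h₁ x v).mono (le_max_left _ _)).add ((h₂ x v).mono (le_max_right _ _))
  | mul_X p i hp =>
    obtain ⟨D₁, h₁⟩ := hp
    refine ⟨D₁ + 1, fun x v => ?_⟩
    simp only [map_mul, eval_X]
    refine (h₁ x v).mul ⟨Polynomial.C (x i) + Polynomial.C (v i) * Polynomial.X, ?_, fun t => ?_⟩
    · compute_degree
    · simp only [Pi.add_apply, Pi.smul_apply, smul_eq_mul, Polynomial.eval_add,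
        Polynomial.eval_C, Polynomial.eval_mul, Polynomial.eval_X]
      ring

theorem prod_lip {ι : Type*} (s : Finset ι) {b ε : ℝ} (hb : 1 ≤ b) (hε : 0 ≤ ε) {f g : ι → ℝ}
    (hf : ∀ i ∈ s, |f i| ≤ b) (hg : ∀ i ∈ s, |g i| ≤ b) (hfg : ∀ i ∈ s, |f i - g i| ≤ ε) :
    |∏ i ∈ s, f i| ≤ b ^ s.card ∧ |∏ i ∈ s, g i| ≤ b ^ s.card ∧
      |∏ i ∈ s, f i - ∏ i ∈ s, g i| ≤ s.card * b ^ s.card * ε := by
  classical
  induction s using Finset.induction_on with
  | empty => simp
  | insert a s ha ih =>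
    obtain ⟨i1, i2, i3⟩ := ih (fun i hi => hf i (mem_insert_of_mem hi))
      (fun i hi => hg i (mem_insert_of_mem hi)) (fun i hi => hfg i (mem_insert_of_mem hi))
    have a1 := hf a (mem_insert_self a s)
    have a2 := hg a (mem_insert_self a s)
    have a3 := hfg a (mem_insert_self a s)
    rw [prod_insert ha, prod_insert ha, card_insert_of_notMem ha, pow_succ']
    have hb0 : 0 ≤ b := by linarith
    have hbn : 0 ≤ b ^ s.card := by positivity
    refine ⟨?_, ?_, ?_⟩
    · rw [abs_mul]; gcongr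
    · rw [abs_mul]; gcongr
    · have e : f a * ∏ i ∈ s, f i - g a * ∏ i ∈ s, g i = (f a - g a) * ∏ i ∈ s, f i +
          g a * (∏ i ∈ s, f i - ∏ i ∈ s, g i) := by ring
      rw [e]
      refine (abs_add_le _ _).trans ?_
      rw [abs_mul, abs_mul]
      calc |f a - g a| * |∏ i ∈ s, f i| + |g a| * |∏ i ∈ s, f i - ∏ i ∈ s, g i|
          ≤ ε * b ^ s.card + b * (s.card * b ^ s.card * ε) := by gcongr
        _ ≤ ε * (b * b ^ s.card) + b * (s.card * b ^ s.card * ε) := by
            gcongr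
            nlinarith
        _ = ((s.card + 1 : ℕ) : ℝ) * (b * b ^ s.card) * ε := by push_cast; ring

theorem det_lip (n : ℕ) (b : ℝ) : ∃ C : ℝ, 0 ≤ C ∧ ∀ A B : Matrix (Fin n) (Fin n) ℝ, ∀ ε : ℝ,
    0 ≤ ε → (∀ i j, |A i j| ≤ b) → (∀ i j, |B i j| ≤ b) → (∀ i j, |A i j - B i j| ≤ ε) →
      |A.det - B.det| ≤ C * ε := by
  set b' := max 1 b
  refine ⟨n.factorial * (n * b' ^ n), by positivity, fun A B ε hε hA hB hAB => ?_⟩
  rw [Matrix.det_apply', Matrix.det_apply', ← Finset.sum_sub_distrib]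
  refine (Finset.abs_sum_le_sum_abs _ _).trans ?_
  have h1 : ∀ σ ∈ (Finset.univ : Finset (Equiv.Perm (Fin n))),
      |((Equiv.Perm.sign σ : ℤ) : ℝ) * ∏ i, A (σ i) i - ((Equiv.Perm.sign σ : ℤ) : ℝ) *
        ∏ i, B (σ i) i| ≤ n * b' ^ n * ε := by
    intro σ _
    rw [← mul_sub, abs_mul]
    have h2 : |((Equiv.Perm.sign σ : ℤ) : ℝ)| = 1 := by
      rcases Int.units_eq_one_or (Equiv.Perm.sign σ) with h | h <;> simp [h]
    rw [h2, one_mul]
    have h3 := (prod_lip (Finset.univ : Finset (Fin n)) (le_max_left 1 b) hε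
      (f := fun i => A (σ i) i) (g := fun i => B (σ i) i)
      (fun i _ => (hA _ _).trans (le_max_right _ _)) (fun i _ => (hB _ _).trans (le_max_right _ _))
      (fun i _ => hAB _ _)).2.2
    simpa using h3
  refine (Finset.sum_le_sum h1).trans ?_
  rw [Finset.sum_const, Finset.card_univ, Fintype.card_perm, Fintype.card_fin, nsmul_eq_mul]
  exact le_of_eq (by ring)

section family

variable {K : Type*} [Fintype K] {d : ℕ}

/-- directional derivative -/
noncomputable def dq (p : MvPolynomial W ℝ) (r : W → ℝ) : MvPolynomial W ℝ :=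
  ∑ i, C (r i) * pderiv i p

theorem eval_dq (p : MvPolynomial W ℝ) (r w : W → ℝ) : eval w (dq p r) = dpoly p w r := by
  rw [dq, map_sum, dpoly_apply]
  refine Finset.sum_congr rfl fun i _ => ?_
  rw [map_mul, eval_C, mul_comm]

/-- the family of polynomial maps -/
noncomputable def fF (p : K → MvPolynomial W ℝ) (θ : K → Fin d → ℝ) (w : W → ℝ) : Fin d → ℝ :=
  fun k => ∑ κ, θ κ k * eval w (p κ)

/-- matrix of the derivative in the directions `R` -/
noncomputable def fM (p : K → MvPolynomial W ℝ) (R : Fin d → W → ℝ) (θ : K → Fin d → ℝ)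
    (w : W → ℝ) : Matrix (Fin d) (Fin d) ℝ :=
  Matrix.of fun k j => ∑ κ, θ κ k * eval w (dq (p κ) (R j))

/-- the linear map `x ↦ ∑ x_j R_j` -/
noncomputable def Rl (R : Fin d → W → ℝ) : (Fin d → ℝ) →L[ℝ] (W → ℝ) :=
  ∑ j, (ContinuousLinearMap.proj (R := ℝ) (φ := fun _ : Fin d => ℝ) j).smulRight (R j)

theorem Rl_apply (R : Fin d → W → ℝ) (x : Fin d → ℝ) : Rl R x = ∑ j, x j • R j := by
  simp [Rl]

theorem continuous_fF (p : K → MvPolynomial W ℝ) (θ : K → Fin d → ℝ) : Continuous (fF p θ) := by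
  refine continuous_pi fun k => ?_
  unfold fF
  exact continuous_finsetSum _ fun κ _ => continuous_const.mul (MvPolynomial.continuous_eval _)

theorem continuous_fM (p : K → MvPolynomial W ℝ) (R : Fin d → W → ℝ) (θ : K → Fin d → ℝ) :
    Continuous (fM p R θ) := by
  refine continuous_pi fun k => continuous_pi fun j => ?_
  change Continuous fun w => ∑ κ, θ κ k * eval w (dq (p κ) (R j))
  exact continuous_finsetSum _ fun κ _ => continuous_const.mul (MvPolynomial.continuous_eval _)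

/-- the derivative of the slice -/
theorem hasFDerivAt_slice (p : K → MvPolynomial W ℝ) (R : Fin d → W → ℝ) (θ : K → Fin d → ℝ)
    (w : W → ℝ) (x : Fin d → ℝ) :
    HasFDerivAt (fun x => fF p θ (w + Rl R x))
      (Matrix.toLin' (fM p R θ (w + Rl R x))).toContinuousLinearMap x := by
  rw [hasFDerivAt_pi']
  intro k
  have h1 : HasFDerivAt (fun x => w + Rl R x) (Rl R) x := (Rl R).hasFDerivAt.const_add w
  have h2 : ∀ κ, HasFDerivAt (fun x => θ κ k * eval (w + Rl R x) (p κ))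
      (θ κ k • (dpoly (p κ) (w + Rl R x)).comp (Rl R)) x := fun κ =>
    ((hasFDerivAt_eval (p κ) (w + Rl R x)).comp x h1).const_mul (θ κ k)
  have h3 : HasFDerivAt (fun x => ∑ κ, θ κ k * eval (w + Rl R x) (p κ))
      (∑ κ, θ κ k • (dpoly (p κ) (w + Rl R x)).comp (Rl R)) x := by
    have := HasFDerivAt.fun_sum (u := Finset.univ) fun κ _ => h2 κ
    exact this
  refine h3.congr_fderiv ?_
  ext y
  simp only [ContinuousLinearMap.comp_apply, ContinuousLinearMap.proj_apply,
    LinearMap.coe_toContinuousLinearMap', Matrix.toLin'_apply, Matrix.mulVec, dotProduct, fM,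
    Matrix.of_apply, _root_.sum_apply, _root_.smul_apply, smul_eq_mul]
  have hy : ∀ κ, dpoly (p κ) (w + Rl R x) (Rl R y) =
      ∑ j, y j * dpoly (p κ) (w + Rl R x) (R j) := fun κ => by
    rw [Rl_apply R y, map_sum]
    exact Finset.sum_congr rfl fun j _ => by rw [map_smul, smul_eq_mul]
  simp only [hy, eval_dq, Finset.mul_sum, Finset.sum_mul]
  rw [Finset.sum_comm]
  refine Finset.sum_congr rfl fun j _ => Finset.sum_congr rfl fun κ _ => ?_
  ring

theorem norm_Rl_le (R : Fin d → W → ℝ) : ∃ C : ℝ, 0 ≤ C ∧ ∀ x, ‖Rl R x‖ ≤ C * ‖x‖ :=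
  ⟨‖Rl R‖, norm_nonneg _, fun x => (Rl R).le_opNorm x⟩

/-- bounds for the derivative matrix, uniform in the parameters -/
theorem fM_bound (p : K → MvPolynomial W ℝ) (R : Fin d → W → ℝ) (ρ : ℝ) : ∃ C : ℝ, 0 ≤ C ∧
    ∀ θ : K → Fin d → ℝ, (∀ κ k, |θ κ k| ≤ 1) →
      (∀ w : W → ℝ, ‖w‖ ≤ ρ → ∀ k j, |fM p R θ w k j| ≤ C) ∧
      ∀ w w' : W → ℝ, ‖w‖ ≤ ρ → ‖w'‖ ≤ ρ → ∀ k j,
        |fM p R θ w k j - fM p R θ w' k j| ≤ C * ‖w - w'‖ := by
  choose C hC h1 h2 using fun (κ : K) (j : Fin d) => poly_lip (dq (p κ) (R j)) ρ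
  have hle : ∀ κ j, C κ j ≤ ∑ κ, ∑ j, C κ j := fun κ j =>
    (Finset.single_le_sum (f := fun j => C κ j) (fun j _ => hC κ j) (Finset.mem_univ j)).trans
      (Finset.single_le_sum (f := fun κ => ∑ j, C κ j)
        (fun κ _ => Finset.sum_nonneg fun j _ => hC κ j) (Finset.mem_univ κ))
  set B := ∑ κ, ∑ j, C κ j with hB
  have hB0 : 0 ≤ B := Finset.sum_nonneg fun κ _ => Finset.sum_nonneg fun j _ => hC κ j
  refine ⟨Fintype.card K * B, by positivity, fun θ hθ => ⟨fun w hw k j => ?_,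
    fun w w' hw hw' k j => ?_⟩⟩
  · change |∑ κ, θ κ k * eval w (dq (p κ) (R j))| ≤ _
    refine (Finset.abs_sum_le_sum_abs _ _).trans ?_
    calc ∑ κ, |θ κ k * eval w (dq (p κ) (R j))| ≤ ∑ _κ : K, B := by
          refine Finset.sum_le_sum fun κ _ => ?_
          rw [abs_mul]
          have := (h1 κ j w hw).trans (hle κ j)
          have h3 := hθ κ k
          calc |θ κ k| * |eval w (dq (p κ) (R j))| ≤ 1 * B := by gcongr
            _ = B := one_mul B
      _ = Fintype.card K * B := by rw [Finset.sum_const, Finset.card_univ, nsmul_eq_mul]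
  · change |∑ κ, θ κ k * eval w (dq (p κ) (R j)) - ∑ κ, θ κ k * eval w' (dq (p κ) (R j))| ≤ _
    rw [← Finset.sum_sub_distrib]
    refine (Finset.abs_sum_le_sum_abs _ _).trans ?_
    calc ∑ κ, |θ κ k * eval w (dq (p κ) (R j)) - θ κ k * eval w' (dq (p κ) (R j))|
        ≤ ∑ _κ : K, B * ‖w - w'‖ := by
          refine Finset.sum_le_sum fun κ _ => ?_
          rw [← mul_sub, abs_mul]
          have h4 := h2 κ j w w' hw hw'
          have h3 := hθ κ k
          calc |θ κ k| * |eval w (dq (p κ) (R j)) - eval w' (dq (p κ) (R j))|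
              ≤ 1 * (C κ j * ‖w - w'‖) := by gcongr
            _ ≤ B * ‖w - w'‖ := by
              rw [one_mul]; exact mul_le_mul_of_nonneg_right (hle κ j) (norm_nonneg _)
      _ = Fintype.card K * B * ‖w - w'‖ := by
          rw [Finset.sum_const, Finset.card_univ, nsmul_eq_mul]; ring

/-- **injectivity on short slices** -/
theorem slice_injOn (p : K → MvPolynomial W ℝ) (R : Fin d → W → ℝ) (ρ : ℝ) : ∃ C : ℝ, 0 ≤ C ∧
    ∀ θ : K → Fin d → ℝ, (∀ κ k, |θ κ k| ≤ 1) → ∀ (w : W → ℝ) (r δ : ℝ), 0 ≤ r → C * r < δ →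
      Set.InjOn (fun x => fF p θ (w + Rl R x))
        {x | ‖x‖ ≤ r ∧ ‖w + Rl R x‖ ≤ ρ ∧ δ ≤ |(fM p R θ (w + Rl R x)).det|} := by
  obtain ⟨CM, hCM, hM⟩ := fM_bound p R ρ
  obtain ⟨CR, hCR, hR⟩ := norm_Rl_le R
  obtain ⟨Cd, hCd, hdet⟩ := det_lip d CM
  refine ⟨Cd * (CM * (CR * 2)), by positivity, fun θ hθ w r δ hr hδ => ?_⟩
  rintro x ⟨hx1, hx2, hx3⟩ x' ⟨hx1', hx2', -⟩ hF
  by_contra hne
  obtain ⟨hM1, hM2⟩ := hM θ hθ
  -- points of the segment
  set z : ℝ → (Fin d → ℝ) := fun s => x' + s • (x - x') with hz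
  have hzw : ∀ s ∈ Set.Icc (0 : ℝ) 1, ‖w + Rl R (z s)‖ ≤ ρ := by
    intro s hs
    have e : w + Rl R (z s) = (1 - s) • (w + Rl R x') + s • (w + Rl R x) := by
      rw [hz]
      simp only [map_add, map_smul, map_sub, smul_add, sub_smul, one_smul, smul_sub]
      abel
    rw [e]
    calc _ ≤ ‖(1 - s) • (w + Rl R x')‖ + ‖s • (w + Rl R x)‖ := norm_add_le _ _
      _ = (1 - s) * ‖w + Rl R x'‖ + s * ‖w + Rl R x‖ := by
          rw [norm_smul, norm_smul, Real.norm_of_nonneg (by linarith [hs.2]),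
            Real.norm_of_nonneg hs.1]
      _ ≤ (1 - s) * ρ + s * ρ := by
          have h1 := hs.1
          have h2 : 0 ≤ 1 - s := by linarith [hs.2]
          gcongr
      _ = ρ := by ring
  have hzd : ∀ s ∈ Set.Icc (0 : ℝ) 1, ‖(w + Rl R (z s)) - (w + Rl R x)‖ ≤ CR * (2 * r) := by
    intro s hs
    have e : (w + Rl R (z s)) - (w + Rl R x) = Rl R ((1 - s) • (x' - x)) := by
      rw [hz]
      simp only [map_add, map_smul, map_sub, sub_smul, one_smul, smul_sub]
      abel
    rw [e]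
    refine (hR _).trans ?_
    gcongr
    rw [norm_smul, Real.norm_of_nonneg (by linarith [hs.2])]
    have h1 : ‖x' - x‖ ≤ 2 * r := (norm_sub_le _ _).trans (by linarith)
    have h2 : 1 - s ≤ 1 := by linarith [hs.1]
    calc (1 - s) * ‖x' - x‖ ≤ 1 * (2 * r) := by
          have h3 : 0 ≤ 1 - s := by linarith [hs.2]
          gcongr
      _ = 2 * r := one_mul _
  -- Rolle for every component
  have hroll : ∀ k, ∃ s ∈ Set.Ioo (0 : ℝ) 1,
      (fM p R θ (w + Rl R (z s))).mulVec (x - x') k = 0 := by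
    intro k
    have hzd' : ∀ s, HasDerivAt z (x - x') s := by
      intro s
      have h1 := ((hasDerivAt_id s).smul_const (x - x')).const_add x'
      rw [one_smul] at h1
      exact h1
    have hder : ∀ s, HasDerivAt (fun s => fF p θ (w + Rl R (z s)) k)
        ((fM p R θ (w + Rl R (z s))).mulVec (x - x') k) s := by
      intro s
      have h1 := (hasFDerivAt_slice p R θ w (z s)).comp_hasDerivAt s (hzd' s)
      have h2 := hasDerivAt_pi.mp h1 k
      simpa [Matrix.toLin'_apply] using h2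
    obtain ⟨s, hs, hs'⟩ := exists_hasDerivAt_eq_zero (f := fun s => fF p θ (w + Rl R (z s)) k)
      (f' := fun s => (fM p R θ (w + Rl R (z s))).mulVec (x - x') k) zero_lt_one
      (fun s _ => (hder s).continuousAt.continuousWithinAt) (by
        have e0 : z 0 = x' := by rw [hz]; simp
        have e1 : z 1 = x := by rw [hz]; simp
        simp only [e0, e1]
        exact (congrFun hF k).symm) (fun s _ => hder s)
    exact ⟨s, hs, hs'⟩
  choose s hs hs0 using hroll
  set A : Matrix (Fin d) (Fin d) ℝ := Matrix.of fun k j => fM p R θ (w + Rl R (z (s k))) k j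
    with hA
  have hAx : A.mulVec (x - x') = 0 := by
    funext k
    exact hs0 k
  have hdet0 : A.det = 0 :=
    Matrix.exists_mulVec_eq_zero_iff.mp ⟨x - x', sub_ne_zero.mpr hne, hAx⟩
  have hs' : ∀ k, s k ∈ Set.Icc (0 : ℝ) 1 := fun k => ⟨(hs k).1.le, (hs k).2.le⟩
  have h1 := hdet (fM p R θ (w + Rl R x)) A (CM * (CR * (2 * r))) (by positivity)
    (hM1 _ hx2) (fun k j => hM1 _ (hzw _ (hs' k)) k j) (fun k j => by
      refine (hM2 _ _ hx2 (hzw _ (hs' k)) k j).trans ?_
      rw [norm_sub_rev]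
      gcongr
      exact hzd _ (hs' k))
  rw [hdet0, sub_zero] at h1
  have h2 : Cd * (CM * (CR * (2 * r))) = Cd * (CM * (CR * 2)) * r := by ring
  linarith

/-- measure of a slice -/
theorem slice_measure (p : K → MvPolynomial W ℝ) (R : Fin d → W → ℝ) (θ : K → Fin d → ℝ)
    (w : W → ℝ) {δ : ℝ} (hδ : 0 < δ) {A : Set (Fin d → ℝ)} (hA : MeasurableSet A)
    (hinj : Set.InjOn (fun x => fF p θ (w + Rl R x)) A)
    (hdet : ∀ x ∈ A, δ ≤ |(fM p R θ (w + Rl R x)).det|) {S : Set (Fin d → ℝ)}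
    (hS : ∀ x ∈ A, fF p θ (w + Rl R x) ∈ S) :
    ENNReal.ofReal δ * volume A ≤ volume S := by
  have h1 := lintegral_abs_det_fderiv_eq_addHaar_image (volume : Measure (Fin d → ℝ)) hA
    (fun x _ => (hasFDerivAt_slice p R θ w x).hasFDerivWithinAt) hinj
  have h2 : volume ((fun x => fF p θ (w + Rl R x)) '' A) ≤ volume S :=
    measure_mono (by rintro _ ⟨x, hx, rfl⟩; exact hS x hx)
  refine le_trans ?_ h2
  rw [← h1]
  calc ENNReal.ofReal δ * volume A = ∫⁻ _ in A, ENNReal.ofReal δ := by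
        rw [lintegral_const, Measure.restrict_apply_univ]
    _ ≤ _ := by
        refine setLIntegral_mono' hA fun x hx => ENNReal.ofReal_le_ofReal ?_
        refine (hdet x hx).trans (le_of_eq ?_)
        rw [ContinuousLinearMap.det, LinearMap.coe_toContinuousLinearMap, LinearMap.det_toLin']

end family

end Crest.Agent.R182.Nb
end

-- ▼ part R182/NbWord
section

set_option autoImplicit false
set_option linter.unusedSectionVars false

namespace Crest.Agent.R182.Nb

open Finset MvPolynomial ModelCount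

section PL

variable {L : Type*} [LieRing L] [LieAlgebra ℝ L] {σ τ W : Type*}

/-- Lie polynomials with polynomial coefficients -/
def PL (W σ L : Type*) [LieRing L] [LieAlgebra ℝ L] : Submodule ℝ ((W → ℝ) × (σ → L) → L) :=
  Submodule.span ℝ {f | ∃ (p : MvPolynomial W ℝ) (κ : List σ), f = fun z => eval z.1 p • mon z.2 κ}

theorem PL.of_LP (p : MvPolynomial W ℝ) {f : (σ → L) → L} (hf : f ∈ LP σ L) :
    (fun z : (W → ℝ) × (σ → L) => eval z.1 p • f z.2) ∈ PL W σ L := by
  induction hf using Submodule.span_induction with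
  | mem f hf =>
    obtain ⟨κ, rfl⟩ := hf
    exact Submodule.subset_span ⟨p, κ, rfl⟩
  | zero =>
    have : (fun z : (W → ℝ) × (σ → L) => eval z.1 p • (0 : (σ → L) → L) z.2) = 0 := by
      funext z; simp
    rw [this]; exact Submodule.zero_mem _
  | add f g _ _ hf hg =>
    have : (fun z : (W → ℝ) × (σ → L) => eval z.1 p • (f + g) z.2) =
        (fun z => eval z.1 p • f z.2) + fun z => eval z.1 p • g z.2 := by
      funext z; simp [smul_add]
    rw [this]; exact Submodule.add_mem _ hf hg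
  | smul r f _ hf =>
    have : (fun z : (W → ℝ) × (σ → L) => eval z.1 p • (r • f) z.2) =
        r • fun z => eval z.1 p • f z.2 := by
      funext z; simp only [Pi.smul_apply]; exact smul_comm _ _ _
    rw [this]; exact Submodule.smul_mem _ _ hf

theorem PL.lie {f g : (W → ℝ) × (σ → L) → L} (hf : f ∈ PL W σ L) (hg : g ∈ PL W σ L) :
    (fun z => ⁅f z, g z⁆) ∈ PL W σ L := by
  induction hf using Submodule.span_induction with
  | mem f hf =>
    obtain ⟨p, κ, rfl⟩ := hf
    induction hg using Submodule.span_induction with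
    | mem g hg =>
      obtain ⟨q, κ', rfl⟩ := hg
      have : (fun z : (W → ℝ) × (σ → L) => ⁅eval z.1 p • mon z.2 κ, eval z.1 q • mon z.2 κ'⁆) =
          fun z => eval z.1 (p * q) • (fun v : σ → L => ⁅mon v κ, mon v κ'⁆) z.2 := by
        funext z
        rw [smul_lie, lie_smul, smul_smul, map_mul]
      rw [this]
      exact PL.of_LP _ (LP.lie (LP.of_mon κ) (LP.of_mon κ'))
    | zero =>
      simp only [Pi.zero_apply, lie_zero]; exact Submodule.zero_mem _
    | add g g' _ _ h h' =>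
      simp only [Pi.add_apply, lie_add]; exact Submodule.add_mem _ h h'
    | smul r g _ h =>
      simp only [Pi.smul_apply, lie_smul]; exact Submodule.smul_mem _ _ h
  | zero => simp only [Pi.zero_apply, zero_lie]; exact Submodule.zero_mem _
  | add f f' _ _ h h' => simp only [Pi.add_apply, add_lie]; exact Submodule.add_mem _ h h'
  | smul r f _ h => simp only [Pi.smul_apply, smul_lie]; exact Submodule.smul_mem _ _ h

theorem PL.comp_mon {G : τ → (W → ℝ) × (σ → L) → L} (hG : ∀ i, G i ∈ PL W σ L) (κ : List τ) :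
    (fun z => mon (fun i => G i z) κ) ∈ PL W σ L := by
  induction κ with
  | nil => simp only [mon_nil]; exact Submodule.zero_mem _
  | cons i κ ih =>
    by_cases hκ : κ = []
    · subst hκ; exact hG i
    · simp only [mon_cons _ i hκ]
      exact PL.lie (hG i) ih

theorem PL.comp {f : (τ → L) → L} (hf : f ∈ LP τ L) {G : τ → (W → ℝ) × (σ → L) → L}
    (hG : ∀ i, G i ∈ PL W σ L) : (fun z => f fun i => G i z) ∈ PL W σ L := by
  induction hf using Submodule.span_induction with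
  | mem f hf =>
    obtain ⟨κ, rfl⟩ := hf
    exact PL.comp_mon hG κ
  | zero => exact Submodule.zero_mem _
  | add f g _ _ hf hg => exact Submodule.add_mem _ hf hg
  | smul r f _ hf => exact Submodule.smul_mem _ _ hf

theorem PL.exists_repr [Fintype σ] {c : ℕ} (hL : NilC c L) {f : (W → ℝ) × (σ → L) → L}
    (hf : f ∈ PL W σ L) : ∃ p : KL σ c → MvPolynomial W ℝ, ∀ w g,
      f (w, g) = ∑ κ : KL σ c, eval w (p κ) • mon g (κ : List σ) := by
  classical
  induction hf using Submodule.span_induction with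
  | mem f hf =>
    obtain ⟨p, κ, rfl⟩ := hf
    by_cases h : κ ∈ KL σ c
    · refine ⟨fun κ' => if κ' = ⟨κ, h⟩ then p else 0, fun w g => ?_⟩
      rw [Finset.sum_eq_single ⟨κ, h⟩]
      · simp
      · intro κ' _ hne; simp [hne]
      · intro h'; exact absurd (Finset.mem_univ _) h'
    · refine ⟨0, fun w g => ?_⟩
      have h1 : mon g κ = 0 := hL.nil g κ (by rw [mem_KL] at h; omega)
      simp [h1]
  | zero => exact ⟨0, fun w g => by simp⟩
  | add f g _ _ hf hg =>
    obtain ⟨p, hp⟩ := hf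
    obtain ⟨q, hq⟩ := hg
    refine ⟨p + q, fun w g => ?_⟩
    rw [Pi.add_apply, hp, hq, ← Finset.sum_add_distrib]
    exact Finset.sum_congr rfl fun κ _ => by simp [add_smul]
  | smul r f _ hf =>
    obtain ⟨p, hp⟩ := hf
    refine ⟨fun κ => C r * p κ, fun w g => ?_⟩
    rw [Pi.smul_apply, hp, Finset.smul_sum]
    exact Finset.sum_congr rfl fun κ _ => by simp [smul_smul]

end PL

section word

variable {L : Type*} [LieRing L] [LieAlgebra ℝ L] (S : Star L) {V : Type*} {ι : Type*} [Fintype ι]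
  {M : ℕ}

/-- the word map -/
noncomputable def Phi (s : Fin M → V) (g : V × ι → L) (w : Fin M × ι → ℝ) : L :=
  S.prod (List.ofFn fun j => ∑ i, w (j, i) • g (s j, i))

theorem Phi_PL (s : Fin M → V) :
    (fun z : (Fin M × ι → ℝ) × (V × ι → L) => Phi S s z.2 z.1) ∈ PL (Fin M × ι) (V × ι) L := by
  have h1 : (fun z : (Fin M × ι → ℝ) × (V × ι → L) => Phi S s z.2 z.1) =
      fun z => (fun v : Fin M → L => S.prod ((List.finRange M).map v))
        fun j => ∑ i, z.1 (j, i) • z.2 (s j, i) := by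
    funext z
    rw [Phi, List.ofFn_eq_map]
  rw [h1]
  refine PL.comp (S.prod_lp (List.finRange M)) (G := fun j z => ∑ i, z.1 (j, i) • z.2 (s j, i))
    fun j => ?_
  have h2 : (fun z : (Fin M × ι → ℝ) × (V × ι → L) => ∑ i, z.1 (j, i) • z.2 (s j, i)) =
      ∑ i, fun z => eval z.1 (X (j, i) : MvPolynomial (Fin M × ι) ℝ) •
        (fun v : V × ι → L => v (s j, i)) z.2 := by
    funext z
    rw [Finset.sum_apply]
    simp
  rw [h2]
  exact Submodule.sum_mem _ fun i _ => PL.of_LP _ (LP.proj (s j, i))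

variable [Fintype V]

theorem exists_Phi_repr {c : ℕ} (hL : NilC c L) (s : Fin M → V) :
    ∃ p : KL (V × ι) c → MvPolynomial (Fin M × ι) ℝ, ∀ (g : V × ι → L) w,
      Phi S s g w = ∑ κ : KL (V × ι) c, eval w (p κ) • mon g (κ : List (V × ι)) := by
  obtain ⟨p, hp⟩ := PL.exists_repr hL (Phi_PL S (V := V) (ι := ι) s)
  exact ⟨p, fun g w => hp w g⟩

variable {S} [FiniteDimensional ℝ L] [DecidableEq ι] (A : AdS S) {d : ℕ}

include A in
/-- **the explicit point of full rank** -/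
theorem exists_point {c : ℕ} : ∃ J : ℕ, ∀ (M : ℕ) (s : Fin M → V),
    (∀ u : List V, u.length ≤ J → u.Sublist (List.ofFn s)) →
    ∀ p : KL (V × ι) c → MvPolynomial (Fin M × ι) ℝ,
    (∀ (g : V × ι → L) w, Phi S s g w = ∑ κ : KL (V × ι) c, eval w (p κ) • mon g (κ : List (V × ι))) →
    ∀ κ : Fin d → KL (V × ι) c, ∃ (w₀ : Fin M × ι → ℝ) (R : Fin d → Fin M × ι → ℝ),
      ∀ (g : V × ι → L) (k : Fin d),
        ∑ κ' : KL (V × ι) c, dpoly (p κ') w₀ (R k) • mon g (κ' : List (V × ι)) =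
          mon g (κ k : List (V × ι)) := by
  obtain ⟨Q, hQ⟩ := UU.exists_mons A (V := V) (ι := ι) (d := d)
  -- bound for the length
  set J : ℕ := ∑ n ∈ range (c + 1), wl Q n with hJ
  refine ⟨d * J, fun M s hs p hp κ => ?_⟩
  obtain ⟨u, hu, hU⟩ := hQ fun k => (κ k : List (V × ι))
  have hlen : u.length ≤ d * J := by
    rw [hu]
    calc ∑ k, wl Q (κ k : List (V × ι)).length ≤ ∑ _k : Fin d, J := by
          refine Finset.sum_le_sum fun k _ => ?_
          have h1 := mem_KL.mp (κ k).2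
          exact Finset.single_le_sum (f := fun n => wl Q n) (fun _ _ => Nat.zero_le _)
            (Finset.mem_range.mpr (Nat.lt_succ_of_le h1))
      _ = d * J := by simp
  obtain ⟨C, hC, hR⟩ := hU.sublist (hs u hlen)
  have hM : C.length = M := by
    have := congrArg List.length hC
    simpa using this
  subst hM
  have hfst : ∀ j, (C.get j).1 = s j := by
    have h1 : List.ofFn (fun j => (C.get j).1) = List.ofFn s := by
      rw [← hC]
      conv_rhs => rw [← List.ofFn_get C, List.map_ofFn]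
      rfl
    exact fun j => congrFun (List.ofFn_injective h1) j
  refine ⟨fun z => (C.get z.1).2.1 z.2, fun k z => (C.get z.1).2.2 k z.2, fun g k => ?_⟩
  set w₀ : Fin C.length × ι → ℝ := fun z => (C.get z.1).2.1 z.2 with hw₀
  set R : Fin d → Fin C.length × ι → ℝ := fun k z => (C.get z.1).2.2 k z.2 with hRdef
  have hcur : ∀ t : ℝ, cur S C g k t = Phi S s g (w₀ + t • R k) := by
    intro t
    rw [cur, Phi]
    congr 1
    conv_lhs => rw [← List.ofFn_get C, List.map_ofFn]
    congr 1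
    funext j
    simp only [Function.comp_apply]
    refine Finset.sum_congr rfl fun i _ => ?_
    rw [hfst]; rfl
  have h1 : HD (cur S C g k) (∑ κ' : KL (V × ι) c, dpoly (p κ') w₀ (R k) •
      mon g (κ' : List (V × ι))) := by
    have h2 : HD (fun t => ∑ κ' : KL (V × ι) c, eval (w₀ + t • R k) (p κ') •
        mon g (κ' : List (V × ι))) (∑ κ' : KL (V × ι) c, dpoly (p κ') w₀ (R k) •
        mon g (κ' : List (V × ι))) := by
      refine HD.sum _ fun κ' _ => ?_
      intro ℓ
      have h3 : HasDerivAt (fun t : ℝ => w₀ + t • R k) (R k) 0 := by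
        have h4 := ((hasDerivAt_id (0:ℝ)).smul_const (R k)).const_add w₀
        rw [one_smul] at h4
        exact h4
      have h5 : HasFDerivAt (fun y => eval y (p κ')) (dpoly (p κ') w₀) (w₀ + (0:ℝ) • R k) := by
        rw [zero_smul, add_zero]; exact hasFDerivAt_eval (p κ') w₀
      have h6 := (h5.comp_hasDerivAt (0:ℝ) h3).mul_const (ℓ (mon g (κ' : List (V × ι))))
      simp only [map_smul, smul_eq_mul]
      exact h6
    exact h2.congr fun t => by rw [hcur, hp]
  exact h1.unique (hR g k).2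

end word

end Crest.Agent.R182.Nb
end

-- ▼ part R182/NbPow
section

set_option autoImplicit false
set_option linter.unusedSectionVars false

namespace Crest.Agent.R182.Nb

open MeasureTheory Finset MvPolynomial ModelCount

variable {W : Type*} [Fintype W] {d : ℕ}

/-- Fubini along the slices -/
theorem fubini_slice (R : Fin d → W → ℝ) {ρ CR r : ℝ} (hCR : ∀ x, ‖Rl R x‖ ≤ CR * ‖x‖)
    (hCR0 : 0 ≤ CR) (hr : 0 < r) (hr1 : r ≤ 1) {A : Set (W → ℝ)} (hA : MeasurableSet A)
    (hAρ : ∀ w ∈ A, ‖w‖ ≤ ρ) {M : ENNReal}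
    (hM : ∀ w, volume {x : Fin d → ℝ | ‖x‖ ≤ r ∧ w + Rl R x ∈ A} ≤ M) :
    ENNReal.ofReal ((2 * r) ^ d) * volume A ≤
      M * volume (Metric.closedBall (0 : W → ℝ) (ρ + CR)) := by
  set Φ : (Fin d → ℝ) × (W → ℝ) → (W → ℝ) := fun z => z.2 + Rl R z.1 with hΦ
  have hΦc : Continuous Φ := continuous_snd.add ((Rl R).continuous.comp continuous_fst)
  set T : Set ((Fin d → ℝ) × (W → ℝ)) := (Metric.closedBall 0 r ×ˢ Set.univ) ∩ Φ ⁻¹' A with hT
  have hTm : MeasurableSet T :=
    (Metric.isClosed_closedBall.measurableSet.prod MeasurableSet.univ).inter (hΦc.measurable hA)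
  have h1 : (volume : Measure ((Fin d → ℝ) × (W → ℝ))) T = ∫⁻ x, volume (Prod.mk x ⁻¹' T) := by
    rw [Measure.volume_eq_prod]; exact Measure.prod_apply hTm
  have h2 : (volume : Measure ((Fin d → ℝ) × (W → ℝ))) T =
      ∫⁻ w, volume ((fun x => (x, w)) ⁻¹' T) := by
    rw [Measure.volume_eq_prod]; exact Measure.prod_apply_symm hTm
  have hlow : ENNReal.ofReal ((2 * r) ^ d) * volume A ≤
      (volume : Measure ((Fin d → ℝ) × (W → ℝ))) T := by
    rw [h1]
    have h3 : ∀ x ∈ Metric.closedBall (0 : Fin d → ℝ) r, volume A ≤ volume (Prod.mk x ⁻¹' T) := by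
      intro x hx
      have e1 : Prod.mk x ⁻¹' T = (fun w => w + Rl R x) ⁻¹' A := by
        ext w
        simp only [hT, hΦ, Set.mem_preimage, Set.mem_inter_iff, Set.mem_prod, Set.mem_univ,
          and_true]
        exact ⟨fun h => h.2, fun h => ⟨hx, h⟩⟩
      rw [e1, measure_preimage_add_right]
    calc ENNReal.ofReal ((2 * r) ^ d) * volume A
        = ∫⁻ _ in Metric.closedBall (0 : Fin d → ℝ) r, volume A := by
          rw [lintegral_const, Measure.restrict_apply_univ, Real.volume_pi_closedBall _ hr.le,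
            Fintype.card_fin, mul_comm]
      _ ≤ ∫⁻ x in Metric.closedBall (0 : Fin d → ℝ) r, volume (Prod.mk x ⁻¹' T) :=
          setLIntegral_mono' Metric.isClosed_closedBall.measurableSet h3
      _ ≤ ∫⁻ x, volume (Prod.mk x ⁻¹' T) := setLIntegral_le_lintegral _ _
  have hup : (volume : Measure ((Fin d → ℝ) × (W → ℝ))) T ≤
      M * volume (Metric.closedBall (0 : W → ℝ) (ρ + CR)) := by
    rw [h2]
    have h3 : ∀ w, volume ((fun x => (x, w)) ⁻¹' T) ≤
        (Metric.closedBall (0 : W → ℝ) (ρ + CR)).indicator (fun _ => M) w := by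
      intro w
      by_cases hw : w ∈ Metric.closedBall (0 : W → ℝ) (ρ + CR)
      · rw [Set.indicator_of_mem hw]
        refine (measure_mono ?_).trans (hM w)
        rintro x ⟨⟨hx, -⟩, hx'⟩
        exact ⟨by simpa using hx, hx'⟩
      · rw [Set.indicator_of_notMem hw, nonpos_iff_eq_zero]
        have : (fun x => (x, w)) ⁻¹' T = ∅ := by
          rw [Set.eq_empty_iff_forall_notMem]
          rintro x ⟨⟨hx, -⟩, hx'⟩
          apply hw
          rw [mem_closedBall_zero_iff]
          have hx1 : ‖x‖ ≤ r := by simpa using hx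
          have h4 : ‖w + Rl R x‖ ≤ ρ := hAρ _ hx'
          have e : w = (w + Rl R x) - Rl R x := by abel
          rw [e]
          refine (norm_sub_le _ _).trans (add_le_add h4 ((hCR x).trans ?_))
          calc CR * ‖x‖ ≤ CR * 1 := by gcongr; linarith
            _ = CR := mul_one _
        rw [this, measure_empty]
    calc ∫⁻ w, volume ((fun x => (x, w)) ⁻¹' T)
        ≤ ∫⁻ w, (Metric.closedBall (0 : W → ℝ) (ρ + CR)).indicator (fun _ => M) w :=
          lintegral_mono h3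
      _ = _ := lintegral_indicator_const Metric.isClosed_closedBall.measurableSet _
  exact hlow.trans hup

variable {K : Type*} [Fintype K]

/-- **the power law** -/
theorem exists_pow_law (p : K → MvPolynomial W ℝ) (R : Fin d → W → ℝ) (w₀ : W → ℝ) (ρ : ℝ)
    (hρ : 0 < ρ) (hw₀ : ‖w₀‖ ≤ ρ) :
    ∃ C κ : ℝ, 0 ≤ C ∧ 0 < κ ∧ κ ≤ 1 ∧ ∀ θ : K → Fin d → ℝ, (∀ κ k, |θ κ k| ≤ 1) →
      fM p R θ w₀ = 1 → ∀ (S : Set (Fin d → ℝ)), MeasurableSet S → ∀ a : ℝ, 0 < a →
      volume S ≤ ENNReal.ofReal a →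
      volume {w : W → ℝ | ‖w‖ ≤ ρ ∧ fF p θ w ∈ S} ≤ ENNReal.ofReal (C * a ^ κ) := by
  classical
  -- degree bound for the Jacobian along lines
  choose Dg hDg using fun (κ : K) (j : Fin d) => poly_line (dq (p κ) (R j))
  set D₀ : ℕ := ∑ κ, ∑ j, Dg κ j with hD₀
  have hle : ∀ κ j, Dg κ j ≤ D₀ := fun κ j =>
    (Finset.single_le_sum (f := fun j => Dg κ j) (fun j _ => Nat.zero_le _)
      (Finset.mem_univ j)).trans
      (Finset.single_le_sum (f := fun κ => ∑ j, Dg κ j) (fun κ _ => Nat.zero_le _)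
        (Finset.mem_univ κ))
  set D : ℕ := d * D₀ with hD
  have hline : ∀ (θ : K → Fin d → ℝ) (x v : W → ℝ), PolyD D fun s => (fM p R θ (x + s • v)).det := by
    intro θ x v
    refine PolyD.det fun k j => ?_
    change PolyD D₀ fun s => ∑ κ, θ κ k * eval (x + s • v) (dq (p κ) (R j))
    exact PolyD.sum _ fun κ _ => ((hDg κ j x v).mono (hle κ j)).smul _
  obtain ⟨C₁, hC₁, hsmall⟩ := small_multi (W := W) D ρ hρ
  obtain ⟨C₂, hC₂, hinj⟩ := slice_injOn p R ρ
  obtain ⟨CR, hCR0, hCR⟩ := norm_Rl_le R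
  set VB : ℝ := (volume (Metric.closedBall (0 : W → ℝ) (ρ + CR))).toReal with hVB
  have hVBfin : volume (Metric.closedBall (0 : W → ℝ) (ρ + CR)) = ENNReal.ofReal VB :=
    (ENNReal.ofReal_toReal (isCompact_closedBall _ _).measure_lt_top.ne).symm
  set E : ℕ := (D + 1) * (d + 1) with hE
  set C₃ : ℝ := VB * ((D + 2 : ℝ)) * (((C₂ + 1) * (D + 2)) / 2) ^ d with hC₃
  have hVB0 : 0 ≤ VB := ENNReal.toReal_nonneg
  have hC₃0 : 0 ≤ C₃ := by positivity
  set κ : ℝ := 1 / ((E : ℝ) + 1) with hκ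
  have hκ0 : 0 < κ := by positivity
  have hκ1 : κ ≤ 1 := by
    rw [hκ, div_le_one (by positivity)]; linarith [(Nat.cast_nonneg E : (0:ℝ) ≤ E)]
  refine ⟨C₁ + C₃ + VB, κ, by positivity, hκ0, hκ1, fun θ hθ hM S hS a ha hSa => ?_⟩
  set P : Set (W → ℝ) := {w : W → ℝ | ‖w‖ ≤ ρ ∧ fF p θ w ∈ S} with hP
  have hPm : MeasurableSet P := by
    refine MeasurableSet.inter ?_ ?_
    · exact measurableSet_le measurable_norm measurable_const
    · exact (continuous_fF p θ).measurable hS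
  -- the basic inequality
  have key : ∀ τ : ℝ, 0 < τ → τ ≤ 1 → volume P ≤ ENNReal.ofReal (C₁ * τ + C₃ * (τ⁻¹) ^ E * a) := by
    intro τ hτ hτ1
    set δ : ℝ := τ ^ (D + 1) / (D + 2) with hδ
    have hδ0 : 0 < δ := by positivity
    have hδ1 : δ ≤ 1 := by
      rw [hδ, div_le_one (by positivity)]
      have h1 : τ ^ (D + 1) ≤ 1 := pow_le_one₀ hτ.le hτ1
      have h2 : (0:ℝ) ≤ D := Nat.cast_nonneg D
      linarith
    set A : Set (W → ℝ) := P ∩ {w | δ ≤ |(fM p R θ w).det|} with hA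
    have hdetc : Continuous fun w => (fM p R θ w).det := (continuous_fM p R θ).matrix_det
    have hAm : MeasurableSet A := hPm.inter (measurableSet_le measurable_const
      hdetc.abs.measurable)
    have hsplit : volume P ≤ volume {w : W → ℝ | ‖w‖ ≤ ρ ∧ |(fM p R θ w).det| <
        τ ^ (D + 1) / (D + 2)} + volume A := by
      refine (measure_mono ?_).trans (measure_union_le _ _)
      intro w hw
      by_cases h : |(fM p R θ w).det| < τ ^ (D + 1) / (D + 2)
      · exact Or.inl ⟨hw.1, h⟩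
      · exact Or.inr ⟨hw, not_lt.mp h⟩
    have h1 := hsmall (fun w => (fM p R θ w).det) w₀ hdetc hw₀ (by
      simp only [hM, Matrix.det_one, abs_one, le_refl]) (hline θ w₀) τ hτ hτ1
    -- the slices
    set r : ℝ := δ / (C₂ + 1) with hr
    have hr0 : 0 < r := by positivity
    have hr1 : r ≤ 1 := by
      rw [hr, div_le_one (by positivity)]; linarith
    have hCr : C₂ * r < δ := by
      rw [hr, mul_div_assoc', div_lt_iff₀ (by positivity)]; nlinarith
    have hsl : ∀ w, volume {x : Fin d → ℝ | ‖x‖ ≤ r ∧ w + Rl R x ∈ A} ≤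
        ENNReal.ofReal (δ⁻¹ * a) := by
      intro w
      set X : Set (Fin d → ℝ) := {x : Fin d → ℝ | ‖x‖ ≤ r ∧ w + Rl R x ∈ A} with hX
      have hXm : MeasurableSet X := by
        refine MeasurableSet.inter (measurableSet_le measurable_norm measurable_const) ?_
        exact ((continuous_const.add (Rl R).continuous).measurable hAm)
      have hXinj : Set.InjOn (fun x => fF p θ (w + Rl R x)) X := by
        refine (hinj θ hθ w r δ hr0.le hCr).mono ?_
        rintro x ⟨hx, hx'⟩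
        exact ⟨hx, hx'.1.1, hx'.2⟩
      have h2 := slice_measure p R θ w hδ0 hXm hXinj (fun x hx => hx.2.2) (S := S)
        (fun x hx => hx.2.1.2)
      have h3 : volume X = ENNReal.ofReal (δ⁻¹) * (ENNReal.ofReal δ * volume X) := by
        rw [← mul_assoc, ← ENNReal.ofReal_mul (by positivity), inv_mul_cancel₀ hδ0.ne',
          ENNReal.ofReal_one, one_mul]
      rw [h3, ENNReal.ofReal_mul (by positivity)]
      gcongr
      exact h2.trans hSa
    have h4 := fubini_slice R hCR hCR0 hr0 hr1 hAm (fun w hw => hw.1.1) hsl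
    rw [hVBfin, ← ENNReal.ofReal_mul (by positivity)] at h4
    have h5 : volume A ≤ ENNReal.ofReal (C₃ * (τ⁻¹) ^ E * a) := by
      have h6 : volume A = ENNReal.ofReal (((2 * r) ^ d)⁻¹) *
          (ENNReal.ofReal ((2 * r) ^ d) * volume A) := by
        rw [← mul_assoc, ← ENNReal.ofReal_mul (by positivity), inv_mul_cancel₀ (by positivity),
          ENNReal.ofReal_one, one_mul]
      rw [h6]
      refine (mul_le_mul_right h4 _).trans ?_
      rw [← ENNReal.ofReal_mul (by positivity)]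
      refine ENNReal.ofReal_le_ofReal (le_of_eq ?_)
      have hτne : τ ≠ 0 := hτ.ne'
      have hC2 : C₂ + 1 ≠ 0 := by positivity
      have hD2 : (D : ℝ) + 2 ≠ 0 := by positivity
      have hXne : τ ^ (D + 1) ≠ 0 := pow_ne_zero _ hτne
      have hX : (τ⁻¹) ^ E = ((τ ^ (D + 1))⁻¹) ^ d * (τ ^ (D + 1))⁻¹ := by
        rw [hE, pow_mul, inv_pow τ, pow_succ]
      have hY : ((2 * r) ^ d)⁻¹ = ((τ ^ (D + 1))⁻¹) ^ d * (((C₂ + 1) * (D + 2)) / 2) ^ d := by
        rw [← mul_pow, ← inv_pow, hr, hδ]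
        congr 1
        field_simp
      have hZ : δ⁻¹ = (D + 2) * (τ ^ (D + 1))⁻¹ := by
        rw [hδ, inv_div, div_eq_mul_inv]
      rw [hX, hY, hC₃, hZ]
      ring
    calc volume P ≤ _ := hsplit
      _ ≤ ENNReal.ofReal (C₁ * τ) + ENNReal.ofReal (C₃ * (τ⁻¹) ^ E * a) := add_le_add h1 h5
      _ = _ := by rw [← ENNReal.ofReal_add (by positivity) (by positivity)]
  -- the trivial bound
  have htriv : volume P ≤ ENNReal.ofReal VB := by
    rw [← hVBfin]
    refine measure_mono fun w hw => ?_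
    rw [mem_closedBall_zero_iff]
    have := hw.1
    linarith
  rcases le_total 1 a with h1 | h1
  · refine htriv.trans (ENNReal.ofReal_le_ofReal ?_)
    have h2 : 1 ≤ a ^ κ := Real.one_le_rpow h1 hκ0.le
    nlinarith [mul_nonneg hC₁ (le_trans zero_le_one h2), mul_nonneg hC₃0 (le_trans zero_le_one h2)]
  · have h2 := key (a ^ κ) (Real.rpow_pos_of_pos ha _) (Real.rpow_le_one ha.le h1 hκ0.le)
    refine h2.trans (ENNReal.ofReal_le_ofReal ?_)
    have h3 : ((a ^ κ)⁻¹) ^ E * a = a ^ κ := by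
      rw [← Real.rpow_neg ha.le, ← Real.rpow_natCast, ← Real.rpow_mul ha.le]
      conv_lhs => rw [← Real.rpow_one a, ← Real.rpow_mul ha.le, one_mul,
        ← Real.rpow_add ha]
      congr 1
      rw [hκ]; field_simp; ring
    rw [mul_assoc, h3]
    have h4 : 0 ≤ a ^ κ := (Real.rpow_pos_of_pos ha _).le
    nlinarith [mul_nonneg hVB0 h4]

end Crest.Agent.R182.Nb
end

-- ▼ part R182/NbEnt
section

set_option autoImplicit false
set_option linter.unusedSectionVars false

namespace Crest.Agent.R182.Nb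

open MeasureTheory Finset Module MvPolynomial ModelCount

variable {L : Type*} [LieRing L] [LieAlgebra ℝ L] {S : Star L} {V : Type*} [Fintype V] {d : ℕ}

/-- **Power law for word maps** (uniform in the family `g`). -/
theorem exists_ent (A : AdS S) {c : ℕ} (hL : NilC c L) (b : Basis (Fin d) ℝ L) (V : Type*)
    [Fintype V] : ∃ J : ℕ, ∀ (M : ℕ) (s : Fin M → V),
    (∀ u : List V, u.length ≤ J → u.Sublist (List.ofFn s)) → ∀ ρ : ℝ,
    ∃ C κ : ℝ, 0 < C ∧ 0 < κ ∧ κ ≤ 1 ∧ ∀ g : V × Fin d → L, 0 < MD b c g →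
      ∀ A' : Set L, MeasL b A' → ∀ a : ℝ, 0 < a → vb b A' ≤ ENNReal.ofReal (a * MD b c g) →
        volume {w : Fin M × Fin d → ℝ | ‖w‖ ≤ ρ ∧ Phi S s g w ∈ A'} ≤
          ENNReal.ofReal (C * a ^ κ) := by
  classical
  have : FiniteDimensional ℝ L := Module.Finite.of_basis b
  obtain ⟨J, hJ⟩ := exists_point A (V := V) (ι := Fin d) (d := d) (c := c)
  refine ⟨J, fun M s hs ρ => ?_⟩
  obtain ⟨p, hp⟩ := exists_Phi_repr S hL s (ι := Fin d)
  choose w₀ R hR using hJ M s hs p hp
  -- a common radius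
  set ρ' : ℝ := max ρ 1 + ∑ κ : Tup (V × Fin d) c d, ‖w₀ κ‖ with hρ'
  have hρ'0 : 0 < ρ' := by
    have h1 : 0 < max ρ 1 := lt_max_of_lt_right one_pos
    have h2 : 0 ≤ ∑ κ : Tup (V × Fin d) c d, ‖w₀ κ‖ := Finset.sum_nonneg fun _ _ => norm_nonneg _
    linarith
  have hρρ' : ρ ≤ ρ' := by
    have h2 : 0 ≤ ∑ κ : Tup (V × Fin d) c d, ‖w₀ κ‖ := Finset.sum_nonneg fun _ _ => norm_nonneg _
    linarith [le_max_left ρ 1]
  have hw₀ : ∀ κ, ‖w₀ κ‖ ≤ ρ' := fun κ => by
    have h1 := Finset.single_le_sum (f := fun κ => ‖w₀ κ‖) (fun _ _ => norm_nonneg _)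
      (Finset.mem_univ κ)
    have h2 : 0 < max ρ 1 := lt_max_of_lt_right one_pos

    linarith
  choose C κe hC hκ0 hκ1 hpow using fun κ => exists_pow_law p (R κ) (w₀ κ) ρ' hρ'0 (hw₀ κ)
  set VB : ℝ := (volume (Metric.closedBall (0 : Fin M × Fin d → ℝ) ρ)).toReal with hVB
  have hVBfin : volume (Metric.closedBall (0 : Fin M × Fin d → ℝ) ρ) = ENNReal.ofReal VB :=
    (ENNReal.ofReal_toReal (isCompact_closedBall _ _).measure_lt_top.ne).symm
  have hVB0 : 0 ≤ VB := ENNReal.toReal_nonneg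
  set κm : ℝ := (Finset.univ : Finset (Tup (V × Fin d) c d)).inf' Finset.univ_nonempty κe with hκm
  have hκm0 : 0 < κm := (Finset.lt_inf'_iff _).mpr fun κ _ => hκ0 κ
  have hκmle : ∀ κ, κm ≤ κe κ := fun κ => Finset.inf'_le _ (Finset.mem_univ κ)
  obtain ⟨κx⟩ : Nonempty (Tup (V × Fin d) c d) := inferInstance
  refine ⟨(∑ κ, C κ) + VB + 1, κm, ?_, hκm0, (hκmle κx).trans (hκ1 κx),
    fun g hg A' hA' a ha hvb => ?_⟩
  · have : 0 ≤ ∑ κ, C κ := Finset.sum_nonneg fun κ _ => hC κ
    positivity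
  have hsumC : ∀ κ, C κ ≤ ∑ κ, C κ := fun κ =>
    Finset.single_le_sum (f := C) (fun κ _ => hC κ) (Finset.mem_univ κ)
  have hsum0 : 0 ≤ ∑ κ, C κ := Finset.sum_nonneg fun κ _ => hC κ
  rcases le_total 1 a with h1 | h1
  · -- trivial bound
    have h2 : volume {w : Fin M × Fin d → ℝ | ‖w‖ ≤ ρ ∧ Phi S s g w ∈ A'} ≤ ENNReal.ofReal VB := by
      rw [← hVBfin]
      refine measure_mono fun w hw => ?_
      rw [mem_closedBall_zero_iff]; exact hw.1
    refine h2.trans (ENNReal.ofReal_le_ofReal ?_)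
    have h3 : 1 ≤ a ^ κm := Real.one_le_rpow h1 hκm0.le
    nlinarith
  · obtain ⟨κ, hκ⟩ := exists_MD (b := b) (c := c) (g := g)
    have hdt : |dt b g κ| ≠ 0 := by rw [← hκ]; exact hg.ne'
    have hm : b.det (fun k => mon g (κ k : List (V × Fin d))) ≠ 0 := abs_ne_zero.mp hdt
    have hb := (Basis.is_basis_iff_det b).mpr (isUnit_iff_ne_zero.mpr hm)
    choose θ hθ hmon using fun κ' : KL (V × Fin d) c => coord_of_max hκ hg κ'
    set m : Fin d → L := fun k => mon g (κ k : List (V × Fin d)) with hmdef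
    -- the word map in the coordinates of `m`
    have hPhi : ∀ w, Phi S s g w = ∑ k, fF p θ w k • m k := by
      intro w
      rw [hp]
      simp only [fF, Finset.sum_smul]
      rw [Finset.sum_comm]
      refine Finset.sum_congr rfl fun κ' _ => ?_
      rw [hmon κ', Finset.smul_sum]
      refine Finset.sum_congr rfl fun k _ => ?_
      rw [smul_smul, mul_comm]
    -- derivative at the point
    have hM : fM p (R κ) θ (w₀ κ) = 1 := by
      ext k j
      have h2 := hR κ g j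
      have h3 : ∑ k, (∑ κ' : KL (V × Fin d) c, θ κ' k * dpoly (p κ') (w₀ κ) (R κ j)) • m k =
          ∑ k, (if k = j then (1:ℝ) else 0) • m k := by
        have h4 : ∑ k, (if k = j then (1:ℝ) else 0) • m k = m j := by simp
        rw [h4, hmdef]
        simp only
        rw [← h2]
        simp only [Finset.sum_smul]
        rw [Finset.sum_comm]
        refine Finset.sum_congr rfl fun κ' _ => ?_
        conv_rhs => rw [hmon κ', Finset.smul_sum]
        refine Finset.sum_congr rfl fun k _ => ?_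
        rw [smul_smul, mul_comm]
      have h5 : ∑ k, ((∑ κ' : KL (V × Fin d) c, θ κ' k * dpoly (p κ') (w₀ κ) (R κ j)) -
          (if k = j then (1:ℝ) else 0)) • m k = 0 := by
        simp only [sub_smul, Finset.sum_sub_distrib]
        rw [h3, sub_self]
      have h6 := Fintype.linearIndependent_iff.mp hb.1 _ h5 k
      change ∑ κ', θ κ' k * eval (w₀ κ) (dq (p κ') (R κ j)) = (1 : Matrix (Fin d) (Fin d) ℝ) k j
      simp only [eval_dq]
      rw [Matrix.one_apply]
      linarith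
    -- the set in the coordinates of `m`
    set SF : Set (Fin d → ℝ) := {y : Fin d → ℝ | ∑ k, y k • m k ∈ A'} with hSF
    have hSFm : MeasurableSet SF := measL_iff b hA' m
    have hvol : volume SF ≤ ENNReal.ofReal a := by
      have h2 := vb_eq b hm A'
      rw [h2] at hvb
      change ENNReal.ofReal |dt b g κ| * volume SF ≤ _ at hvb
      rw [← hκ, mul_comm a, ENNReal.ofReal_mul hg.le] at hvb
      exact (ENNReal.mul_le_mul_iff_right (by simpa using hg) ENNReal.ofReal_ne_top).mp hvb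
    have h2 := hpow κ θ hθ hM SF hSFm a ha hvol
    have h3 : volume {w : Fin M × Fin d → ℝ | ‖w‖ ≤ ρ ∧ Phi S s g w ∈ A'} ≤
        volume {w : Fin M × Fin d → ℝ | ‖w‖ ≤ ρ' ∧ fF p θ w ∈ SF} := by
      refine measure_mono fun w hw => ⟨hw.1.trans hρρ', ?_⟩
      change ∑ k, fF p θ w k • m k ∈ A'
      rw [← hPhi]; exact hw.2
    refine h3.trans (h2.trans (ENNReal.ofReal_le_ofReal ?_))
    have h4 : a ^ κe κ ≤ a ^ κm := Real.rpow_le_rpow_of_exponent_ge ha h1 (hκmle κ)
    have h5 : 0 ≤ a ^ κm := Real.rpow_nonneg ha.le _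
    have h6 := hsumC κ
    have h7 := hC κ
    calc C κ * a ^ κe κ ≤ (∑ κ, C κ) * a ^ κm := by gcongr
      _ ≤ _ := by nlinarith

end Crest.Agent.R182.Nb
end

-- ▼ part R182/NbEntM
section

set_option autoImplicit false
set_option linter.unusedSectionVars false

namespace Crest.Agent.R182.Nb

open Finset Module MeasureTheory Crest.Agent.R182.Core

/-- comparison of the law of the walk with Lebesgue measure -/
theorem pi_le_of_linear {H : Type*} [NormedAddCommGroup H] [NormedSpace ℝ H]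
    [FiniteDimensional ℝ H] [MeasurableSpace H] [BorelSpace H] (μ : Measure H)
    [μ.IsAddHaarMeasure] {V : Set H} (hV : MeasurableSet V) (h0 : μ V ≠ 0) (hfin : μ V ≠ ⊤)
    {L : ℕ} {W : Type*} [Fintype W] (T : (Fin L → H × H) ≃ₗ[ℝ] (W → ℝ)) :
    ∃ c : ENNReal, c ≠ ⊤ ∧ ∀ (A : Set (Fin L → H × H)) (X : Set (W → ℝ)),
      (∀ ω ∈ A, (∀ j, (ω j).1 ∈ V ∧ (ω j).2 ∈ V) → T ω ∈ X) →
      Measure.pi (fun _ : Fin L => (((μ V)⁻¹ • μ.restrict V).prod ((μ V)⁻¹ • μ.restrict V))) A ≤
        c * volume X := by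
  have : ProperSpace H := FiniteDimensional.proper_real H
  set a : ENNReal := (μ V)⁻¹ with ha
  have hatop : a ≠ ⊤ := by rw [ha]; exact ENNReal.inv_ne_top.mpr h0
  set B : Set (H × H) := V ×ˢ V with hB
  have hBm : MeasurableSet B := hV.prod hV
  have e1 : ((a • μ.restrict V).prod (a • μ.restrict V)) = (a * a) • (μ.prod μ).restrict B := by
    have : SFinite (a • μ.restrict V) := by infer_instance
    rw [Measure.prod_smul_left, Measure.prod_smul_right, smul_smul, Measure.prod_restrict]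
  have e2 : Measure.pi (fun _ : Fin L => (a * a) • (μ.prod μ).restrict B) =
      ((a * a) ^ L) • (Measure.pi fun _ : Fin L => μ.prod μ).restrict (Set.univ.pi fun _ => B) := by
    have : IsFiniteMeasure ((a * a) • (μ.prod μ).restrict B) := by
      refine ⟨?_⟩
      rw [Measure.smul_apply, Measure.restrict_apply_univ, Measure.prod_prod, smul_eq_mul]
      exact ENNReal.mul_lt_top (ENNReal.mul_lt_top hatop.lt_top hatop.lt_top)
        (ENNReal.mul_lt_top hfin.lt_top hfin.lt_top)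
    refine Measure.pi_eq fun s hs => ?_
    rw [Measure.smul_apply, Measure.restrict_apply (MeasurableSet.univ_pi hs), Set.pi_inter_distrib.symm,
      Measure.pi_pi, smul_eq_mul]
    simp only [Measure.smul_apply, smul_eq_mul, Measure.restrict_apply (hs _)]
    rw [Finset.prod_mul_distrib, Finset.prod_const, Finset.card_univ, Fintype.card_fin]
  have : SecondCountableTopology H := secondCountable_of_proper
  have hprod : (μ.prod μ).IsAddHaarMeasure := inferInstance
  set Λ : Measure (Fin L → H × H) := Measure.pi fun _ : Fin L => μ.prod μ with hΛ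
  have hΛh : Λ.IsAddHaarMeasure := by
    rw [hΛ]; exact Measure.pi.isAddHaarMeasure _
  have h3 : Λ.map T.toContinuousLinearEquiv =
      (Measure.addHaarScalarFactor (Λ.map T.toContinuousLinearEquiv) (volume : Measure (W → ℝ))) •
        (volume : Measure (W → ℝ)) := Measure.isAddLeftInvariant_eq_smul _ _
  set c' : NNReal := Measure.addHaarScalarFactor (Λ.map T.toContinuousLinearEquiv)
    (volume : Measure (W → ℝ)) with hc'
  refine ⟨(a * a) ^ L * c', ?_, fun A X₀ hAX₀ => ?_⟩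
  · exact ENNReal.mul_ne_top (ENNReal.pow_ne_top (ENNReal.mul_ne_top hatop hatop))
      ENNReal.coe_ne_top
  · rw [← measure_toMeasurable X₀]
    set X := toMeasurable (volume : Measure (W → ℝ)) X₀ with hXdef
    have hX : MeasurableSet X := measurableSet_toMeasurable _ _
    have hAX : ∀ ω ∈ A, (∀ j, (ω j).1 ∈ V ∧ (ω j).2 ∈ V) → T ω ∈ X := fun ω h h' =>
      subset_toMeasurable _ _ (hAX₀ ω h h')
    rw [e1, e2, Measure.smul_apply, smul_eq_mul,
      Measure.restrict_apply' (MeasurableSet.univ_pi fun _ => hBm), mul_assoc]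
    gcongr
    have h4 : Λ (A ∩ Set.univ.pi fun _ => B) ≤ (Λ.map T.toContinuousLinearEquiv) X := by
      rw [Measure.map_apply T.toContinuousLinearEquiv.continuous.measurable hX]
      refine measure_mono ?_
      rintro ω ⟨hω, hω'⟩
      exact hAX ω hω fun j => hω' j (Set.mem_univ j)
    refine h4.trans ?_
    rw [h3]
    rfl

/-- long enough periodic words contain all short words -/
theorem sublist_periodic (q L J : ℕ) (hL : (q + 1) * J ≤ L) (u : List (Fin (q + 1)))
    (hu : u.length ≤ J) :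
    u.Sublist (List.ofFn fun j : Fin (2 * L) =>
      (⟨(j / 2) % (q + 1), Nat.mod_lt _ (Nat.succ_pos q)⟩ : Fin (q + 1))) := by
  rw [List.sublist_iff_exists_fin_orderEmbedding_get_eq]
  have hlt : ∀ i : Fin u.length, (q + 1) * i + (u.get i : ℕ) < L := by
    intro i
    have h1 : (i : ℕ) + 1 ≤ J := by have := i.2; omega
    have h2 : (u.get i : ℕ) < q + 1 := (u.get i).2
    calc (q + 1) * i + (u.get i : ℕ) < (q + 1) * i + (q + 1) := by omega
      _ = (q + 1) * (i + 1) := by ring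
      _ ≤ (q + 1) * J := Nat.mul_le_mul_left _ h1
      _ ≤ L := hL
  set s : Fin (2 * L) → Fin (q + 1) := fun j =>
    ⟨(j / 2) % (q + 1), Nat.mod_lt _ (Nat.succ_pos q)⟩ with hs
  let f : Fin u.length → Fin (List.ofFn s).length := fun i =>
    ⟨2 * ((q + 1) * i + (u.get i : ℕ)), by rw [List.length_ofFn]; have := hlt i; omega⟩
  have hf : StrictMono f := by
    intro i i' hii
    have h2 : (u.get i : ℕ) < q + 1 := (u.get i).2
    have h3 : (i : ℕ) + 1 ≤ i' := hii
    have h4 : (q + 1) * ((i : ℕ) + 1) ≤ (q + 1) * i' := Nat.mul_le_mul_left _ h3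
    have h5 : (q + 1) * ((i : ℕ) + 1) = (q + 1) * i + (q + 1) := by ring
    change 2 * ((q + 1) * (i : ℕ) + (u.get i : ℕ)) < 2 * ((q + 1) * (i' : ℕ) + (u.get i' : ℕ))
    omega
  refine ⟨OrderEmbedding.ofStrictMono f hf, fun i => ?_⟩
  have h1 : (OrderEmbedding.ofStrictMono f hf) i = f i := rfl
  rw [h1, List.get_ofFn]
  apply Fin.ext
  change (u.get i : ℕ) = (2 * ((q + 1) * (i : ℕ) + (u.get i : ℕ)) / 2) % (q + 1)
  rw [Nat.mul_div_cancel_left _ (by norm_num), Nat.mul_add_mod]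
  exact (Nat.mod_eq_of_lt (u.get i).2).symm

section model

variable {Γ : Type*} [Group Γ] {k : ℕ} {S : Set Γ} {π : Γ →* Multiplicative (Fin k → ℤ)}
  (M : BModel S π)

variable {M} in
/-- the change of variables (letters `a⁻¹`, `b`) -/
noncomputable def TwF {L : ℕ} (ω : Fin L → M.NN × M.NN) (z : Fin (2 * L) × Fin M.r) : ℝ :=
  if (z.1 : ℕ) % 2 = 0 then -((ω ⟨(z.1 : ℕ) / 2, by have := z.1.2; omega⟩).1 z.2)
    else (ω ⟨(z.1 : ℕ) / 2, by have := z.1.2; omega⟩).2 z.2

/-- the linear change of variables -/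
noncomputable def Tw (L : ℕ) : (Fin L → M.NN × M.NN) →ₗ[ℝ] (Fin (2 * L) × Fin M.r → ℝ) where
  toFun ω := TwF ω
  map_add' ω ω' := by
    funext z
    rw [Pi.add_apply]
    unfold TwF
    split_ifs
    · exact neg_add _ _
    · rfl
  map_smul' a ω := by
    funext z
    rw [Pi.smul_apply]
    unfold TwF
    split_ifs
    · exact (mul_neg _ _).symm
    · rfl

variable {M} in
theorem TwF_even {L : ℕ} (ω : Fin L → M.NN × M.NN) (j : Fin (2 * L)) (i : Fin M.r)
    (h : (j : ℕ) % 2 = 0) (j' : Fin L) (hj : (j : ℕ) / 2 = j') : TwF ω (j, i) = -((ω j').1 i) := by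
  have : (⟨(j : ℕ) / 2, by have := j.2; omega⟩ : Fin L) = j' := Fin.ext hj
  unfold TwF
  rw [if_pos h, this]

variable {M} in
theorem TwF_odd {L : ℕ} (ω : Fin L → M.NN × M.NN) (j : Fin (2 * L)) (i : Fin M.r)
    (h : ¬ (j : ℕ) % 2 = 0) (j' : Fin L) (hj : (j : ℕ) / 2 = j') : TwF ω (j, i) = (ω j').2 i := by
  have : (⟨(j : ℕ) / 2, by have := j.2; omega⟩ : Fin L) = j' := Fin.ext hj
  unfold TwF
  rw [if_neg h, this]

theorem Tw_inj (L : ℕ) : Function.Injective (Tw M L) := by
  intro ω ω' h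
  have h' : ∀ z, TwF ω z = TwF ω' z := congrFun h
  funext j
  have h1 : ∀ i, (ω j).1 i = (ω' j).1 i := by
    intro i
    have h2 := h' (⟨2 * (j : ℕ), by have := j.2; omega⟩, i)
    rw [TwF_even ω _ i (by simp) j (by simp), TwF_even ω' _ i (by simp) j (by simp)] at h2
    exact neg_injective h2
  have h3 : ∀ i, (ω j).2 i = (ω' j).2 i := by
    intro i
    have h2 := h' (⟨2 * (j : ℕ) + 1, by have := j.2; omega⟩, i)
    rw [TwF_odd ω _ i (by simp only; omega) j (by simp only; omega),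
      TwF_odd ω' _ i (by simp only; omega) j (by simp only; omega)] at h2
    exact h2
  exact Prod.ext (funext h1) (funext h3)

theorem finrank_NN : Module.finrank ℝ M.NN = M.r := by
  change Module.finrank ℝ (Fin M.r → ℝ) = M.r
  simp

/-- the change of variables as an equivalence -/
noncomputable def TwE (L : ℕ) : (Fin L → M.NN × M.NN) ≃ₗ[ℝ] (Fin (2 * L) × Fin M.r → ℝ) :=
  LinearEquiv.ofInjectiveOfFinrankEq (Tw M L) (Tw_inj M L) (by
    rw [Module.finrank_pi_fintype]
    simp [finrank_NN]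
    ring)

end model

end Crest.Agent.R182.Nb
end

-- ▼ part R182/NbEntF

set_option autoImplicit false
set_option linter.unusedSectionVars false

namespace Crest.Agent.R182.Nb

open Finset Module MeasureTheory Crest.Agent.R182.Core

variable {Γ : Type*} [Group Γ] {k : ℕ} {S : Set Γ} {π : Γ →* Multiplicative (Fin k → ℤ)}
  (M : BModel S π)

/-- the moves -/
noncomputable def mvB (c : ℕ → M.G) (q : ℕ) (j : ℕ) : M.NN → M.NN := M.conjN (c (j % (q + 1)))

/-- the letters of the walk in the Lie algebra -/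
noncomputable def FL (c : ℕ → M.G) (q : ℕ) (ω : ℕ → M.NN × M.NN) (j : ℕ) : M.L :=
  if j % 2 = 0 then -(M.Ad (c ((j / 2) % (q + 1))) (M.E (ω (j / 2)).1))
    else M.Ad (c ((j / 2) % (q + 1))) (M.E (ω (j / 2)).2)

theorem E_inv (x : M.NN) : M.E x⁻¹ = -M.E x := by
  rw [BModel.inv_def, map_neg]

theorem E_wk (c : ℕ → M.G) (q : ℕ) (ω : ℕ → M.NN × M.NN) (n : ℕ) :
    M.E (Star.wk (mvB M c q) 1 ω n) = M.star.prod ((List.range (2 * n)).map (FL M c q ω)) := by
  induction n with
  | zero => rw [Star.wk, BModel.one_def, map_zero]; rfl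
  | succ n ih =>
    have e1 : 2 * (n + 1) = 2 * n + 1 + 1 := by ring
    rw [e1, List.range_succ, List.range_succ, List.append_assoc, List.map_append,
      M.star.prod_append, ← ih, Star.wk, BModel.E_mul, BModel.E_mul, M.star.assoc, E_inv]
    congr 1
    simp only [List.map_cons, List.map_nil, List.cons_append, List.nil_append,
      Nb.Star.prod_cons, Nb.Star.prod_nil, M.star.op_zero]
    have e2 : FL M c q ω (2 * n) = -(M.Ad (c (n % (q + 1))) (M.E (ω n).1)) := by
      unfold FL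
      rw [if_pos (by omega), Nat.mul_div_cancel_left _ (by norm_num)]
    have e3 : FL M c q ω (2 * n + 1) = M.Ad (c (n % (q + 1))) (M.E (ω n).2) := by
      unfold FL
      rw [if_neg (by omega)]
      have : (2 * n + 1) / 2 = n := by omega
      rw [this]
    rw [e2, e3]
    simp only [mvB, BModel.conjN_apply, LinearEquiv.apply_symm_apply]

/-- the periodic labels -/
def sP (q L : ℕ) : Fin (2 * L) → Fin (q + 1) := fun j =>
  ⟨(j / 2) % (q + 1), Nat.mod_lt _ (Nat.succ_pos q)⟩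

/-- the letters -/
noncomputable def gP (c : ℕ → M.G) (q : ℕ) (z : Fin (q + 1) × Fin M.r) : M.L :=
  M.Ad (c z.1) (M.bas z.2)

theorem E_wk_eq_Phi (c : ℕ → M.G) (q L : ℕ) (ω : Fin L → M.NN × M.NN) :
    M.E (Star.wk (mvB M c q) 1 (Star.extω ω) L) = Phi M.star (sP q L) (gP M c q) (Tw M L ω) := by
  rw [E_wk, Phi]
  congr 1
  rw [List.ofFn_eq_map]
  have e1 : (List.range (2 * L)).map (FL M c q (Star.extω ω)) =
      (List.finRange (2 * L)).map (fun j : Fin (2 * L) => FL M c q (Star.extω ω) (j : ℕ)) := by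
    rw [← List.map_coe_finRange_eq_range, List.map_map]; rfl
  rw [e1]
  refine List.map_congr_left fun j _ => ?_
  have hj : (j : ℕ) / 2 < L := by have := j.2; omega
  have h1 : ∀ (x : M.NN) (g : M.G), M.Ad g (M.E x) = ∑ i, x i • M.Ad g (M.bas i) := by
    intro x g
    rw [BModel.E_eq_sum, map_sum]
    exact Finset.sum_congr rfl fun i _ => map_smul _ _ _
  unfold FL
  rw [Star.extω_of_lt ω hj]
  split_ifs with h
  · rw [h1, ← Finset.sum_neg_distrib]
    refine Finset.sum_congr rfl fun i _ => ?_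
    have h2 : Tw M L ω (j, i) = -((ω ⟨(j : ℕ) / 2, hj⟩).1 i) := TwF_even ω j i h _ rfl
    rw [h2, neg_smul]
    rfl
  · rw [h1]
    refine Finset.sum_congr rfl fun i _ => ?_
    have h2 : Tw M L ω (j, i) = (ω ⟨(j : ℕ) / 2, hj⟩).2 i := TwF_odd ω j i h _ rfl
    rw [h2]
    rfl

/-- verticals: products of at most `m` elements of `C` of length `≤ R` -/
def Clr (R : ℝ) (m : ℕ) : Set M.G :=
  {g | ∃ l : List M.G, l.length ≤ m ∧ l.prod = g ∧ ∀ s ∈ l, s ∈ M.C ∧ M.len s ≤ R}

theorem Clr_inv {R : ℝ} {m : ℕ} {g : M.G} (hg : g ∈ Clr M R m) : g⁻¹ ∈ Clr M R m := by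
  obtain ⟨l, hl, rfl, h⟩ := hg
  refine ⟨(l.map fun s => s⁻¹).reverse, by simpa using hl, ?_, ?_⟩
  · rw [List.prod_inv_reverse]
  · intro s hs
    rw [List.mem_reverse, List.mem_map] at hs
    obtain ⟨s', hs', rfl⟩ := hs
    exact ⟨M.C.inv_mem (h s' hs').1, by rw [M.isLen.inv]; exact (h s' hs').2⟩

theorem Clr_mem_C {R : ℝ} {m : ℕ} {g : M.G} (hg : g ∈ Clr M R m) : g ∈ M.C := by
  obtain ⟨l, _, rfl, h⟩ := hg
  exact Subgroup.list_prod_mem _ fun s hs => (h s hs).1

/-- size of the coefficients of `Ad` on weight vectors -/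
theorem exists_Ad_bound (R : ℝ) : ∃ A : ℝ, 1 ≤ A ∧ ∀ (m : ℕ) (g : M.G), g ∈ Clr M R m →
    ∀ i j, |M.bas.repr (M.Ad g (M.bas j)) i| ≤ A * (1 + m) ^ M.d * Real.exp (M.wt j (M.h g)) := by
  obtain ⟨A, hA⟩ := M.Ad_C_le R
  refine ⟨max A 1, le_max_right _ _, fun m g hg i j => ?_⟩
  have hgC := Clr_mem_C M hg
  by_cases h0 : M.bas.repr (M.Ad g (M.bas j)) i = 0
  · rw [h0, abs_zero]; positivity
  · have hw := M.Ad_C g hgC i j h0
    obtain ⟨l, hl, rfl, h⟩ := hg
    have h1 := hA l h i j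
    rw [hw] at h1
    refine h1.trans ?_
    have h2 : ((1 : ℝ) + l.length) ^ M.d ≤ (1 + m) ^ M.d := by
      gcongr
    have h3 : A ≤ max A 1 := le_max_left _ _
    have h4 : (0:ℝ) ≤ (1 + l.length) ^ M.d := by positivity
    calc A * (1 + l.length) ^ M.d * Real.exp (M.wt j (M.h l.prod))
        ≤ max A 1 * (1 + m) ^ M.d * Real.exp (M.wt j (M.h l.prod)) := by
          gcongr
      _ = _ := rfl

theorem gP_zero_mem {c : ℕ → M.G} (hc : c 0 = 1) (q : ℕ) (i : Fin M.r) :
    gP M c q (0, i) = M.bas i := by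
  change M.Ad (c 0) (M.bas i) = M.bas i
  rw [hc, map_one]; rfl

theorem MD_gP_pos {c : ℕ → M.G} (hc : c 0 = 1) (q : ℕ) : 0 < MD M.bas M.c (gP M c q) := by
  have h1 : Pm (gP M c q) = ⊤ := by
    rw [eq_top_iff, ← M.bas.span_eq]
    refine Submodule.span_le.mpr ?_
    rintro _ ⟨i, rfl⟩
    exact Submodule.subset_span ⟨[(0, i)], by simp only [mon_single]; exact gP_zero_mem M hc q i⟩
  obtain ⟨κ, hκ⟩ := exists_tup M.nilC M.bas (gP M c q) h1
  exact MD_pos_of hκ

/-- **lower bound for the maximal determinant of the word** -/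
theorem exists_MD_word (R : ℝ) (q : ℕ) : ∃ (K : ℝ) (D : ℕ), 1 ≤ K ∧ ∀ (m : ℕ) (c : ℕ → M.G),
    1 ≤ m → c 0 = 1 → (∀ j ≤ q, c j ∈ Clr M R m) → ∀ Z : GI M → ℝ, (∀ i, 0 ≤ Z i) →
    (∀ i, ∃ j ≤ q, Z i ≤ max 0 (wg M i (M.h (c j)))) →
    Real.exp ((gsys M).Gt Z) ≤ K * (m : ℝ) ^ D * MD M.bas M.c (gP M c q) := by
  obtain ⟨A, hA1, hA⟩ := exists_Ad_bound M R
  obtain ⟨c₀, hc₀, hlow⟩ := le_MD_scaled M
  obtain ⟨C, hC, hMD⟩ := exists_MD_le (b := M.bas) M.nilC (Fin (q + 1) × Fin M.r) (GI M)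
  set T : ℝ := (M.r + 1) * (A * 2 ^ M.d) with hT
  have hT1 : 1 ≤ T := by
    have h1 : (1:ℝ) ≤ 2 ^ M.d := one_le_pow₀ (by norm_num)
    have h2 : 1 ≤ A * 2 ^ M.d := by nlinarith
    have h3 : (1:ℝ) ≤ M.r + 1 := by linarith [(Nat.cast_nonneg M.r : (0:ℝ) ≤ M.r)]
    nlinarith
  refine ⟨max 1 (C * T ^ (M.c * M.r) / c₀), M.d * (M.c * M.r), le_max_left _ _,
    fun m c hm hc1 hc Z hZ hZc => ?_⟩
  have hpos := MD_gP_pos M hc1 q
  have hm1 : (1:ℝ) ≤ m := by exact_mod_cast hm
  set t : ℝ := T * (m : ℝ) ^ M.d with ht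
  have htm : (1:ℝ) ≤ (m : ℝ) ^ M.d := one_le_pow₀ hm1
  have ht1 : 1 ≤ t := by nlinarith
  have hbox : ∀ i : GI M, (fun i => Real.exp (Z i) • eg M i) i ∈ Bx M.c (gP M c q) t := by
    intro i
    -- the vertex
    have hex : ∃ j : Fin (q + 1), c j ∈ Clr M R m ∧ Z i ≤ wg M i (M.h (c j)) := by
      obtain ⟨j, hj, hZj⟩ := hZc i
      rcases le_total 0 (wg M i (M.h (c j))) with h1 | h1
      · exact ⟨⟨j, Nat.lt_succ_of_le hj⟩, hc j hj, by rwa [max_eq_right h1] at hZj⟩
      · refine ⟨0, hc 0 (Nat.zero_le _), ?_⟩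
        rw [max_eq_left h1] at hZj
        have h2 : c ((0 : Fin (q + 1)) : ℕ) = 1 := hc1
        rw [h2, BModel.h_one, map_zero]
        exact hZj
    obtain ⟨j, hj, hZj⟩ := hex
    have e1 : eg M i = M.Ad (c j) (M.Ad (c j)⁻¹ (M.bas i)) := by
      rw [map_inv]
      exact (LinearEquiv.apply_symm_apply (M.Ad (c j)) (M.bas i)).symm
    have e2 : Real.exp (Z i) • eg M i =
        ∑ l, (Real.exp (Z i) * M.bas.repr (M.Ad (c j)⁻¹ (M.bas i)) l) • gP M c q (j, l) := by
      conv_lhs => rw [e1, ← M.bas.sum_repr (M.Ad (c j)⁻¹ (M.bas i)), map_sum, Finset.smul_sum]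
      refine Finset.sum_congr rfl fun l _ => ?_
      rw [map_smul, smul_smul]; rfl
    change Real.exp (Z i) • eg M i ∈ _
    rw [e2]
    have h3 : ∀ l ∈ (Finset.univ : Finset (Fin M.r)),
        (Real.exp (Z i) * M.bas.repr (M.Ad (c j)⁻¹ (M.bas i)) l) • gP M c q (j, l) ∈
          Bx M.c (gP M c q) (A * 2 ^ M.d * (m : ℝ) ^ M.d) := by
      intro l _
      have h4 := Bx_smul (gen_mem_Bx (M.nilC.nil (gP M c q)) (j, l))
        (Real.exp (Z i) * M.bas.repr (M.Ad (c j)⁻¹ (M.bas i)) l)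
      refine Bx_mono ?_ h4
      rw [mul_one, abs_mul, abs_of_pos (Real.exp_pos _)]
      have h5 := hA m _ (Clr_inv M hj) l i
      rw [BModel.h_inv, map_neg] at h5
      have h6 : Real.exp (Z i) * Real.exp (-(M.wt i (M.h (c j)))) ≤ 1 := by
        rw [← Real.exp_add, Real.exp_le_one_iff]
        have : wg M i (M.h (c j)) = M.wt i (M.h (c j)) := rfl
        linarith
      have h7 : ((1:ℝ) + m) ^ M.d ≤ 2 ^ M.d * (m : ℝ) ^ M.d := by
        rw [← mul_pow]
        gcongr
        linarith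
      have h8 : 0 ≤ Real.exp (Z i) := (Real.exp_pos _).le
      calc Real.exp (Z i) * |M.bas.repr (M.Ad (c j)⁻¹ (M.bas i)) l|
          ≤ Real.exp (Z i) * (A * (1 + m) ^ M.d * Real.exp (-(M.wt i (M.h (c j))))) := by gcongr
        _ = (A * (1 + m) ^ M.d) * (Real.exp (Z i) * Real.exp (-(M.wt i (M.h (c j))))) := by ring
        _ ≤ (A * (1 + m) ^ M.d) * 1 := by gcongr
        _ ≤ A * 2 ^ M.d * (m : ℝ) ^ M.d := by
            rw [mul_one, mul_assoc]
            gcongr
    refine Bx_mono ?_ (Bx_sum _ _ _ h3)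
    rw [Finset.sum_const, Finset.card_univ, Fintype.card_fin, nsmul_eq_mul, ht, hT]
    have : 0 ≤ A * 2 ^ M.d * (m : ℝ) ^ M.d := by positivity
    nlinarith
  have h1 := hMD (gP M c q) (fun i => Real.exp (Z i) • eg M i) t ht1 hpos hbox
  have h2 := (hlow Z).trans h1
  have h3 : t ^ (M.c * M.r) = T ^ (M.c * M.r) * (m : ℝ) ^ (M.d * (M.c * M.r)) := by
    rw [ht, mul_pow, ← pow_mul]
  rw [h3] at h2
  have h4 : Real.exp ((gsys M).Gt Z) ≤ (C * T ^ (M.c * M.r) / c₀) *
      (m : ℝ) ^ (M.d * (M.c * M.r)) * MD M.bas M.c (gP M c q) := by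
    rw [div_mul_eq_mul_div, div_mul_eq_mul_div, le_div_iff₀ hc₀, mul_comm]
    refine h2.trans (le_of_eq (by ring))
  refine h4.trans ?_
  gcongr
  exact le_max_right _ _

/-- the law of one letter -/
noncomputable def nuV (V : Set M.NN) : Measure M.NN :=
  ((volume : Measure M.NN) V)⁻¹ • (volume : Measure M.NN).restrict V

/-- **(F8) ENT**: min-entropy of the walks, in power law form. -/
theorem ent_bmodel (A : AdS M.star) (R : ℝ) {V : Set M.NN} (hV : MeasurableSet V) {ρ : ℝ}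
    (hρ : ∀ n ∈ V, ‖n‖ ≤ ρ) (h0 : (volume : Measure M.NN) V ≠ 0) (q : ℕ) :
    ∃ L0 : ℕ, ∀ L ≥ L0, ∃ (κ C : ℝ) (D : ℕ), 0 < κ ∧ 0 < C ∧
      ∀ (m : ℕ) (c : ℕ → M.G), 1 ≤ m → c 0 = 1 → (∀ j ≤ q, c j ∈ Clr M R m) →
      ∀ Z : GI M → ℝ, (∀ i, 0 ≤ Z i) → (∀ i, ∃ j ≤ q, Z i ≤ max 0 (wg M i (M.h (c j)))) →
      ∀ S' : Set M.NN, MeasurableSet S' →
      (Measure.pi fun _ : Fin L => (nuV M V).prod (nuV M V))
        {ω | Star.wk (mvB M c q) 1 (Star.extω ω) L ∈ S'} ≤
      ENNReal.ofReal (C * (m : ℝ) ^ D) *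
        ((volume : Measure M.NN) S' * ENNReal.ofReal (Real.exp (- (gsys M).Gt Z))) ^ κ := by
  have hVfin : (volume : Measure M.NN) V ≠ ⊤ := by
    have h1 : V ⊆ Metric.closedBall 0 ρ := fun n hn => by
      rw [mem_closedBall_zero_iff]; exact hρ n hn
    exact ne_top_of_le_ne_top (isCompact_closedBall (0 : M.NN) ρ).measure_lt_top.ne (measure_mono h1)
  obtain ⟨J, hJ⟩ := exists_ent A M.nilC M.bas (Fin (q + 1))
  obtain ⟨K, D, hK, hMD⟩ := exists_MD_word M R q
  refine ⟨(q + 1) * J, fun L hL => ?_⟩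
  obtain ⟨C₁, κ, hC₁, hκ, hκ1, hent⟩ := hJ (2 * L) (sP q L) (sublist_periodic q L J hL) (max ρ 0)
  obtain ⟨c₂, hc₂, hpi⟩ := pi_le_of_linear (volume : Measure M.NN) hV h0 hVfin (TwE M L)
  set c₂' : ℝ := c₂.toReal with hc₂'
  have hc₂eq : c₂ = ENNReal.ofReal c₂' := (ENNReal.ofReal_toReal hc₂).symm
  have hc₂0 : 0 ≤ c₂' := ENNReal.toReal_nonneg
  refine ⟨κ, c₂' * C₁ * K + 1, D, hκ, by positivity, fun m c hm hc1 hc Z hZ hZc S' hS' => ?_⟩
  set g := gP M c q with hg
  have hpos : 0 < MD M.bas M.c g := MD_gP_pos M hc1 q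
  have hmd := hMD m c hm hc1 hc Z hZ hZc
  have hm1 : (1:ℝ) ≤ m := by exact_mod_cast hm
  have hmD : (1:ℝ) ≤ (m : ℝ) ^ D := one_le_pow₀ hm1
  set A' : Set M.L := {x | M.E.symm x ∈ S'} with hA'
  have hset : {y : Fin M.r → ℝ | M.bas.equivFun.symm y ∈ A'} = S' := by
    ext y
    have e : M.E.symm (M.E (show M.NN from y)) = (show M.NN from y) := M.E.symm_apply_apply _
    exact Iff.of_eq (congrArg (fun z : M.NN => z ∈ S') e)
  have hA'm : MeasL M.bas A' := by
    unfold MeasL; rw [hset]; exact hS'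
  have hvb : vb M.bas A' = (volume : Measure M.NN) S' := by
    unfold vb; rw [hset]; rfl
  set P := (Measure.pi fun _ : Fin L => (nuV M V).prod (nuV M V))
    {ω | Star.wk (mvB M c q) 1 (Star.extω ω) L ∈ S'} with hP
  -- the basic estimate
  have key : ∀ a : ℝ, 0 < a → (volume : Measure M.NN) S' ≤ ENNReal.ofReal (a * MD M.bas M.c g) →
      P ≤ ENNReal.ofReal (c₂' * (C₁ * a ^ κ)) := by
    intro a ha hle
    have h1 := hent g hpos A' hA'm a ha (by rw [hvb]; exact hle)
    have h2 := hpi {ω | Star.wk (mvB M c q) 1 (Star.extω ω) L ∈ S'}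
      {w : Fin (2 * L) × Fin M.r → ℝ | ‖w‖ ≤ max ρ 0 ∧ Phi M.star (sP q L) g w ∈ A'} (by
        intro ω hω hωV
        have e : TwE M L ω = Tw M L ω := rfl
        rw [e]
        refine ⟨?_, ?_⟩
        · rw [pi_norm_le_iff_of_nonneg (le_max_right _ _)]
          intro z
          have hj : (z.1 : ℕ) / 2 < L := by have := z.1.2; omega
          refine le_trans ?_ (le_max_left _ _)
          rw [Real.norm_eq_abs]
          by_cases h3 : (z.1 : ℕ) % 2 = 0
          · have h4 : Tw M L ω z = -((ω ⟨(z.1 : ℕ) / 2, hj⟩).1 z.2) :=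
              TwF_even ω z.1 z.2 h3 _ rfl
            rw [h4, abs_neg]
            exact (norm_le_pi_norm (ω ⟨(z.1 : ℕ) / 2, hj⟩).1 z.2).trans (hρ _ (hωV _).1)
          · have h4 : Tw M L ω z = (ω ⟨(z.1 : ℕ) / 2, hj⟩).2 z.2 :=
              TwF_odd ω z.1 z.2 h3 _ rfl
            rw [h4]
            exact (norm_le_pi_norm (ω ⟨(z.1 : ℕ) / 2, hj⟩).2 z.2).trans (hρ _ (hωV _).2)
        · rw [hg, ← E_wk_eq_Phi]
          change M.E.symm (M.E _) ∈ S'
          rw [LinearEquiv.symm_apply_apply]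
          exact hω)
    calc P ≤ c₂ * volume {w : Fin (2 * L) × Fin M.r → ℝ |
          ‖w‖ ≤ max ρ 0 ∧ Phi M.star (sP q L) g w ∈ A'} := h2
      _ ≤ ENNReal.ofReal c₂' * ENNReal.ofReal (C₁ * a ^ κ) := by rw [← hc₂eq]; gcongr
      _ = _ := by rw [← ENNReal.ofReal_mul hc₂0]
  set x : ENNReal := (volume : Measure M.NN) S' * ENNReal.ofReal (Real.exp (- (gsys M).Gt Z)) with hx
  have hexp : (0:ℝ) < Real.exp (- (gsys M).Gt Z) := Real.exp_pos _
  have hCm : (0:ℝ) < (c₂' * C₁ * K + 1) * (m : ℝ) ^ D := by positivity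
  rcases eq_or_ne x ⊤ with hxt | hxt
  · rw [hxt, ENNReal.top_rpow_of_pos hκ, ENNReal.mul_top]
    · exact le_top
    · simpa using hCm
  -- the volume in terms of `x`
  have hvol : (volume : Measure M.NN) S' = ENNReal.ofReal (x.toReal * Real.exp ((gsys M).Gt Z)) := by
    have h1 : (volume : Measure M.NN) S' = x * ENNReal.ofReal (Real.exp ((gsys M).Gt Z)) := by
      rw [hx, mul_assoc, ← ENNReal.ofReal_mul hexp.le, ← Real.exp_add, neg_add_cancel, Real.exp_zero,
        ENNReal.ofReal_one, mul_one]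
    rw [h1, ENNReal.ofReal_mul ENNReal.toReal_nonneg, ENNReal.ofReal_toReal hxt]
  rcases eq_or_ne x 0 with hx0 | hx0
  · -- measure zero
    have h1 : (volume : Measure M.NN) S' = 0 := by rw [hvol, hx0]; simp
    have h2 : ∀ b : ℝ, 0 < b → P ≤ ENNReal.ofReal (c₂' * (C₁ * b)) := by
      intro b hb
      have h3 := key (b ^ (1 / κ)) (Real.rpow_pos_of_pos hb _) (by rw [h1]; exact zero_le)
      rwa [← Real.rpow_mul hb.le, one_div, inv_mul_cancel₀ hκ.ne', Real.rpow_one] at h3
    have h4 : P = 0 := by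
      by_contra hne
      have hPfin : P ≠ ⊤ := ne_top_of_le_ne_top ENNReal.ofReal_ne_top (h2 1 one_pos)
      have hP0 : 0 < P.toReal := ENNReal.toReal_pos hne hPfin
      have h5 := h2 (P.toReal / (2 * (c₂' * C₁ + 1))) (by positivity)
      have h6 := ENNReal.toReal_mono ENNReal.ofReal_ne_top h5
      rw [ENNReal.toReal_ofReal (by positivity)] at h6
      have h7 : c₂' * (C₁ * (P.toReal / (2 * (c₂' * C₁ + 1)))) ≤ P.toReal / 2 := by
        rw [← mul_assoc, mul_div_assoc', div_le_div_iff₀ (by positivity) (by norm_num)]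
        have : 0 ≤ c₂' * C₁ := by positivity
        nlinarith
      linarith
    rw [h4]; exact zero_le
  · have hxr : 0 < x.toReal := ENNReal.toReal_pos hx0 hxt
    set a : ℝ := x.toReal * (K * (m : ℝ) ^ D) with ha
    have ha0 : 0 < a := by positivity
    have h1 := key a ha0 (by
      rw [hvol]
      refine ENNReal.ofReal_le_ofReal ?_
      rw [ha, mul_assoc]
      gcongr)
    refine h1.trans ?_
    have h2 : a ^ κ ≤ x.toReal ^ κ * (K * (m : ℝ) ^ D) := by
      rw [ha, Real.mul_rpow hxr.le (by positivity)]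
      gcongr
      have h3 : (1:ℝ) ≤ K * (m : ℝ) ^ D := by nlinarith
      calc (K * (m : ℝ) ^ D) ^ κ ≤ (K * (m : ℝ) ^ D) ^ (1:ℝ) :=
            Real.rpow_le_rpow_of_exponent_le h3 hκ1
        _ = _ := Real.rpow_one _
    have h4 : x ^ κ = ENNReal.ofReal (x.toReal ^ κ) := by
      rw [← ENNReal.ofReal_rpow_of_pos hxr, ENNReal.ofReal_toReal hxt]
    rw [h4, ← ENNReal.ofReal_mul hCm.le]
    refine ENNReal.ofReal_le_ofReal ?_
    have h5 : 0 ≤ x.toReal ^ κ := Real.rpow_nonneg hxr.le _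
    calc c₂' * (C₁ * a ^ κ) ≤ c₂' * (C₁ * (x.toReal ^ κ * (K * (m : ℝ) ^ D))) := by gcongr
      _ = (c₂' * C₁ * K) * (m : ℝ) ^ D * x.toReal ^ κ := by ring
      _ ≤ (c₂' * C₁ * K + 1) * (m : ℝ) ^ D * x.toReal ^ κ := by
          gcongr
          linarith

end Crest.Agent.R182.Nb
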