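/-
R182, module CAPFIN (helper329): (F7), (F8) and the quasi-isometries for the `CapModel` of a `BModel`.
-/
import Mathlib
import Crest.Agent.R182.CapInst
import Crest.Agent.R182.CapVol
import Crest.Agent.R182.NbEntF

set_option autoImplicit false
set_option linter.unusedSectionVars false

open MeasureTheory

namespace Crest.Agent.R182.Core

open Crest.GroupTheory Crest.Geometry Crest.Agent.R182.QI Crest.Agent.R182.FinPath
  Crest.Agent.R182.FinRed Crest.Agent.R182.Bnd Nb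

variable {Γ : Type*} [Group Γ] {k : ℕ} {S : Set Γ} {π : Γ →* Multiplicative (Fin k → ℤ)}

namespace BModel

variable (M : BModel S π) [Countable Γ] {E : Type*} [NormedAddCommGroup E] [NormedSpace ℝ E]
  {T : (Fin k → ℝ) ≃ₗ[ℝ] E} {V : Set M.NN} {RC : ℝ}

section fields

variable (P : CapPar M T V RC)

@[simp] theorem toCap_S : (M.toCap P).S = M.gsysT T := rfl
@[simp] theorem toCap_emb : (M.toCap P).emb = M.toG := rfl
@[simp] theorem toCap_hgt (y : M.G) : (M.toCap P).hgt y = T (M.h y) := rfl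
@[simp] theorem toCap_len (y : M.G) : (M.toCap P).len y = P.s * M.len y := rfl
@[simp] theorem toCap_C0 : (M.toCap P).C0 = P.s * P.R0 := rfl
@[simp] theorem toCap_cj : (M.toCap P).cj = M.conjN := rfl
@[simp] theorem toCap_μ : (M.toCap P).μ = volume := rfl
@[simp] theorem toCap_V : (M.toCap P).V = V := rfl
@[simp] theorem toCap_Cl : (M.toCap P).Cl = M.ClSet RC := rfl


end fields

/-- **(F7)** for the `CapModel` -/
theorem toCap_reach (P : CapPar M T V RC) (hC : M.CGrowth) : (M.toCap P).Reach := by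
  obtain ⟨A, D, hA, h⟩ := M.reach_card hC P.R0
  have hs : 0 < P.s := by linarith [P.one_le_s]
  refine ⟨P.s * (10 * M.a), A * 2 ^ D, D, mul_pos hs (by linarith [M.one_le_a]), by positivity, ?_⟩
  intro Z _ m hm F hF hsep
  have h1 := h Z m F ?_ ?_
  · refine h1.trans ?_
    have hm1 : (1:ℝ) ≤ m := by exact_mod_cast hm
    have h2 : (1 + (m:ℝ)) ^ D ≤ (2 * m) ^ D := by gcongr; linarith
    rw [mul_pow] at h2
    have h3 : (M.toCap P).S.Gt Z = (gsys M).Gt Z := rfl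
    rw [h3]
    calc A * (1 + (m:ℝ)) ^ D * Real.exp ((gsys M).Gt Z)
        ≤ A * (2 ^ D * (m:ℝ) ^ D) * Real.exp ((gsys M).Gt Z) := by gcongr
      _ = _ := by ring
  · intro y hy
    obtain ⟨p, h0, hm', hstep, hh⟩ := hF y hy
    refine ⟨p, h0, hm', ?_, ?_⟩
    · intro j hj
      have h2 := hstep j hj
      change P.s * M.len ((p j)⁻¹ * p (j + 1)) ≤ P.s * P.R0 at h2
      exact le_of_mul_le_mul_left h2 hs
    · intro j hj i
      have h2 := hh j hj i
      rw [toCap_S, toCap_hgt, M.gsysT_l] at h2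
      exact h2
  · intro y hy z hz hne
    have h2 := hsep y hy z hz hne
    change P.s * (10 * M.a) < P.s * M.len (y⁻¹ * z) at h2
    exact lt_of_mul_lt_mul_left h2 hs.le

/-- **(F8)** for the `CapModel` -/
theorem toCap_ent (P : CapPar M T V RC) (A : AdS M.star) {ρ : ℝ} (hρ : ∀ n ∈ V, ‖n‖ ≤ ρ) :
    (M.toCap P).Ent := by
  intro q
  obtain ⟨L0, h⟩ := ent_bmodel M A RC P.V_meas hρ P.V_pos q
  refine ⟨L0, fun L hL => ?_⟩
  obtain ⟨κ, C, D, hκ, hC, h1⟩ := h L hL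
  refine ⟨κ, C, D, hκ, hC, ?_⟩
  intro m c hm hc0 hc Z hZ hZc S' hS'
  refine h1 m c hm hc0 ?_ Z hZ ?_ S' hS'
  · intro j hj
    obtain ⟨l, hl, hlC, hlp⟩ := hc j hj
    exact ⟨l, hl, hlp.symm, hlC⟩
  · intro i
    obtain ⟨j, hj, h2⟩ := hZc i
    rw [toCap_S, toCap_hgt, M.gsysT_l] at h2
    exact ⟨j, hj, h2⟩

/-- quasi-isometries of the lattice give quasi-isometries of the `CapModel`. -/
theorem toCap_qi (P : CapPar M T V RC) {Ψ : Γ → Γ} {K : ℕ} (hΨ : QIMap S S Ψ K) :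
    Cap.QI (M.toCap P) (P.s * M.KQ K) (M.ext Ψ) := by
  have hs := P.one_le_s
  have hK : 1 ≤ M.KQ K := by
    unfold KQ
    have h1 : 1 ≤ M.a ^ 3 := one_le_pow₀ M.one_le_a
    have h2 : (0:ℝ) ≤ K := Nat.cast_nonneg _
    nlinarith
  refine ⟨by nlinarith, ?_, ?_, ?_⟩
  · intro x y
    change P.s * M.len ((M.ext Ψ x)⁻¹ * M.ext Ψ y) ≤
      P.s * M.KQ K * (P.s * M.len (x⁻¹ * y)) + P.s * M.KQ K
    have h1 := M.ext_lip hΨ x (x⁻¹ * y)
    rw [mul_inv_cancel_left] at h1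
    have h2 := M.len_nonneg (x⁻¹ * y)
    have h3 : P.s * M.len ((M.ext Ψ x)⁻¹ * M.ext Ψ y) ≤
        P.s * (M.KQ K * M.len (x⁻¹ * y) + M.KQ K) := mul_le_mul_of_nonneg_left h1 (by linarith)
    have h4 : 0 ≤ P.s * (M.KQ K * M.len (x⁻¹ * y)) := by positivity
    nlinarith
  · intro x y
    change P.s * M.len (x⁻¹ * y) ≤
      P.s * M.KQ K * (P.s * M.len ((M.ext Ψ x)⁻¹ * M.ext Ψ y)) + P.s * M.KQ K
    have h1 := M.ext_colip hΨ x (x⁻¹ * y)
    rw [mul_inv_cancel_left] at h1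
    have h2 := M.len_nonneg ((M.ext Ψ x)⁻¹ * M.ext Ψ y)
    have h3 : P.s * M.len (x⁻¹ * y) ≤
        P.s * (M.KQ K * M.len ((M.ext Ψ x)⁻¹ * M.ext Ψ y) + M.KQ K) :=
      mul_le_mul_of_nonneg_left h1 (by linarith)
    have h4 : 0 ≤ P.s * (M.KQ K * M.len ((M.ext Ψ x)⁻¹ * M.ext Ψ y)) := by positivity
    nlinarith
  · intro x g A
    exact measurableSet_setOfPred.2 (M.measurable_ext (β := Prop) (fun y => y ∈ A) Ψ x g)

end BModel

end Crest.Agent.R182.Core
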