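import Crest.Agent.R182.CapMain

-- ▼ part R182/FacetBase
section

set_option autoImplicit false
set_option linter.unusedSectionVars false

namespace Crest.Agent.R182.Facet

open MeasureTheory Cap CapModel

variable {G H ι E : Type*} [Group G] [Group H] [MeasurableSpace H] [MeasurableMul₂ H]
    [MeasurableInv H] [Fintype ι] [NormedAddCommGroup E] [NormedSpace ℝ E]

section rd

variable (M : CapModel G H ι E)

theorem dst_rd (y : G) : M.dst (M.rd y) y ≤ M.C0 := M.rd_le y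

/-- the rounding is a quasi-isometry -/
theorem rd_qi : QI M (2 * M.C0 + 1) M.rd where
  one_le := by have := M.C0_pos; linarith
  up := by
    intro P Q
    have h1 := M.dst_tri (M.rd P) P (M.rd Q)
    have h2 := M.dst_tri P Q (M.rd Q)
    have h3 := dst_rd M P
    have h4 := dst_rd M Q
    rw [M.dst_comm] at h4
    have h5 := M.dst_nonneg P Q
    have := M.C0_pos
    nlinarith
  low := by
    intro P Q
    have h1 := M.dst_tri P (M.rd P) Q
    have h2 := M.dst_tri (M.rd P) (M.rd Q) Q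
    have h3 := dst_rd M P
    rw [M.dst_comm] at h3
    have h4 := dst_rd M Q
    have h5 := M.dst_nonneg (M.rd P) (M.rd Q)
    have := M.C0_pos
    nlinarith
  meas := M.rd_meas

theorem l_rd (i : ι) (y : G) : |M.S.l i (M.hgt (M.rd y)) - M.S.l i (M.hgt y)| ≤ M.C0 ^ 3 := by
  have h := M.l_hgt_sub i y (M.rd y)
  have h2 := dst_rd M y
  rw [M.dst_comm] at h2
  have h0 := M.C0_pos
  refine h.trans ?_
  calc M.C0 * (M.C0 * M.dst y (M.rd y)) ≤ M.C0 * (M.C0 * M.C0) := by gcongr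
    _ = M.C0 ^ 3 := by ring

/-- the box of size `Z` in the source, seen from `x`. -/
def box (x : G) (Z : ι → ℝ) (m : ℕ) : Set H :=
  {n | M.Conn (fun j => M.S.l j (M.hgt (M.rd x)) + Z j) m (M.rd x) (M.rd (x * M.emb n))}

theorem measurableSet_box (x : G) (Z : ι → ℝ) (m : ℕ) : MeasurableSet (box M x Z m) := by
  have := M.rd_meas x 1 {P | M.Conn (fun j => M.S.l j (M.hgt (M.rd x)) + Z j) m (M.rd x) P}
  simpa [box] using this

variable {M}

theorem vol_box (hR : M.Reach) : ∃ (C : ℝ) (D : ℕ), 0 < C ∧ ∀ (x : G) (Z : ι → ℝ) (m : ℕ),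
    (∀ i, 0 ≤ Z i) → 1 ≤ m →
    M.μ (box M x Z m) ≤ ENNReal.ofReal (C * (m : ℝ) ^ D * Real.exp (M.S.Gt Z)) := by
  obtain ⟨C, D, hC, h⟩ := vol_le_reach hR (rd_qi M).one_le
  refine ⟨C, D, hC, fun x Z m hZ hm => ?_⟩
  exact h M.rd (rd_qi M) x (box M x Z m) (M.rd x) Z m hZ hm (fun n hn => hn)

theorem box_mono {x : G} {Z Z' : ι → ℝ} {m m' : ℕ} (hZ : ∀ j, Z j ≤ Z' j) (hm : m ≤ m') :
    box M x Z m ⊆ box M x Z' m' := fun _ hn =>
  ((hn : M.Conn _ _ _ _).mono (fun j => by linarith [hZ j])).extend hm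

/-- heights of the source chain, seen through the rounding -/
theorem l_rd_chain (i : ι) (x : G) (n : H) (g : G) {z : ℝ} (hz : M.S.l i (M.hgt g) ≤ z) :
    M.S.l i (M.hgt (M.rd (x * M.emb n * g))) ≤ M.S.l i (M.hgt (M.rd x)) + z + 2 * M.C0 ^ 3 := by
  have h1 := (abs_le.1 (l_rd M i (x * M.emb n * g))).2
  have h2 := (abs_le.1 (l_rd M i x)).1
  rw [M.hgt_mul, M.hgt_mul, M.hgt_emb, add_zero, map_add] at h1
  linarith

/-- the constant for source boxes -/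
def bc (M : CapModel G H ι E) (s : ℝ) : ℝ :=
  2 * M.C0 ^ 3 + M.C0 ^ 4 * ((2 * M.C0 + 1) * s + (2 * M.C0 + 1) + 1)

theorem walk_mem_box {q r m : ℕ} {s : ℝ} {c : ℕ → G} {d : ℕ → ℕ → G}
    (hst : StarData M q r m s c d) {Zs : ι → ℝ} (hZs : ∀ k ≤ q, ∀ t ≤ r, ∀ i,
      M.S.l i (M.hgt (d k t)) ≤ Zs i) (x : G) {ω : ℕ → H × H} (L : ℕ) (hL : 1 ≤ L)
    (hω : ∀ j < L, (ω j).1 ∈ M.V ∧ (ω j).2 ∈ M.V) :
    Star.wk (M.mv c q) 1 ω L ∈ box M x (fun i => Zs i + bc M s)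
      ((3 * (L + 1) * ⌈4 * M.C0 * (2 * M.C0 + 1)⌉₊) * m ^ 2) := by
  refine conn_walk' (rd_qi M) hst L hω hL ?_ ?_
  · intro j _ t ht i
    have := l_rd_chain i x (Star.wk (M.mv c q) 1 ω j) (d (j % (q + 1)) t)
      (hZs (j % (q + 1)) (Nat.lt_succ_iff.1 (Nat.mod_lt _ (Nat.succ_pos q))) t ht i)
    unfold bc
    linarith
  · intro j _ t ht i
    have := l_rd_chain i x (Star.wk (M.mv c q) 1 ω (j + 1)) (d (j % (q + 1)) t)
      (hZs (j % (q + 1)) (Nat.lt_succ_iff.1 (Nat.mod_lt _ (Nat.succ_pos q))) t ht i)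
    unfold bc
    linarith

theorem box_move {q r m : ℕ} {s : ℝ} {c : ℕ → G} {d : ℕ → ℕ → G}
    (hst : StarData M q r m s c d) {Zs : ι → ℝ} (hZs : ∀ k ≤ q, ∀ t ≤ r, ∀ i,
      M.S.l i (M.hgt (d k t)) ≤ Zs i) {x : G} {n a : H} {m' k : ℕ} (hk : k ≤ q)
    (hn : n ∈ box M x (fun i => Zs i + bc M s) m') (ha : a ∈ M.V) :
    n * (M.cj (c k) a)⁻¹ ∈ box M x (fun i => Zs i + bc M s)
      (m' + (3 * (1 + 1) * ⌈4 * M.C0 * (2 * M.C0 + 1)⌉₊) * m ^ 2) := by
  have hs0 : 0 ≤ s := le_trans (by have := M.C0_pos; linarith) hst.le_s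
  have h1 : (M.cj (c k) a)⁻¹ = M.cj (d k r) a⁻¹ := by rw [map_inv, hst.d_end]
  have hu : M.len (M.emb a⁻¹) ≤ s := by
    rw [map_inv, M.len_inv]
    have := M.V_le a ha
    have := hst.le_s
    have := M.C0_pos
    linarith
  have h2 : M.Conn (fun i => M.S.l i (M.hgt (M.rd x)) + (Zs i + bc M s))
      ((2 * r + 1) * ⌈M.C0 * ((2 * M.C0 + 1) * s + (2 * M.C0 + 1) + 1)⌉₊) (M.rd (x * M.emb n))
      (M.rd (x * M.emb n * M.emb (M.cj (d k r) a⁻¹))) := by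
    refine conn_move (rd_qi M) (hst.d_zero k) (hst.step k) hu (Nat.le_ceil _) ?_ ?_
    · intro t ht i
      have := l_rd_chain i x n (d k t) (hZs k hk t ht i)
      unfold bc
      linarith
    · intro t ht i
      have := l_rd_chain i x (n * M.cj (d k r) a⁻¹) (d k t) (hZs k hk t ht i)
      rw [map_mul, ← mul_assoc] at this
      unfold bc
      linarith
  have h3 := steps_le (L := 1) M.one_le_C0 (rd_qi M).one_le hst.one_le hst.r_le hst.s_le
  rw [one_mul] at h3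
  have h4 := (hn : M.Conn _ _ _ _).trans (h2.extend h3)
  rw [h1]
  show M.Conn _ _ _ (M.rd (x * M.emb (n * M.cj (d k r) a⁻¹)))
  rw [map_mul, ← mul_assoc]
  exact h4

end rd

section drift

variable {M : CapModel G H ι E} {K : ℝ} {Ψ : G → G}

theorem len_inc {ω : ℕ → H × H} {j : ℕ} (h : (ω j).1 ∈ M.V ∧ (ω j).2 ∈ M.V) :
    M.len (M.emb ((ω j).1⁻¹ * (ω j).2)) ≤ 2 * M.C0 := by
  rw [map_mul, map_inv]
  refine (M.len_mul _ _).trans ?_
  rw [M.len_inv]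
  linarith [M.V_le _ h.1, M.V_le _ h.2]

theorem drift_step (hΨ : QI M K Ψ) {p g : G} {u : H} (hu : M.len (M.emb u) ≤ 2 * M.C0) {v : E}
    {e : ℝ} (h1 : ‖M.hgt (Ψ (p * g)) - M.hgt (Ψ p) - v‖ ≤ e)
    (h2 : ‖M.hgt (Ψ (p * M.emb (M.cj g u) * g)) - M.hgt (Ψ (p * M.emb (M.cj g u))) - v‖ ≤ e) :
    ‖M.hgt (Ψ (p * M.emb (M.cj g u))) - M.hgt (Ψ p)‖ ≤
      2 * e + M.C0 * (K * (2 * M.C0) + K) := by
  have e1 : p * M.emb (M.cj g u) * g = p * g * M.emb u := by rw [M.emb_cj]; group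
  have h3 : ‖M.hgt (Ψ (p * M.emb (M.cj g u) * g)) - M.hgt (Ψ (p * g))‖ ≤
      M.C0 * (K * (2 * M.C0) + K) := by
    refine (M.norm_hgt_sub _ _).trans ?_
    have h4 := hΨ.up (p * g) (p * M.emb (M.cj g u) * g)
    have h5 : M.dst (p * g) (p * M.emb (M.cj g u) * g) ≤ 2 * M.C0 := by
      rw [e1]; unfold dst; rw [inv_mul_cancel_left]; exact hu
    have h6 := hΨ.one_le
    have h7 := M.C0_pos
    gcongr
    nlinarith
  have e2 : M.hgt (Ψ (p * M.emb (M.cj g u))) - M.hgt (Ψ p) =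
      (M.hgt (Ψ (p * M.emb (M.cj g u) * g)) - M.hgt (Ψ (p * g)))
      - (M.hgt (Ψ (p * M.emb (M.cj g u) * g)) - M.hgt (Ψ (p * M.emb (M.cj g u))) - v)
      + (M.hgt (Ψ (p * g)) - M.hgt (Ψ p) - v) := by abel
  rw [e2]
  calc _ ≤ _ := norm_add_le _ _
    _ ≤ (_ + _) + _ := add_le_add (norm_sub_le _ _) le_rfl
    _ ≤ (M.C0 * (K * (2 * M.C0) + K) + e) + e := by gcongr
    _ = _ := by ring

/-- the base heights do not drift along a walk all of whose legs have the increment of the class. -/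
theorem drift (hΨ : QI M K Ψ) {x : G} {c : ℕ → G} {q0 : H} {ω : ℕ → H × H} {v : ℕ → E} {e : ℝ}
    (L : ℕ) (hω : ∀ j < L, (ω j).1 ∈ M.V ∧ (ω j).2 ∈ M.V)
    (h1 : ∀ j < L, ‖M.hgt (Ψ (x * M.emb (Star.wk (fun j => M.cj (c j)) q0 ω j) * c j)) -
      M.hgt (Ψ (x * M.emb (Star.wk (fun j => M.cj (c j)) q0 ω j))) - v j‖ ≤ e)
    (h2 : ∀ j < L, ‖M.hgt (Ψ (x * M.emb (Star.wk (fun j => M.cj (c j)) q0 ω (j + 1)) * c j)) -
      M.hgt (Ψ (x * M.emb (Star.wk (fun j => M.cj (c j)) q0 ω (j + 1)))) - v j‖ ≤ e) :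
    ‖M.hgt (Ψ (x * M.emb (Star.wk (fun j => M.cj (c j)) q0 ω L))) - M.hgt (Ψ (x * M.emb q0))‖ ≤
      L * (2 * e + M.C0 * (K * (2 * M.C0) + K)) := by
  induction L with
  | zero => simp [Star.wk]
  | succ L ih =>
    have h3 := ih (fun j hj => hω j (by omega)) (fun j hj => h1 j (by omega))
      (fun j hj => h2 j (by omega))
    have hL := Nat.lt_succ_self L
    set p := Star.wk (fun j => M.cj (c j)) q0 ω L with hp
    have e1 : Star.wk (fun j => M.cj (c j)) q0 ω (L + 1) =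
        p * M.cj (c L) ((ω L).1⁻¹ * (ω L).2) := by
      simp only [Star.wk]
      rw [← hp, map_mul, map_inv]; group
    have e2 : x * M.emb (Star.wk (fun j => M.cj (c j)) q0 ω (L + 1)) =
        x * M.emb p * M.emb (M.cj (c L) ((ω L).1⁻¹ * (ω L).2)) := by
      rw [e1, map_mul]; group
    have h4 := h1 L hL
    have h5 := h2 L hL
    rw [← hp] at h4
    rw [e2] at h5
    have h6 := drift_step hΨ (len_inc (hω L hL)) h4 h5
    rw [e2]
    have e3 : M.hgt (Ψ (x * M.emb p * M.emb (M.cj (c L) ((ω L).1⁻¹ * (ω L).2)))) -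
        M.hgt (Ψ (x * M.emb q0)) =
        (M.hgt (Ψ (x * M.emb p * M.emb (M.cj (c L) ((ω L).1⁻¹ * (ω L).2)))) -
          M.hgt (Ψ (x * M.emb p))) + (M.hgt (Ψ (x * M.emb p)) - M.hgt (Ψ (x * M.emb q0))) := by
      abel
    rw [e3]
    refine (norm_add_le _ _).trans ?_
    push_cast
    linarith

/-- `δ`-numbers along a walk. -/
theorem dnum_walk (hΨ : QI M K Ψ) {q r m : ℕ} {s : ℝ} {c : ℕ → G} {d : ℕ → ℕ → G}
    (hst : StarData M q r m s c d) {x : G} {ω : ℕ → H × H} (L : ℕ) (hL : 1 ≤ L)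
    (hω : ∀ j < L, (ω j).1 ∈ M.V ∧ (ω j).2 ∈ M.V) {i : ι} (hi : M.S.NZ i) {T : ℝ}
    (hZ : ∀ j < L, ∀ t ≤ r, M.S.l i (M.hgt (Ψ (x * M.emb
      (Star.wk (M.mv c q) 1 ω j) * d (j % (q + 1)) t))) ≤ T)
    (hZ' : ∀ j < L, ∀ t ≤ r, M.S.l i (M.hgt (Ψ (x * M.emb
      (Star.wk (M.mv c q) 1 ω (j + 1)) * d (j % (q + 1)) t))) ≤ T) :
    ‖M.δ i (Ψ (x * M.emb (Star.wk (M.mv c q) 1 ω L))) - M.δ i (Ψ x)‖ ≤
      ((3 * (L + 1) * ⌈4 * M.C0 * K⌉₊) * m ^ 2 : ℕ) *
        (M.C0 * Real.exp (T + M.C0 ^ 4 * (K * s + K + 1))) := by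
  classical
  set U : ι → ℝ := fun i' => (∑ j ∈ Finset.range L, ∑ t ∈ Finset.range (r + 1),
      (|M.S.l i' (M.hgt (Ψ (x * M.emb (Star.wk (M.mv c q) 1 ω j) * d (j % (q + 1)) t)))| +
       |M.S.l i' (M.hgt (Ψ (x * M.emb (Star.wk (M.mv c q) 1 ω (j + 1)) * d (j % (q + 1)) t)))|))
    with hU
  have hUle : ∀ i', ∀ j < L, ∀ t ≤ r,
      M.S.l i' (M.hgt (Ψ (x * M.emb (Star.wk (M.mv c q) 1 ω j) * d (j % (q + 1)) t))) ≤ U i' ∧
      M.S.l i' (M.hgt (Ψ (x * M.emb (Star.wk (M.mv c q) 1 ω (j + 1)) * d (j % (q + 1)) t)))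
        ≤ U i' := by
    intro i' j hj t ht
    have h1 : (|M.S.l i' (M.hgt (Ψ (x * M.emb (Star.wk (M.mv c q) 1 ω j) * d (j % (q + 1)) t)))| +
       |M.S.l i' (M.hgt (Ψ (x * M.emb (Star.wk (M.mv c q) 1 ω (j + 1)) * d (j % (q + 1)) t)))|) ≤
        U i' := by
      refine le_trans ?_ (Finset.single_le_sum (f := fun j => ∑ t ∈ Finset.range (r + 1),
        (|M.S.l i' (M.hgt (Ψ (x * M.emb (Star.wk (M.mv c q) 1 ω j) * d (j % (q + 1)) t)))| +
        |M.S.l i' (M.hgt (Ψ (x * M.emb (Star.wk (M.mv c q) 1 ω (j + 1)) * d (j % (q + 1)) t)))|))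
        (fun j _ => Finset.sum_nonneg fun t _ => by positivity) (Finset.mem_range.2 hj))
      exact Finset.single_le_sum (f := fun t =>
        (|M.S.l i' (M.hgt (Ψ (x * M.emb (Star.wk (M.mv c q) 1 ω j) * d (j % (q + 1)) t)))| +
        |M.S.l i' (M.hgt (Ψ (x * M.emb (Star.wk (M.mv c q) 1 ω (j + 1)) * d (j % (q + 1)) t)))|))
        (fun t _ => by positivity) (Finset.mem_range.2 (Nat.lt_succ_of_le ht))
    have h2 := le_abs_self
      (M.S.l i' (M.hgt (Ψ (x * M.emb (Star.wk (M.mv c q) 1 ω j) * d (j % (q + 1)) t))))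
    have h3 := le_abs_self
      (M.S.l i' (M.hgt (Ψ (x * M.emb (Star.wk (M.mv c q) 1 ω (j + 1)) * d (j % (q + 1)) t))))
    have h4 := abs_nonneg
      (M.S.l i' (M.hgt (Ψ (x * M.emb (Star.wk (M.mv c q) 1 ω j) * d (j % (q + 1)) t))))
    have h5 := abs_nonneg
      (M.S.l i' (M.hgt (Ψ (x * M.emb (Star.wk (M.mv c q) 1 ω (j + 1)) * d (j % (q + 1)) t))))
    constructor <;> linarith
  have hconn := conn_walk' hΨ hst (x := x) (ω := ω) L hω
    (Z := fun i' => (if i' = i then T else U i') + M.C0 ^ 4 * (K * s + K + 1)) hL ?_ ?_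
  · have h1 := hconn.delta hi
    simp only [if_true] at h1
    exact h1
  · intro j hj t ht i'
    by_cases h : i' = i
    · subst h
      simp only [if_true]
      linarith [hZ j hj t ht]
    · simp only [h, if_false]
      linarith [(hUle i' j hj t ht).1]
  · intro j hj t ht i'
    by_cases h : i' = i
    · subst h
      simp only [if_true]
      linarith [hZ' j hj t ht]
    · simp only [h, if_false]
      linarith [(hUle i' j hj t ht).2]

end drift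

end Crest.Agent.R182.Facet
end

-- ▼ part R182/FacetMain
section

set_option autoImplicit false
set_option linter.unusedSectionVars false

namespace Crest.Agent.R182.Facet

open MeasureTheory Cap CapModel

variable {G H ι E : Type*} [Group G] [Group H] [MeasurableSpace H] [MeasurableMul₂ H]
    [MeasurableInv H] [Fintype ι] [NormedAddCommGroup E] [NormedSpace ℝ E]

/-- height of the image -/
def F (M : CapModel G H ι E) (Ψ : G → G) (x : G) (n : H) (g : G) : E :=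
  M.hgt (Ψ (x * M.emb n * g))

/-- the class data: on `A` the legs have increments `v k` and (relative) height bounds `Z`. -/
structure Cls (M : CapModel G H ι E) (Ψ : G → G) (x : G) (q r : ℕ) (c : ℕ → G) (d : ℕ → ℕ → G)
    (A : Set H) (v : ℕ → E) (e : ℝ) : Prop where
  meas : MeasurableSet A
  inc : ∀ n ∈ A, ∀ k ≤ q, ‖F M Ψ x n (c k) - F M Ψ x n 1 - v k‖ ≤ e

section

variable {M : CapModel G H ι E} {K : ℝ} {Ψ : G → G}

/-- crude size of the drift -/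
def dr (M : CapModel G H ι E) (K : ℝ) (L : ℕ) (e : ℝ) : ℝ :=
  L * (2 * e + M.C0 * (K * (2 * M.C0) + K))

theorem dr_nonneg {K : ℝ} (hK : 1 ≤ K) {L : ℕ} {e : ℝ} (he : 0 ≤ e) : 0 ≤ dr M K L e := by
  have := M.C0_pos
  unfold dr; positivity

/-- number of steps -/
noncomputable def N1 (M : CapModel G H ι E) (K : ℝ) (L m : ℕ) : ℕ := (3 * (L + 1) * ⌈4 * M.C0 * K⌉₊) * m ^ 2

theorem drift_le (hΨ : QI M K Ψ) {x : G} {c : ℕ → G} {q0 : H} {ω : ℕ → H × H} {v : ℕ → E} {e : ℝ}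
    (he : 0 ≤ e) {L j : ℕ} (hj : j ≤ L) (hω : ∀ j < L, (ω j).1 ∈ M.V ∧ (ω j).2 ∈ M.V)
    (h1 : ∀ j < L, ‖F M Ψ x (Star.wk (fun j => M.cj (c j)) q0 ω j) (c j) -
      F M Ψ x (Star.wk (fun j => M.cj (c j)) q0 ω j) 1 - v j‖ ≤ e)
    (h2 : ∀ j < L, ‖F M Ψ x (Star.wk (fun j => M.cj (c j)) q0 ω (j + 1)) (c j) -
      F M Ψ x (Star.wk (fun j => M.cj (c j)) q0 ω (j + 1)) 1 - v j‖ ≤ e) :
    ‖F M Ψ x (Star.wk (fun j => M.cj (c j)) q0 ω j) 1 - F M Ψ x q0 1‖ ≤ dr M K L e := by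
  unfold F at *
  simp only [mul_one] at *
  have h3 := drift hΨ (x := x) (c := c) (q0 := q0) (ω := ω) (v := v) (e := e) j
    (fun i hi => hω i (by omega)) (fun i hi => h1 i (by omega)) (fun i hi => h2 i (by omega))
  refine h3.trans ?_
  have h4 : (j : ℝ) ≤ L := by exact_mod_cast hj
  have h5 := M.C0_pos
  have h6 := hΨ.one_le
  unfold dr
  gcongr

theorem l_drift (i : ι) {a b : E} {D : ℝ} (h : ‖a - b‖ ≤ D) :
    M.S.l i a ≤ M.S.l i b + M.C0 * D := by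
  have h1 := (le_abs_self _).trans (M.l_le i (a - b))
  rw [map_sub] at h1
  have h2 : M.C0 * ‖a - b‖ ≤ M.C0 * D := mul_le_mul_of_nonneg_left h M.C0_pos.le
  linarith

/-- step (1): the set `S1` of points of `A` which are reached from `B`. -/
theorem exists_S1 (hΨ : QI M K Ψ) {q r m L : ℕ} {s e : ℝ} {c : ℕ → G} {d : ℕ → ℕ → G}
    (hst : StarData M q r m s c d) (hd0 : ∀ t, d 0 t = 1) (hL : 1 ≤ L)
    (hLq : (L - 1) % (q + 1) = 0) (he : 0 ≤ e)
    {x : G} {A B : Set H} {v1 v2 : ℕ → E} (hA : Cls M Ψ x q r c d A v1 e)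
    (hB : Cls M Ψ x q r c d B v2 e) {i : ι} (hi : M.S.NZ i) {Y : ℝ} (hY : 0 ≤ Y)
    (hBY : ∀ n ∈ B, ∀ k ≤ q, ∀ t ≤ r, M.S.l i (F M Ψ x n (d k t)) ≤ M.S.l i (F M Ψ x n 1) + Y + e)
    {Zs : ι → ℝ} (hZs2 : ∀ k ≤ q, ∀ t ≤ r, ∀ i, M.S.l i (M.hgt (d k t)) ≤ Zs i + e)
    {Q' : Set H} (hQ'm : MeasurableSet Q') (hQ'fin : M.μ Q' ≠ ⊤) (hQ'0 : M.μ Q' ≠ 0)
    (hAQ : M.μ A ≤ M.μ Q') (hBQ : M.μ B ≤ M.μ Q')
    (hAV : ∀ k ≤ q, ∀ a ∈ M.V, ∀ n ∈ A, n * (M.cj (c k) a)⁻¹ ∈ Q')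
    (hBV : ∀ k ≤ q, ∀ a ∈ M.V, ∀ n ∈ B, n * (M.cj (c k) a)⁻¹ ∈ Q')
    {β : ℝ} (hβ : 0 < β)
    (hedge : ENNReal.ofReal β * M.μ Q' ≤ ∫⁻ n in A, Star.Tk M.ν (M.cj (c 0)) B n ∂M.μ) :
    ∃ (p0 : H) (S1 : Set H), MeasurableSet S1 ∧ S1 ⊆ A ∧
      (∀ n ∈ S1, p0⁻¹ * n ∈ box M (x * M.emb p0) (fun j => (Zs j + e) + bc M s)
        (N1 M (2 * M.C0 + 1) L m)) ∧
      (∀ n ∈ S1, ∀ n' ∈ S1, ‖M.δ i (Ψ (x * M.emb n)) - M.δ i (Ψ (x * M.emb n'))‖ ≤
        2 * (N1 M K L m * (M.C0 * Real.exp (M.S.l i (F M Ψ x n' 1) + Y + e +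
          2 * (M.C0 * dr M K L e) + M.C0 ^ 4 * (K * s + K + 1))))) ∧
      ENNReal.ofReal ((β / (4 * L * (q + 2))) ^ L) ≤
        (Measure.pi fun _ : Fin L => M.ν.prod M.ν)
          {ω | Star.wk (M.mv c q) 1 (Star.extω ω) L ∈ (fun n => p0 * n) ⁻¹' S1} := by
  classical
  have hLR : (0 : ℝ) < L := by exact_mod_cast hL
  set c0 : ℝ := β / (4 * L * (q + 2)) with hc0
  have hc0p : 0 < c0 := by positivity
  set φ : Fin (q + 1) → H → H := fun k => M.cj (c k) with hφ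
  have hφm : ∀ k, Measurable (φ k) := fun k => M.cj_meas _
  set ψ : H → H := fun n => M.cj (c 0) n with hψ
  have hψm : Measurable ψ := M.cj_meas _
  set AB : ℕ → Set H × Set H := Star.clean2N M.ν φ ψ (ENNReal.ofReal c0) (A, B) with hAB
  have hest := Star.clean2N_est (μ := M.μ) (ν := M.ν) (φ := φ) (ψ := ψ) hφm hψm (X := (A, B))
    (Q' := Q') hA.meas hB.meas hQ'm hQ'fin hAQ hBQ
    (fun k => by
      filter_upwards [M.ae_mem_V] with a ha n hn
      exact hAV k (Nat.lt_succ_iff.1 k.2) a ha n hn)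
    (fun k => by
      filter_upwards [M.ae_mem_V] with a ha n hn
      exact hBV k (Nat.lt_succ_iff.1 k.2) a ha n hn)
    (ENNReal.ofReal c0) L
  have hloss : (L : ENNReal) * (2 * ((Fintype.card (Fin (q + 1)) + 1) *
      (ENNReal.ofReal c0 * M.μ Q'))) = ENNReal.ofReal (β / 2) * M.μ Q' := by
    have e1 : (L : ENNReal) * (2 * ((Fintype.card (Fin (q + 1)) + 1) *
      (ENNReal.ofReal c0 * M.μ Q'))) =
      ((L : ENNReal) * 2 * ((q + 1 : ℕ) + 1) * ENNReal.ofReal c0) * M.μ Q' := by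
      rw [Fintype.card_fin]; ring
    rw [e1]
    congr 1
    have e2 : ((L : ENNReal) * 2 * ((q + 1 : ℕ) + 1)) = ENNReal.ofReal (L * 2 * ((q : ℝ) + 2)) := by
      have : (L : ℝ) * 2 * ((q : ℝ) + 2) = ((L * 2 * (q + 2) : ℕ) : ℝ) := by push_cast; ring
      rw [this, ENNReal.ofReal_natCast]
      push_cast
      ring
    rw [e2, ← ENNReal.ofReal_mul (by positivity)]
    congr 1
    rw [hc0]
    field_simp
    norm_num
  rw [hloss] at hest
  -- `B_L` is nonempty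
  have hne : (AB L).2.Nonempty := by
    by_contra hcon
    rw [Set.not_nonempty_iff_eq_empty] at hcon
    have h0 : ∫⁻ n in (AB L).1, Star.Tk M.ν ψ (AB L).2 n ∂M.μ = 0 := by
      rw [hcon]
      simp [Star.Tk]
    rw [← hAB, h0, zero_add] at hest
    have h1 := hedge.trans hest
    rw [ENNReal.mul_le_mul_iff_left hQ'0 hQ'fin,
      ENNReal.ofReal_le_ofReal_iff (by positivity)] at h1
    linarith
  obtain ⟨p0, hp0⟩ := hne
  have hsubB : ∀ i, (AB i).2 ⊆ B := fun i => (Star.clean2N_subset φ ψ _ (A, B) i).2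
  have hmeasAB := Star.measurableSet_clean2N (ν := M.ν) hφm hψm (ENNReal.ofReal c0) (X := (A, B))
    hA.meas hB.meas
  set x' : G := x * M.emb p0 with hx'
  set D0 : ℝ := dr M K L e with hD0
  have hD0p : 0 ≤ D0 := dr_nonneg hΨ.one_le he
  have hC0 := M.C0_pos
  set T : ℝ := M.S.l i (F M Ψ x p0 1) + Y + e + M.C0 * D0 with hT
  set c1 : ℝ := M.C0 ^ 4 * (K * s + K + 1) with hc1
  set S1 : Set H := {n | n ∈ A ∧ p0⁻¹ * n ∈ box M x' (fun j => (Zs j + e) + bc M s)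
        (N1 M (2 * M.C0 + 1) L m) ∧
      (‖M.δ i (Ψ (x * M.emb n)) - M.δ i (Ψ (x * M.emb p0))‖ ≤
        N1 M K L m * (M.C0 * Real.exp (T + c1)) ∧
       M.S.l i (F M Ψ x p0 1) ≤ M.S.l i (F M Ψ x n 1) + M.C0 * D0)} with hS1
  have hS1m : MeasurableSet S1 := by
    have h1 : MeasurableSet {n : H | p0⁻¹ * n ∈ box M x' (fun j => (Zs j + e) + bc M s)
        (N1 M (2 * M.C0 + 1) L m)} :=
      (measurable_const_mul p0⁻¹) (measurableSet_box M x' _ _)
    have h2 := hΨ.meas x 1 {P | ‖M.δ i P - M.δ i (Ψ (x * M.emb p0))‖ ≤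
        N1 M K L m * (M.C0 * Real.exp (T + c1)) ∧
       M.S.l i (F M Ψ x p0 1) ≤ M.S.l i (M.hgt P) + M.C0 * D0}
    have e1 : {n | Ψ (x * M.emb n * 1) ∈ {P | ‖M.δ i P - M.δ i (Ψ (x * M.emb p0))‖ ≤
        N1 M K L m * (M.C0 * Real.exp (T + c1)) ∧
       M.S.l i (F M Ψ x p0 1) ≤ M.S.l i (M.hgt P) + M.C0 * D0}} =
      {n | ‖M.δ i (Ψ (x * M.emb n)) - M.δ i (Ψ (x * M.emb p0))‖ ≤
        N1 M K L m * (M.C0 * Real.exp (T + c1)) ∧
       M.S.l i (F M Ψ x p0 1) ≤ M.S.l i (F M Ψ x n 1) + M.C0 * D0} := by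
      ext n
      simp only [Set.mem_ofPred_eq, F, mul_one]
    rw [e1] at h2
    exact hA.meas.inter (h1.inter h2)
  refine ⟨p0, S1, hS1m, fun n hn => hn.1, fun n hn => hn.2.1, ?_, ?_⟩
  · -- distances inside `S1`
    intro n hn n' hn'
    have h1 := hn.2.2.1
    have h2 := hn'.2.2.1
    have h3 := hn'.2.2.2
    have h4 : ‖M.δ i (Ψ (x * M.emb n)) - M.δ i (Ψ (x * M.emb n'))‖ ≤
        2 * (N1 M K L m * (M.C0 * Real.exp (T + c1))) := by
      have e1 : M.δ i (Ψ (x * M.emb n)) - M.δ i (Ψ (x * M.emb n')) =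
          (M.δ i (Ψ (x * M.emb n)) - M.δ i (Ψ (x * M.emb p0))) -
          (M.δ i (Ψ (x * M.emb n')) - M.δ i (Ψ (x * M.emb p0))) := by ring
      rw [e1]
      refine (norm_sub_le _ _).trans ?_
      linarith
    refine h4.trans ?_
    have h5 : T + c1 ≤ M.S.l i (F M Ψ x n' 1) + Y + e + 2 * (M.C0 * D0) + c1 := by
      rw [hT]; linarith
    gcongr
  · -- the walk
    set W : ℕ → Set H := fun j => if j < L then (AB (L - j)).2 else A with hW
    have hWm : ∀ j, MeasurableSet (W j) := by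
      intro j
      rw [hW]
      by_cases h : j < L
      · simp only [h, if_true]; exact (hmeasAB _).2
      · simp only [h, if_false]; exact hA.meas
    have hstep : ∀ j < L, ∀ n ∈ W j, ENNReal.ofReal c0 ≤ Star.Tk M.ν (M.mv c q j) (W (j + 1)) n := by
      intro j hj n hn
      simp only [hW, hj, if_true] at hn
      have e1 : L - j = (L - (j + 1)) + 1 := by omega
      rw [e1] at hn
      have h1 := (Star.Tk_clean2N (ν := M.ν) φ ψ (ENNReal.ofReal c0) (A, B) (L - (j + 1))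
        (q := n)).2 hn
      by_cases h : j + 1 < L
      · simp only [hW, h, if_true]
        have h2 := h1.1 ⟨j % (q + 1), Nat.mod_lt _ (Nat.succ_pos q)⟩
        exact h2
      · have e2 : j + 1 = L := by omega
        have e3 : j = L - 1 := by omega
        simp only [hW, h, if_false]
        have h2 := h1.2
        rw [e2, Nat.sub_self] at h2
        have e4 : M.mv c q j = ψ := by
          unfold CapModel.mv
          rw [e3, hLq, hψ]
        rw [e4]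
        exact h2
    have hp0W : p0 ∈ W 0 := by
      simp only [hW, show 0 < L by omega, if_true, Nat.sub_zero]
      exact hp0
    have hprob := Star.walk_prob (ν := M.ν) (ENNReal.ofReal c0) L (M.mv c q) W
      (fun j => M.cj_meas _) hWm hstep p0 hp0W
    rw [ENNReal.ofReal_pow hc0p.le]
    refine hprob.trans (measure_mono_ae ?_)
    filter_upwards [ae_pi_mem_V M L] with ω hω hωW
    have hωV : ∀ j < L, (Star.extω ω j).1 ∈ M.V ∧ (Star.extω ω j).2 ∈ M.V := by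
      intro j hj
      rw [Star.extω_of_lt ω hj]; exact hω ⟨j, hj⟩
    have hn : ∀ j, Star.wk (M.mv c q) p0 (Star.extω ω) j =
        p0 * Star.wk (M.mv c q) 1 (Star.extω ω) j := fun j => wk_left _ _ _ _
    have hxn : ∀ j, x * M.emb (Star.wk (M.mv c q) p0 (Star.extω ω) j) =
        x' * M.emb (Star.wk (M.mv c q) 1 (Star.extω ω) j) := by
      intro j; rw [hn, map_mul, hx']; group
    have hinB : ∀ j < L, Star.wk (M.mv c q) p0 (Star.extω ω) j ∈ B := by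
      intro j hj
      have := hωW j hj.le
      simp only [hW, hj, if_true] at this
      exact hsubB _ this
    have hinA : Star.wk (M.mv c q) p0 (Star.extω ω) L ∈ A := by
      have := hωW L le_rfl
      simpa only [hW, lt_irrefl, if_false] using this
    have hcl : c ((L - 1) % (q + 1)) = 1 := by rw [hLq, hst.c_zero]
    -- drift
    have hdr : ∀ j ≤ L, ‖F M Ψ x (Star.wk (M.mv c q) p0 (Star.extω ω) j) 1 - F M Ψ x p0 1‖ ≤
        D0 := by
      intro j hj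
      refine drift_le hΨ (c := fun j => c (j % (q + 1)))
        (v := fun j => if j = L - 1 then 0 else v2 (j % (q + 1))) he hj hωV ?_ ?_
      · intro j hj
        by_cases h : j = L - 1
        · simp only [h, if_true, hcl]
          simpa using he
        · simp only [h, if_false]
          exact hB.inc _ (hinB j hj) _ (Nat.lt_succ_iff.1 (Nat.mod_lt _ (Nat.succ_pos q)))
      · intro j hj
        by_cases h : j = L - 1
        · simp only [h, if_true, hcl]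
          simpa using he
        · simp only [h, if_false]
          exact hB.inc _ (hinB (j + 1) (by omega)) _
            (Nat.lt_succ_iff.1 (Nat.mod_lt _ (Nat.succ_pos q)))
    have hdl : ∀ j ≤ L, M.S.l i (F M Ψ x (Star.wk (M.mv c q) p0 (Star.extω ω) j) 1) ≤
        M.S.l i (F M Ψ x p0 1) + M.C0 * D0 := fun j hj => l_drift i (hdr j hj)
    have hhB : ∀ j < L, ∀ k ≤ q, ∀ t ≤ r, M.S.l i (M.hgt (Ψ (x' * M.emb
        (Star.wk (M.mv c q) 1 (Star.extω ω) j) * d k t))) ≤ T := by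
      intro j hj k hk t ht
      have h1 := hBY _ (hinB j hj) k hk t ht
      have h2 := hdl j hj.le
      rw [F, hxn] at h1
      rw [hT]; linarith
    show Star.wk (M.mv c q) 1 (Star.extω ω) L ∈ (fun n => p0 * n) ⁻¹' S1
    rw [Set.mem_preimage, ← hn]
    refine ⟨hinA, ?_, ?_, ?_⟩
    · rw [hn, inv_mul_cancel_left]
      exact walk_mem_box hst hZs2 x' L hL hωV
    · rw [hxn, ← hx']
      refine dnum_walk hΨ hst L hL hωV hi ?_ ?_
      · intro j hj t ht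
        exact hhB j hj _ (Nat.lt_succ_iff.1 (Nat.mod_lt _ (Nat.succ_pos q))) t ht
      · intro j hj t ht
        by_cases h : j + 1 < L
        · exact hhB (j + 1) h _ (Nat.lt_succ_iff.1 (Nat.mod_lt _ (Nat.succ_pos q))) t ht
        · have e2 : j + 1 = L := by omega
          have e3 : j % (q + 1) = 0 := by rw [← hLq]; congr 1; omega
          rw [e2, e3, hd0]
          have h2 := hdl L le_rfl
          rw [F, hxn] at h2
          rw [hT]; linarith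
    · have h2 := hdr L le_rfl
      rw [← norm_neg, neg_sub] at h2
      exact l_drift i h2


theorem log_N1_le {K : ℝ} (hK : 1 ≤ K) (L : ℕ) {m : ℕ} (hm : 1 ≤ m) :
    1 ≤ N1 M K L m ∧ Real.log (N1 M K L m) =
      Real.log (3 * (L + 1) * ⌈4 * M.C0 * K⌉₊) + 2 * Real.log m := by
  have hC0 := M.C0_pos
  have h1 : 1 ≤ ⌈4 * M.C0 * K⌉₊ := Nat.one_le_ceil_iff.2 (by positivity)
  have h2 : 1 ≤ 3 * (L + 1) * ⌈4 * M.C0 * K⌉₊ := by nlinarith
  constructor
  · exact Nat.mul_pos h2 (pow_pos hm 2)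
  · have hmR : (0 : ℝ) < m := by exact_mod_cast hm
    have h3 : (0 : ℝ) < 3 * (L + 1) * ⌈4 * M.C0 * K⌉₊ := by
      have : (1 : ℝ) ≤ ⌈4 * M.C0 * K⌉₊ := by exact_mod_cast h1
      positivity
    unfold N1
    push_cast
    rw [Real.log_mul h3.ne' (by positivity), Real.log_pow]
    push_cast; ring

/-- final data of step (1) -/
structure S1Data (M : CapModel G H ι E) (K : ℝ) (Ψ : G → G) (x : G) (i : ι) (L m : ℕ)
    (Zb : ι → ℝ) (R : ℝ) (p0 : H) (S1 A : Set H) : Prop where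
  meas : MeasurableSet S1
  sub : S1 ⊆ A
  inbox : ∀ n ∈ S1, p0⁻¹ * n ∈ box M (x * M.emb p0) Zb (N1 M (2 * M.C0 + 1) L m)
  dlt : ∀ n ∈ S1, ∀ n' ∈ S1, ‖M.δ i (Ψ (x * M.emb n)) - M.δ i (Ψ (x * M.emb n'))‖ ≤
        R * Real.exp (M.S.l i (F M Ψ x n' 1))

/-- step (2): the walk inside `S1`. -/
theorem walk_S1 (hΨ : QI M K Ψ) {q r m L : ℕ} {s e : ℝ} {c : ℕ → G} {d : ℕ → ℕ → G}
    (hst : StarData M q r m s c d) (hL : 1 ≤ L) (he : 0 ≤ e)
    {x : G} {A S1 : Set H} {v1 : ℕ → E} (hA : Cls M Ψ x q r c d A v1 e) {i : ι}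
    {Zs Zt : ι → ℝ}
    (hAZ : ∀ n ∈ A, ∀ k ≤ q, ∀ t ≤ r, ∀ j,
      M.S.l j (F M Ψ x n (d k t)) ≤ M.S.l j (F M Ψ x n 1) + Zt j + e)
    (hZs2 : ∀ k ≤ q, ∀ t ≤ r, ∀ i, M.S.l i (M.hgt (d k t)) ≤ Zs i + e)
    {R : ℝ} {p0 : H} (hS1 : S1Data M K Ψ x i L m (fun j => (Zs j + e) + bc M s) R p0 S1 A)
    {v1' M1 : ℝ} (hv1 : 0 < v1') (hμ1 : ENNReal.ofReal v1' ≤ M.μ S1)
    (hM1 : 0 < M1) (hbox : M.μ (box M (x * M.emb p0) (fun j => (Zs j + e) + bc M s)
      (N1 M (2 * M.C0 + 1) L m + N1 M (2 * M.C0 + 1) 1 m)) ≤ ENNReal.ofReal M1) :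
    ∃ q0 ∈ S1, ENNReal.ofReal ((v1' / (2 * L * (q + 1) * M1)) ^ L) ≤
      (Measure.pi fun _ : Fin L => M.ν.prod M.ν) {ω |
        M.Conn (fun j => M.S.l j (F M Ψ x q0 1) + (Zt j + e + M.C0 * dr M K L e +
          M.C0 ^ 4 * (K * s + K + 1))) (N1 M K L m) (Ψ (x * M.emb q0))
          (Ψ (x * M.emb q0 * M.emb (Star.wk (M.mv c q) 1 (Star.extω ω) L))) ∧
        M.S.l i (M.hgt (Ψ (x * M.emb q0 * M.emb (Star.wk (M.mv c q) 1 (Star.extω ω) L)))) ≤
          M.S.l i (F M Ψ x q0 1) + M.C0 * dr M K L e ∧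
        ‖M.δ i (Ψ (x * M.emb q0 * M.emb (Star.wk (M.mv c q) 1 (Star.extω ω) L))) -
          M.δ i (Ψ (x * M.emb q0))‖ ≤ R * Real.exp (M.S.l i (F M Ψ x q0 1))} := by
  classical
  have hLR : (0 : ℝ) < L := by exact_mod_cast hL
  set c2 : ℝ := v1' / (2 * L * (q + 1) * M1) with hc2
  have hc2p : 0 < c2 := by positivity
  set φ : Fin (q + 1) → H → H := fun k n => M.cj (c k) n with hφ
  have hφm : ∀ k, Measurable (φ k) := fun k => M.cj_meas _
  set x' : G := x * M.emb p0 with hx'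
  set Q'' : Set H := {n | p0⁻¹ * n ∈ box M x' (fun j => (Zs j + e) + bc M s)
      (N1 M (2 * M.C0 + 1) L m + N1 M (2 * M.C0 + 1) 1 m)} with hQ''
  have hQm : MeasurableSet Q'' := (measurable_const_mul p0⁻¹) (measurableSet_box M x' _ _)
  have hQμ : M.μ Q'' ≤ ENNReal.ofReal M1 := by
    have e1 : Q'' = (fun n => p0⁻¹ * n) ⁻¹' (box M x' (fun j => (Zs j + e) + bc M s)
      (N1 M (2 * M.C0 + 1) L m + N1 M (2 * M.C0 + 1) 1 m)) := rfl
    rw [e1, measure_preimage_mul]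
    exact hbox
  have hQ1 : S1 ⊆ Q'' := by
    intro n hn
    exact box_mono (fun j => le_rfl) (Nat.le_add_right _ _) (hS1.inbox n hn)
  have hfin : M.μ S1 ≠ ⊤ := ne_top_of_le_ne_top ENNReal.ofReal_ne_top ((measure_mono hQ1).trans hQμ)
  have hDQ : ∀ k : Fin (q + 1), ∀ᵐ a ∂M.ν, ∀ n ∈ S1, n * (φ k a)⁻¹ ∈ Q'' := by
    intro k
    filter_upwards [M.ae_mem_V] with a ha n hn
    have h1 := box_move hst hZs2 (x := x') (Nat.lt_succ_iff.1 k.2) (hS1.inbox n hn) ha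
    show p0⁻¹ * (n * (M.cj (c k) a)⁻¹) ∈ box M x' (fun j => (Zs j + e) + bc M s)
      (N1 M (2 * M.C0 + 1) L m + N1 M (2 * M.C0 + 1) 1 m)
    rw [← mul_assoc p0⁻¹ n]
    exact h1
  have hcl := Star.measure_cleanN (μ := M.μ) (ν := M.ν) hφm hS1.meas hQm hfin hDQ
    (ENNReal.ofReal c2) L
  have hloss : (L : ENNReal) * (Fintype.card (Fin (q + 1)) * (ENNReal.ofReal c2 * M.μ Q'')) ≤
      ENNReal.ofReal (v1' / 2) := by
    calc (L : ENNReal) * (Fintype.card (Fin (q + 1)) * (ENNReal.ofReal c2 * M.μ Q''))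
        ≤ (L : ENNReal) * (Fintype.card (Fin (q + 1)) *
            (ENNReal.ofReal c2 * ENNReal.ofReal M1)) := by gcongr
      _ = ENNReal.ofReal (L * ((q + 1 : ℕ) * (c2 * M1))) := by
          rw [Fintype.card_fin, ENNReal.ofReal_mul hLR.le, ENNReal.ofReal_natCast,
            ENNReal.ofReal_mul (Nat.cast_nonneg _), ENNReal.ofReal_natCast,
            ENNReal.ofReal_mul hc2p.le]
      _ = ENNReal.ofReal (v1' / 2) := by
          congr 1
          rw [hc2]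
          push_cast
          field_simp
  have hne : (Star.cleanN M.ν φ (ENNReal.ofReal c2) S1 L).Nonempty := by
    by_contra hcon
    rw [Set.not_nonempty_iff_eq_empty] at hcon
    rw [hcon, measure_empty, zero_add] at hcl
    have h1 := hμ1.trans (hcl.trans hloss)
    rw [ENNReal.ofReal_le_ofReal_iff (by positivity)] at h1
    linarith
  obtain ⟨q0, hq0⟩ := hne
  have hsub : ∀ j, Star.cleanN M.ν φ (ENNReal.ofReal c2) S1 j ⊆ S1 :=
    fun j => Star.cleanN_subset φ _ S1 j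
  refine ⟨q0, hsub L hq0, ?_⟩
  set W : ℕ → Set H := fun j => Star.cleanN M.ν φ (ENNReal.ofReal c2) S1 (L - j) with hW
  have hprob := Star.walk_prob (ν := M.ν) (ENNReal.ofReal c2) L (M.mv c q) W
    (fun j => M.cj_meas _) (fun j => Star.measurableSet_cleanN hφm _ hS1.meas _) (by
      intro j hj n hn
      simp only [hW] at hn
      have e1 : L - j = (L - (j + 1)) + 1 := by omega
      rw [e1] at hn
      exact Star.Tk_cleanN φ _ S1 _ hn ⟨j % (q + 1), Nat.mod_lt _ (Nat.succ_pos q)⟩) q0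
    (by simpa only [hW, Nat.sub_zero] using hq0)
  rw [ENNReal.ofReal_pow hc2p.le]
  refine hprob.trans (measure_mono_ae ?_)
  filter_upwards [ae_pi_mem_V M L] with ω hω hωW
  have hωV : ∀ j < L, (Star.extω ω j).1 ∈ M.V ∧ (Star.extω ω j).2 ∈ M.V := by
    intro j hj
    rw [Star.extω_of_lt ω hj]; exact hω ⟨j, hj⟩
  have hin : ∀ j ≤ L, Star.wk (M.mv c q) q0 (Star.extω ω) j ∈ S1 := fun j hj => hsub _ (hωW j hj)
  have hxn : ∀ j, x * M.emb (Star.wk (M.mv c q) q0 (Star.extω ω) j) =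
      x * M.emb q0 * M.emb (Star.wk (M.mv c q) 1 (Star.extω ω) j) := by
    intro j; rw [wk_left, map_mul]; group
  have hmod : ∀ j : ℕ, j % (q + 1) ≤ q := fun j => Nat.lt_succ_iff.1 (Nat.mod_lt _ (Nat.succ_pos q))
  have hdr : ∀ j ≤ L, ‖F M Ψ x (Star.wk (M.mv c q) q0 (Star.extω ω) j) 1 - F M Ψ x q0 1‖ ≤
      dr M K L e := by
    intro j hj
    refine drift_le hΨ (c := fun j => c (j % (q + 1))) (v := fun j => v1 (j % (q + 1))) he hj hωV
      ?_ ?_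
    · intro j hj
      exact hA.inc _ (hS1.sub (hin j hj.le)) _ (hmod j)
    · intro j hj
      exact hA.inc _ (hS1.sub (hin (j + 1) hj)) _ (hmod j)
  have hht : ∀ j ≤ L, ∀ k ≤ q, ∀ t ≤ r, ∀ i', M.S.l i' (M.hgt (Ψ (x * M.emb q0 * M.emb
      (Star.wk (M.mv c q) 1 (Star.extω ω) j) * d k t))) ≤
      M.S.l i' (F M Ψ x q0 1) + (Zt i' + e + M.C0 * dr M K L e) := by
    intro j hj k hk t ht i'
    have h1 := hAZ _ (hS1.sub (hin j hj)) k hk t ht i'
    have h2 := l_drift (M := M) i' (hdr j hj)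
    rw [F, hxn] at h1
    linarith
  refine ⟨?_, ?_, ?_⟩
  · refine conn_walk' hΨ hst L hωV hL ?_ ?_
    · intro j hj t ht i'
      have := hht j hj.le _ (hmod j) t ht i'
      linarith
    · intro j hj t ht i'
      have := hht (j + 1) hj _ (hmod j) t ht i'
      linarith
  · have h2 := l_drift (M := M) i (hdr L le_rfl)
    rw [F, hxn, mul_one] at h2
    exact h2
  · have h3 := hS1.dlt _ (hin L le_rfl) _ (hsub L hq0)
    rw [hxn] at h3
    exact h3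

end

end Crest.Agent.R182.Facet
end

-- ▼ part R182/FacetIneq

set_option autoImplicit false
set_option linter.unusedSectionVars false

namespace Crest.Agent.R182.Facet

open MeasureTheory Cap CapModel

variable {G H ι E : Type*} [Group G] [Group H] [MeasurableSpace H] [MeasurableMul₂ H]
    [MeasurableInv H] [Fintype ι] [NormedAddCommGroup E] [NormedSpace ℝ E]

variable {M : CapModel G H ι E}

theorem N1_mono_L {K : ℝ} {L L' m : ℕ} (h : L ≤ L') : N1 M K L m ≤ N1 M K L' m := by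
  unfold N1; gcongr

theorem le_N1 {K : ℝ} (hK : 1 ≤ K) (L : ℕ) {m : ℕ} : m ≤ N1 M K L m := by
  have hC0 := M.C0_pos
  have h1 : 1 ≤ ⌈4 * M.C0 * K⌉₊ := Nat.one_le_ceil_iff.2 (by positivity)
  have h2 : 1 ≤ 3 * (L + 1) * ⌈4 * M.C0 * K⌉₊ := by nlinarith
  unfold N1
  calc m ≤ m ^ 2 := Nat.le_self_pow (by norm_num) m
    _ = 1 * m ^ 2 := (one_mul _).symm
    _ ≤ _ := Nat.mul_le_mul_right _ h2

/-- **the facet inequality** -/
theorem facet_ineq (hR : M.Reach) (hE : M.Ent) {K : ℝ} (hK : 1 ≤ K) (q : ℕ) {i : ι}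
    (hi : M.S.NZ i) : ∃ Ac : ℝ, 0 ≤ Ac ∧ ∀ Ψ : G → G, QI M K Ψ →
    ∀ (r m : ℕ) (s e : ℝ) (c : ℕ → G) (d : ℕ → ℕ → G), StarData M q r m s c d →
    (∀ t, d 0 t = 1) → 0 ≤ e → ∀ Zs Zt : ι → ℝ, (∀ j, 0 ≤ Zs j) → (∀ j, 0 ≤ Zt j) →
    (∀ j, ∃ k ≤ q, Zs j ≤ max 0 (M.S.l j (M.hgt (c k)))) →
    (∀ k ≤ q, ∀ t ≤ r, ∀ j, M.S.l j (M.hgt (d k t)) ≤ Zs j + e) →
    ∀ v : E, (∀ j, M.S.l j v ≤ Zt j) → ‖v‖ ≤ m →
    ∀ (x : G) (A B : Set H) (v1 v2 : ℕ → E), Cls M Ψ x q r c d A v1 e → Cls M Ψ x q r c d B v2 e →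
    (∀ n ∈ A, ∀ k ≤ q, ∀ t ≤ r, ∀ j,
      M.S.l j (F M Ψ x n (d k t)) ≤ M.S.l j (F M Ψ x n 1) + Zt j + e) →
    ∀ Y : ℝ, 0 ≤ Y →
    (∀ n ∈ B, ∀ k ≤ q, ∀ t ≤ r, M.S.l i (F M Ψ x n (d k t)) ≤ M.S.l i (F M Ψ x n 1) + Y + e) →
    ∀ Q' : Set H, MeasurableSet Q' → M.μ Q' ≠ ⊤ → M.μ Q' ≠ 0 → M.μ A ≤ M.μ Q' → M.μ B ≤ M.μ Q' →
    (∀ k ≤ q, ∀ a ∈ M.V, ∀ n ∈ A, n * (M.cj (c k) a)⁻¹ ∈ Q') →
    (∀ k ≤ q, ∀ a ∈ M.V, ∀ n ∈ B, n * (M.cj (c k) a)⁻¹ ∈ Q') →
    ∀ β : ℝ, 0 < β →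
    ENNReal.ofReal β * M.μ Q' ≤ ∫⁻ n in A, Star.Tk M.ν (M.cj (c 0)) B n ∂M.μ →
    M.S.Gt Zs + M.S.l i v ≤ M.S.Gt Zt + Y + Ac * (s + 1 + e) + Ac * Real.log m +
      Ac * |Real.log β| := by
  obtain ⟨L0, hL0⟩ := hE q
  set L : ℕ := L0 * (q + 1) + 1 with hLdef
  have hLL0 : L0 ≤ L := by
    have : L0 * 1 ≤ L0 * (q + 1) := Nat.mul_le_mul_left _ (by omega)
    omega
  have hL1 : 1 ≤ L := by omega
  have hLq : (L - 1) % (q + 1) = 0 := by
    rw [hLdef, Nat.add_sub_cancel]; exact Nat.mul_mod_left _ _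
  obtain ⟨κ, C, D, hκ, hC, hent⟩ := hL0 L hLL0
  obtain ⟨C', D', hC', hvb⟩ := vol_box (M := M) hR
  obtain ⟨C'', D'', hC'', hvs⟩ := vol_le_slab hR hK hi
  have hC0 := M.one_le_C0
  have hC0p := M.C0_pos
  have hLR : (1 : ℝ) ≤ L := by exact_mod_cast hL1
  have hLip := M.S.Lip_nonneg
  have hκ' : 0 < κ⁻¹ := inv_pos.2 hκ
  -- constants
  set adr : ℝ := L * (2 + M.C0 * (K * (2 * M.C0) + K)) with hadr
  set ac1 : ℝ := M.C0 ^ 4 * (2 * K + 1) with hac1
  set abc : ℝ := 2 * M.C0 ^ 3 + M.C0 ^ 4 * (2 * (2 * M.C0 + 1) + 1) with habc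
  set n1 : ℝ := Real.log (3 * (L + 1) * ⌈4 * M.C0 * K⌉₊) with hn1
  set nS : ℝ := Real.log 2 + Real.log (3 * (L + 1) * ⌈4 * M.C0 * (2 * M.C0 + 1)⌉₊) with hnS
  have hadr0 : 0 ≤ adr := by positivity
  have hac10 : 0 ≤ ac1 := by positivity
  have habc0 : 0 ≤ abc := by positivity
  set A1 : ℝ := M.S.Lip * (1 + M.C0 * adr + ac1) + (1 + 2 * (M.C0 * adr) + ac1) +
    κ⁻¹ * (L * (M.S.Lip * (1 + abc))) with hA1
  set A2 : ℝ := |n1| + |Real.log (2 * M.C0)| + κ⁻¹ * |Real.log C| + |Real.log C''| + D'' * |n1| +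
    κ⁻¹ * (L * (|Real.log (2 * L * (q + 1))| + |Real.log C'| + D' * |nS| +
      κ⁻¹ * (L * |Real.log (4 * L * (q + 2))| + |Real.log C|))) with hA2
  set A3 : ℝ := 2 + κ⁻¹ * D + 2 * D'' + κ⁻¹ * (L * (2 * D' + κ⁻¹ * D)) with hA3
  set A4 : ℝ := κ⁻¹ * (L * (κ⁻¹ * L)) with hA4
  have hA1p : 0 ≤ A1 := by positivity
  have hA2p : 0 ≤ A2 := by positivity
  have hA3p : 0 ≤ A3 := by positivity
  have hA4p : 0 ≤ A4 := by positivity
  refine ⟨A1 + A2 + A3 + A4, by positivity, ?_⟩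
  intro Ψ hΨ r m s e c d hst hd0 he Zs Zt hZs hZt hZs1 hZs2 v hv hvm x A B v1 v2 hA hB hAZ Y hY hBY
    Q' hQ'm hQ'fin hQ'0 hAQ hBQ hAV hBV β hβ hedge
  have hm := hst.one_le
  have hmR : (1 : ℝ) ≤ m := by exact_mod_cast hm
  have hs0 : 0 ≤ s := le_trans (by linarith) hst.le_s
  set lm : ℝ := Real.log m with hlm
  have hlm0 : 0 ≤ lm := Real.log_nonneg hmR
  set s1 : ℝ := s + 1 + e with hs1
  have hs11 : 1 ≤ s1 := by linarith
  have hes1 : e ≤ s1 := by linarith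
  -- the constants of size `s1`
  set D0 : ℝ := dr M K L e with hD0
  have hD0p : 0 ≤ D0 := dr_nonneg hK he
  have hD0le : D0 ≤ adr * s1 := by
    rw [hD0, hadr, mul_assoc]
    unfold dr
    have : 2 * e + M.C0 * (K * (2 * M.C0) + K) ≤ (2 + M.C0 * (K * (2 * M.C0) + K)) * s1 := by
      have h1 : 0 ≤ M.C0 * (K * (2 * M.C0) + K) := by positivity
      have h2 := le_mul_of_one_le_right h1 hs11
      linarith only [h2, hes1]
    gcongr
  set c1 : ℝ := M.C0 ^ 4 * (K * s + K + 1) with hc1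
  have hc1p : 0 ≤ c1 := by positivity
  have hc1le : c1 ≤ ac1 * s1 := by
    rw [hc1, hac1, mul_assoc]
    have : K * s + K + 1 ≤ (2 * K + 1) * s1 := by
      have h2 : K * s ≤ K * s1 := by
        refine mul_le_mul_of_nonneg_left ?_ (by linarith)
        linarith only [hs1, he]
      have h3 : K ≤ K * s1 := le_mul_of_one_le_right (by linarith) hs11
      linarith only [h2, h3, hs11]
    gcongr
  have hbcp : 0 ≤ bc M s := by unfold bc; positivity
  have hbcle : bc M s ≤ abc * s1 := by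
    unfold bc
    rw [habc]
    have h1 : (2 * M.C0 + 1) * s + (2 * M.C0 + 1) + 1 ≤ (2 * (2 * M.C0 + 1) + 1) * s1 := by
      have h2 : (2 * M.C0 + 1) * s ≤ (2 * M.C0 + 1) * s1 := by
        refine mul_le_mul_of_nonneg_left ?_ (by linarith)
        linarith only [hs1, he]
      have h3 : (2 * M.C0 + 1) ≤ (2 * M.C0 + 1) * s1 :=
        le_mul_of_one_le_right (by linarith) hs11
      linarith only [h2, h3, hs11]
    have h2 : M.C0 ^ 4 * ((2 * M.C0 + 1) * s + (2 * M.C0 + 1) + 1) ≤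
        M.C0 ^ 4 * ((2 * (2 * M.C0 + 1) + 1) * s1) := by gcongr
    have h3 : 2 * M.C0 ^ 3 ≤ 2 * M.C0 ^ 3 * s1 := le_mul_of_one_le_right (by positivity) hs11
    calc _ ≤ 2 * M.C0 ^ 3 * s1 + M.C0 ^ 4 * ((2 * (2 * M.C0 + 1) + 1) * s1) := add_le_add h3 h2
      _ = _ := by ring
  -- step (1)
  obtain ⟨p0, S1, hS1m, hS1A, hS1box, hS1δ, hprob⟩ := exists_S1 hΨ hst hd0 hL1 hLq he hA hB hi hY
    hBY hZs2 hQ'm hQ'fin hQ'0 hAQ hBQ hAV hBV hβ hedge
  set c0 : ℝ := β / (4 * L * (q + 2)) with hc0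
  have hc0p : 0 < c0 := by positivity
  have hE1 := hprob.trans (hent m c hm hst.c_zero hst.c_mem Zs hZs hZs1 _
    ((measurable_const_mul p0) hS1m))
  rw [measure_preimage_mul] at hE1
  have hv1 := ent_vol (M := M) hκ hC hm (pow_pos hc0p L) hE1
  set v1' : ℝ := Real.exp (M.S.Gt Zs) * (c0 ^ L / (C * (m : ℝ) ^ D)) ^ κ⁻¹ with hv1'
  have hv1p : 0 < v1' := by positivity
  -- the box
  obtain ⟨hN1, hN1log⟩ := log_N1_le (M := M) hK L hm
  obtain ⟨hNS, hNSlog⟩ := log_N1_le (M := M) (rd_qi M).one_le L hm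
  set NS : ℕ := N1 M (2 * M.C0 + 1) L m with hNSdef
  have hN1R : (1 : ℝ) ≤ N1 M K L m := by exact_mod_cast hN1
  have hNSR : (1 : ℝ) ≤ NS := by exact_mod_cast hNS
  set M1 : ℝ := C' * ((2 * NS : ℕ) : ℝ) ^ D' * Real.exp (M.S.Gt fun j => (Zs j + e) + bc M s)
    with hM1
  have hNS2 : (0 : ℝ) < ((2 * NS : ℕ) : ℝ) := by push_cast; linarith
  have hM1p : 0 < M1 := by positivity
  have hboxle : M.μ (box M (x * M.emb p0) (fun j => (Zs j + e) + bc M s)
      (NS + N1 M (2 * M.C0 + 1) 1 m)) ≤ ENNReal.ofReal M1 := by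
    refine (measure_mono (box_mono (fun j => le_rfl) (m' := 2 * NS) ?_)).trans
      (hvb (x * M.emb p0) _ (2 * NS) (fun j => by linarith [hZs j]) (by omega))
    have : N1 M (2 * M.C0 + 1) 1 m ≤ NS := N1_mono_L hL1
    omega
  -- step (2)
  set R : ℝ := 2 * (N1 M K L m * (M.C0 * Real.exp (Y + e + 2 * (M.C0 * D0) + c1))) with hRdef
  have hS1D : S1Data M K Ψ x i L m (fun j => (Zs j + e) + bc M s) R p0 S1 A := by
    refine ⟨hS1m, hS1A, hS1box, ?_⟩
    intro n hn n' hn'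
    refine (hS1δ n hn n' hn').trans (le_of_eq ?_)
    rw [hRdef]
    have : M.S.l i (F M Ψ x n' 1) + Y + e + 2 * (M.C0 * dr M K L e) + M.C0 ^ 4 * (K * s + K + 1) =
        (Y + e + 2 * (M.C0 * D0) + c1) + M.S.l i (F M Ψ x n' 1) := by
      rw [hD0, hc1]; ring
    rw [this, Real.exp_add]
    ring
  obtain ⟨q0, hq0, hprob2⟩ := walk_S1 hΨ hst hL1 he hA hAZ hZs2 hS1D hv1p hv1 hM1p hboxle
  set c2 : ℝ := v1' / (2 * L * (q + 1) * M1) with hc2
  have hc2p : 0 < c2 := by positivity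
  set Y' : ℝ := Y + e + 2 * (M.C0 * D0) + c1 + (Real.log (2 * M.C0) + Real.log (N1 M K L m)) with hY'
  have hlogC0 : 0 ≤ Real.log (2 * M.C0) := Real.log_nonneg (by linarith)
  have hlogN : 0 ≤ Real.log (N1 M K L m) := Real.log_nonneg hN1R
  have hY'0 : 0 ≤ Y' := by positivity
  have hRle : R = Real.exp Y' := by
    rw [hRdef, hY', Real.exp_add (Y + e + 2 * (M.C0 * D0) + c1), Real.exp_add (Real.log (2 * M.C0)),
      Real.exp_log (by positivity), Real.exp_log (by linarith)]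
    ring
  set Z' : ι → ℝ := fun j => Zt j + e + M.C0 * D0 + c1 with hZ'
  set S2 : Set H := {w | M.Conn (fun j => M.S.l j (F M Ψ x q0 1) + Z' j) (N1 M K L m)
      (Ψ (x * M.emb q0)) (Ψ (x * M.emb q0 * M.emb w)) ∧
    M.S.l i (M.hgt (Ψ (x * M.emb q0 * M.emb w))) ≤ M.S.l i (F M Ψ x q0 1) + M.C0 * D0 ∧
    ‖M.δ i (Ψ (x * M.emb q0 * M.emb w)) - M.δ i (Ψ (x * M.emb q0))‖ ≤
      R * Real.exp (M.S.l i (F M Ψ x q0 1))} with hS2
  have hFq : F M Ψ x q0 1 = M.hgt (Ψ (x * M.emb q0)) := by rw [F, mul_one]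
  have hvolS2 : M.μ S2 ≤ ENNReal.ofReal (C'' * ((N1 M K L m : ℕ) : ℝ) ^ D'' *
      Real.exp (M.S.Gt Z' - (M.S.l i v - Y'))) := by
    refine hvs Ψ hΨ (x * M.emb q0) S2 (Ψ (x * M.emb q0)) Z' (N1 M K L m) v Y' ?_ hN1 ?_ ?_ hY'0
      ?_ ?_ ?_
    · intro j
      have := hZt j
      simp only [hZ']
      positivity
    · intro j
      have := hv j
      have h0 : 0 ≤ M.C0 * D0 := by positivity
      simp only [hZ']
      linarith
    · refine hvm.trans ?_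
      exact_mod_cast le_N1 hK L
    · intro w hw
      have := hw.1
      rw [hFq] at this
      exact this
    · intro w hw
      have h1 := hw.2.1
      rw [hFq] at h1
      have h0 : 0 ≤ M.C0 * D0 := by positivity
      have h2 : M.C0 * D0 ≤ Y' := by rw [hY']; linarith
      linarith
    · intro w hw
      have h1 := hw.2.2
      rw [hFq, hRle, ← Real.exp_add, add_comm Y'] at h1
      exact h1
  have hprob3 : ENNReal.ofReal (c2 ^ L) ≤ (Measure.pi fun _ : Fin L => M.ν.prod M.ν)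
      {ω | Star.wk (M.mv c q) 1 (Star.extω ω) L ∈ toMeasurable M.μ S2} := by
    refine hprob2.trans (measure_mono fun ω hω => ?_)
    exact subset_toMeasurable _ _ hω
  have hE2 := hprob3.trans (hent m c hm hst.c_zero hst.c_mem Zs hZs hZs1 _
    (measurableSet_toMeasurable _ _))
  rw [measure_toMeasurable] at hE2
  have hfin := exponent_le (M := M) hκ hC hC'' hm hN1 (pow_pos hc2p L) le_rfl hE2 hvolS2
  -- bookkeeping
  have hg1 : M.S.Gt Z' ≤ M.S.Gt Zt + M.S.Lip * (e + M.C0 * D0 + c1) :=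
    M.S.Gt_le_add (by positivity) fun j => by simp only [hZ']; linarith
  have hg2 : (M.S.Gt fun j => (Zs j + e) + bc M s) ≤ M.S.Gt Zs + M.S.Lip * (e + bc M s) :=
    M.S.Gt_le_add (by positivity) fun j => by linarith
  have hlogc2 : Real.log (c2 ^ L)⁻¹ = L * (Real.log (2 * L * (q + 1)) + Real.log M1 -
      Real.log v1') := by
    rw [Real.log_inv, Real.log_pow, hc2, Real.log_div hv1p.ne' (by positivity),
      Real.log_mul (by positivity) hM1p.ne']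
    ring
  have hlogM1 : Real.log M1 = Real.log C' + D' * (nS + 2 * lm) +
      M.S.Gt (fun j => (Zs j + e) + bc M s) := by
    rw [hM1, Real.log_mul (by positivity) (Real.exp_pos _).ne', Real.log_exp,
      Real.log_mul hC'.ne' (by positivity), Real.log_pow]
    push_cast
    rw [Real.log_mul (by norm_num) (by linarith), hNSlog, hnS]
    ring
  have hlogv1 : Real.log v1' = M.S.Gt Zs + κ⁻¹ * (L * (Real.log β - Real.log (4 * L * (q + 2))) -
      (Real.log C + D * lm)) := by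
    rw [hv1', Real.log_mul (Real.exp_pos _).ne' (by positivity), Real.log_exp,
      Real.log_rpow (by positivity), Real.log_div (by positivity) (by positivity), Real.log_pow,
      Real.log_mul hC.ne' (by positivity), Real.log_pow, hc0,
      Real.log_div hβ.ne' (by positivity)]
  rw [hlogc2, hlogM1, hlogv1, hN1log] at hfin
  -- elementary bounds
  have b1 : M.S.Lip * (e + M.C0 * D0 + c1) ≤ M.S.Lip * (1 + M.C0 * adr + ac1) * s1 := by
    rw [mul_assoc]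
    refine mul_le_mul_of_nonneg_left ?_ hLip
    have h1 : M.C0 * D0 ≤ M.C0 * (adr * s1) := by gcongr
    linarith only [h1, hes1, hc1le]
  have b2 : M.S.Lip * (e + bc M s) ≤ M.S.Lip * (1 + abc) * s1 := by
    rw [mul_assoc]
    refine mul_le_mul_of_nonneg_left ?_ hLip
    linarith only [hes1, hbcle]
  have b3 : Y' ≤ Y + (1 + 2 * (M.C0 * adr) + ac1) * s1 + |n1| + |Real.log (2 * M.C0)| + 2 * lm := by
    rw [hY', hN1log]
    have h1 : M.C0 * D0 ≤ M.C0 * (adr * s1) := by gcongr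
    have h2 := le_abs_self n1
    have h3 := le_abs_self (Real.log (2 * M.C0))
    linarith only [h1, h2, h3, hes1, hc1le]
  have b4 : (L : ℝ) * (Real.log (2 * L * (q + 1)) + (Real.log C' + D' * (nS + 2 * lm) +
      M.S.Gt (fun j => (Zs j + e) + bc M s)) - (M.S.Gt Zs +
      κ⁻¹ * (L * (Real.log β - Real.log (4 * L * (q + 2))) - (Real.log C + D * lm)))) ≤
      L * (|Real.log (2 * L * (q + 1))| + |Real.log C'| + D' * |nS| +
        κ⁻¹ * (L * |Real.log (4 * L * (q + 2))| + |Real.log C|) +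
        (2 * D' + κ⁻¹ * D) * lm + M.S.Lip * (1 + abc) * s1 + κ⁻¹ * L * |Real.log β|) := by
    refine mul_le_mul_of_nonneg_left ?_ (by linarith)
    have h1 := le_abs_self (Real.log (2 * L * (q + 1)))
    have h2 := le_abs_self (Real.log C')
    have h3 : (D' : ℝ) * nS ≤ D' * |nS| := mul_le_mul_of_nonneg_left (le_abs_self _) (Nat.cast_nonneg _)
    have h4 : κ⁻¹ * (L * Real.log (4 * L * (q + 2))) ≤ κ⁻¹ * (L * |Real.log (4 * L * (q + 2))|) := by
      gcongr; exact le_abs_self _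
    have h5 : κ⁻¹ * Real.log C ≤ κ⁻¹ * |Real.log C| := by gcongr; exact le_abs_self _
    have h6 : κ⁻¹ * (L * (-Real.log β)) ≤ κ⁻¹ * (L * |Real.log β|) := by
      gcongr; exact neg_le_abs _
    linarith only [h1, h2, h3, h4, h5, h6, hg2, b2]
  have b5 : κ⁻¹ * (|Real.log C| + D * lm) + |Real.log C''| + D'' * (n1 + 2 * lm) ≤
      κ⁻¹ * |Real.log C| + |Real.log C''| + D'' * |n1| + (κ⁻¹ * D + 2 * D'') * lm := by
    have h3 : (D'' : ℝ) * n1 ≤ D'' * |n1| := mul_le_mul_of_nonneg_left (le_abs_self _) (Nat.cast_nonneg _)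
    linarith only [h3]
  have b6 := mul_le_mul_of_nonneg_left b4 hκ'.le
  have hkey : M.S.Gt Zs + M.S.l i v ≤ M.S.Gt Zt + Y + A1 * s1 + A2 + A3 * lm + A4 * |Real.log β| := by
    rw [hA1, hA2, hA3, hA4]
    have e1 : κ⁻¹ * (L * (|Real.log (2 * L * (q + 1))| + |Real.log C'| + D' * |nS| +
        κ⁻¹ * (L * |Real.log (4 * L * (q + 2))| + |Real.log C|) +
        (2 * D' + κ⁻¹ * D) * lm + M.S.Lip * (1 + abc) * s1 + κ⁻¹ * L * |Real.log β|)) =
        κ⁻¹ * (L * (|Real.log (2 * L * (q + 1))| + |Real.log C'| + D' * |nS| +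
        κ⁻¹ * (L * |Real.log (4 * L * (q + 2))| + |Real.log C|))) +
        κ⁻¹ * (L * (2 * D' + κ⁻¹ * D)) * lm + κ⁻¹ * (L * (M.S.Lip * (1 + abc))) * s1 +
        κ⁻¹ * (L * (κ⁻¹ * L)) * |Real.log β| := by ring
    rw [e1] at b6
    linarith only [b6, b5, b3, b1, hg1, hfin]
  have h0 := abs_nonneg (Real.log β)
  have g1 : A2 ≤ A2 * s1 := le_mul_of_one_le_right hA2p hs11
  have g2 : 0 ≤ (A3 + A4) * s1 := by positivity
  have g3 : 0 ≤ (A1 + A2 + A4) * lm := by positivity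
  have g4 : 0 ≤ (A1 + A2 + A3) * |Real.log β| := by positivity
  linarith only [hkey, g1, g2, g3, g4]

end Crest.Agent.R182.Facet
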