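/-
R182, block GEN (helper480): one law on the whole box, over `BModel`.
-/
import Mathlib
import Crest.Agent.R182.GenLaw
import Crest.Agent.R182.GenBox

set_option autoImplicit false
set_option linter.unusedSectionVars false

open MeasureTheory Set
open scoped ENNReal Pointwise Topology

namespace Crest.Agent.R182.Gen

open Crest.Agent.R182.Core Crest.Agent.R182.Nb

variable {Γ : Type*} [Group Γ] {k : ℕ} {S : Set Γ} {π : Γ →* Multiplicative (Fin k → ℤ)}
  (M : BModel S π)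

/-- small elements multiply into a neighbourhood of `1` -/
theorem exists_small {V : Set M.NN} (hV1 : V ∈ 𝓝 (1 : M.NN)) :
    ∃ ρ : ℝ, 0 < ρ ∧ ∀ a u : M.NN, ‖a‖ ≤ ρ → ‖u‖ ≤ ρ → a * u ∈ V := by
  have h1 : Filter.Tendsto (fun p : M.NN × M.NN => p.1 * p.2) (𝓝 ((1 : M.NN), (1 : M.NN)))
      (𝓝 (1 : M.NN)) := by
    have : Continuous fun p : M.NN × M.NN => p.1 * p.2 := by fun_prop
    simpa using this.tendsto ((1 : M.NN), (1 : M.NN))
  have h2 := h1 hV1
  rw [Filter.mem_map, nhds_prod_eq, Filter.mem_prod_iff] at h2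
  obtain ⟨t1, ht1, t2, ht2, h3⟩ := h2
  rw [M.one_def, Metric.mem_nhds_iff] at ht1 ht2
  obtain ⟨e1, he1, h4⟩ := ht1
  obtain ⟨e2, he2, h5⟩ := ht2
  refine ⟨min e1 e2 / 2, by positivity, fun a u ha hu => ?_⟩
  have h6 : 0 < min e1 e2 := lt_min he1 he2
  have ha' : a ∈ t1 := h4 (by
    rw [Metric.mem_ball, dist_zero_right]
    have := min_le_left e1 e2
    linarith)
  have hu' : u ∈ t2 := h5 (by
    rw [Metric.mem_ball, dist_zero_right]
    have := min_le_right e1 e2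
    linarith)
  exact h3 (Set.mk_mem_prod ha' hu')

theorem exists_bound (ρ : ℝ) : ∃ ρ' : ℝ, ∀ a b : M.NN, ‖a‖ ≤ ρ → ‖b‖ ≤ ρ → ‖a⁻¹ * b‖ ≤ ρ' := by
  have hK : IsCompact (Metric.closedBall (0 : M.NN) ρ ×ˢ Metric.closedBall (0 : M.NN) ρ) :=
    (isCompact_closedBall _ _).prod (isCompact_closedBall _ _)
  have hc : Continuous fun p : M.NN × M.NN => p.1⁻¹ * p.2 := by fun_prop
  obtain ⟨C, hC⟩ := (hK.image hc).isBounded.exists_norm_le
  refine ⟨C, fun a b ha hb => hC _ ⟨(a, b), ⟨?_, ?_⟩, rfl⟩⟩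
  · simpa using ha
  · simpa using hb


end Crest.Agent.R182.Gen
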