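/-
R182, block GEN (helper480): (W1) comparison of the box of a touching tuple of words with the box of
the scaled basis; short words move inside the box.
-/
import Mathlib
import Crest.Agent.R182.BoxReach
import Crest.Agent.R182.GenMain

set_option autoImplicit false
set_option linter.unusedSectionVars false

namespace Crest.Agent.R182.Gen

open Crest.Agent.R182.Nb Finset

section filtered

variable {L : Type*} [LieRing L] [LieAlgebra ℝ L] {σ : Type*} [Fintype σ]

/-- filtered boxes: only monomials of length `≥ s` -/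
def Fb (c s : ℕ) (u : σ → L) (t : ℝ) : Set L :=
  {x | ∃ a : List σ → ℝ, (∀ κ, |a κ| ≤ t) ∧
    x = ∑ κ ∈ (KL σ c).filter (fun κ => s ≤ κ.length), a κ • mon u κ}

variable {c s s' : ℕ} {u v : σ → L} {t t' : ℝ} {x y : L}

theorem Fb_mono (h : t ≤ t') : Fb c s u t ⊆ Fb c s u t' := by
  rintro x ⟨a, ha, rfl⟩
  exact ⟨a, fun κ => (ha κ).trans h, rfl⟩

theorem Fb_zero_mem (ht : 0 ≤ t) : (0 : L) ∈ Fb c s u t :=
  ⟨fun _ => 0, fun _ => by simpa using ht, by simp⟩

theorem Fb_add (hx : x ∈ Fb c s u t) (hy : y ∈ Fb c s u t') : x + y ∈ Fb c s u (t + t') := by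
  obtain ⟨a, ha, rfl⟩ := hx
  obtain ⟨b, hb, rfl⟩ := hy
  refine ⟨fun κ => a κ + b κ, fun κ => (abs_add_le _ _).trans (add_le_add (ha κ) (hb κ)), ?_⟩
  rw [← Finset.sum_add_distrib]
  exact Finset.sum_congr rfl fun κ _ => (add_smul _ _ _).symm

theorem Fb_smul (hx : x ∈ Fb c s u t) (r : ℝ) : r • x ∈ Fb c s u (|r| * t) := by
  obtain ⟨a, ha, rfl⟩ := hx
  refine ⟨fun κ => r * a κ, fun κ => ?_, ?_⟩
  · rw [abs_mul]; exact mul_le_mul_of_nonneg_left (ha κ) (abs_nonneg r)
  · rw [Finset.smul_sum]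
    exact Finset.sum_congr rfl fun κ _ => smul_smul _ _ _

theorem Fb_neg (hx : x ∈ Fb c s u t) : -x ∈ Fb c s u t := by
  have := Fb_smul hx (-1)
  simpa using this

theorem Fb_sum {ι : Type*} (S : Finset ι) (f : ι → L) (r : ι → ℝ)
    (h : ∀ i ∈ S, f i ∈ Fb c s u (r i)) : ∑ i ∈ S, f i ∈ Fb c s u (∑ i ∈ S, r i) := by
  classical
  induction S using Finset.induction_on with
  | empty => simpa using Fb_zero_mem (le_refl (0:ℝ))
  | insert a S ha ih =>
    rw [Finset.sum_insert ha, Finset.sum_insert ha]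
    exact Fb_add (h a (Finset.mem_insert_self a S))
      (ih fun i hi => h i (Finset.mem_insert_of_mem hi))

theorem mon_mem_Fb (hN : Nil c u) (κ : List σ) (hs : s ≤ κ.length) : mon u κ ∈ Fb c s u 1 := by
  classical
  by_cases hκ : κ.length ≤ c
  · refine ⟨fun κ' => if κ' = κ then 1 else 0, fun κ' => ?_, ?_⟩
    · beta_reduce; split_ifs <;> simp
    · rw [Finset.sum_eq_single κ]
      · simp
      · intro κ' _ h; simp [h]
      · intro h; exact absurd (Finset.mem_filter.2 ⟨mem_KL.2 hκ, hs⟩) h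
  · rw [hN κ (by omega)]; exact Fb_zero_mem zero_le_one


/-- the number of monomials -/
noncomputable def cd (σ : Type*) [Fintype σ] (c : ℕ) : ℝ := (KL σ c).card + 1

theorem one_le_cd : 1 ≤ cd σ c := by unfold cd; simp

theorem card_filter_le : (((KL σ c).filter (fun κ => s ≤ κ.length)).card : ℝ) ≤ cd σ c := by
  unfold cd
  have : ((KL σ c).filter (fun κ => s ≤ κ.length)).card ≤ (KL σ c).card :=
    Finset.card_filter_le _ _
  have h2 : (((KL σ c).filter (fun κ => s ≤ κ.length)).card : ℝ) ≤ (KL σ c).card := by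
    exact_mod_cast this
  linarith

theorem Fb_sum_le (ht : 0 ≤ t) (f : List σ → L) (s₀ : ℕ)
    (h : ∀ κ ∈ (KL σ c).filter (fun κ => s₀ ≤ κ.length), f κ ∈ Fb c s u t) :
    ∑ κ ∈ (KL σ c).filter (fun κ => s₀ ≤ κ.length), f κ ∈ Fb c s u (cd σ c * t) := by
  refine Fb_mono ?_ (Fb_sum _ _ (fun _ => t) h)
  rw [Finset.sum_const, nsmul_eq_mul]
  exact mul_le_mul_of_nonneg_right card_filter_le ht

theorem ad_mem_Fb (hN : Nil c u) (hs : 1 ≤ s) (ht : 0 ≤ t) (i : σ) (hx : x ∈ Fb c s u t) :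
    ⁅u i, x⁆ ∈ Fb c (s + 1) u (cd σ c * t) := by
  obtain ⟨a, ha, rfl⟩ := hx
  rw [lie_sum]
  refine Fb_sum_le ht _ s fun κ hκ => ?_
  rw [Finset.mem_filter] at hκ
  have hne : κ ≠ [] := by rintro rfl; simp at hκ; omega
  rw [lie_smul, ← mon_cons u i hne]
  refine Fb_mono ?_ (Fb_smul (mon_mem_Fb hN (i :: κ) (by simpa using hκ.2)) (a κ))
  rw [mul_one]; exact ha κ

theorem mon_lie_mon_mem (hN : Nil c u) (κ : List σ) : ∀ κ' : List σ,
    ⁅mon u κ, mon u κ'⁆ ∈ Fb c (κ.length + κ'.length) u ((2 * cd σ c) ^ κ.length) := by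
  have hcd := one_le_cd (σ := σ) (c := c)
  induction κ with
  | nil =>
    intro κ'
    rw [mon_nil, zero_lie]
    exact Fb_zero_mem (by positivity)
  | cons i κ ih =>
    intro κ'
    by_cases hκ' : κ' = []
    · subst hκ'
      rw [mon_nil, lie_zero]
      exact Fb_zero_mem (by positivity)
    have hl' : 1 ≤ κ'.length := by
      rcases κ' with _ | ⟨_, _⟩
      · exact absurd rfl hκ'
      · simp
    by_cases hκ : κ = []
    · subst hκ
      rw [mon_single, ← mon_cons u i hκ']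
      refine Fb_mono ?_ (mon_mem_Fb hN (i :: κ') (by simp; omega))
      simp; linarith
    · rw [mon_cons u i hκ, lie_lie]
      have h1 := ad_mem_Fb hN (by omega) (by positivity) i (ih κ')
      have h2 := ih (i :: κ')
      rw [mon_cons u i hκ'] at h2
      rw [sub_eq_add_neg]
      have e1 : (i :: κ).length + κ'.length = κ.length + κ'.length + 1 := by simp; omega
      have e2 : κ.length + (i :: κ').length = κ.length + κ'.length + 1 := by simp; omega
      rw [e2] at h2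
      rw [e1]
      refine Fb_mono ?_ (Fb_add h1 (Fb_neg h2))
      rw [List.length_cons, pow_succ]
      have : (0:ℝ) ≤ (2 * cd σ c) ^ κ.length := by positivity
      nlinarith

/-- the bracket constant of filtered boxes -/
noncomputable def fC (σ : Type*) [Fintype σ] (c : ℕ) : ℝ := cd σ c ^ 2 * (2 * cd σ c) ^ c

theorem one_le_fC : 1 ≤ fC σ c := by
  have h := one_le_cd (σ := σ) (c := c)
  unfold fC
  have h1 : 1 ≤ cd σ c ^ 2 := one_le_pow₀ h
  have h2 : 1 ≤ (2 * cd σ c) ^ c := one_le_pow₀ (by linarith)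
  nlinarith

theorem lie_mem_Fb (hN : Nil c u) (ht : 0 ≤ t) (ht' : 0 ≤ t') (hx : x ∈ Fb c s u t)
    (hy : y ∈ Fb c s' u t') : ⁅x, y⁆ ∈ Fb c (s + s') u (fC σ c * t * t') := by
  have hcd := one_le_cd (σ := σ) (c := c)
  obtain ⟨a, ha, rfl⟩ := hx
  obtain ⟨b, hb, rfl⟩ := hy
  rw [sum_lie]
  have e : fC σ c * t * t' = cd σ c * (cd σ c * ((2 * cd σ c) ^ c * t * t')) := by
    unfold fC; ring
  rw [e]
  refine Fb_sum_le (by positivity) _ s fun κ hκ => ?_
  rw [lie_sum]
  refine Fb_sum_le (by positivity) _ s' fun κ' hκ' => ?_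
  rw [Finset.mem_filter, mem_KL] at hκ hκ'
  rw [smul_lie, lie_smul, smul_smul]
  have h1 := mon_lie_mon_mem hN κ κ'
  have h2 : ⁅mon u κ, mon u κ'⁆ ∈ Fb c (s + s') u ((2 * cd σ c) ^ c) := by
    obtain ⟨a', ha', h3⟩ := h1
    classical
    refine ⟨fun κ₁ => if κ.length + κ'.length ≤ κ₁.length then a' κ₁ else 0, fun κ₁ => ?_, ?_⟩
    · beta_reduce
      split_ifs
      · exact (ha' κ₁).trans (pow_le_pow_right₀ (by linarith) hκ.1)
      · simp; positivity
    · rw [h3, Finset.sum_filter, Finset.sum_filter]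
      refine Finset.sum_congr rfl fun κ₁ _ => ?_
      by_cases h4 : κ.length + κ'.length ≤ κ₁.length
      · have h5 : s + s' ≤ κ₁.length := by omega
        simp [h4, h5]
      · simp [h4]
  refine Fb_mono ?_ (Fb_smul h2 (a κ * b κ'))
  rw [abs_mul]
  have h3 := ha κ
  have h4 := hb κ'
  calc |a κ| * |b κ'| * (2 * cd σ c) ^ c ≤ t * t' * (2 * cd σ c) ^ c := by gcongr
    _ = _ := by ring

theorem Fb_anti (ht : 0 ≤ t) (h : s ≤ s') : Fb c s' u t ⊆ Fb c s u t := by
  classical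
  rintro x ⟨a, ha, rfl⟩
  refine ⟨fun κ => if s' ≤ κ.length then a κ else 0, fun κ => ?_, ?_⟩
  · beta_reduce
    split_ifs
    · exact ha κ
    · simpa using ht
  · rw [Finset.sum_filter, Finset.sum_filter]
    refine Finset.sum_congr rfl fun κ _ => ?_
    by_cases h4 : s' ≤ κ.length
    · simp [h4, h.trans h4]
    · simp [h4]

/-- constants are absorbed by powers -/
theorem exists_pow_ge (K : ℝ) : ∃ m : ℕ, ∀ P : ℝ, 2 ≤ P → K ≤ P ^ m := by
  obtain ⟨m, hm⟩ := pow_unbounded_of_one_lt K (one_lt_two)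
  exact ⟨m, fun P hP => hm.le.trans (pow_le_pow_left₀ (by norm_num) hP m)⟩

theorem mon_sub_mem {P : ℝ} (hP : 1 ≤ P) {u f : σ → L} (hN : Nil c u)
    (hf : ∀ i, u i - f i ∈ Fb c 2 u P) (κ : List σ) (hκ : κ ≠ []) :
    mon f κ ∈ Fb c κ.length u ((4 * fC σ c * P) ^ κ.length) ∧
      mon u κ - mon f κ ∈ Fb c (κ.length + 1) u ((4 * fC σ c * P) ^ κ.length) := by
  have hfC := one_le_fC (σ := σ) (c := c)
  have h0 : (1:ℝ) ≤ 4 * fC σ c * P := by nlinarith
  have hP0 : 0 ≤ P := by linarith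
  have hu : ∀ i, u i ∈ Fb c 1 u 1 := fun i => by
    have := mon_mem_Fb (s := 1) hN [i] (by simp)
    simpa using this
  have hfi : ∀ i, f i ∈ Fb c 1 u (2 * P) := fun i => by
    have h1 := Fb_add (hu i) (Fb_neg (Fb_anti hP0 (by norm_num) (hf i)))
    have h2 : u i + -(u i - f i) = f i := by abel
    rw [h2] at h1
    exact Fb_mono (by linarith) h1
  induction κ with
  | nil => exact absurd rfl hκ
  | cons i κ ih =>
    by_cases hκ' : κ = []
    · subst hκ'
      simp only [List.length_cons, List.length_nil, zero_add, pow_one, mon_single]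
      refine ⟨Fb_mono ?_ (hfi i), Fb_mono ?_ (hf i)⟩
      · nlinarith
      · nlinarith
    · obtain ⟨h1, h2⟩ := ih hκ'
      have hD : (1:ℝ) ≤ (4 * fC σ c * P) ^ κ.length := one_le_pow₀ h0
      rw [mon_cons f i hκ', mon_cons u i hκ', List.length_cons]
      refine ⟨?_, ?_⟩
      · have h3 := lie_mem_Fb hN (by positivity) (by positivity) (hfi i) h1
        rw [add_comm 1] at h3
        refine Fb_mono ?_ h3
        rw [pow_succ]
        have : 0 ≤ fC σ c * P * (4 * fC σ c * P) ^ κ.length := by positivity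
        nlinarith
      · have e : ⁅u i, mon u κ⁆ - ⁅f i, mon f κ⁆ =
            ⁅u i - f i, mon u κ⁆ + ⁅f i, mon u κ - mon f κ⁆ := by
          rw [sub_lie, lie_sub]; abel
        rw [e]
        have h3 := lie_mem_Fb hN hP0 zero_le_one (hf i) (mon_mem_Fb hN κ le_rfl)
        have h4 := lie_mem_Fb hN (by positivity) (by positivity) (hfi i) h2
        have e1 : 2 + κ.length = κ.length + 1 + 1 := by omega
        have e2 : 1 + (κ.length + 1) = κ.length + 1 + 1 := by omega
        rw [e1] at h3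
        rw [e2] at h4
        refine Fb_mono ?_ (Fb_add h3 h4)
        rw [pow_succ]
        have h5 : 0 ≤ fC σ c * P := by positivity
        nlinarith [mul_le_mul_of_nonneg_left hD h5]

/-- **Lemma X**: if the family `u` is described by the family `v` modulo longer monomials of `u`,
then it is described by `v`, with polynomial bounds. -/
theorem exists_absorb (L : Type*) [LieRing L] [LieAlgebra ℝ L] (σ : Type*) [Fintype σ] (c : ℕ) :
    ∃ A : ℕ, ∀ P : ℝ, 2 ≤ P → ∀ u v : σ → L, Nil c u → Nil c v →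
      (∀ i, ∃ f ∈ Bx c v P, u i - f ∈ Fb c 2 u P) → ∀ i, u i ∈ Bx c v (P ^ A) := by
  have key : ∀ j : ℕ, j ≤ c → ∃ A : ℕ, ∀ P : ℝ, 2 ≤ P → ∀ u v : σ → L, Nil c u → Nil c v →
      (∀ i, ∃ f ∈ Bx c v P, u i - f ∈ Fb c 2 u P) → Fb c (c + 1 - j) u 1 ⊆ Bx c v (P ^ A) := by
    intro j
    induction j with
    | zero =>
      intro _
      refine ⟨0, fun P hP u v hu hv h x hx => ?_⟩
      obtain ⟨a, ha, rfl⟩ := hx
      have : (KL σ c).filter (fun κ => c + 1 - 0 ≤ κ.length) = ∅ := by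
        rw [Finset.filter_eq_empty_iff]
        intro κ hκ
        have := mem_KL.1 hκ
        omega
      rw [this, Finset.sum_empty]
      exact Bx_zero_mem (by simp)
    | succ j ih =>
      intro hj
      obtain ⟨A, hA⟩ := ih (by omega)
      have hb := brC_pos σ c
      have hfC := one_le_fC (σ := σ) (c := c)
      have hcd := one_le_cd (σ := σ) (c := c)
      obtain ⟨m, hm⟩ := exists_pow_ge (cd σ c * (brC σ c ^ c + (4 * fC σ c) ^ c))
      refine ⟨m + (c + A), fun P hP u v hu hv h x hx => ?_⟩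
      choose f hf1 hf2 using h
      have hP1 : 1 ≤ P := by linarith
      have hP0 : 0 ≤ P := by linarith
      obtain ⟨a, ha, rfl⟩ := hx
      set s := c + 1 - (j + 1) with hs
      have hs1 : 1 ≤ s := by omega
      have hs2 : s + 1 = c + 1 - j := by omega
      have hterm : ∀ κ ∈ (KL σ c).filter (fun κ => s ≤ κ.length), a κ • mon u κ ∈
          Bx c v ((brC σ c ^ c + (4 * fC σ c) ^ c) * P ^ (c + A)) := by
        intro κ hκ
        rw [Finset.mem_filter, mem_KL] at hκ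
        have hne : κ ≠ [] := by rintro rfl; simp at hκ; omega
        obtain ⟨-, h2⟩ := mon_sub_mem hP1 hu hf2 κ hne
        have h3 : mon f κ ∈ Bx c v (brC σ c ^ c * P ^ c) := by
          have := mon_comp_mem hv (t := fun _ => P) (fun _ => hP0) hf1 κ
          refine Bx_mono ?_ this
          have e : (κ.map fun _ => P).prod = P ^ κ.length := by simp
          rw [e]
          have h4 : brC σ c ^ κ.length ≤ brC σ c ^ c := pow_le_pow_right₀ hb hκ.1
          have h5 : P ^ κ.length ≤ P ^ c := pow_le_pow_right₀ hP1 hκ.1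
          gcongr
        set K : ℝ := (4 * fC σ c * P) ^ c with hK
        have hK1 : 1 ≤ K := one_le_pow₀ (by nlinarith)
        have h4 : mon u κ - mon f κ ∈ Bx c v (K * P ^ A) := by
          have h5 : mon u κ - mon f κ ∈ Fb c (c + 1 - j) u K := by
            rw [← hs2]
            refine Fb_anti (by linarith) (by omega) (Fb_mono ?_ h2)
            exact pow_le_pow_right₀ (by nlinarith) hκ.1
          have h6 := Fb_smul h5 K⁻¹
          rw [abs_of_nonneg (by positivity), inv_mul_cancel₀ (by positivity)] at h6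
          have h7 := hA P hP u v hu hv (fun i => ⟨f i, hf1 i, hf2 i⟩) h6
          have h8 := Bx_smul h7 K
          rw [smul_smul, mul_inv_cancel₀ (by positivity), one_smul, abs_of_nonneg (by positivity)]
            at h8
          exact h8
        have h5 : mon u κ = mon f κ + (mon u κ - mon f κ) := by abel
        rw [h5]
        refine Bx_mono ?_ (Bx_smul (Bx_add h3 h4) (a κ))
        have h6 := ha κ
        have e1 : K = (4 * fC σ c) ^ c * P ^ c := by rw [hK, mul_pow]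
        have hPA : (1:ℝ) ≤ P ^ A := one_le_pow₀ hP1
        have h7 : brC σ c ^ c * P ^ c ≤ brC σ c ^ c * P ^ c * P ^ A :=
          le_mul_of_one_le_right (by positivity) hPA
        calc |a κ| * (brC σ c ^ c * P ^ c + K * P ^ A)
            ≤ 1 * (brC σ c ^ c * P ^ c + K * P ^ A) := by gcongr
          _ ≤ brC σ c ^ c * P ^ c * P ^ A + K * P ^ A := by linarith
          _ = _ := by rw [e1, pow_add]; ring
      have hsum := Bx_sum _ _ (fun _ => (brC σ c ^ c + (4 * fC σ c) ^ c) * P ^ (c + A)) hterm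
      refine Bx_mono ?_ hsum
      rw [Finset.sum_const, nsmul_eq_mul]
      calc (((KL σ c).filter (fun κ => s ≤ κ.length)).card : ℝ) *
            ((brC σ c ^ c + (4 * fC σ c) ^ c) * P ^ (c + A))
          ≤ cd σ c * ((brC σ c ^ c + (4 * fC σ c) ^ c) * P ^ (c + A)) := by
            gcongr
            exact card_filter_le
        _ = (cd σ c * (brC σ c ^ c + (4 * fC σ c) ^ c)) * P ^ (c + A) := by ring
        _ ≤ P ^ m * P ^ (c + A) := by
            gcongr
            exact hm P hP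
        _ = P ^ (m + (c + A)) := (pow_add _ _ _).symm
  by_cases hc : c = 0
  · refine ⟨0, fun P _ u v hu _ _ i => ?_⟩
    have := hu [i] (by simp [hc])
    rw [mon_single] at this
    rw [this]; exact Bx_zero_mem (by simp)
  · obtain ⟨A, hA⟩ := key c le_rfl
    refine ⟨A, fun P hP u v hu hv h i => hA P hP u v hu hv h ?_⟩
    have e : c + 1 - c = 1 := by omega
    rw [e]
    have := mon_mem_Fb (s := 1) hu [i] (by simp)
    simpa using this

end filtered

section model

open Crest.Agent.R182.Core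

variable {Γ : Type*} [Group Γ] {k : ℕ} {S : Set Γ} {π : Γ →* Multiplicative (Fin k → ℤ)}
  (M : BModel S π)

/-- sharp form of `bas_mem` -/
theorem exp_bas_mem : ∃ A : ℝ, 0 ≤ A ∧ ∀ (i : Fin M.r) (Z : GI M → ℝ) (a : ℝ),
    (∀ κ : List (GI M), (κ.map (wg M)).sum = M.wt i → a ≤ (κ.map Z).sum) →
      Real.exp a • M.bas i ∈ Bx M.c (gZ (eg M) Z) A := by
  have key : ∀ i : Fin M.r, ∃ A : ℝ, 0 ≤ A ∧ ∀ (Z : GI M → ℝ) (a : ℝ),
      (∀ κ : List (GI M), (κ.map (wg M)).sum = M.wt i → a ≤ (κ.map Z).sum) →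
        Real.exp a • M.bas i ∈ Bx M.c (gZ (eg M) Z) A := by
    intro i
    have h := M.monSpan i
    generalize M.bas i = x at h
    induction h using Submodule.span_induction with
    | mem x hx =>
      obtain ⟨κ, hκ, rfl⟩ := hx
      refine ⟨1, zero_le_one, fun Z a hZ => ?_⟩
      have h1 : Real.exp a • mon (eg M) κ =
          Real.exp (a - (κ.map Z).sum) • mon (gZ (eg M) Z) κ := by
        rw [mon_gZ, smul_smul, ← Real.exp_add]; congr 2; ring
      rw [h1]
      have h2 := hZ κ hκ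
      have h3 := Bx_smul (mon_mem_Bx ((M.nilC.nil (eg M)).gZ Z) κ)
        (Real.exp (a - (κ.map Z).sum))
      refine Bx_mono ?_ h3
      rw [abs_of_pos (Real.exp_pos _), mul_one]
      exact Real.exp_le_one_iff.2 (by linarith)
    | zero => exact ⟨0, le_rfl, fun Z u _ => by rw [smul_zero]; exact Bx_zero_mem le_rfl⟩
    | add x y _ _ hx hy =>
      obtain ⟨A, hA, h1⟩ := hx
      obtain ⟨B, hB, h2⟩ := hy
      exact ⟨A + B, add_nonneg hA hB, fun Z u hZ => by
        rw [smul_add]; exact Bx_add (h1 Z u hZ) (h2 Z u hZ)⟩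
    | smul a x _ hx =>
      obtain ⟨A, hA, h1⟩ := hx
      exact ⟨|a| * A, by positivity, fun Z u hZ => by
        rw [smul_comm]; exact Bx_smul (h1 Z u hZ) a⟩
  choose A hA h using key
  refine ⟨∑ i, A i, Finset.sum_nonneg fun i _ => hA i, fun i Z u hZ => ?_⟩
  exact Bx_mono (Finset.single_le_sum (f := A) (fun j _ => hA j) (Finset.mem_univ i)) (h i Z u hZ)

/-- projection onto the non-generating coordinates -/
noncomputable def npr : M.L →ₗ[ℝ] M.L :=
  M.bas.constr ℝ fun i => by classical exact if i ∈ M.gen then 0 else M.bas i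

theorem npr_apply (x : M.L) :
    npr M x = ∑ i, M.bas.repr x i • (by classical exact if i ∈ M.gen then 0 else M.bas i) := by
  rw [npr, Module.Basis.constr_apply_fintype]
  rfl

theorem npr_of {x : M.L} (h : ∀ i ∈ M.gen, M.bas.repr x i = 0) : npr M x = x := by
  classical
  rw [npr_apply]
  conv_rhs => rw [← M.bas.sum_repr x]
  refine Finset.sum_congr rfl fun i _ => ?_
  by_cases hi : i ∈ M.gen
  · rw [h i hi, zero_smul, zero_smul]
  · rw [if_neg hi]

theorem npr_bas {i : Fin M.r} (h : i ∈ M.gen) : npr M (M.bas i) = 0 := by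
  classical
  rw [npr, Module.Basis.constr_basis, if_pos h]

/-- the non-generating basis vectors are combinations of monomials of length `≥ 2` -/
theorem monSpan2 {i : Fin M.r} (hi : i ∉ M.gen) :
    M.bas i ∈ Submodule.span ℝ {x : M.L | ∃ κ : List (GI M), 2 ≤ κ.length ∧
      (κ.map (wg M)).sum = M.wt i ∧ x = mon (eg M) κ} := by
  classical
  have h2 : npr M (M.bas i) = M.bas i := by
    rw [npr, Module.Basis.constr_basis, if_neg hi]
  have h3 : ∀ x ∈ Submodule.span ℝ {x : M.L | ∃ κ : List (GI M), (κ.map (wg M)).sum = M.wt i ∧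
        x = mon (eg M) κ}, npr M x ∈ Submodule.span ℝ {x : M.L | ∃ κ : List (GI M),
        2 ≤ κ.length ∧ (κ.map (wg M)).sum = M.wt i ∧ x = mon (eg M) κ} := by
    intro x hx
    induction hx using Submodule.span_induction with
    | mem x hx =>
      obtain ⟨κ, hκ, rfl⟩ := hx
      rcases κ with _ | ⟨j, κ⟩
      · rw [mon_nil, map_zero]; exact Submodule.zero_mem _
      · by_cases hne : κ = []
        · subst hne
          rw [mon_single]
          have : npr M (eg M j) = 0 := npr_bas M j.2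
          rw [this]; exact Submodule.zero_mem _
        · rw [npr_of]
          · refine Submodule.subset_span ⟨j :: κ, ?_, hκ, rfl⟩
            rcases κ with _ | ⟨_, _⟩
            · exact absurd rfl hne
            · simp
          · intro l hl
            rw [mon_cons _ j hne]
            exact M.lie_gen _ _ l hl
    | zero => rw [map_zero]; exact Submodule.zero_mem _
    | add x y _ _ hx hy => rw [map_add]; exact Submodule.add_mem _ hx hy
    | smul a x _ hx => rw [map_smul]; exact Submodule.smul_mem _ _ hx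
  have h4 := h3 _ (M.monSpan i)
  rwa [h2] at h4

theorem exp_bas_mem2 : ∃ A : ℝ, 0 ≤ A ∧ ∀ (i : Fin M.r), i ∉ M.gen → ∀ (Z : GI M → ℝ) (a : ℝ),
    (∀ κ : List (GI M), (κ.map (wg M)).sum = M.wt i → a ≤ (κ.map Z).sum) →
      Real.exp a • M.bas i ∈ Fb M.c 2 (gZ (eg M) Z) A := by
  have key : ∀ i : Fin M.r, ∃ A : ℝ, 0 ≤ A ∧ (i ∉ M.gen → ∀ (Z : GI M → ℝ) (a : ℝ),
      (∀ κ : List (GI M), (κ.map (wg M)).sum = M.wt i → a ≤ (κ.map Z).sum) →
        Real.exp a • M.bas i ∈ Fb M.c 2 (gZ (eg M) Z) A) := by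
    intro i
    by_cases hi : i ∈ M.gen
    · exact ⟨0, le_rfl, fun h => absurd hi h⟩
    have h := monSpan2 M hi
    suffices h' : ∃ A : ℝ, 0 ≤ A ∧ (∀ (Z : GI M → ℝ) (a : ℝ),
        (∀ κ : List (GI M), (κ.map (wg M)).sum = M.wt i → a ≤ (κ.map Z).sum) →
          Real.exp a • M.bas i ∈ Fb M.c 2 (gZ (eg M) Z) A) by
      obtain ⟨A, hA, h1⟩ := h'
      exact ⟨A, hA, fun _ => h1⟩
    generalize M.bas i = x at h
    induction h using Submodule.span_induction with
    | mem x hx =>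
      obtain ⟨κ, hκ2, hκ, rfl⟩ := hx
      refine ⟨1, zero_le_one, fun Z a hZ => ?_⟩
      have h1 : Real.exp a • mon (eg M) κ =
          Real.exp (a - (κ.map Z).sum) • mon (gZ (eg M) Z) κ := by
        rw [mon_gZ, smul_smul, ← Real.exp_add]; congr 2; ring
      rw [h1]
      have h2 := hZ κ hκ
      have h3 := Fb_smul (mon_mem_Fb ((M.nilC.nil (eg M)).gZ Z) κ hκ2)
        (Real.exp (a - (κ.map Z).sum))
      refine Fb_mono ?_ h3
      rw [abs_of_pos (Real.exp_pos _), mul_one]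
      exact Real.exp_le_one_iff.2 (by linarith)
    | zero => exact ⟨0, le_rfl, fun Z u _ => by rw [smul_zero]; exact Fb_zero_mem le_rfl⟩
    | add x y _ _ hx hy =>
      obtain ⟨A, hA, h1⟩ := hx
      obtain ⟨B, hB, h2⟩ := hy
      exact ⟨A + B, add_nonneg hA hB, fun Z u hZ => by
        rw [smul_add]; exact Fb_add (h1 Z u hZ) (h2 Z u hZ)⟩
    | smul a x _ hx =>
      obtain ⟨A, hA, h1⟩ := hx
      exact ⟨|a| * A, by positivity, fun Z u hZ => by
        rw [smul_comm]; exact Fb_smul (h1 Z u hZ) a⟩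
  choose A hA h using key
  refine ⟨∑ i, A i, Finset.sum_nonneg fun i _ => hA i, fun i hi Z u hZ => ?_⟩
  exact Fb_mono (Finset.single_le_sum (f := A) (fun j _ => hA j) (Finset.mem_univ i))
    (h i hi Z u hZ)

/-- the image of a basis vector under a vertical word -/
theorem ad_bas_mem (R : ℝ) : ∃ A : ℝ, 1 ≤ A ∧ ∀ l : List M.G,
    (∀ s ∈ l, s ∈ M.C ∧ M.len s ≤ R) → ∀ (j : Fin M.r) (Z : GI M → ℝ) (μ : ℝ),
      (∀ κ : List (GI M), (κ.map (wg M)).sum = M.wt j →
        M.wt j (M.h l.prod) + μ ≤ (κ.map Z).sum) →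
      M.Ad l.prod (M.bas j) ∈ Bx M.c (gZ (eg M) Z)
        (A * (1 + l.length) ^ M.d * Real.exp (-μ)) := by
  obtain ⟨A₀, hA₀, h0⟩ := exp_bas_mem M
  obtain ⟨A₁, h1⟩ := M.Ad_C_le R
  refine ⟨(M.r : ℝ) * (|A₁| * A₀) + 1, by
    have : 0 ≤ (M.r : ℝ) * (|A₁| * A₀) := by positivity
    linarith, fun l hl j Z μ hZ => ?_⟩
  have hn : (1:ℝ) ≤ (1 + (l.length : ℝ)) ^ M.d :=
    one_le_pow₀ (by linarith [Nat.cast_nonneg (α := ℝ) l.length])
  have hC : l.prod ∈ M.C := Subgroup.list_prod_mem _ fun s hs => (hl s hs).1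
  set a : ℝ := M.wt j (M.h l.prod) with ha
  have h2 : M.Ad l.prod (M.bas j) = ∑ i, (M.bas.repr (M.Ad l.prod (M.bas j)) i *
      Real.exp (-(a + μ))) • (Real.exp (a + μ) • M.bas i) := by
    conv_lhs => rw [← M.bas.sum_repr (M.Ad l.prod (M.bas j))]
    refine Finset.sum_congr rfl fun i _ => ?_
    rw [smul_smul, mul_assoc, ← Real.exp_add, neg_add_cancel, Real.exp_zero, mul_one]
  rw [h2]
  have h3 : ∀ i ∈ (Finset.univ : Finset (Fin M.r)), (M.bas.repr (M.Ad l.prod (M.bas j)) i *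
      Real.exp (-(a + μ))) • (Real.exp (a + μ) • M.bas i) ∈
      Bx M.c (gZ (eg M) Z) ((|A₁| * A₀) * (1 + l.length) ^ M.d * Real.exp (-μ)) := by
    intro i _
    by_cases hz : M.bas.repr (M.Ad l.prod (M.bas j)) i = 0
    · rw [hz, zero_mul, zero_smul]; exact Bx_zero_mem (by positivity)
    have hw := M.Ad_C _ hC i j hz
    refine Bx_mono ?_ (Bx_smul (h0 i Z (a + μ) (by rw [hw]; exact hZ)) _)
    rw [abs_mul, abs_of_pos (Real.exp_pos _)]
    have h5 : |M.bas.repr (M.Ad l.prod (M.bas j)) i| ≤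
        |A₁| * (1 + l.length) ^ M.d * Real.exp a := by
      refine (h1 l hl i j).trans ?_
      rw [hw]
      gcongr
      exact le_abs_self _
    calc |M.bas.repr (M.Ad l.prod (M.bas j)) i| * Real.exp (-(a + μ)) * A₀
        ≤ (|A₁| * (1 + l.length) ^ M.d * Real.exp a) * Real.exp (-(a + μ)) * A₀ := by gcongr
      _ = (|A₁| * A₀) * (1 + l.length) ^ M.d * (Real.exp a * Real.exp (-(a + μ))) := by ring
      _ = _ := by rw [← Real.exp_add]; congr 2; ring
  refine Bx_mono ?_ (Bx_sum _ _ _ h3)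
  rw [Finset.sum_const, Finset.card_univ, Fintype.card_fin, nsmul_eq_mul]
  have : (M.r : ℝ) * ((|A₁| * A₀) * (1 + l.length) ^ M.d * Real.exp (-μ)) =
      (M.r : ℝ) * (|A₁| * A₀) * (1 + l.length) ^ M.d * Real.exp (-μ) := by ring
  rw [this, mul_assoc, mul_assoc ((M.r : ℝ) * (|A₁| * A₀) + 1)]
  gcongr
  linarith

theorem ad_gen_zero (g : M.G) {j i : Fin M.r} (hj : j ∉ M.gen) (hi : i ∈ M.gen) :
    M.bas.repr (M.Ad g (M.bas j)) i = 0 := by
  have h := M.gen_span j hj
  generalize M.bas j = x at h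
  induction h using Submodule.span_induction with
  | mem x hx =>
    obtain ⟨y, z, rfl⟩ := hx
    rw [M.Ad_lie]
    exact M.lie_gen _ _ i hi
  | zero => simp
  | add x y _ _ hx hy => rw [map_add, map_add, Finsupp.add_apply, hx, hy, add_zero]
  | smul a x _ hx => rw [map_smul, map_smul, Finsupp.smul_apply, hx, smul_zero]

/-- the image of a non-generating basis vector under a vertical word -/
theorem ad_bas_mem2 (R : ℝ) : ∃ A : ℝ, 1 ≤ A ∧ ∀ l : List M.G,
    (∀ s ∈ l, s ∈ M.C ∧ M.len s ≤ R) → ∀ j : Fin M.r, j ∉ M.gen → ∀ Z : GI M → ℝ,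
      (∀ κ : List (GI M), (κ.map (wg M)).sum = M.wt j →
        M.wt j (M.h l.prod) ≤ (κ.map Z).sum) →
      M.Ad l.prod (M.bas j) ∈ Fb M.c 2 (gZ (eg M) Z) (A * (1 + l.length) ^ M.d) := by
  obtain ⟨A₀, hA₀, h0⟩ := exp_bas_mem2 M
  obtain ⟨A₁, h1⟩ := M.Ad_C_le R
  refine ⟨(M.r : ℝ) * (|A₁| * A₀) + 1, by
    have : 0 ≤ (M.r : ℝ) * (|A₁| * A₀) := by positivity
    linarith, fun l hl j hj Z hZ => ?_⟩
  have hn : (1:ℝ) ≤ (1 + (l.length : ℝ)) ^ M.d :=
    one_le_pow₀ (by linarith [Nat.cast_nonneg (α := ℝ) l.length])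
  have hC : l.prod ∈ M.C := Subgroup.list_prod_mem _ fun s hs => (hl s hs).1
  set a : ℝ := M.wt j (M.h l.prod) with ha
  have h2 : M.Ad l.prod (M.bas j) = ∑ i, (M.bas.repr (M.Ad l.prod (M.bas j)) i *
      Real.exp (-a)) • (Real.exp a • M.bas i) := by
    conv_lhs => rw [← M.bas.sum_repr (M.Ad l.prod (M.bas j))]
    refine Finset.sum_congr rfl fun i _ => ?_
    rw [smul_smul, mul_assoc, ← Real.exp_add, neg_add_cancel, Real.exp_zero, mul_one]
  rw [h2]
  have h3 : ∀ i ∈ (Finset.univ : Finset (Fin M.r)), (M.bas.repr (M.Ad l.prod (M.bas j)) i *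
      Real.exp (-a)) • (Real.exp a • M.bas i) ∈
      Fb M.c 2 (gZ (eg M) Z) ((|A₁| * A₀) * (1 + l.length) ^ M.d) := by
    intro i _
    by_cases hz : M.bas.repr (M.Ad l.prod (M.bas j)) i = 0
    · rw [hz, zero_mul, zero_smul]; exact Fb_zero_mem (by positivity)
    have hig : i ∉ M.gen := fun h => hz (ad_gen_zero M _ hj h)
    have hw := M.Ad_C _ hC i j hz
    refine Fb_mono ?_ (Fb_smul (h0 i hig Z a (by rw [hw]; exact hZ)) _)
    rw [abs_mul, abs_of_pos (Real.exp_pos _)]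
    have h5 : |M.bas.repr (M.Ad l.prod (M.bas j)) i| ≤
        |A₁| * (1 + l.length) ^ M.d * Real.exp a := by
      refine (h1 l hl i j).trans ?_
      rw [hw]
      gcongr
      exact le_abs_self _
    calc |M.bas.repr (M.Ad l.prod (M.bas j)) i| * Real.exp (-a) * A₀
        ≤ (|A₁| * (1 + l.length) ^ M.d * Real.exp a) * Real.exp (-a) * A₀ := by gcongr
      _ = (|A₁| * A₀) * (1 + l.length) ^ M.d * (Real.exp a * Real.exp (-a)) := by ring
      _ = _ := by rw [← Real.exp_add, add_neg_cancel, Real.exp_zero, mul_one]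
  refine Fb_mono ?_ (Fb_sum _ _ _ h3)
  rw [Finset.sum_const, Finset.card_univ, Fintype.card_fin, nsmul_eq_mul]
  have : (M.r : ℝ) * ((|A₁| * A₀) * (1 + l.length) ^ M.d) =
      (M.r : ℝ) * (|A₁| * A₀) * (1 + l.length) ^ M.d := by ring
  rw [this]
  gcongr
  linarith

/-- `g` is a product of fewer than `P` elements of `C` of length `≤ R` -/
def CW (R P : ℝ) (g : M.G) : Prop :=
  ∃ l : List M.G, g = l.prod ∧ (∀ s ∈ l, s ∈ M.C ∧ M.len s ≤ R) ∧ 1 + (l.length : ℝ) ≤ P

theorem CW.inv {R P : ℝ} {g : M.G} (h : CW M R P g) : CW M R P g⁻¹ := by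
  obtain ⟨l, rfl, hl, hP⟩ := h
  refine ⟨(l.map fun x => x⁻¹).reverse, by rw [List.prod_inv_reverse], ?_, by simpa using hP⟩
  intro s hs
  rw [List.mem_reverse, List.mem_map] at hs
  obtain ⟨x, hx, rfl⟩ := hs
  exact ⟨M.C.inv_mem (hl x hx).1, by rw [M.isLen.inv]; exact (hl x hx).2⟩

theorem CW.mem {R P : ℝ} {g : M.G} (h : CW M R P g) : g ∈ M.C := by
  obtain ⟨l, rfl, hl, hP⟩ := h
  exact Subgroup.list_prod_mem _ fun s hs => (hl s hs).1

/-- the sides of a tuple of words -/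
noncomputable def sides {ρ : Type*} (ray : M.gen → ρ) (g : ρ → M.G) : GI M → ℝ :=
  fun j => wg M j (M.h (g (ray j)))

theorem sum_le_sides {ρ : Type*} {ray : M.gen → ρ} {g : ρ → M.G} {u : Fin k → ℝ}
    (h : ∀ j : GI M, wg M j u ≤ sides M ray g j) (κ : List (GI M)) :
    (κ.map (wg M)).sum u ≤ (κ.map (sides M ray g)).sum := by
  rw [M.sum_wt_apply]; exact sum_map_le h

/-- **(W1)** the box of a touching tuple of words and the box of the scaled basis. -/
theorem exists_W1 (R : ℝ) : ∃ A : ℕ, ∀ P : ℝ, 2 ≤ P → ∀ {ρ : Type} (ray : M.gen → ρ)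
    (g : ρ → M.G), (∀ r, CW M R P (g r)) →
    (∀ i j : M.gen, M.wt i = M.wt j → ray i = ray j) →
    (∀ r, ∀ j : GI M, wg M j (M.h (g r)) ≤ sides M ray g j) →
    (∀ i : GI M, fam M ray g i ∈ Bx M.c (gZ (eg M) (sides M ray g)) (P ^ A)) ∧
    ∀ i : GI M, gZ (eg M) (sides M ray g) i ∈ Bx M.c (fam M ray g) (P ^ A) := by
  obtain ⟨A₁, hA₁, h1⟩ := ad_bas_mem M R
  obtain ⟨A₂, hA₂, h2⟩ := ad_bas_mem2 M R
  obtain ⟨A₃, h3⟩ := M.Ad_C_le R
  obtain ⟨A₄, h4⟩ := exists_absorb M.L (GI M) M.c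
  obtain ⟨m, hm⟩ := exists_pow_ge (A₁ + (M.r : ℝ) * |A₃| * A₂ + (M.r : ℝ) * |A₃|)
  set D : ℕ := m + (M.d + M.d) + 1 with hD
  refine ⟨D * A₄ + D, fun P hP {ρ} ray g hg hray htouch => ?_⟩
  have hP1 : 1 ≤ P := by linarith
  have hP0 : 0 ≤ P := by linarith
  set Y := sides M ray g with hY
  have hsum : ∀ r (i : Fin M.r) (κ : List (GI M)), (κ.map (wg M)).sum = M.wt i →
      M.wt i (M.h (g r)) ≤ (κ.map Y).sum := by
    intro r i κ hκ
    rw [← hκ]
    exact sum_le_sides M (htouch r) κ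
  have hPA : ∀ x : ℝ, x ≤ A₁ + (M.r : ℝ) * |A₃| * A₂ + (M.r : ℝ) * |A₃| → 0 ≤ x →
      x * P ^ (M.d + M.d) ≤ P ^ D := by
    intro x hx hx0
    calc x * P ^ (M.d + M.d) ≤ P ^ m * P ^ (M.d + M.d) := by
          gcongr
          exact hx.trans (hm P hP)
      _ = P ^ (m + (M.d + M.d)) := (pow_add _ _ _).symm
      _ ≤ P ^ D := pow_le_pow_right₀ hP1 (by omega)
  have hPd : (1:ℝ) ≤ P ^ M.d := one_le_pow₀ hP1
  have hD1 : (1:ℝ) ≤ P ^ D := one_le_pow₀ hP1
  have hr0 : (0:ℝ) ≤ M.r := Nat.cast_nonneg _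
  -- (a)
  have ha : ∀ i : GI M, fam M ray g i ∈ Bx M.c (gZ (eg M) Y) (P ^ D) := by
    intro i
    obtain ⟨l, hl, hlC, hlP⟩ := hg (ray i)
    have h5 := h1 l hlC i Y 0 (fun κ hκ => by
      rw [add_zero, ← hl]; exact hsum (ray i) i κ hκ)
    rw [← hl, neg_zero, Real.exp_zero, mul_one] at h5
    refine Bx_mono ?_ h5
    calc A₁ * (1 + (l.length : ℝ)) ^ M.d ≤ A₁ * P ^ M.d := by gcongr
      _ ≤ A₁ * P ^ (M.d + M.d) :=
          mul_le_mul_of_nonneg_left (pow_le_pow_right₀ hP1 (by omega)) (by linarith)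
      _ ≤ P ^ D := hPA _ (by
          have : 0 ≤ (M.r : ℝ) * |A₃| * A₂ := by positivity
          have : 0 ≤ (M.r : ℝ) * |A₃| := by positivity
          linarith) (by linarith)
  -- (b)
  have hb : ∀ i : GI M, ∃ f ∈ Bx M.c (fam M ray g) (P ^ D),
      gZ (eg M) Y i - f ∈ Fb M.c 2 (gZ (eg M) Y) (P ^ D) := by
    intro i
    obtain ⟨l, hl, hlC, hlP⟩ := hg (ray i)
    obtain ⟨l', hl', hlC', hlP'⟩ := (hg (ray i)).inv
    set gi := g (ray i) with hgi
    set b : Fin M.r → ℝ := fun j => M.bas.repr (M.Ad gi⁻¹ (M.bas i)) j with hbdef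
    have hbw : ∀ j, b j ≠ 0 → M.wt j = M.wt i := fun j hj =>
      M.Ad_C _ (M.C.inv_mem (hg (ray i)).mem) j i hj
    have hble : ∀ j, b j ≠ 0 → |b j| * Real.exp (Y i) ≤ |A₃| * P ^ M.d := by
      intro j hj
      have h5 := h3 l' hlC' j i
      rw [← hl'] at h5
      have h6 : M.wt j (M.h gi⁻¹) = - Y i := by
        rw [hbw j hj, M.h_inv, map_neg]; rfl
      rw [h6] at h5
      calc |b j| * Real.exp (Y i)
          ≤ (A₃ * (1 + (l'.length : ℝ)) ^ M.d * Real.exp (-Y i)) * Real.exp (Y i) := by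
            gcongr
        _ = A₃ * (1 + (l'.length : ℝ)) ^ M.d := by
            rw [mul_assoc, ← Real.exp_add, neg_add_cancel, Real.exp_zero, mul_one]
        _ ≤ |A₃| * P ^ M.d := by
            gcongr
            exact le_abs_self _
    have hexp : gZ (eg M) Y i = ∑ j, (Real.exp (Y i) * b j) • M.Ad gi (M.bas j) := by
      have h5 : M.bas i = ∑ j, b j • M.Ad gi (M.bas j) := by
        have h6 : M.Ad gi (M.Ad gi⁻¹ (M.bas i)) = M.bas i := by
          rw [← LinearEquiv.mul_apply, ← map_mul, mul_inv_cancel, map_one]; rfl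
        conv_lhs => rw [← h6, ← M.bas.sum_repr (M.Ad gi⁻¹ (M.bas i)), map_sum]
        exact Finset.sum_congr rfl fun j _ => by rw [map_smul]
      change Real.exp (Y i) • M.bas i = _
      rw [h5, Finset.smul_sum]
      exact Finset.sum_congr rfl fun j _ => by rw [smul_smul]
    classical
    refine ⟨∑ j ∈ (Finset.univ.filter fun j => j ∈ M.gen),
      (Real.exp (Y i) * b j) • M.Ad gi (M.bas j), ?_, ?_⟩
    · have h5 : ∀ j ∈ (Finset.univ.filter fun j => j ∈ M.gen),
          (Real.exp (Y i) * b j) • M.Ad gi (M.bas j) ∈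
          Bx M.c (fam M ray g) (|A₃| * P ^ M.d) := by
        intro j hj
        have hjg : j ∈ M.gen := (Finset.mem_filter.1 hj).2
        by_cases hbj : b j = 0
        · rw [hbj, mul_zero, zero_smul]; exact Bx_zero_mem (by positivity)
        have h6 : ray ⟨j, hjg⟩ = ray i := hray ⟨j, hjg⟩ i (hbw j hbj)
        have h7 : M.Ad gi (M.bas j) = fam M ray g ⟨j, hjg⟩ := by
          rw [fam, h6]
        rw [h7]
        refine Bx_mono ?_ (Bx_smul (gen_mem_Bx (M.nilC.nil _) _) _)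
        rw [abs_mul, abs_of_pos (Real.exp_pos _), mul_one, mul_comm]
        exact hble j hbj
      refine Bx_mono ?_ (Bx_sum _ _ _ h5)
      rw [Finset.sum_const, nsmul_eq_mul]
      have hcard : (((Finset.univ.filter fun j => j ∈ M.gen).card : ℕ) : ℝ) ≤ M.r := by
        have : (Finset.univ.filter fun j : Fin M.r => j ∈ M.gen).card ≤ M.r :=
          (Finset.card_filter_le _ _).trans (by simp)
        exact_mod_cast this
      calc _ ≤ (M.r : ℝ) * (|A₃| * P ^ M.d) := by gcongr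
        _ = (M.r : ℝ) * |A₃| * P ^ M.d := by ring
        _ ≤ (M.r : ℝ) * |A₃| * P ^ (M.d + M.d) :=
            mul_le_mul_of_nonneg_left (pow_le_pow_right₀ hP1 (by omega)) (by positivity)
        _ ≤ P ^ D := hPA _ (by
            have : 0 ≤ (M.r : ℝ) * |A₃| * A₂ := by positivity
            linarith) (by positivity)
    · have h5 : gZ (eg M) Y i - ∑ j ∈ (Finset.univ.filter fun j => j ∈ M.gen),
          (Real.exp (Y i) * b j) • M.Ad gi (M.bas j) =
          ∑ j ∈ (Finset.univ.filter fun j => ¬ j ∈ M.gen),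
            (Real.exp (Y i) * b j) • M.Ad gi (M.bas j) := by
        rw [hexp, ← Finset.sum_filter_add_sum_filter_not Finset.univ (fun j => j ∈ M.gen)]
        abel
      rw [h5]
      have h6 : ∀ j ∈ (Finset.univ.filter fun j => ¬ j ∈ M.gen),
          (Real.exp (Y i) * b j) • M.Ad gi (M.bas j) ∈
          Fb M.c 2 (gZ (eg M) Y) (|A₃| * P ^ M.d * (A₂ * P ^ M.d)) := by
        intro j hj
        have hjg : j ∉ M.gen := (Finset.mem_filter.1 hj).2
        by_cases hbj : b j = 0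
        · rw [hbj, mul_zero, zero_smul]; exact Fb_zero_mem (by positivity)
        have h7 := h2 l hlC j hjg Y (fun κ hκ => by
          rw [← hl]; exact hsum (ray i) j κ hκ)
        rw [← hl] at h7
        refine Fb_mono ?_ (Fb_smul h7 _)
        rw [abs_mul, abs_of_pos (Real.exp_pos _), mul_comm (Real.exp (Y i))]
        refine mul_le_mul (hble j hbj) ?_ (by positivity) (by positivity)
        gcongr
      refine Fb_mono ?_ (Fb_sum _ _ _ h6)
      rw [Finset.sum_const, nsmul_eq_mul]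
      have hcard : (((Finset.univ.filter fun j => ¬ j ∈ M.gen).card : ℕ) : ℝ) ≤ M.r := by
        have : (Finset.univ.filter fun j : Fin M.r => ¬ j ∈ M.gen).card ≤ M.r :=
          (Finset.card_filter_le _ _).trans (by simp)
        exact_mod_cast this
      calc _ ≤ (M.r : ℝ) * (|A₃| * P ^ M.d * (A₂ * P ^ M.d)) := by gcongr
        _ = (M.r : ℝ) * |A₃| * A₂ * P ^ (M.d + M.d) := by rw [pow_add]; ring
        _ ≤ P ^ D := hPA _ (by
            have : 0 ≤ (M.r : ℝ) * |A₃| := by positivity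
            linarith) (by positivity)
  refine ⟨fun i => Bx_mono ?_ (ha i), fun i => Bx_mono ?_ (h4 (P ^ D) ?_ (gZ (eg M) Y)
    (fam M ray g) ((M.nilC.nil (eg M)).gZ Y) (M.nilC.nil _) hb i)⟩
  · exact pow_le_pow_right₀ hP1 (by omega)
  · rw [← pow_mul]
    exact pow_le_pow_right₀ hP1 (by omega)
  · calc (2:ℝ) ≤ P := hP
      _ = P ^ 1 := (pow_one P).symm
      _ ≤ P ^ D := pow_le_pow_right₀ hP1 (by omega)

/-- composition of boxes, polynomial form -/
theorem Bx_comp_poly {L : Type*} [LieRing L] [LieAlgebra ℝ L] {σ τ : Type*} [Fintype σ]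
    [Fintype τ] {c : ℕ} {v : τ → L} {w : σ → L} (hN : Nil c v) {T t : ℝ} (hT : 1 ≤ T)
    (hw : ∀ i, w i ∈ Bx c v T) {x : L} (hx : x ∈ Bx c w t) :
    x ∈ Bx c v (t * ((KL σ c).card * brC τ c ^ c * T ^ c)) := by
  obtain ⟨a, ha, rfl⟩ := hx
  have hC := brC_pos τ c
  have ht : 0 ≤ t := (abs_nonneg _).trans (ha [])
  have h : ∀ κ ∈ KL σ c, a κ • mon w κ ∈ Bx c v (t * (brC τ c ^ c * T ^ c)) := by
    intro κ hκ
    have h1 := mon_comp_mem hN (t := fun _ => T) (fun _ => by linarith) hw κ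
    refine Bx_mono ?_ (Bx_smul h1 (a κ))
    have h2 : (κ.map fun _ => T).prod = T ^ κ.length := by simp
    rw [h2]
    have h3 : brC τ c ^ κ.length ≤ brC τ c ^ c := pow_le_pow_right₀ hC (mem_KL.1 hκ)
    have h4 : T ^ κ.length ≤ T ^ c := pow_le_pow_right₀ hT (mem_KL.1 hκ)
    have h5 := ha κ
    gcongr
  refine Bx_mono (le_of_eq ?_) (Bx_sum _ _ _ h)
  rw [Finset.sum_const, nsmul_eq_mul]; ring

/-- one letter with a margin -/
theorem sum_le_sub {σ : Type*} [Fintype σ] {f Y : σ → ℝ} {μ : ℝ} (hμ : 0 ≤ μ) (h : ∀ j, f j ≤ Y j)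
    (κ : List σ) (hκ : ∃ j ∈ κ, f j ≤ Y j - μ) : (κ.map f).sum ≤ (κ.map Y).sum - μ := by
  induction κ with
  | nil => simp at hκ
  | cons i κ ih =>
    rw [List.map_cons, List.map_cons, List.sum_cons, List.sum_cons]
    by_cases h1 : ∃ j ∈ κ, f j ≤ Y j - μ
    · have := ih h1
      have := h i
      linarith
    · obtain ⟨j, hj, h2⟩ := hκ
      rcases List.mem_cons.1 hj with rfl | hj
      · have h3 := sum_map_le (κ := κ) h
        linarith
      · exact absurd ⟨j, hj, h2⟩ h1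

/-- rays are closed under positive combinations -/
def Rays {ρ : Type*} (ray : M.gen → ρ) : Prop :=
  ∀ (κ : List (GI M)) (i : GI M) (r : ρ), (∀ j ∈ κ, ray j = r) → κ ≠ [] →
    (κ.map (wg M)).sum = wg M i → ray i = r

/-- **touching tuples**: with a linear margin the family of the tuple is touching with constant
`1`, and words with a margin map the unit ball into the box. -/
theorem exists_touch (R : ℝ) : ∃ B : ℕ, ∀ P : ℝ, 2 ≤ P → ∀ {ρ : Type} (ray : M.gen → ρ)
    (g : ρ → M.G) (μ : ℝ), Rays M ray → (∀ r, CW M R P (g r)) → 0 ≤ μ → P ^ B ≤ Real.exp μ →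
    (∀ r, ∀ j : GI M, ray j ≠ r → wg M j (M.h (g r)) ≤ sides M ray g j - μ) →
    Touch M ray g 1 ∧
    (∀ g' : M.G, CW M R P g' → (∀ j : GI M, wg M j (M.h g') ≤ sides M ray g j - μ) →
      Sm M (fam M ray g) 1 g') ∧
    (∀ i : GI M, fam M ray g i ∈ Bx M.c (gZ (eg M) (sides M ray g)) (P ^ B)) ∧
    ∀ i : GI M, gZ (eg M) (sides M ray g) i ∈ Bx M.c (fam M ray g) (P ^ B) := by
  obtain ⟨A₁, hA₁, h1⟩ := ad_bas_mem M R
  obtain ⟨A, hA⟩ := exists_W1 M R
  have hb := brC_pos (GI M) M.c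
  obtain ⟨m, hm⟩ := exists_pow_ge (A₁ * ((KL (GI M) M.c).card * brC (GI M) M.c ^ M.c))
  refine ⟨m + (M.d + A * M.c) + A, fun P hP {ρ} ray g μ hrays hg hμ hμP hmar => ?_⟩
  have hP1 : 1 ≤ P := by linarith
  have hP0 : 0 ≤ P := by linarith
  set Y := sides M ray g with hY
  have htouch : ∀ r, ∀ j : GI M, wg M j (M.h (g r)) ≤ Y j := by
    intro r j
    by_cases h : ray j = r
    · rw [hY, sides, h]
    · linarith [hmar r j h]
  obtain ⟨hW1, hW2⟩ := hA P hP ray g hg (fun i j hij => by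
    have := hrays [j] i (ray j) (by simp) (by simp) (by
      simp only [List.map_cons, List.map_nil, List.sum_cons, List.sum_nil, add_zero]
      exact hij.symm)
    exact this) htouch
  have key : ∀ g' : M.G, CW M R P g' → ∀ i : GI M, (∀ j : GI M, wg M j (M.h g') ≤ Y j) →
      (∀ κ : List (GI M), (κ.map (wg M)).sum = wg M i → ∃ j ∈ κ, wg M j (M.h g') ≤ Y j - μ) →
      M.Ad g' (M.bas i) ∈ Bx M.c (fam M ray g) 1 := by
    intro g' hg' i hle hκ
    obtain ⟨l, rfl, hlC, hlP⟩ := hg'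
    have h2 := h1 l hlC i Y μ (fun κ h => by
      have h3 := sum_le_sub hμ hle κ (hκ κ h)
      rw [← h, M.sum_wt_apply]
      linarith)
    have h3 := Bx_comp_poly (M.nilC.nil (fam M ray g)) (one_le_pow₀ hP1) hW2 h2
    refine Bx_mono ?_ h3
    have h4 : (1 + (l.length : ℝ)) ^ M.d ≤ P ^ M.d := by gcongr
    have h5 : P ^ (m + (M.d + A * M.c)) ≤ Real.exp μ :=
      le_trans (pow_le_pow_right₀ hP1 (by omega)) hμP
    calc A₁ * (1 + (l.length : ℝ)) ^ M.d * Real.exp (-μ) *
          ((KL (GI M) M.c).card * brC (GI M) M.c ^ M.c * (P ^ A) ^ M.c)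
        ≤ A₁ * P ^ M.d * Real.exp (-μ) *
          ((KL (GI M) M.c).card * brC (GI M) M.c ^ M.c * (P ^ A) ^ M.c) := by gcongr
      _ = (A₁ * ((KL (GI M) M.c).card * brC (GI M) M.c ^ M.c)) * (P ^ (M.d + A * M.c)) *
          Real.exp (-μ) := by rw [pow_add, pow_mul]; ring
      _ ≤ P ^ m * (P ^ (M.d + A * M.c)) * Real.exp (-μ) := by
          gcongr
          exact hm P hP
      _ = P ^ (m + (M.d + A * M.c)) * Real.exp (-μ) := by rw [pow_add P m]
      _ ≤ Real.exp μ * Real.exp (-μ) := by gcongr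
      _ = 1 := by rw [← Real.exp_add, add_neg_cancel, Real.exp_zero]
  have hne : ∀ (κ : List (GI M)) (i : GI M), (κ.map (wg M)).sum = wg M i → κ ≠ [] := by
    rintro κ i h rfl
    rw [List.map_nil, List.sum_nil] at h
    exact M.wt_gen_ne i i.2 h.symm
  refine ⟨fun r i => ?_, fun g' hg' hm' i => ?_, fun i => Bx_mono ?_ (hW1 i),
    fun i => Bx_mono ?_ (hW2 i)⟩
  · by_cases hr : ray i = r
    · have : M.Ad (g r) (M.bas i) = fam M ray g i := by rw [fam, hr]
      rw [this]; exact gen_mem_Bx (M.nilC.nil _) _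
    · refine key (g r) (hg r) i (htouch r) fun κ hκ => ?_
      by_contra hcon
      push Not at hcon
      refine hr (hrays κ i r (fun j hj => ?_) (hne κ i hκ) hκ)
      by_contra hjr
      exact absurd (hcon j hj) (not_lt.2 (hmar r j hjr))
  · refine key g' hg' i (fun j => by linarith [hm' j]) fun κ hκ => ?_
    obtain ⟨j, hj⟩ := List.exists_mem_of_ne_nil κ (hne κ i hκ)
    exact ⟨j, hj, hm' j⟩
  · exact pow_le_pow_right₀ hP1 (by omega)
  · exact pow_le_pow_right₀ hP1 (by omega)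

end model

end Crest.Agent.R182.Gen
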