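import Mathlib
import Crest.Agent.R182.StarClean
import Crest.Agent.R182.ConvG

-- ▼ part R182/StarGeo
section

set_option autoImplicit false

namespace Crest.Agent.R182.Star

open Finset

section Geo

variable {E : Type*} [NormedAddCommGroup E] [InnerProductSpace ℝ E]



/-- near-maximisers of a linear functional on a ball. -/
theorem near_of_inner {w e : E} (he : ‖e‖ = 1) {r δ : ℝ} (hr : 0 ≤ r) (hδ : 0 ≤ δ)
    (h1 : ‖w‖ ≤ r + δ) (h2 : r - δ ≤ inner ℝ e w) :
    ‖w - r • e‖ ^ 2 ≤ 4 * r * δ + δ ^ 2 := by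
  have hexp : ‖w - r • e‖ ^ 2 = ‖w‖ ^ 2 - 2 * r * inner ℝ e w + r ^ 2 := by
    rw [norm_sub_sq_real, inner_smul_right, norm_smul, he, real_inner_comm]
    simp only [Real.norm_eq_abs, mul_one, sq_abs]
    ring
  have h3 : ‖w‖ ^ 2 ≤ (r + δ) ^ 2 := by
    have := norm_nonneg w
    nlinarith
  rw [hexp]
  nlinarith







/-- linear combination of the vectors of `Eb`. -/
noncomputable def comb (Eb : Finset E) : (Eb → ℝ) →ₗ[ℝ] E :=
  Fintype.linearCombination ℝ (fun e : Eb => (e : E))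

theorem comb_apply (Eb : Finset E) (c : Eb → ℝ) : comb Eb c = ∑ e : Eb, c e • (e : E) := by
  simp [comb, Fintype.linearCombination_apply]

/-- linear combination of the permuted vectors. -/
noncomputable def combσ (Eb : Finset E) (σ : Equiv.Perm Eb) : (Eb → ℝ) →ₗ[ℝ] E :=
  Fintype.linearCombination ℝ (fun e : Eb => (σ e : E))

theorem combσ_apply (Eb : Finset E) (σ : Equiv.Perm Eb) (c : Eb → ℝ) :
    combσ Eb σ c = ∑ e : Eb, c e • (σ e : E) := by
  simp [combσ, Fintype.linearCombination_apply]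


omit [InnerProductSpace ℝ E] in
/-- separation constant of a finite set. -/
theorem exists_sep (Eb : Finset E) :
    ∃ sep : ℝ, 0 < sep ∧ ∀ e ∈ Eb, ∀ e' ∈ Eb, e ≠ e' → sep ≤ ‖e - e'‖ := by
  classical
  set D := (Eb ×ˢ Eb).filter (fun p => p.1 ≠ p.2) with hD
  rcases D.eq_empty_or_nonempty with h | h
  · refine ⟨1, one_pos, fun e he e' he' hne => ?_⟩
    have : (e, e') ∈ D := by
      rw [hD, Finset.mem_filter]; exact ⟨Finset.mem_product.mpr ⟨he, he'⟩, hne⟩
    rw [h] at this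
    simp at this
  · refine ⟨D.inf' h (fun p => ‖p.1 - p.2‖), ?_, fun e he e' he' hne => ?_⟩
    · rw [Finset.lt_inf'_iff]
      intro p hp
      rw [hD, Finset.mem_filter] at hp
      exact norm_pos_iff.mpr (sub_ne_zero.mpr hp.2)
    · have hmem : (e, e') ∈ D := by
        rw [hD, Finset.mem_filter]; exact ⟨Finset.mem_product.mpr ⟨he, he'⟩, hne⟩
      exact Finset.inf'_le (fun p : E × E => ‖p.1 - p.2‖) hmem

theorem comb_surjective {Eb : Finset E} (hspan : Submodule.span ℝ (Eb : Set E) = ⊤) :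
    Function.Surjective (comb Eb) := by
  rw [← LinearMap.range_eq_top, comb, Fintype.range_linearCombination]
  convert hspan
  ext x
  simp

variable [FiniteDimensional ℝ E]

/-- nonnegative decompositions with a bound. -/
theorem exists_decomp {Eb : Finset E} (hspan : Submodule.span ℝ (Eb : Set E) = ⊤)
    {c0 : Eb → ℝ} (hc0 : ∀ e, 0 < c0 e) (hrel : comb Eb c0 = 0) :
    ∃ C0 : ℝ, 1 ≤ C0 ∧ ∀ v : E, ∃ c : Eb → ℝ, (∀ e, 0 ≤ c e) ∧ comb Eb c = v ∧
      ∑ e, c e ≤ C0 * ‖v‖ := by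
  classical
  obtain ⟨g, hg⟩ := (comb Eb).exists_rightInverse_of_surjective
    (LinearMap.range_eq_top.mpr (comb_surjective hspan))
  have hcont : Continuous g := g.continuous_of_finiteDimensional
  set g' : E →L[ℝ] (Eb → ℝ) := ⟨g, hcont⟩ with hg'
  have hgb : ∀ v e, |g v e| ≤ ‖g'‖ * ‖v‖ := by
    intro v e
    have h1 : ‖g' v‖ ≤ ‖g'‖ * ‖v‖ := g'.le_opNorm v
    have h2 : ‖g' v e‖ ≤ ‖g' v‖ := norm_le_pi_norm (g' v) e
    exact h2.trans h1
  -- a lower bound for `c0`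
  obtain ⟨m, hm0, hm⟩ : ∃ m : ℝ, 0 < m ∧ ∀ e, m ≤ c0 e := by
    by_cases hE : Nonempty Eb
    · refine ⟨Finset.univ.inf' Finset.univ_nonempty c0, ?_, fun e => Finset.inf'_le _ (Finset.mem_univ e)⟩
      rw [Finset.lt_inf'_iff]; exact fun e _ => hc0 e
    · exact ⟨1, one_pos, fun e => (hE ⟨e⟩).elim⟩
  have hsum0 : 0 ≤ ∑ e, c0 e := Finset.sum_nonneg fun e _ => (hc0 e).le
  refine ⟨1 + (Fintype.card Eb * ‖g'‖ + ‖g'‖ / m * ∑ e, c0 e), ?_, fun v => ?_⟩
  · have : 0 ≤ (Fintype.card Eb * ‖g'‖ + ‖g'‖ / m * ∑ e, c0 e) := by positivity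
    linarith
  refine ⟨fun e => g v e + (‖g'‖ * ‖v‖ / m) * c0 e, fun e => ?_, ?_, ?_⟩
  · have h1 := hgb v e
    have h2 : ‖g'‖ * ‖v‖ ≤ (‖g'‖ * ‖v‖ / m) * c0 e := by
      rw [div_mul_eq_mul_div, le_div_iff₀ hm0]
      exact mul_le_mul_of_nonneg_left (hm e) (by positivity)
    have h3 := neg_abs_le (g v e)
    show 0 ≤ g v e + (‖g'‖ * ‖v‖ / m) * c0 e
    linarith
  · have : (fun e => g v e + (‖g'‖ * ‖v‖ / m) * c0 e) = g v + (‖g'‖ * ‖v‖ / m) • c0 := by
      ext e; simp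
    rw [this, map_add, map_smul, hrel, smul_zero, add_zero]
    exact LinearMap.congr_fun hg v
  · rw [Finset.sum_add_distrib, ← Finset.mul_sum]
    have h1 : ∑ e, g v e ≤ Fintype.card Eb * ‖g'‖ * ‖v‖ := by
      calc ∑ e, g v e ≤ ∑ _e : Eb, ‖g'‖ * ‖v‖ :=
            Finset.sum_le_sum fun e _ => (le_abs_self _).trans (hgb v e)
        _ = _ := by rw [Finset.sum_const, nsmul_eq_mul, Finset.card_univ]; ring
    have h2 : (‖g'‖ * ‖v‖ / m) * ∑ e, c0 e = (‖g'‖ / m * ∑ e, c0 e) * ‖v‖ := by ring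
    have h3 := norm_nonneg v
    nlinarith

/-- threshold: approximate relations are exact. -/
theorem exists_thr {Eb : Finset E} {c0 : Eb → ℝ} (hc0 : ∀ e, 0 < c0 e) (hrel : comb Eb c0 = 0)
    {r1 : ℝ} (hr1 : 0 < r1) :
    ∃ κ : ℝ, 0 < κ ∧ ∀ σ : Equiv.Perm Eb,
      (∀ c : Eb → ℝ, (∀ e, 0 ≤ c e) → comb Eb c = 0 → ∑ e, c e ≤ r1 → ‖combσ Eb σ c‖ ≤ κ) →
      ∀ c : Eb → ℝ, comb Eb c = 0 → combσ Eb σ c = 0 := by
  classical
  have key : ∀ σ : Equiv.Perm Eb, ∃ κ : ℝ, 0 < κ ∧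
      ((∀ c : Eb → ℝ, (∀ e, 0 ≤ c e) → comb Eb c = 0 → ∑ e, c e ≤ r1 → ‖combσ Eb σ c‖ ≤ κ) →
      ∀ c : Eb → ℝ, comb Eb c = 0 → combσ Eb σ c = 0) := by
    intro σ
    by_cases h : ∀ c : Eb → ℝ, comb Eb c = 0 → combσ Eb σ c = 0
    · exact ⟨1, one_pos, fun _ => h⟩
    push Not at h
    obtain ⟨c, hc, hcσ⟩ := h
    -- make it nonnegative
    obtain ⟨c', hc'0, hc', hc'σ⟩ : ∃ c' : Eb → ℝ, (∀ e, 0 ≤ c' e) ∧ comb Eb c' = 0 ∧
        combσ Eb σ c' ≠ 0 := by
      obtain ⟨lam, hlam0, hlam⟩ : ∃ lam : ℝ, 0 ≤ lam ∧ ∀ e, 0 ≤ c e + lam * c0 e := by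
        refine ⟨∑ e, |c e| / c0 e, Finset.sum_nonneg fun e _ => div_nonneg (abs_nonneg _) (hc0 e).le,
          fun e => ?_⟩
        have h1 : |c e| / c0 e ≤ ∑ e, |c e| / c0 e :=
          Finset.single_le_sum (f := fun e => |c e| / c0 e)
            (fun e _ => div_nonneg (abs_nonneg _) (hc0 e).le) (Finset.mem_univ e)
        have h2 := mul_le_mul_of_nonneg_right h1 (hc0 e).le
        rw [div_mul_cancel₀ _ (hc0 e).ne'] at h2
        have h3 := neg_abs_le (c e)
        linarith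
      by_cases h0 : combσ Eb σ c0 = 0
      · refine ⟨c + lam • c0, fun e => ?_, ?_, ?_⟩
        · simpa using hlam e
        · rw [map_add, map_smul, hc, hrel, smul_zero, add_zero]
        · rw [map_add, map_smul, h0, smul_zero, add_zero]; exact hcσ
      · exact ⟨c0, fun e => (hc0 e).le, hrel, h0⟩
    set s : ℝ := r1 / (∑ e, c' e + 1) with hs
    have hsum : 0 ≤ ∑ e, c' e := Finset.sum_nonneg fun e _ => hc'0 e
    have hs0 : 0 < s := by positivity
    have hn : 0 < ‖combσ Eb σ (s • c')‖ := by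
      rw [map_smul, norm_smul, Real.norm_of_nonneg hs0.le]
      exact mul_pos hs0 (norm_pos_iff.mpr hc'σ)
    refine ⟨‖combσ Eb σ (s • c')‖ / 2, by positivity, fun hh => ?_⟩
    exfalso
    have := hh (s • c') (fun e => by simpa using mul_nonneg hs0.le (hc'0 e))
      (by rw [map_smul, hc', smul_zero]) (by
        simp only [Pi.smul_apply, smul_eq_mul, ← Finset.mul_sum]
        rw [hs, div_mul_eq_mul_div, div_le_iff₀ (by linarith)]
        nlinarith)
    linarith
  choose κ hκ0 hκ using key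
  have hne : (Finset.univ : Finset (Equiv.Perm Eb)).Nonempty := Finset.univ_nonempty
  refine ⟨Finset.univ.inf' hne κ, ?_, fun σ h => ?_⟩
  · rw [Finset.lt_inf'_iff]; exact fun σ _ => hκ0 σ
  · exact hκ σ fun c h1 h2 h3 => (h c h1 h2 h3).trans (Finset.inf'_le _ (Finset.mem_univ σ))

/-- the linear map attached to a permutation. -/
theorem exists_lin {Eb : Finset E} (hspan : Submodule.span ℝ (Eb : Set E) = ⊤)
    {σ : Equiv.Perm Eb} (h : ∀ c : Eb → ℝ, comb Eb c = 0 → combσ Eb σ c = 0) :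
    ∃ L : E →ₗ[ℝ] E, ∀ c : Eb → ℝ, L (comb Eb c) = combσ Eb σ c := by
  obtain ⟨g, hg⟩ := (comb Eb).exists_rightInverse_of_surjective
    (LinearMap.range_eq_top.mpr (comb_surjective hspan))
  refine ⟨(combσ Eb σ) ∘ₗ g, fun c => ?_⟩
  have h1 : comb Eb (g (comb Eb c) - c) = 0 := by
    rw [map_sub]
    have := LinearMap.congr_fun hg (comb Eb c)
    simp only [LinearMap.comp_apply, LinearMap.id_apply] at this
    rw [this, sub_self]
  have h2 := h _ h1
  rw [map_sub, sub_eq_zero] at h2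
  exact h2


/-- the set of linear maps preserving a finite spanning set is finite. -/
theorem finite_lin {Eb : Finset E} (hspan : Submodule.span ℝ (Eb : Set E) = ⊤) :
    {L : E →ₗ[ℝ] E | ∀ e ∈ Eb, L e ∈ Eb}.Finite := by
  classical
  let F : {L : E →ₗ[ℝ] E | ∀ e ∈ Eb, L e ∈ Eb} → (Eb → Eb) := fun L e => ⟨L.1 e, L.2 e e.2⟩
  have hinj : Function.Injective F := by
    intro L L' h
    apply Subtype.ext
    apply LinearMap.ext_on hspan
    intro e he
    have := congrFun h ⟨e, he⟩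
    exact congrArg Subtype.val this
  exact Set.finite_coe_iff.mp (Finite.of_injective F hinj)

end Geo

end Crest.Agent.R182.Star
end

-- ▼ part R182/StarWord
section

set_option autoImplicit false
set_option linter.unusedSectionVars false

namespace Crest.Agent.R182.Star

open List

section Word

variable {E : Type*} [NormedAddCommGroup E] [InnerProductSpace ℝ E]

/-- star property at the word `w`, radius `A τ`. -/
def WStar (Eb : Finset E) (F : List Eb → E) (A : ℕ) (τ δ : ℝ) (w : List Eb) : Prop :=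
  ∀ e : Eb, ∃ e' : Eb, ∃ a : ℕ, a ≤ A ∧
    A * τ - δ ≤ inner ℝ (e : E) (F (w ++ replicate a e') - F w)

/-- Lipschitz property along the legs at `w`. -/
def WLip (Eb : Finset E) (F : List Eb → E) (A : ℕ) (τ δ : ℝ) (w : List Eb) : Prop :=
  ∀ e : Eb, ∀ a : ℕ, a ≤ A → ‖F (w ++ replicate a e) - F w‖ ≤ a * τ + δ

/-- `σ` describes the legs at `w`. -/
def WLaw (Eb : Finset E) (F : List Eb → E) (A : ℕ) (τ δ : ℝ) (σ : Equiv.Perm Eb) (w : List Eb) :
    Prop :=
  ∀ e : Eb, ∀ a : ℕ, a ≤ A → ‖F (w ++ replicate a e) - F w - (a * τ) • (σ e : E)‖ ≤ δ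

/-- full legs. -/
def WFull (Eb : Finset E) (F : List Eb → E) (A : ℕ) (τ δ : ℝ) (σ : Equiv.Perm Eb) (w : List Eb) :
    Prop :=
  ∀ e : Eb, ‖F (w ++ replicate A e) - F w - (A * τ) • (σ e : E)‖ ≤ δ

theorem wstar_full {Eb : Finset E} (hu : ∀ e ∈ Eb, ‖e‖ = 1) {sep : ℝ}
    (hsep : ∀ e ∈ Eb, ∀ e' ∈ Eb, e ≠ e' → sep ≤ ‖e - e'‖)
    {F : List Eb → E} {A : ℕ} {τ δ δ1 : ℝ} (hτ : 0 ≤ τ) (hδ : 0 ≤ δ) (hδ1 : 0 ≤ δ1) {w : List Eb}
    (hlip : WLip Eb F A τ δ w) (hlip' : ∀ e : Eb, ∀ a ≤ A, WLip Eb F A τ δ (w ++ replicate a e))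
    (hst : WStar Eb F A τ δ w) (h1 : 16 * (A * τ) * δ + 16 * δ ^ 2 ≤ δ1 ^ 2)
    (h2 : 2 * δ1 < A * τ * sep) :
    ∃ σ : Equiv.Perm Eb, WFull Eb F A τ δ1 σ w := by
  classical
  have key : ∀ e : Eb, ∃ e' : Eb, ‖F (w ++ replicate A e') - F w - (A * τ) • (e : E)‖ ≤ δ1 := by
    intro e
    obtain ⟨e', a, ha, hin⟩ := hst e
    refine ⟨e', ?_⟩
    have ha' : (a : ℝ) ≤ A := by exact_mod_cast ha
    have g1 : ‖F (w ++ replicate a e') - F w‖ ≤ a * τ + δ := hlip e' a ha
    have g2 : ‖F (w ++ replicate A e') - F w‖ ≤ A * τ + δ := hlip e' A le_rfl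
    have g3 : ‖F (w ++ replicate A e') - F (w ++ replicate a e')‖ ≤ (A - a : ℝ) * τ + δ := by
      have := hlip' e' a ha e' (A - a) (Nat.sub_le _ _)
      rw [append_assoc, ← replicate_add, Nat.add_sub_cancel' ha] at this
      rwa [Nat.cast_sub ha] at this
    have g5 : inner ℝ (e : E) (F (w ++ replicate a e') - F w) ≤
        ‖F (w ++ replicate a e') - F w‖ := by
      have := real_inner_le_norm (e : E) (F (w ++ replicate a e') - F w)
      rwa [hu e e.2, one_mul] at this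
    have g6 : (A : ℝ) * τ - a * τ ≤ 2 * δ := by linarith
    have g7 : - ‖F (w ++ replicate A e') - F (w ++ replicate a e')‖ ≤
        inner ℝ (e : E) (F (w ++ replicate A e') - F (w ++ replicate a e')) := by
      have := abs_real_inner_le_norm (e : E) (F (w ++ replicate A e') - F (w ++ replicate a e'))
      rw [hu e e.2, one_mul] at this
      exact neg_le_of_abs_le this
    have g8 : inner ℝ (e : E) (F (w ++ replicate A e') - F w) =
        inner ℝ (e : E) (F (w ++ replicate A e') - F (w ++ replicate a e')) +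
        inner ℝ (e : E) (F (w ++ replicate a e') - F w) := by
      rw [← inner_add_right]; congr 1; abel
    have g9 : (A : ℝ) * τ - 4 * δ ≤ inner ℝ (e : E) (F (w ++ replicate A e') - F w) := by
      rw [g8]
      have : ((A : ℝ) - a) * τ = A * τ - a * τ := by ring
      rw [this] at g3
      linarith
    have := near_of_inner (hu e e.2) (by positivity : (0 : ℝ) ≤ A * τ)
      (by linarith : (0 : ℝ) ≤ 4 * δ)
      (by linarith : ‖F (w ++ replicate A e') - F w‖ ≤ A * τ + 4 * δ) g9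
    have h3 : ‖F (w ++ replicate A e') - F w - (A * τ) • (e : E)‖ ^ 2 ≤ δ1 ^ 2 := by
      refine this.trans (le_trans (le_of_eq ?_) h1)
      ring
    exact abs_le_of_sq_le_sq' h3 hδ1 |>.2
  choose f hf using key
  have hinj : Function.Injective f := by
    intro a b hab
    by_contra hne
    have hne' : (a : E) ≠ b := fun h => hne (Subtype.ext h)
    have k1 := hf a
    have k2 := hf b
    rw [hab] at k1
    have h3 : ‖(A * τ) • (a : E) - (A * τ) • (b : E)‖ ≤ 2 * δ1 := by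
      have : (A * τ) • (a : E) - (A * τ) • (b : E) =
          (F (w ++ replicate A (f b)) - F w - (A * τ) • (b : E)) -
          (F (w ++ replicate A (f b)) - F w - (A * τ) • (a : E)) := by abel
      rw [this]
      calc _ ≤ _ := norm_sub_le _ _
        _ ≤ δ1 + δ1 := add_le_add k2 k1
        _ = 2 * δ1 := by ring
    rw [← smul_sub, norm_smul, Real.norm_of_nonneg (by positivity)] at h3
    have h4 := mul_le_mul_of_nonneg_left (hsep a a.2 b b.2 hne') (by positivity : 0 ≤ A * τ)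
    linarith
  have hbij : Function.Bijective f := Finite.injective_iff_bijective.mp hinj
  let g : Equiv.Perm Eb := Equiv.ofBijective f hbij
  refine ⟨g.symm, fun e => ?_⟩
  have k1 := hf (g.symm e)
  have k2 : f (g.symm e) = e := g.apply_symm_apply e
  rw [k2] at k1
  exact k1

/-- intermediate points of a full leg. -/
theorem wlaw_of_full {Eb : Finset E} (hu : ∀ e ∈ Eb, ‖e‖ = 1)
    {F : List Eb → E} {A : ℕ} {τ δ δ1 δ3 : ℝ} (hτ : 0 ≤ τ) (hδ : 0 ≤ δ) (hδ1 : 0 ≤ δ1)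
    (hδ3 : 0 ≤ δ3) {w : List Eb}
    (hlip : WLip Eb F A τ δ w) (hlip' : ∀ e : Eb, ∀ a ≤ A, WLip Eb F A τ δ (w ++ replicate a e))
    {σ : Equiv.Perm Eb} (hfull : WFull Eb F A τ δ1 σ w)
    (h3 : 4 * (A * τ) * (δ + δ1) + (δ + δ1) ^ 2 ≤ δ3 ^ 2) :
    WLaw Eb F A τ δ3 σ w := by
  intro e a ha
  have ha' : (a : ℝ) ≤ A := by exact_mod_cast ha
  have g1 : ‖F (w ++ replicate a e) - F w‖ ≤ a * τ + δ := hlip e a ha
  have g3 : ‖F (w ++ replicate A e) - F (w ++ replicate a e)‖ ≤ (A * τ - a * τ) + δ := by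
    have := hlip' e a ha e (A - a) (Nat.sub_le _ _)
    rw [append_assoc, ← replicate_add, Nat.add_sub_cancel' ha] at this
    rwa [Nat.cast_sub ha, sub_mul] at this
  have hσu : ‖(σ e : E)‖ = 1 := hu _ (σ e).2
  have g4 : A * τ - δ1 ≤ inner ℝ (σ e : E) (F (w ++ replicate A e) - F w) := by
    have h5 : inner ℝ (σ e : E) (F (w ++ replicate A e) - F w) =
        inner ℝ (σ e : E) (F (w ++ replicate A e) - F w - (A * τ) • (σ e : E)) + A * τ := by
      have hx := inner_sub_right (𝕜 := ℝ) (σ e : E) (F (w ++ replicate A e) - F w)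
        ((A * τ) • (σ e : E))
      rw [hx, inner_smul_right, real_inner_self_eq_norm_sq, hσu]; ring
    rw [h5]
    have h6 := abs_real_inner_le_norm (σ e : E) (F (w ++ replicate A e) - F w - (A * τ) • (σ e : E))
    rw [hσu, one_mul] at h6
    have h7 := neg_le_of_abs_le h6
    have h8 := hfull e
    linarith
  have g5 : inner ℝ (σ e : E) (F (w ++ replicate A e) - F (w ++ replicate a e)) ≤
      (A * τ - a * τ) + δ := by
    have := real_inner_le_norm (σ e : E) (F (w ++ replicate A e) - F (w ++ replicate a e))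
    rw [hσu, one_mul] at this
    exact this.trans g3
  have g6 : inner ℝ (σ e : E) (F (w ++ replicate A e) - F w) =
      inner ℝ (σ e : E) (F (w ++ replicate A e) - F (w ++ replicate a e)) +
      inner ℝ (σ e : E) (F (w ++ replicate a e) - F w) := by
    rw [← inner_add_right]; congr 1; abel
  have g7 : a * τ - (δ + δ1) ≤ inner ℝ (σ e : E) (F (w ++ replicate a e) - F w) := by linarith
  have := near_of_inner hσu (by positivity : (0 : ℝ) ≤ a * τ) (by linarith : (0 : ℝ) ≤ δ + δ1)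
    (by linarith : ‖F (w ++ replicate a e) - F w‖ ≤ a * τ + (δ + δ1)) g7
  have h4 : ‖F (w ++ replicate a e) - F w - (a * τ) • (σ e : E)‖ ^ 2 ≤ δ3 ^ 2 := by
    refine this.trans (le_trans ?_ h3)
    have : 4 * (a * τ) * (δ + δ1) ≤ 4 * (A * τ) * (δ + δ1) := by
      have h9 := mul_le_mul_of_nonneg_right ha' hτ
      have h10 := mul_le_mul_of_nonneg_right h9 (by linarith : (0 : ℝ) ≤ δ + δ1)
      linarith
    linarith
  exact abs_le_of_sq_le_sq' h4 hδ3 |>.2

/-- uniqueness of the permutation at neighbouring words. -/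
theorem wfull_unique {Eb : Finset E} {sep : ℝ}
    (hsep : ∀ e ∈ Eb, ∀ e' ∈ Eb, e ≠ e' → sep ≤ ‖e - e'‖)
    {F F' : List Eb → E} {A : ℕ} {τ δ1 ρ ρ' : ℝ} (hτ : 0 ≤ τ) {w w' : List Eb}
    {σ σ' : Equiv.Perm Eb} (h : WFull Eb F A τ δ1 σ w) (h' : WFull Eb F' A τ δ1 σ' w')
    (hslow : ∀ e : Eb, ‖F' (w' ++ replicate A e) - F (w ++ replicate A e)‖ ≤ ρ)
    (hnear : ‖F' w' - F w‖ ≤ ρ') (hsm : ρ + ρ' + 2 * δ1 < A * τ * sep) :
    σ = σ' := by
  refine Equiv.ext fun e => ?_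
  by_contra hne
  have hne' : (σ e : E) ≠ σ' e := fun hh => hne (Subtype.ext hh)
  have k1 := h e
  have k2 := h' e
  have k3 := hslow e
  have h5 : ‖(A * τ) • (σ e : E) - (A * τ) • (σ' e : E)‖ ≤ ρ + ρ' + 2 * δ1 := by
    have : (A * τ) • (σ e : E) - (A * τ) • (σ' e : E) =
        (F' (w' ++ replicate A e) - F' w' - (A * τ) • (σ' e : E))
        - (F (w ++ replicate A e) - F w - (A * τ) • (σ e : E))
        - (F' (w' ++ replicate A e) - F (w ++ replicate A e)) + (F' w' - F w) := by abel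
    rw [this]
    calc _ ≤ ‖(F' (w' ++ replicate A e) - F' w' - (A * τ) • (σ' e : E))
        - (F (w ++ replicate A e) - F w - (A * τ) • (σ e : E))
        - (F' (w' ++ replicate A e) - F (w ++ replicate A e))‖ + ‖F' w' - F w‖ := norm_add_le _ _
      _ ≤ (‖(F' (w' ++ replicate A e) - F' w' - (A * τ) • (σ' e : E))
        - (F (w ++ replicate A e) - F w - (A * τ) • (σ e : E))‖
        + ‖F' (w' ++ replicate A e) - F (w ++ replicate A e)‖) + ‖F' w' - F w‖ := by
          gcongr; exact norm_sub_le _ _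
      _ ≤ ((‖F' (w' ++ replicate A e) - F' w' - (A * τ) • (σ' e : E)‖
        + ‖F (w ++ replicate A e) - F w - (A * τ) • (σ e : E)‖)
        + ‖F' (w' ++ replicate A e) - F (w ++ replicate A e)‖) + ‖F' w' - F w‖ := by
          gcongr; exact norm_sub_le _ _
      _ ≤ ((δ1 + δ1) + ρ) + ρ' := by gcongr
      _ = _ := by ring
  rw [← smul_sub, norm_smul, Real.norm_of_nonneg (by positivity)] at h5
  have h6 := mul_le_mul_of_nonneg_left (hsep _ (σ e).2 _ (σ' e).2 hne')
    (by positivity : 0 ≤ A * τ)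
  linarith


/-- the word `w` is a concatenation of `m` runs of length at most `A`. -/
inductive Runs {α : Type*} (A : ℕ) : List α → ℕ → Prop
  | nil : Runs A [] 0
  | snoc {w : List α} {m : ℕ} (e : α) {a : ℕ} (h : Runs A w m) (ha : a ≤ A) :
      Runs A (w ++ replicate a e) (m + 1)

theorem Runs.append {α : Type*} {A : ℕ} {w w' : List α} {m m' : ℕ} (h : Runs A w m)
    (h' : Runs A w' m') : Runs A (w ++ w') (m + m') := by
  induction h' with
  | nil => simpa using h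
  | snoc e _ ha ih => rw [← append_assoc, ← add_assoc]; exact Runs.snoc e ih ha

theorem Runs.replicate' {α : Type*} {A : ℕ} (hA : 1 ≤ A) (e : α) (a : ℕ) :
    Runs A (replicate a e) (a / A + 1) := by
  induction a using Nat.strong_induction_on with
  | _ a ih =>
    by_cases h : a < A
    · rw [Nat.div_eq_of_lt h, zero_add]
      have := Runs.snoc (A := A) e Runs.nil h.le
      simpa using this
    · push Not at h
      have h1 := ih (a - A) (by omega)
      have h2 := Runs.snoc (A := A) e h1 le_rfl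
      rw [← replicate_add, Nat.sub_add_cancel h] at h2
      have h3 : (a - A) / A + 1 = a / A := by
        rw [Nat.div_eq_sub_div (by omega) h]
      rwa [h3] at h2


/-- sum of the letters -/
noncomputable def lsum {Eb : Finset E} (w : List Eb) : E := (w.map (fun e => (e : E))).sum

theorem lsum_nil {Eb : Finset E} : lsum ([] : List Eb) = 0 := rfl

theorem lsum_append {Eb : Finset E} (w w' : List Eb) : lsum (w ++ w') = lsum w + lsum w' := by
  simp [lsum]

theorem lsum_replicate {Eb : Finset E} (a : ℕ) (e : Eb) : lsum (replicate a e) = (a : ℝ) • (e : E) := by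
  simp [lsum, ← Nat.cast_smul_eq_nsmul ℝ]

theorem lsum_cons {Eb : Finset E} (e : Eb) (w : List Eb) : lsum (e :: w) = (e : E) + lsum w := by
  simp [lsum]

/-- **word law** for a prefix-closed set of words. -/
theorem word_law_pred {Eb : Finset E} (hu : ∀ e ∈ Eb, ‖e‖ = 1) {sep : ℝ}
    (hsep : ∀ e ∈ Eb, ∀ e' ∈ Eb, e ≠ e' → sep ≤ ‖e - e'‖)
    {F : List Eb → E} {A : ℕ} (hA : 1 ≤ A) {τ δ δ1 δ3 ρ : ℝ} (hτ : 0 ≤ τ) (hδ : 0 ≤ δ)
    (hδ1 : 0 ≤ δ1) (hδ3 : 0 ≤ δ3) {P : List Eb → Prop}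
    (hP : ∀ w e, P (w ++ [e]) → P w)
    (hlip : ∀ w : List Eb, P w → WLip Eb F A τ δ w)
    (hlip' : ∀ w : List Eb, P w → ∀ e : Eb, ∀ a ≤ A, WLip Eb F A τ δ (w ++ replicate a e))
    (hst : ∀ w : List Eb, P w → WStar Eb F A τ δ w)
    (hslow : ∀ w : List Eb, ∀ e e' : Eb, P (w ++ [e']) →
      ‖F ((w ++ [e']) ++ replicate A e) - F (w ++ replicate A e)‖ ≤ ρ)
    (h1 : 16 * (A * τ) * δ + 16 * δ ^ 2 ≤ δ1 ^ 2) (h2 : 2 * δ1 < A * τ * sep)
    (h3 : 4 * (A * τ) * (δ + δ1) + (δ + δ1) ^ 2 ≤ δ3 ^ 2)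
    (h4 : ρ + (τ + δ) + 2 * δ1 < A * τ * sep) :
    ∃ σ : Equiv.Perm Eb, ∀ w : List Eb, P w →
      WFull Eb F A τ δ1 σ w ∧ WLaw Eb F A τ δ3 σ w := by
  have hfull : ∀ w : List Eb, P w → ∃ σ : Equiv.Perm Eb, WFull Eb F A τ δ1 σ w :=
    fun w hw => wstar_full hu hsep hτ hδ hδ1 (hlip w hw) (hlip' w hw) (hst w hw) h1 h2
  choose! σ hσ using hfull
  have hconst : ∀ w : List Eb, P w → σ w = σ [] := by
    intro w
    induction w using List.reverseRecOn with
    | nil => intro _; rfl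
    | append_singleton w e ih =>
      intro hw
      have hw' := hP w e hw
      rw [← ih hw']
      symm
      refine wfull_unique hsep hτ (hσ w hw') (hσ (w ++ [e]) hw) (fun e' => hslow w e' e hw)
        (ρ' := τ + δ) ?_ h4
      have := hlip w hw' e 1 hA
      simpa using this
  refine ⟨σ [], fun w hw => ?_⟩
  have h5 : WFull Eb F A τ δ1 (σ []) w := by
    have := hσ w hw
    rwa [hconst w hw] at this
  exact ⟨h5, wlaw_of_full hu hτ hδ hδ1 hδ3 (hlip w hw) (hlip' w hw) h5 h3⟩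

theorem pred_of_append {α : Type*} {P : List α → Prop} (hP : ∀ w e, P (w ++ [e]) → P w)
    (w w' : List α) (h : P (w ++ w')) : P w := by
  induction w' using List.reverseRecOn with
  | nil => simpa using h
  | append_singleton w' e ih =>
    rw [← append_assoc] at h
    exact ih (hP _ _ h)

/-- the law for words with few runs. -/
theorem runs_law {Eb : Finset E} {F : List Eb → E} {A : ℕ} {τ δ3 : ℝ}
    {P : List Eb → Prop} (hP : ∀ w e, P (w ++ [e]) → P w) {σ : Equiv.Perm Eb}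
    (h : ∀ w : List Eb, P w → WLaw Eb F A τ δ3 σ w) {w : List Eb} {m : ℕ} (hr : Runs A w m)
    (hw : P w) : ‖F w - F [] - τ • lsum (w.map σ)‖ ≤ m * δ3 := by
  induction hr with
  | nil => simp [lsum]
  | @snoc w m e a _ ha ih =>
    have hw' := pred_of_append hP _ _ hw
    have h1 := ih hw'
    have h2 := h w hw' e a ha
    have h3 : F (w ++ replicate a e) - F [] - τ • lsum ((w ++ replicate a e).map σ) =
        (F w - F [] - τ • lsum (w.map σ)) +
        (F (w ++ replicate a e) - F w - (a * τ) • (σ e : E)) := by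
      rw [map_append, lsum_append, map_replicate, lsum_replicate, smul_add, smul_smul, mul_comm τ]
      abel
    rw [h3]
    refine (norm_add_le _ _).trans ?_
    push_cast
    linarith

/-- the word of a relation. -/
noncomputable def relWord (Eb : Finset E) (τ : ℝ) (c : Eb → ℝ) : List Eb :=
  (Finset.univ : Finset Eb).toList.flatMap fun e => replicate ⌊c e / τ⌋₊ e

theorem runs_flatMap {α : Type*} {A : ℕ} (hA : 1 ≤ A) (l : List α) (a : α → ℕ) :
    Runs A (l.flatMap fun e => replicate (a e) e) ((l.map fun e => a e / A + 1).sum) := by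
  induction l with
  | nil => exact Runs.nil
  | cons e l ih =>
    rw [flatMap_cons, map_cons, sum_cons]
    exact (Runs.replicate' hA e (a e)).append ih

theorem runs_relWord (Eb : Finset E) {A : ℕ} (hA : 1 ≤ A) (τ : ℝ) (c : Eb → ℝ) :
    Runs A (relWord Eb τ c) (∑ e : Eb, (⌊c e / τ⌋₊ / A + 1)) := by
  have := runs_flatMap hA (Finset.univ : Finset Eb).toList (fun e => ⌊c e / τ⌋₊)
  rwa [Finset.sum_map_toList] at this

theorem lsum_flatMap {Eb : Finset E} (σ : Equiv.Perm Eb) (l : List Eb) (a : Eb → ℕ) :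
    lsum ((l.flatMap fun e => replicate (a e) e).map σ) =
      (l.map fun e => (a e : ℝ) • (σ e : E)).sum := by
  induction l with
  | nil => rfl
  | cons e l ih =>
    rw [flatMap_cons, map_append, lsum_append, ih, map_cons, sum_cons, map_replicate,
      lsum_replicate]

theorem lsum_relWord {Eb : Finset E} (σ : Equiv.Perm Eb) (τ : ℝ) (c : Eb → ℝ) :
    lsum ((relWord Eb τ c).map σ) = ∑ e : Eb, ((⌊c e / τ⌋₊ : ℕ) : ℝ) • (σ e : E) := by
  unfold relWord
  rw [lsum_flatMap, Finset.sum_map_toList]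

theorem norm_relWord_sub {Eb : Finset E} (hu : ∀ e ∈ Eb, ‖e‖ = 1) (σ : Equiv.Perm Eb) {τ : ℝ}
    (hτ : 0 < τ) (c : Eb → ℝ) (hc : ∀ e, 0 ≤ c e) :
    ‖τ • lsum ((relWord Eb τ c).map σ) - combσ Eb σ c‖ ≤ Eb.card * τ := by
  rw [lsum_relWord, combσ_apply, Finset.smul_sum, ← Finset.sum_sub_distrib]
  refine (norm_sum_le _ _).trans ?_
  have h : ∀ e ∈ (Finset.univ : Finset Eb),
      ‖τ • ((⌊c e / τ⌋₊ : ℕ) : ℝ) • (σ e : E) - c e • (σ e : E)‖ ≤ τ := by
    intro e _
    rw [smul_smul, ← sub_smul, norm_smul, hu _ (σ e).2, mul_one, Real.norm_eq_abs]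
    have h0 : 0 ≤ c e / τ := div_nonneg (hc e) hτ.le
    have h1 := Nat.floor_le h0
    have h2 := Nat.lt_floor_add_one (c e / τ)
    have h3 := mul_le_mul_of_nonneg_left h1 hτ.le
    have h4 := mul_lt_mul_of_pos_left h2 hτ
    rw [mul_div_cancel₀ _ hτ.ne'] at h3 h4
    rw [mul_add, mul_one] at h4
    rw [abs_le]; constructor <;> linarith
  refine (Finset.sum_le_sum h).trans ?_
  simp

/-- a finite set of relations and a threshold which decide whether `σ` is linear. -/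
theorem exists_rels [FiniteDimensional ℝ E] (Eb : Finset E) {c0 : Eb → ℝ} (hc0 : ∀ e, 0 < c0 e)
    (hrel : comb Eb c0 = 0) {r : ℝ} (hr : 0 < r) :
    ∃ κ : ℝ, 0 < κ ∧ ∃ R : Finset (Eb → ℝ), (∀ c ∈ R, (∀ e, 0 ≤ c e) ∧ comb Eb c = 0 ∧
      ∑ e, c e ≤ r) ∧ ∀ σ : Equiv.Perm Eb, (∀ c ∈ R, ‖combσ Eb σ c‖ ≤ κ) →
      ∀ c : Eb → ℝ, comb Eb c = 0 → combσ Eb σ c = 0 := by
  classical
  obtain ⟨κ, hκ, hκσ⟩ := exists_thr hc0 hrel hr
  have key : ∀ σ : Equiv.Perm Eb, ∃ c : Eb → ℝ, ((∀ e, 0 ≤ c e) ∧ comb Eb c = 0 ∧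
      ∑ e, c e ≤ r) ∧ (‖combσ Eb σ c‖ ≤ κ → ∀ c : Eb → ℝ, comb Eb c = 0 → combσ Eb σ c = 0) := by
    intro σ
    by_cases h : ∀ c : Eb → ℝ, (∀ e, 0 ≤ c e) → comb Eb c = 0 → ∑ e, c e ≤ r →
        ‖combσ Eb σ c‖ ≤ κ
    · exact ⟨0, ⟨fun e => le_rfl, map_zero _, by simpa using hr.le⟩, fun _ => hκσ σ h⟩
    · push Not at h
      obtain ⟨c, h1, h2, h3, h4⟩ := h
      exact ⟨c, ⟨h1, h2, h3⟩, fun h5 => absurd h5 (not_le.mpr h4)⟩
  choose C hC1 hC2 using key
  refine ⟨κ, hκ, Finset.univ.image C, fun c hc => ?_, fun σ h => ?_⟩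
  · obtain ⟨σ, _, rfl⟩ := Finset.mem_image.mp hc
    exact hC1 σ
  · exact hC2 σ (h _ (Finset.mem_image_of_mem C (Finset.mem_univ σ)))

theorem lsum_flatten_replicate {Eb : Finset E} (j : ℕ) (w : List Eb) :
    lsum ((replicate j w).flatten) = (j : ℝ) • lsum w := by
  induction j with
  | zero => simp [lsum]
  | succ j ih =>
    rw [replicate_succ, flatten_cons, lsum_append, ih]
    push_cast
    rw [add_smul, one_smul, add_comm]

theorem runs_flatten_replicate {α : Type*} {A : ℕ} {w : List α} {m : ℕ} (h : Runs A w m) (j : ℕ) :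
    Runs A ((replicate j w).flatten) (j * m) := by
  induction j with
  | zero => simpa using (Runs.nil (α := α) (A := A))
  | succ j ih =>
    rw [replicate_succ, flatten_cons, Nat.succ_mul, add_comm]
    exact h.append ih

/-- the powers of a relation word: hypothesis POW. -/
def WPow (Eb : Finset E) (F : List Eb → E) (P : List Eb → Prop) (τ κ : ℝ) (c : Eb → ℝ) : Prop :=
  ∃ j : ℕ, 1 ≤ j ∧ P ((replicate j (relWord Eb τ c)).flatten) ∧
    ‖F ((replicate j (relWord Eb τ c)).flatten) - F []‖ ≤ j * κ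

theorem combσ_small {Eb : Finset E} (hu : ∀ e ∈ Eb, ‖e‖ = 1) {F : List Eb → E} {A : ℕ}
    (hA : 1 ≤ A) {τ δ3 κ : ℝ} (hτ : 0 < τ) (hδ3 : 0 ≤ δ3)
    {P : List Eb → Prop} (hP : ∀ w e, P (w ++ [e]) → P w) {σ : Equiv.Perm Eb}
    (h : ∀ w : List Eb, P w → WLaw Eb F A τ δ3 σ w) {c : Eb → ℝ} (hc : ∀ e, 0 ≤ c e)
    (hpow : WPow Eb F P τ κ c) {M : ℝ} (hM : ∀ e, c e ≤ M * (A * τ)) :
    ‖combσ Eb σ c‖ ≤ κ + Eb.card * (M + 1) * δ3 + Eb.card * τ := by
  obtain ⟨j, hj, hPj, hFj⟩ := hpow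
  have hj0 : (0 : ℝ) < j := by exact_mod_cast hj
  set m : ℕ := ∑ e : Eb, (⌊c e / τ⌋₊ / A + 1) with hm
  have hA0 : (0 : ℝ) < A := by exact_mod_cast hA
  have hm' : (m : ℝ) ≤ Eb.card * (M + 1) := by
    rw [hm, Nat.cast_sum]
    have : ∀ e ∈ (Finset.univ : Finset Eb), ((⌊c e / τ⌋₊ / A + 1 : ℕ) : ℝ) ≤ M + 1 := by
      intro e _
      push_cast
      have h0 : 0 ≤ c e / τ := div_nonneg (hc e) hτ.le
      have h1 := Nat.floor_le h0
      have h2 : ((⌊c e / τ⌋₊ / A : ℕ) : ℝ) ≤ (⌊c e / τ⌋₊ : ℝ) / A := Nat.cast_div_le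
      have h3 : (⌊c e / τ⌋₊ : ℝ) / A ≤ M := by
        rw [div_le_iff₀ hA0]
        refine h1.trans ?_
        rw [div_le_iff₀ hτ]
        have := hM e
        linarith
      linarith
    refine (Finset.sum_le_sum this).trans (le_of_eq ?_)
    simp
    ring
  have h1 := runs_law hP h (runs_flatten_replicate (runs_relWord Eb hA τ c) j) hPj
  rw [map_flatten, map_replicate, lsum_flatten_replicate] at h1
  have h2 := norm_relWord_sub hu σ hτ c hc
  -- j • τ • lsum is small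
  have h3 : ‖(j : ℝ) • τ • lsum ((relWord Eb τ c).map σ)‖ ≤ j * κ + ((j * m : ℕ) : ℝ) * δ3 := by
    have e1 : (j : ℝ) • τ • lsum ((relWord Eb τ c).map σ) =
        (F ((replicate j (relWord Eb τ c)).flatten) - F []) -
        (F ((replicate j (relWord Eb τ c)).flatten) - F [] -
          τ • (j : ℝ) • lsum ((relWord Eb τ c).map σ)) := by
      rw [smul_comm τ]; abel
    rw [e1]
    exact (norm_sub_le _ _).trans (add_le_add hFj h1)
  rw [norm_smul, Real.norm_of_nonneg hj0.le, Nat.cast_mul, mul_assoc, ← mul_add] at h3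
  have h4 := le_of_mul_le_mul_left h3 hj0
  have h5 : ‖combσ Eb σ c‖ ≤ ‖τ • lsum ((relWord Eb τ c).map σ)‖ +
      ‖τ • lsum ((relWord Eb τ c).map σ) - combσ Eb σ c‖ := by
    have : combσ Eb σ c = τ • lsum ((relWord Eb τ c).map σ) -
        (τ • lsum ((relWord Eb τ c).map σ) - combσ Eb σ c) := by abel
    calc ‖combσ Eb σ c‖ = ‖τ • lsum ((relWord Eb τ c).map σ) -
        (τ • lsum ((relWord Eb τ c).map σ) - combσ Eb σ c)‖ := by rw [← this]
      _ ≤ _ := norm_sub_le _ _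
  have h6 := mul_le_mul_of_nonneg_right hm' hδ3
  linarith

/-- the linear map of the law, applied to a word. -/
theorem lin_lsum {Eb : Finset E} {σ : Equiv.Perm Eb} {L : E →ₗ[ℝ] E}
    (hL : ∀ c : Eb → ℝ, L (comb Eb c) = combσ Eb σ c) (w : List Eb) :
    L (lsum w) = lsum (w.map σ) := by
  have h1 : ∀ e : Eb, L (e : E) = (σ e : E) := by
    classical
    intro e
    have := hL (Pi.single e 1)
    rw [comb_apply, combσ_apply] at this
    simpa [Pi.single_apply, ite_smul] using this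
  induction w with
  | nil => simp [lsum]
  | cons e w ih => rw [lsum_cons, map_add, ih, h1, map_cons, lsum_cons]

/-- **The word star theorem**: one linear map of the finite set describes all words. -/
theorem word_affine [FiniteDimensional ℝ E] (Eb : Finset E) (hu : ∀ e ∈ Eb, ‖e‖ = 1)
    (hspan : Submodule.span ℝ (Eb : Set E) = ⊤)
    {c0 : Eb → ℝ} (hc0 : ∀ e, 0 < c0 e) (hrel : comb Eb c0 = 0) {r : ℝ} (hr : 0 < r) :
    ∃ sep κ : ℝ, 0 < sep ∧ 0 < κ ∧ ∃ R : Finset (Eb → ℝ), (∀ c ∈ R, (∀ e, 0 ≤ c e) ∧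
      comb Eb c = 0 ∧ ∑ e, c e ≤ r) ∧
    ∀ (F : List Eb → E) (A : ℕ), 1 ≤ A → ∀ (τ δ δ1 δ3 ρ : ℝ), 0 < τ → 0 ≤ δ → 0 ≤ δ1 → 0 ≤ δ3 →
      16 * (A * τ) * δ + 16 * δ ^ 2 ≤ δ1 ^ 2 → 2 * δ1 < A * τ * sep →
      4 * (A * τ) * (δ + δ1) + (δ + δ1) ^ 2 ≤ δ3 ^ 2 →
      ρ + (τ + δ) + 2 * δ1 < A * τ * sep →
      Eb.card * (r / (A * τ) + 1) * δ3 + Eb.card * τ ≤ κ →
    ∀ P : List Eb → Prop, P [] → (∀ w e, P (w ++ [e]) → P w) →
      (∀ w : List Eb, P w → WLip Eb F A τ δ w) →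
      (∀ w : List Eb, P w → ∀ e : Eb, ∀ a ≤ A, WLip Eb F A τ δ (w ++ replicate a e)) →
      (∀ w : List Eb, P w → WStar Eb F A τ δ w) →
      (∀ w : List Eb, ∀ e e' : Eb, P (w ++ [e']) →
        ‖F ((w ++ [e']) ++ replicate A e) - F (w ++ replicate A e)‖ ≤ ρ) →
      (∀ c ∈ R, WPow Eb F P τ κ c) →
    ∃ (σ : Equiv.Perm Eb) (L : E →ₗ[ℝ] E), (∀ e : Eb, L e = σ e) ∧
      (∀ w, P w → WFull Eb F A τ δ1 σ w ∧ WLaw Eb F A τ δ3 σ w) ∧
      ∀ w m, P w → Runs A w m → ‖F w - F [] - L (τ • lsum w)‖ ≤ m * δ3 := by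
  obtain ⟨sep, hsep0, hsep⟩ := exists_sep Eb
  obtain ⟨κ, hκ, R, hR, hRσ⟩ := exists_rels Eb hc0 hrel hr
  refine ⟨sep, κ / 2, hsep0, by positivity, R, hR, ?_⟩
  intro F A hA τ δ δ1 δ3 ρ hτ hδ hδ1 hδ3 h1 h2 h3 h4 h5 P _ hP hlip hlip' hst hslow hpow
  obtain ⟨σ, hσ⟩ := word_law_pred hu hsep hA hτ.le hδ hδ1 hδ3 hP hlip hlip' hst hslow h1 h2 h3 h4
  have hA0 : (0 : ℝ) < A := by exact_mod_cast hA
  have hlin := hRσ σ fun c hc => by
    obtain ⟨g1, g2, g3⟩ := hR c hc
    have h6 := combσ_small hu hA hτ hδ3 hP (fun w hw => (hσ w hw).2) g1 (hpow c hc)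
      (M := r / (A * τ)) (fun e => by
        rw [div_mul_cancel₀ _ (by positivity)]
        exact (Finset.single_le_sum (fun e _ => g1 e) (Finset.mem_univ e)).trans g3)
    linarith
  obtain ⟨L, hL⟩ := exists_lin hspan hlin
  refine ⟨σ, L, fun e => ?_, hσ, fun w m hw hr => ?_⟩
  · have := lin_lsum hL [e]
    simpa [lsum] using this
  · have := runs_law hP (fun w hw => (hσ w hw).2) hr hw
    rwa [map_smul, lin_lsum hL]

end Word

end Crest.Agent.R182.Star
end

-- ▼ part R182/StarBox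
section

set_option autoImplicit false
set_option linter.unusedSectionVars false

open MeasureTheory ENNReal List

namespace Crest.Agent.R182.Star

open Crest.Agent.R182.Conv

/-- The generating weights seen in a Euclidean space: `l i = lam i • ⟪dir i, ·⟫`, and `Eb` is the set of
the directions of the nonzero weights. -/
structure RSys (ι : Type*) [Fintype ι] (E : Type*) [NormedAddCommGroup E] [InnerProductSpace ℝ E]
    extends GenSys ι E where
  lam : ι → ℝ
  dir : ι → E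
  Eb : Finset E
  lam_nonneg : ∀ i, 0 ≤ lam i
  l_eq : ∀ i v, toGenSys.l i v = lam i * inner ℝ (dir i) v
  dir_mem : ∀ i, lam i ≠ 0 → dir i ∈ Eb
  unit : ∀ e ∈ Eb, ‖e‖ = 1
  exists_dir : ∀ e ∈ Eb, ∃ i, 0 < lam i ∧ dir i = e

section Box

variable {ι : Type*} [Fintype ι] {E : Type*} [NormedAddCommGroup E] [InnerProductSpace ℝ E]
variable {H : Type*} [Group H] [MeasurableSpace H] [MeasurableMul₂ H] [MeasurableInv H]

/-- the leg (or the empty leg) at the word `w0`. -/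
def legw {Eb : Finset E} (w0 : List Eb) (o : Option Eb) (a : ℕ) : List Eb :=
  w0 ++ (match o with
    | none => []
    | some e => replicate a e)

@[simp] theorem legw_none {Eb : Finset E} (w0 : List Eb) (a : ℕ) : legw w0 none a = w0 := by
  simp [legw]

@[simp] theorem legw_some {Eb : Finset E} (w0 : List Eb) (e : Eb) (a : ℕ) :
    legw w0 (some e) a = w0 ++ replicate a e := rfl

/-- The capacity inequality (CAP) at one scale and one base word: `L` legs with pattern `es`. -/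
def CapAt (R : RSys ι E) (ν : Measure H) (F : H → List R.Eb → E) (φ : List R.Eb → H → H)
    (A : ℕ) (τ : ℝ) (L : ℕ) (es : ℕ → Option R.Eb) (η δ' : ℝ) (w0 : List R.Eb) : Prop :=
  ∀ (n : H) (Ω : Set (Fin L → H × H)), MeasurableSet Ω →
    ENNReal.ofReal η ≤ Measure.pi (fun _ : Fin L => ν.prod ν) Ω → ∀ Y : ι → ℝ, (∀ i, 0 ≤ Y i) →
    (∀ ω ∈ Ω, ∀ j < L, ∀ a ≤ A, ∀ i,
      R.l i (F (wk (fun j => φ (legw w0 (es j) A)) n (extω ω) j) (legw w0 (es j) a) - F n w0)
        ≤ Y i ∧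
      R.l i (F (wk (fun j => φ (legw w0 (es j) A)) n (extω ω) (j + 1)) (legw w0 (es j) a) - F n w0)
        ≤ Y i) →
    R.Gt (fun i => A * τ * R.lam i) ≤ R.Gt Y + δ'

/-- the smallest positive weight norm, the largest weight norm (abstractly) -/
theorem RSys.exists_bounds (R : RSys ι E) : ∃ m M : ℝ, 0 < m ∧ 0 ≤ M ∧
    (∀ i, R.lam i ≠ 0 → m ≤ R.lam i) ∧ ∀ i, R.lam i ≤ M := by
  classical
  by_cases h : ((Finset.univ : Finset ι).filter fun i => R.lam i ≠ 0).Nonempty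
  · obtain ⟨i0, hi0, hmin⟩ := Finset.exists_min_image _ R.lam h
    have hi0' := (Finset.mem_filter.mp hi0).2
    refine ⟨R.lam i0, ∑ i, R.lam i, lt_of_le_of_ne (R.lam_nonneg i0) (Ne.symm hi0'),
      Finset.sum_nonneg fun i _ => R.lam_nonneg i, fun i hi => hmin i (by simp [hi]), fun i => ?_⟩
    exact Finset.single_le_sum (fun i _ => R.lam_nonneg i) (Finset.mem_univ i)
  · rw [Finset.not_nonempty_iff_eq_empty, Finset.filter_eq_empty_iff] at h
    refine ⟨1, 0, one_pos, le_rfl, fun i hi => absurd hi (by simpa using h (Finset.mem_univ i)),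
      fun i => ?_⟩
    have := h (Finset.mem_univ i)
    push Not at this
    exact this.le

/-- the arithmetic of the star argument. -/
theorem RSys.star_arith (R : RSys ι E) {m M : ℝ} (hm : ∀ i, R.lam i ≠ 0 → m ≤ R.lam i)
    (hM : ∀ i, R.lam i ≤ M) {r δ δs δ' : ℝ} (hδ : 0 ≤ δ) (hδs : 0 ≤ δs) {e : E} (he : e ∈ R.Eb)
    (hnum : 2 * δ * M * R.Lip + δ' < δs * m)
    {Y : ι → ℝ} (hY1 : ∀ i, Y i ≤ R.lam i * (r + 2 * δ))
    (hY2 : ∀ i, R.lam i ≠ 0 → R.dir i = e → Y i ≤ R.lam i * (r + 2 * δ) - R.lam i * δs)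
    (hG : R.Gt (fun i => r * R.lam i) ≤ R.Gt Y + δ') : False := by
  classical
  obtain ⟨i0, hi0, hdir⟩ := R.exists_dir e he
  set Z : ι → ℝ := fun i => R.lam i * (r + 2 * δ) - Y i with hZ
  have hZ0 : ∀ i, 0 ≤ Z i := fun i => sub_nonneg.mpr (hY1 i)
  have h1 := R.Gt_add_ge Y Z hZ0
  have h2 : (fun i => Y i + Z i) = fun i => R.lam i * (r + 2 * δ) := by
    funext i; simp [hZ]
  rw [h2] at h1
  have h3 : R.Gt (fun i => R.lam i * (r + 2 * δ)) ≤
      R.Gt (fun i => r * R.lam i) + R.Lip * (2 * δ * M) := by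
    have hM0 : 0 ≤ M := (R.lam_nonneg i0).trans (hM i0)
    refine R.Gt_le_add (by positivity) fun i => ?_
    have := hM i
    nlinarith [R.lam_nonneg i]
  have h4 : Z i0 ≤ ∑ i, Z i := Finset.single_le_sum (fun i _ => hZ0 i) (Finset.mem_univ i0)
  have h5 : δs * m ≤ Z i0 := by
    have h6 := hY2 i0 hi0.ne' hdir
    have h7 := hm i0 hi0.ne'
    simp only [hZ]
    nlinarith
  nlinarith

variable {ν μ : Measure H} [IsProbabilityMeasure ν] [SFinite μ] [μ.IsMulRightInvariant]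

/-- **the star argument (measure part)**: a class on which the star fails is small. -/
theorem class_small (R : RSys ι E) {m M : ℝ} (hm : ∀ i, R.lam i ≠ 0 → m ≤ R.lam i)
    (hM : ∀ i, R.lam i ≤ M) {F : H → List R.Eb → E} {φ : List R.Eb → H → H}
    (hφ : ∀ w, Measurable (φ w)) {A : ℕ} {τ : ℝ} (hτ : 0 ≤ τ) {L : ℕ} {es : ℕ → Option R.Eb}
    {η δ δs δ' : ℝ} (hδ : 0 ≤ δ) (hδs : 0 ≤ δs) {w0 : List R.Eb}
    (hcap : CapAt R ν F φ A τ L es η δ' w0)
    {c : ℝ≥0∞} (hc : ENNReal.ofReal η ≤ c ^ L) {D Q' : Set H} (hD : MeasurableSet D)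
    (hQ' : MeasurableSet Q') (hDQ : ∀ o : Option R.Eb, ∀ᵐ a ∂ν, ∀ q ∈ D,
      q * (φ (legw w0 o A) a)⁻¹ ∈ Q') (hfin : μ D ≠ ∞)
    (hcell : ∀ n ∈ D, ∀ n' ∈ D, ‖F n w0 - F n' w0‖ ≤ δ)
    (hlip : ∀ n ∈ D, ∀ e : R.Eb, ∀ a ≤ A, ‖F n (w0 ++ replicate a e) - F n w0‖ ≤ a * τ + δ)
    {e : R.Eb} (hfail : ∀ n ∈ D, ∀ e' : R.Eb, ∀ a ≤ A,
      inner ℝ (e : E) (F n (w0 ++ replicate a e') - F n w0) < A * τ - δs)
    (hnum : 2 * δ * M * R.Lip + δ' < δs * m) :
    μ D ≤ L * (Fintype.card (Option R.Eb) * (c * μ Q')) := by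
  classical
  by_contra hcon
  push Not at hcon
  set Φ : Option R.Eb → H → H := fun o => φ (legw w0 o A) with hΦ
  have hΦm : ∀ o, Measurable (Φ o) := fun o => hφ _
  have h1 := measure_cleanN (μ := μ) hΦm hD hQ' hfin hDQ c L
  have hpos : 0 < μ (cleanN ν Φ c D L) := by
    by_contra h0
    have h0' : μ (cleanN ν Φ c D L) = 0 := by simpa using h0
    rw [h0', zero_add] at h1
    exact absurd hcon (not_lt.mpr h1)
  obtain ⟨n0, hn0⟩ := nonempty_of_measure_ne_zero hpos.ne'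
  -- the walk
  have hAm : ∀ j, MeasurableSet (cleanN ν Φ c D (L - j)) := fun j => measurableSet_cleanN hΦm c hD _
  have hw := walk_prob (ν := ν) c L (fun j => Φ (es j)) (fun j => cleanN ν Φ c D (L - j))
    (fun j => hΦm _) hAm (fun j hj q hq => by
      have e1 : L - j = (L - (j + 1)) + 1 := by omega
      rw [e1] at hq
      exact Tk_cleanN Φ c D _ hq (es j)) n0 (by simpa using hn0)
  set Ω : Set (Fin L → H × H) := {ω | ∀ j ≤ L, wk (fun j => Φ (es j)) n0 (extω ω) j ∈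
    cleanN ν Φ c D (L - j)} with hΩ
  have hΩm : MeasurableSet Ω := measurableSet_walk (fun j => hΦm _) hAm n0 L
  have hn0D : n0 ∈ D := cleanN_subset Φ c D L hn0
  -- the bounds for the heights
  have hA0 : (0 : ℝ) ≤ A := Nat.cast_nonneg A
  have hrs : 0 < A * τ - δs := by
    have := hfail n0 hn0D e 0 (Nat.zero_le _)
    simpa using this
  set Y : ι → ℝ := fun i => if R.lam i ≠ 0 ∧ R.dir i = e then R.lam i * (A * τ + δ - δs)
    else R.lam i * (A * τ + 2 * δ) with hY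
  have hY0 : ∀ i, 0 ≤ Y i := by
    intro i
    simp only [hY]
    have := R.lam_nonneg i
    split_ifs
    · exact mul_nonneg this (by linarith)
    · exact mul_nonneg this (by positivity)
  have key : ∀ n ∈ D, ∀ o : Option R.Eb, ∀ a ≤ A, ∀ i,
      R.l i (F n (legw w0 o a) - F n0 w0) ≤ Y i := by
    intro n hn o a ha i
    rw [R.l_eq]
    have e1 : F n (legw w0 o a) - F n0 w0 =
        (F n (legw w0 o a) - F n w0) + (F n w0 - F n0 w0) := by abel
    by_cases hlam : R.lam i = 0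
    · rw [hlam, zero_mul]; exact hY0 i
    have hdirm := R.dir_mem i hlam
    have hu := R.unit _ hdirm
    have h2 : inner ℝ (R.dir i) (F n w0 - F n0 w0) ≤ δ := by
      have := real_inner_le_norm (R.dir i) (F n w0 - F n0 w0)
      rw [hu, one_mul] at this
      exact this.trans (hcell n hn n0 hn0D)
    rw [e1, inner_add_right]
    have hl0 := R.lam_nonneg i
    by_cases hde : R.dir i = e
    · have h3 : inner ℝ (R.dir i) (F n (legw w0 o a) - F n w0) ≤ A * τ - δs := by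
        rw [hde]
        cases o with
        | none => simp [hrs.le]
        | some e' => exact (hfail n hn e' a ha).le
      have h4 : Y i = R.lam i * (A * τ + δ - δs) := by simp only [hY]; rw [if_pos ⟨hlam, hde⟩]
      rw [h4]
      exact mul_le_mul_of_nonneg_left (by linarith) hl0
    · have h3 : inner ℝ (R.dir i) (F n (legw w0 o a) - F n w0) ≤ A * τ + δ := by
        cases o with
        | none => simp; positivity
        | some e' =>
          have h5 := real_inner_le_norm (R.dir i) (F n (w0 ++ replicate a e') - F n w0)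
          rw [hu, one_mul] at h5
          refine h5.trans ((hlip n hn e' a ha).trans ?_)
          have : (a : ℝ) ≤ A := by exact_mod_cast ha
          have := mul_le_mul_of_nonneg_right this hτ
          linarith
      have h4 : Y i = R.lam i * (A * τ + 2 * δ) := by
        simp only [hY]; rw [if_neg (fun h => hde h.2)]
      rw [h4]
      exact mul_le_mul_of_nonneg_left (by linarith) hl0
  have hGt := hcap n0 Ω hΩm (hc.trans hw) Y hY0 (by
    intro ω hω j hj a ha i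
    have g1 := cleanN_subset Φ c D _ (hω j hj.le)
    have g2 := cleanN_subset Φ c D _ (hω (j + 1) hj)
    exact ⟨key _ g1 _ a ha i, key _ g2 _ a ha i⟩)
  refine R.star_arith hm hM hδ hδs e.2 hnum (Y := Y) (r := A * τ) ?_ ?_ hGt
  · intro i
    simp only [hY]
    split_ifs
    · have := R.lam_nonneg i
      exact mul_le_mul_of_nonneg_left (by linarith) this
    · exact le_rfl
  · intro i hi hd
    simp only [hY]
    rw [if_pos ⟨hi, hd⟩]
    have := R.lam_nonneg i
    nlinarith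

/-- **the set of points where some star fails is small.** -/
theorem star_bad_small [MeasurableSpace E] [BorelSpace E] [SecondCountableTopology E]
    (R : RSys ι E) {m M : ℝ} (hm : ∀ i, R.lam i ≠ 0 → m ≤ R.lam i)
    (hM : ∀ i, R.lam i ≤ M) {F : H → List R.Eb → E} (hF : ∀ w, Measurable fun n => F n w)
    {φ : List R.Eb → H → H} (hφ : ∀ w, Measurable (φ w)) {A : ℕ} {τ : ℝ} (hτ : 0 ≤ τ) {L : ℕ}
    {es : ℕ → Option R.Eb} {η δ δs δ' : ℝ} (hδ : 0 ≤ δ) (hδs : 0 ≤ δs) (Pf : Finset (List R.Eb))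
    (hcap : ∀ w0 ∈ Pf, CapAt R ν F φ A τ L es η δ' w0)
    {c : ℝ≥0∞} (hc : ENNReal.ofReal η ≤ c ^ L) {Q Q' : Set H} (hQ : MeasurableSet Q)
    (hQ' : MeasurableSet Q') (hDQ : ∀ w0 ∈ Pf, ∀ o : Option R.Eb, ∀ᵐ a ∂ν, ∀ q ∈ Q,
      q * (φ (legw w0 o A) a)⁻¹ ∈ Q') (hfin : μ Q ≠ ∞) {Mc : ℕ}
    (hcell : ∀ w0 ∈ Pf, ∃ T : Fin Mc → Set E, (∀ i, MeasurableSet (T i)) ∧
      (∀ i, ∀ x ∈ T i, ∀ y ∈ T i, ‖x - y‖ ≤ δ) ∧ ∀ n ∈ Q, ∃ i, F n w0 ∈ T i)
    (hnum : 2 * δ * M * R.Lip + δ' < δs * m) :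
    μ {n | n ∈ Q ∧ (∀ w0 ∈ Pf, WLip R.Eb (F n) A τ δ w0) ∧
      ¬ ∀ w0 ∈ Pf, WStar R.Eb (F n) A τ δs w0} ≤
      Pf.card * (R.Eb.card * (Mc * (L * (Fintype.card (Option R.Eb) * (c * μ Q'))))) := by
  classical
  choose! T hTm hTd hTc using hcell
  set D : List R.Eb → R.Eb → Fin Mc → Set H := fun w0 e i =>
    {n | n ∈ Q ∧ F n w0 ∈ T w0 i ∧
      (∀ e' : R.Eb, ∀ a ≤ A, ‖F n (w0 ++ replicate a e') - F n w0‖ ≤ a * τ + δ) ∧
      ∀ e' : R.Eb, ∀ a ≤ A, inner ℝ (e : E) (F n (w0 ++ replicate a e') - F n w0) < A * τ - δs}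
    with hDdef
  have hDm : ∀ w0 ∈ Pf, ∀ e i, MeasurableSet (D w0 e i) := by
    intro w0 hw0 e i
    have h1 : MeasurableSet {n | F n w0 ∈ T w0 i} := hF w0 (hTm w0 hw0 i)
    have h2 : MeasurableSet {n | ∀ e' : R.Eb, ∀ a ≤ A,
        ‖F n (w0 ++ replicate a e') - F n w0‖ ≤ a * τ + δ} := by
      have : {n | ∀ e' : R.Eb, ∀ a ≤ A, ‖F n (w0 ++ replicate a e') - F n w0‖ ≤ a * τ + δ} =
          ⋂ e' : R.Eb, ⋂ a : ℕ, ⋂ _ : a ≤ A,
            {n | ‖F n (w0 ++ replicate a e') - F n w0‖ ≤ a * τ + δ} := by ext; simp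
      rw [this]
      refine MeasurableSet.iInter fun e' => MeasurableSet.iInter fun a => MeasurableSet.iInter
        fun _ => ?_
      exact measurableSet_le ((hF _).sub (hF _)).norm measurable_const
    have h3 : MeasurableSet {n | ∀ e' : R.Eb, ∀ a ≤ A,
        inner ℝ (e : E) (F n (w0 ++ replicate a e') - F n w0) < A * τ - δs} := by
      have : {n | ∀ e' : R.Eb, ∀ a ≤ A,
          inner ℝ (e : E) (F n (w0 ++ replicate a e') - F n w0) < A * τ - δs} =
          ⋂ e' : R.Eb, ⋂ a : ℕ, ⋂ _ : a ≤ A,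
            {n | inner ℝ (e : E) (F n (w0 ++ replicate a e') - F n w0) < A * τ - δs} := by
        ext; simp
      rw [this]
      refine MeasurableSet.iInter fun e' => MeasurableSet.iInter fun a => MeasurableSet.iInter
        fun _ => ?_
      refine measurableSet_lt ?_ measurable_const
      have hc : Measurable fun x : E => inner ℝ (e : E) x :=
        (continuous_const.inner continuous_id).measurable
      exact hc.comp ((hF _).sub (hF _))
    exact hQ.inter (h1.inter (h2.inter h3))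
  have hsmall : ∀ w0 ∈ Pf, ∀ e i, μ (D w0 e i) ≤
      L * (Fintype.card (Option R.Eb) * (c * μ Q')) := by
    intro w0 hw0 e i
    refine class_small R hm hM hφ hτ hδ hδs (hcap w0 hw0) hc (hDm w0 hw0 e i) hQ' ?_ ?_ ?_ ?_
      (e := e) ?_ hnum
    · intro o
      filter_upwards [hDQ w0 hw0 o] with a ha q hq using ha q hq.1
    · exact ne_top_of_le_ne_top hfin (measure_mono fun n hn => hn.1)
    · intro n hn n' hn'
      exact hTd w0 hw0 i _ hn.2.1 _ hn'.2.1
    · intro n hn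
      exact hn.2.2.1
    · intro n hn
      exact hn.2.2.2
  have hsub : {n | n ∈ Q ∧ (∀ w0 ∈ Pf, WLip R.Eb (F n) A τ δ w0) ∧
      ¬ ∀ w0 ∈ Pf, WStar R.Eb (F n) A τ δs w0} ⊆
      ⋃ w0 ∈ Pf, ⋃ e : R.Eb, ⋃ i : Fin Mc, D w0 e i := by
    rintro n ⟨hnQ, hlip, hst⟩
    push Not at hst
    obtain ⟨w0, hw0, hst⟩ := hst
    unfold WStar at hst
    push Not at hst
    obtain ⟨e, hst⟩ := hst
    obtain ⟨i, hi⟩ := hTc w0 hw0 n hnQ
    simp only [Set.mem_iUnion]
    exact ⟨w0, hw0, e, i, hnQ, hi, hlip w0 hw0, hst⟩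
  refine (measure_mono hsub).trans ((measure_biUnion_finset_le _ _).trans ?_)
  have h1 : ∀ w0 ∈ Pf, μ (⋃ e : R.Eb, ⋃ i : Fin Mc, D w0 e i) ≤
      R.Eb.card * (Mc * (L * (Fintype.card (Option R.Eb) * (c * μ Q')))) := by
    intro w0 hw0
    refine (measure_iUnion_fintype_le μ _).trans ?_
    have h2 : ∀ e ∈ (Finset.univ : Finset R.Eb), μ (⋃ i : Fin Mc, D w0 e i) ≤
        Mc * (L * (Fintype.card (Option R.Eb) * (c * μ Q'))) := by
      intro e _
      refine (measure_iUnion_fintype_le μ _).trans ?_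
      refine (Finset.sum_le_sum fun i _ => hsmall w0 hw0 e i).trans ?_
      simp
    refine (Finset.sum_le_sum h2).trans ?_
    simp
  refine (Finset.sum_le_sum h1).trans ?_
  simp

/-- finite cells: a closed ball is covered by finitely many measurable sets of small diameter. -/
theorem exists_cells [FiniteDimensional ℝ E] [MeasurableSpace E] [BorelSpace E] (C : ℝ) {δ : ℝ}
    (hδ : 0 < δ) : ∃ Mc : ℕ, ∀ p : E, ∃ T : Fin Mc → Set E, (∀ i, MeasurableSet (T i)) ∧
      (∀ i, ∀ x ∈ T i, ∀ y ∈ T i, ‖x - y‖ ≤ δ) ∧ ∀ x, ‖x - p‖ ≤ C → ∃ i, x ∈ T i := by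
  classical
  have : ProperSpace E := FiniteDimensional.proper ℝ E
  have hcomp : IsCompact (Metric.closedBall (0 : E) C) := isCompact_closedBall _ _
  obtain ⟨t, _, htf, hcov⟩ := hcomp.finite_cover_balls (e := δ / 2) (by positivity)
  obtain ⟨N, f, hf⟩ : ∃ N : ℕ, ∃ f : Fin N → E, ∀ x ∈ t, ∃ i, f i = x := by
    refine ⟨htf.toFinset.card, fun i => (htf.toFinset.equivFin.symm i : E), fun x hx => ?_⟩
    refine ⟨htf.toFinset.equivFin ⟨x, by simpa using hx⟩, by simp⟩
  refine ⟨N, fun p => ⟨fun i => Metric.ball (p + f i) (δ / 2), fun i => measurableSet_ball,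
    fun i x hx y hy => ?_, fun x hx => ?_⟩⟩
  · rw [Metric.mem_ball] at hx hy
    rw [← dist_eq_norm]
    have := dist_triangle_right x y (p + f i)
    linarith
  · have h1 : x - p ∈ Metric.closedBall (0 : E) C := by simpa using hx
    have h2 := hcov h1
    simp only [Set.mem_iUnion] at h2
    obtain ⟨y, hy, h3⟩ := h2
    obtain ⟨i, rfl⟩ := hf y hy
    refine ⟨i, ?_⟩
    rw [Metric.mem_ball, dist_eq_norm] at h3 ⊢
    rwa [sub_add_eq_sub_sub]

end Box

end Crest.Agent.R182.Star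
private theorem rz_2da2db407b : type_of% @_root_.Crest.Agent.R182.Star.legw.eq_1 := @_root_.Crest.Agent.R182.Star.legw.eq_1 -- L36
end

-- ▼ part R182/StarSys

set_option autoImplicit false
set_option linter.unusedSectionVars false

open MeasureTheory ENNReal List

namespace Crest.Agent.R182.Star

open Crest.Agent.R182.Conv

variable {ι : Type*} [Fintype ι] {E : Type*} [NormedAddCommGroup E] [InnerProductSpace ℝ E]
  [FiniteDimensional ℝ E]

/-- the Riesz vector of `l i` -/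
noncomputable def riesz (S : GenSys ι E) (i : ι) : E :=
  haveI : CompleteSpace E := FiniteDimensional.complete ℝ E
  (InnerProductSpace.toDual ℝ E).symm (LinearMap.toContinuousLinearMap (S.l i))

theorem inner_riesz (S : GenSys ι E) (i : ι) (v : E) : inner ℝ (riesz S i) v = S.l i v := by
  haveI : CompleteSpace E := FiniteDimensional.complete ℝ E
  unfold riesz
  rw [InnerProductSpace.toDual_symm_apply]
  rfl

open Classical in
/-- the system of the Riesz directions. -/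
noncomputable def RSys.ofGen (S : GenSys ι E) : RSys ι E where
  toGenSys := S
  lam i := ‖riesz S i‖
  dir i := (‖riesz S i‖)⁻¹ • riesz S i
  Eb := (Finset.univ.filter fun i => ‖riesz S i‖ ≠ 0).image fun i => (‖riesz S i‖)⁻¹ • riesz S i
  lam_nonneg i := norm_nonneg _
  l_eq i v := by
    rw [inner_smul_left, inner_riesz]
    by_cases h : ‖riesz S i‖ = 0
    · rw [h, zero_mul, ← inner_riesz, norm_eq_zero.mp h, inner_zero_left]
    · simp [mul_inv_cancel_left₀ h]
  dir_mem i hi := Finset.mem_image.mpr ⟨i, by simpa using hi, rfl⟩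
  unit e he := by
    obtain ⟨i, hi, rfl⟩ := Finset.mem_image.mp he
    have hi' := (Finset.mem_filter.mp hi).2
    rw [norm_smul, norm_inv, norm_norm, inv_mul_cancel₀ hi']
  exists_dir e he := by
    obtain ⟨i, hi, rfl⟩ := Finset.mem_image.mp he
    have hi' := (Finset.mem_filter.mp hi).2
    exact ⟨i, lt_of_le_of_ne (norm_nonneg _) (Ne.symm hi'), rfl⟩

theorem RSys.span_Eb (R : RSys ι E) : Submodule.span ℝ (R.Eb : Set E) = ⊤ := by
  rw [← Submodule.orthogonal_eq_bot_iff, Submodule.eq_bot_iff]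
  intro v hv
  refine R.sep v fun i => ?_
  rw [R.l_eq]
  by_cases h : R.lam i = 0
  · rw [h, zero_mul]
  · rw [Submodule.mem_orthogonal] at hv
    rw [hv _ (Submodule.subset_span (R.dir_mem i h)), mul_zero]

/-- a positive relation between the directions (unimodularity). -/
theorem RSys.exists_rel (R : RSys ι E) : ∃ c0 : R.Eb → ℝ, (∀ e, 0 < c0 e) ∧ comb R.Eb c0 = 0 := by
  classical
  obtain ⟨n, hn⟩ := R.ne
  refine ⟨fun e => ∑ i, if R.lam i ≠ 0 ∧ R.dir i = e then (n i : ℝ) * R.lam i else 0, fun e => ?_, ?_⟩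
  · obtain ⟨i, hi, hd⟩ := R.exists_dir e e.2
    have h1 : (1 : ℝ) ≤ n i := by exact_mod_cast R.one_le n hn i
    refine lt_of_lt_of_le (b := (n i : ℝ) * R.lam i) (by positivity) ?_
    have h2 := Finset.single_le_sum (f := fun i => if R.lam i ≠ 0 ∧ R.dir i = e then
      (n i : ℝ) * R.lam i else 0) (fun i _ => by
        split_ifs
        · exact mul_nonneg (Nat.cast_nonneg _) (R.lam_nonneg i)
        · exact le_rfl) (Finset.mem_univ i)
    simp only [ne_eq, hi.ne', not_false_eq_true, hd, and_self, if_true] at h2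
    exact h2
  · rw [comb_apply]
    have h1 : ∀ e : R.Eb, (∑ i, if R.lam i ≠ 0 ∧ R.dir i = e then (n i : ℝ) * R.lam i else 0) •
        (e : E) = ∑ i, if R.lam i ≠ 0 ∧ R.dir i = e then ((n i : ℝ) * R.lam i) • R.dir i else 0 := by
      intro e
      rw [Finset.sum_smul]
      refine Finset.sum_congr rfl fun i _ => ?_
      split_ifs with h
      · rw [h.2]
      · rw [zero_smul]
    simp_rw [h1]
    rw [Finset.sum_comm]
    have h2 : ∀ i, (∑ e : R.Eb, if R.lam i ≠ 0 ∧ R.dir i = e then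
        ((n i : ℝ) * R.lam i) • R.dir i else 0) = ((n i : ℝ) * R.lam i) • R.dir i := by
      intro i
      by_cases hi : R.lam i = 0
      · simp [hi]
      · have hm := R.dir_mem i hi
        rw [Finset.sum_eq_single (⟨R.dir i, hm⟩ : R.Eb)]
        · simp [hi]
        · intro e _ he
          rw [if_neg]
          rintro ⟨_, h⟩
          exact he (Subtype.ext h.symm)
        · simp
    simp_rw [h2]
    refine ext_inner_right ℝ fun v => ?_
    rw [inner_zero_left, sum_inner]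
    have h3 := R.tr n hn v
    rw [← h3]
    refine Finset.sum_congr rfl fun i _ => ?_
    rw [inner_smul_left, R.l_eq]
    simp [mul_assoc]

end Crest.Agent.R182.Star
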