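import Mathlib
import Crest.Agent.R182.GenMain
import Crest.Agent.R182.GenAbs
import Crest.Agent.R182.StarSys
import Crest.Agent.R182.ConvType
import Crest.Agent.R182.FacetIneq
import Crest.Agent.R182.StarLaw
import Crest.Agent.R182.GenLaw
import Crest.Agent.R182.CapFin

-- ▼ part R182/GenBig
section

set_option autoImplicit false
set_option linter.unusedSectionVars false

open MeasureTheory Set
open scoped ENNReal Pointwise Topology

namespace Crest.Agent.R182.Gen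

open Crest.Agent.R182.Core Crest.Agent.R182.Nb

variable {Γ : Type*} [Group Γ] {k : ℕ} {S : Set Γ} {π : Γ →* Multiplicative (Fin k → ℤ)}
  (M : BModel S π)

/-- **GEN.** A function which is almost constant along typical moves at the touching words is
almost constant on the box. -/
theorem box_law' (hs : Spans M) (hG : BGen M) (T : ℝ) {V : Set M.NN} (hV : MeasurableSet V)
    (hVb : ∃ ρ : ℝ, ∀ n ∈ V, ‖n‖ ≤ ρ) (hV1 : V ∈ 𝓝 (1 : M.NN)) {R0 : ℝ} (hR0 : 1 ≤ R0) :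
    ∃ (J : ℕ) (R C : ℝ), R0 ≤ R ∧ 0 < C ∧ ∀ {ρ : Type} (ray : M.gen → ρ) (g : ρ → M.G),
      Touch M ray g T → ∀ {X : Type} [PseudoMetricSpace X] [MeasurableSpace X]
      [OpensMeasurableSpace X] [SecondCountableTopology X] (Φ : M.NN → X), Measurable Φ →
      ∀ δ : ℝ, 0 ≤ δ → ∀ ε : ℝ≥0∞,
      (∀ r, badInt volume Φ δ (M.conjN (g r)) (box M (fun i => R • fam M ray g i) 1) V ≤ ε) →
      ∀ A ⊆ box M (fun i => R0 • fam M ray g i) 1, volume A ≠ 0 → ∃ q₀ ∈ A,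
        volume {q | q ∈ box M (fun i => R0 • fam M ray g i) 1 ∧ 2 * δ * J < dist (Φ q₀) (Φ q)} * volume A ≤
          ENNReal.ofReal C * ε * volume (box M (fun i => R0 • fam M ray g i) 1) := by
  obtain ⟨ρV, hρV⟩ := hVb
  obtain ⟨ρ2, hρ2, hsmall⟩ := exists_small M hV1
  obtain ⟨ρ3, hρ3⟩ := exists_bound M (max ρV ρ2)
  set ρ4 := max (max ρ3 ρ2) 0 with hρ4
  obtain ⟨D, hD, hmove⟩ := exists_move M hs T ρ4 (le_max_right _ _)
  obtain ⟨D', hD', hop⟩ := exists_op_fam M.star M.gen M.c M.nilC 1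
  obtain ⟨J, hJ⟩ := exists_gen_moves M hG ((D' * R0) ^ M.c) ρ2 hρ2
  set V0 : Set M.NN := Metric.closedBall (0 : M.NN) ρ2 with hV0def
  have hV0m : MeasurableSet V0 := Metric.isClosed_closedBall.measurableSet
  have hV0V : V0 ⊆ V := by
    intro a ha
    have ha' : ‖a‖ ≤ ρ2 := by simpa [hV0def] using ha
    have h0 : ‖(1 : M.NN)‖ ≤ ρ2 := by rw [M.one_def, norm_zero]; exact hρ2.le
    have := hsmall a 1 ha' h0
    rwa [mul_one] at this
  have hV00 : volume V0 ≠ 0 := (Metric.measure_closedBall_pos _ _ hρ2).ne'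
  have hV01 : volume V0 ≠ ∞ := (isCompact_closedBall _ _).measure_lt_top.ne
  have hV1' : volume V ≠ ∞ := by
    refine (lt_of_le_of_lt (measure_mono (t := Metric.closedBall (0 : M.NN) ρV) ?_)
      (isCompact_closedBall _ _).measure_lt_top).ne
    intro n hn
    simpa using hρV n hn
  have hVV0 : volume V0 * volume V ≠ 0 :=
    mul_ne_zero hV00 fun h => hV00 (measure_mono_null hV0V h)
  have hVV1 : volume V0 * volume V ≠ ∞ := ENNReal.mul_ne_top hV01 hV1'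
  have hR00 : 0 < R0 := by linarith
  set R : ℝ := D ^ (J + 1) with hR
  have hR1 : 1 ≤ R := one_le_pow₀ hD
  have hRR0 : 1 ≤ R * R0 := one_le_mul_of_one_le_of_one_le hR1 hR0
  set C' : ℝ≥0∞ := J * 2 * ENNReal.ofReal ((R ^ M.c) ^ M.r) / (volume V0 * volume V) with hC'
  have hC'top : C' ≠ ∞ := by
    rw [hC']
    refine ENNReal.div_ne_top (ENNReal.mul_ne_top ?_ ENNReal.ofReal_ne_top) hVV0
    exact ENNReal.mul_ne_top (ENNReal.natCast_ne_top J) (by norm_num)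
  refine ⟨J, R * R0, C'.toReal + 1, le_mul_of_one_le_left hR00.le hR1, by positivity, ?_⟩
  intro ρ ray g ht X _ _ _ _ Φ hΦ δ hδ ε hbad A hA hA0
  set Q := box M (fun i => R0 • fam M ray g i) 1 with hQ
  set Qs : ℕ → Set M.NN := fun i => box M (fun j => (D ^ i * R0) • fam M ray g j) 1 with hQs
  have hQs0 : Qs 0 = Q := by simp [hQs, hQ]
  have hQm : ∀ i, MeasurableSet (Qs i) := fun i => measurableSet_box M zero_le_one
  have hQfin : volume Q < ∞ := volume_box_lt_top M zero_le_one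
  have hmono : ∀ i ≤ J + 1, Qs i ⊆ box M (fun i => (R * R0) • fam M ray g i) 1 := by
    intro i hi n hn
    have h1 : (1:ℝ) ≤ D ^ (J + 1 - i) := one_le_pow₀ hD
    have h2 := Bx_le_smul h1 zero_le_one hn
    simp only [smul_smul, ← mul_assoc, ← pow_add] at h2
    rwa [Nat.sub_add_cancel hi] at h2
  have hmv : ∀ i, ∀ q ∈ Qs i, ∀ r (n : M.NN), ‖n‖ ≤ ρ4 → q * M.conjN (g r) n ∈ Qs (i + 1) := by
    intro i q hq r n hn
    have := hmove ray g ht (D ^ i * R0) (one_le_mul_of_one_le_of_one_le (one_le_pow₀ hD) hR0)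
      q hq r n hn
    rwa [← mul_assoc, ← pow_succ'] at this
  obtain ⟨q₀, hq₀, h⟩ := one_law volume hΦ (U := V0) (V0 := V0) (V := V)
    (Qb := box M (fun i => (R * R0) • fam M ray g i) 1) (Qs := Qs) (J := J) (δ := δ) (ε := ε)
    (fun r => (M.conjN (g r)).toMonoidHom) (fun r => (M.continuous_conjN (g r)).measurable) hQm
    (measurableSet_box M zero_le_one) (fun i hi => hmono i (by omega)) hV hV0m hV0V
    (fun u hu a ha => hsmall a u (by simpa [hV0def] using ha) (by simpa [hV0def] using hu))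
    (fun i hi q hq r a ha b hb => hmono (i + 1) (by omega) (hmv i q hq r _ (by
      refine (hρ3 a b ?_ ?_).trans ((le_max_left _ _).trans (le_max_left _ _))
      · exact (show ‖a‖ ≤ ρ2 by simpa [hV0def] using ha).trans (le_max_right _ _)
      · exact (hρV b hb).trans (le_max_left _ _))))
    (fun i hi q hq r u hu => hmv i q hq r u
      ((show ‖u‖ ≤ ρ2 by simpa [hV0def] using hu).trans
        ((le_max_right _ _).trans (le_max_left _ _))))
    (fun q hq q' hq' => by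
      rw [hQs0] at hq hq'
      have h1 : q⁻¹ * q' ∈ box M (fam M ray g) ((D' * R0) ^ M.c) := by
        change M.E (q⁻¹ * q') ∈ Bx M.c (fam M ray g) ((D' * R0) ^ M.c)
        rw [M.E_mul, E_inv]
        have h2 := hop (fun i => R0 • fam M ray g i) 1 le_rfl (-M.E q)
          (by simpa using Bx_neg hq) (M.E q') hq'
        rw [mul_one] at h2
        simp only [smul_smul] at h2
        obtain ⟨y, hy, hy'⟩ := Bx_smul_fam (one_le_mul_of_one_le_of_one_le hD' hR0) h2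
        rw [hy']
        refine Bx_mono (le_of_eq ?_) (Bx_smul hy _)
        rw [abs_of_nonneg (by positivity), mul_one]
      obtain ⟨l, hl1, hl2, hl3⟩ := hJ ray g _ h1
      refine ⟨l, fun p hp => by simpa [hV0def] using hl1 p hp, hl2, ?_⟩
      have h3 : q' = q * (q⁻¹ * q') := by group
      conv_lhs => rw [h3, hl3]
      rfl) hδ hbad hV00 hV01 hV1' (A := A) (by rw [hQs0]; exact hA) hA0
    ((measure_mono hA).trans_lt hQfin).ne
  refine ⟨q₀, hq₀, ?_⟩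
  rw [hQs0] at h
  have h5 : volume (box M (fun i => (R * R0) • fam M ray g i) 1) ≤
      ENNReal.ofReal ((R ^ M.c) ^ M.r) * volume Q := by
    have := volume_box_smul_le M (v := fun i => R0 • fam M ray g i) (t := 1) hR1
    simp only [smul_smul] at this
    exact this
  have h6 : volume {q | q ∈ Q ∧ 2 * δ * J < dist (Φ q₀) (Φ q)} * volume A ≤ C' * ε * volume Q := by
    have h7 := h.trans (mul_le_mul_right h5 _)
    rw [← ENNReal.le_div_iff_mul_le (Or.inl hVV0) (Or.inl hVV1)] at h7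
    refine h7.trans (le_of_eq ?_)
    rw [hC', ENNReal.div_eq_inv_mul, ENNReal.div_eq_inv_mul]
    ring
  refine h6.trans ?_
  gcongr
  calc C' = ENNReal.ofReal C'.toReal := (ENNReal.ofReal_toReal hC'top).symm
    _ ≤ ENNReal.ofReal (C'.toReal + 1) := ENNReal.ofReal_le_ofReal (by linarith)

end Crest.Agent.R182.Gen
end

-- ▼ part R182/GenWord
section

set_option autoImplicit false
set_option linter.unusedSectionVars false

open MeasureTheory

namespace Crest.Agent.R182.Gen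

open Crest.Agent.R182.Nb Crest.Agent.R182.Core Crest.Agent.R182.Cap Crest.Agent.R182.Star

section tiny

variable {Γ : Type*} [Group Γ] {k : ℕ} {S : Set Γ} {π : Γ →* Multiplicative (Fin k → ℤ)}
  (M : BModel S π)

/-- small words conjugate bounded elements into small boxes -/
theorem exists_conj_tiny (hs : Spans M) (ρ : ℝ) (hρ : 0 ≤ ρ) : ∃ D : ℝ, 0 ≤ D ∧
    ∀ (v : M.gen → M.L) (e : ℝ), 0 ≤ e → e ≤ 1 → ∀ g : M.G, Sm M v e g →
      ∀ n : M.NN, ‖n‖ ≤ ρ → M.E (M.conjN g n) ∈ Bx M.c v (D * e) := by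
  classical
  obtain ⟨T0, hT0, hball⟩ := exists_ball M (v := fun i : M.gen => M.bas i) hs
  obtain ⟨A, hA, h⟩ := exists_Bx_split M.c M.gen M.gen 1 le_rfl
  refine ⟨A * (T0 * ρ), by positivity, fun v e he he1 g hg n hn => ?_⟩
  rw [E_conjN]
  have h1 : M.Ad g (M.E n) ∈ Bx M.c (fun i : M.gen => M.Ad g (M.bas i)) (T0 * ρ) :=
    Bx_map_equiv (M.Ad g) (M.Ad_lie g) (hball ρ hρ n hn)
  obtain ⟨u, hu, k', hk', hx⟩ := h v (fun i : M.gen => M.Ad g (M.bas i)) (fun _ => False)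
    (M.nilC.nil _) e he he1 (fun i hi => absurd hi id) (fun i _ => hg i) (T0 * ρ) (by positivity)
    _ h1
  have hu0 : u = 0 := by
    obtain ⟨a, ha, hu⟩ := hu
    rw [hu]
    refine Finset.sum_eq_zero fun κ hκ => ?_
    have : mon (rst (fun i : M.gen => M.Ad g (M.bas i)) (fun _ => False)) κ = 0 := by
      cases κ with
      | nil => simp
      | cons i κ =>
        exact mon_rst_not (w := fun _ => False)
          (fun h' : ∀ j ∈ i :: κ, False => h' i List.mem_cons_self)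
    rw [this, smul_zero]
  rw [hx, hu0, zero_add]
  refine Bx_mono (le_of_eq ?_) hk'
  ring

/-- **absorption**: translations by conjugates of bounded elements under small words. -/
theorem exists_absorb_word (hs : Spans M) (R1 : ℝ) (hR1 : 0 ≤ R1) {τ : ℝ} (hτ : 0 < τ) :
    ∃ e0 : ℝ, 0 < e0 ∧ ∀ (v : M.gen → M.L) (e : ℝ), 0 ≤ e → e ≤ e0 → ∀ g : M.G, Sm M v e g →
      ∀ R' : ℝ, 1 ≤ R' → ∀ u : M.NN, ‖u‖ ≤ R1 →
        volume {m : M.NN | m ∈ box M (fun i => R' • v i) 1 ∧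
          m * M.conjN g u ∉ box M (fun i => R' • v i) 1} ≤
        ENNReal.ofReal τ * volume (box M (fun i => R' • v i) 1) := by
  obtain ⟨D, hD, h1⟩ := exists_conj_tiny M hs R1 hR1
  obtain ⟨A, hA, h2⟩ := exists_absorb_vol M
  refine ⟨min 1 (min (1 / (D + 1)) (τ / ((A + 1) * (D + 1)))), by positivity, ?_⟩
  intro v e he he0 g hg R' hR' u hu
  have he1 : e ≤ 1 := he0.trans (min_le_left _ _)
  have he2 : e ≤ 1 / (D + 1) := he0.trans ((min_le_right _ _).trans (min_le_left _ _))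
  have he3 : e ≤ τ / ((A + 1) * (D + 1)) := he0.trans ((min_le_right _ _).trans (min_le_right _ _))
  rw [le_div_iff₀ (by positivity)] at he2 he3
  have h3 := h1 v e he he1 g hg u hu
  have hDe0 : 0 ≤ D * e := by positivity
  have h4 : M.E (M.conjN g u) ∈ Bx M.c (fun i => R' • v i) (D * e) := Bx_le_smul hR' hDe0 h3
  refine (h2 (fun i => R' • v i) (D * e) hDe0 (by nlinarith) _ h4).trans ?_
  gcongr
  have : 0 ≤ A * e := by positivity
  nlinarith [mul_nonneg hA hDe0, mul_nonneg hD he]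

end tiny

section legs

variable {Γ : Type*} [Group Γ] {k : ℕ} {S : Set Γ} {π : Γ →* Multiplicative (Fin k → ℤ)}
  {M : BModel S π} [Countable Γ] {E : Type} [NormedAddCommGroup E] [InnerProductSpace ℝ E]
  {T : (Fin k → ℝ) ≃ₗ[ℝ] E} {V : Set M.NN} {RC : ℝ} {P : BModel.CapPar M T V RC}
  {R : RSys (GI M) E}



end legs

end Crest.Agent.R182.Gen
end

-- ▼ part R182/FacetGeom
section

set_option autoImplicit false
set_option linter.unusedSectionVars false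

namespace Crest.Agent.R182.Facet

open Crest.Agent.R182.Star Conv

variable {ι : Type*} [Fintype ι] {E : Type*} [NormedAddCommGroup E] [InnerProductSpace ℝ E]

/-- the linear map permutes the directions -/
def IsPerm (R : RSys ι E) (L : E →ₗ[ℝ] E) : Prop := ∃ σ : Equiv.Perm R.Eb, ∀ e : R.Eb, L e = σ e

section

variable {R : RSys ι E}

theorem IsPerm.mem {L : E →ₗ[ℝ] E} (h : IsPerm R L) : ∀ e ∈ R.Eb, L e ∈ R.Eb := by
  obtain ⟨σ, hσ⟩ := h
  intro e he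
  rw [hσ ⟨e, he⟩]; exact (σ ⟨e, he⟩).2

theorem NZ_iff (i : ι) : R.NZ i ↔ R.lam i ≠ 0 := by
  constructor
  · rintro ⟨x, hx⟩ h
    rw [R.l_eq, h, zero_mul] at hx
    exact hx rfl
  · intro h
    refine ⟨R.dir i, ?_⟩
    rw [R.l_eq, real_inner_self_eq_norm_sq, R.unit _ (R.dir_mem i h)]
    simpa using h

variable [FiniteDimensional ℝ E]

theorem finite_isPerm : {L : E →ₗ[ℝ] E | IsPerm R L}.Finite :=
  (finite_lin R.span_Eb).subset fun _ h => IsPerm.mem h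

theorem IsPerm.pow {L : E →ₗ[ℝ] E} (h : IsPerm R L) : ∃ m : ℕ, 1 ≤ m ∧ L ^ m = 1 := by
  obtain ⟨σ, hσ⟩ := h
  refine ⟨orderOf σ, orderOf_pos σ, ?_⟩
  have key : ∀ (m : ℕ) (e : R.Eb), (L ^ m) (e : E) = ((σ ^ m) e : R.Eb) := by
    intro m
    induction m with
    | zero => intro e; simp
    | succ m ih =>
      intro e
      rw [pow_succ', Module.End.mul_apply, ih, hσ, pow_succ', Equiv.Perm.mul_apply]
  apply LinearMap.ext_on R.span_Eb
  intro e he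
  have := key (orderOf σ) ⟨e, he⟩
  rw [pow_orderOf_eq_one] at this
  simpa using this

/-- some generating weight is nonnegative at every vector -/
theorem exists_nonneg (R : RSys ι E) {er : E} (her : er ∈ R.Eb) (v : E) :
    ∃ i, R.NZ i ∧ 0 ≤ R.l i v := by
  by_contra hcon
  push Not at hcon
  obtain ⟨n, hn⟩ := R.ne
  have h1 := R.tr n hn v
  obtain ⟨i0, hi0, _⟩ := R.exists_dir er her
  have h2 : ∑ i, (n i : ℝ) * R.l i v < ∑ i : ι, (0 : ℝ) := by
    refine Finset.sum_lt_sum (fun i _ => ?_) ⟨i0, Finset.mem_univ _, ?_⟩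
    · have hni : (0 : ℝ) ≤ n i := Nat.cast_nonneg _
      by_cases h : R.NZ i
      · exact mul_nonpos_of_nonneg_of_nonpos hni (hcon i h).le
      · have h0 : R.l i v = 0 := by
          by_contra h3
          exact h ⟨v, h3⟩
        rw [h0, mul_zero]
    · have hni : (1 : ℝ) ≤ n i0 := by exact_mod_cast R.one_le n hn i0
      have := hcon i0 ((NZ_iff i0).2 hi0.ne')
      nlinarith
  rw [h1] at h2
  simp at h2

/-- if `g` does not decrease in the half space, it is preserved. -/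
theorem g_eq_of_le {L : E →ₗ[ℝ] E} (hL : IsPerm R L) {er : E} (her : er ∈ R.Eb)
    (h : ∀ a, inner ℝ er a < 0 → R.g a ≤ R.g (L a)) (a : E) : R.g (L a) = R.g a := by
  have hu := R.unit er her
  have h1 : ∀ a, R.g a ≤ R.g (L a) := by
    intro a
    rcases lt_trichotomy (inner ℝ er a) 0 with h2 | h2 | h2
    · exact h a h2
    · refine le_of_forall_pos_le_add fun ε hε => ?_
      set c := R.g (L er) + R.g er + 1 with hc
      have hcp : 0 < c := by
        have := R.g_nonneg (L er)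
        have := R.g_nonneg er
        linarith
      have h3 : inner ℝ er (a - (ε / c) • er) < 0 := by
        rw [inner_sub_right, inner_smul_right, real_inner_self_eq_norm_sq, hu, h2]
        have : 0 < ε / c := by positivity
        linarith
      have h4 := h _ h3
      have h5 : R.g a ≤ R.g (a - (ε / c) • er) + ε / c * R.g er := by
        have := R.g_add_le (a - (ε / c) • er) ((ε / c) • er)
        rwa [sub_add_cancel, R.g_smul_of_nonneg (by positivity)] at this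
      have h6 : R.g (L (a - (ε / c) • er)) ≤ R.g (L a) + ε / c * R.g (L er) := by
        have h7 : L (a - (ε / c) • er) = L a + -((ε / c) • L er) := by
          rw [map_sub, map_smul, sub_eq_add_neg]
        rw [h7]
        have := R.g_add_le (L a) (-((ε / c) • L er))
        rwa [R.g_neg, R.g_smul_of_nonneg (by positivity)] at this
      have h7 : ε / c * R.g er + ε / c * R.g (L er) ≤ ε := by
        have : ε / c * R.g er + ε / c * R.g (L er) = ε * ((R.g (L er) + R.g er) / c) := by ring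
        rw [this]
        have h8 : (R.g (L er) + R.g er) / c ≤ 1 := by
          rw [div_le_one hcp]; linarith
        nlinarith
      linarith
    · have h3 := h (-a) (by rw [inner_neg_right]; linarith)
      rwa [map_neg, R.g_neg, R.g_neg] at h3
  obtain ⟨m, hm, hm1⟩ := hL.pow
  have h2 : ∀ (j : ℕ) (a : E), R.g a ≤ R.g ((L ^ j) a) := by
    intro j
    induction j with
    | zero => intro a; simp
    | succ j ih =>
      intro a
      rw [pow_succ, Module.End.mul_apply]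
      exact (h1 a).trans (ih _)
  refine le_antisymm ?_ (h1 a)
  have h3 := h2 (m - 1) (L a)
  have h4 : (L ^ (m - 1)) (L a) = a := by
    have : (L ^ (m - 1)) (L a) = (L ^ (m - 1 + 1)) a := by rw [pow_succ, Module.End.mul_apply]
    rw [this, Nat.sub_add_cancel hm, hm1]; rfl
  rwa [h4] at h3

/-- one generating weight composed with a law, which is `≤ 0` on the half space -/
theorem comp_of_nonpos {L : E →ₗ[ℝ] E} (hL : IsPerm R L) {er : E} (her : er ∈ R.Eb) {i : ι}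
    (hi : R.NZ i) (h : ∀ a, inner ℝ er a < 0 → R.l i (L a) ≤ 0) (a : E) :
    R.l i (L a) = R.lam i * inner ℝ er a := by
  have hu := R.unit er her
  have hlam : R.lam i ≠ 0 := (NZ_iff i).1 hi
  have hlp : 0 < R.lam i := lt_of_le_of_ne (R.lam_nonneg i) (Ne.symm hlam)
  obtain ⟨c, hc, hc2⟩ := exists_nonneg_mul (ξ := (innerₛₗ ℝ er : E →ₗ[ℝ] ℝ))
    (η := (R.l i) ∘ₗ L) ⟨er, by
      rw [innerₛₗ_apply_apply, real_inner_self_eq_norm_sq, hu]; norm_num⟩ (fun w hw => h w hw)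
  have hc3 : ∀ x, R.l i (L x) = c * inner ℝ er x := hc2
  obtain ⟨σ, hσ⟩ := hL
  have hdm := R.dir_mem i hlam
  set e1 : R.Eb := σ.symm ⟨R.dir i, hdm⟩ with he1
  have h1 : L (e1 : E) = R.dir i := by rw [hσ, he1, Equiv.apply_symm_apply]
  have hd := R.unit _ hdm
  have h2 : R.lam i = c * inner ℝ er (e1 : E) := by
    have := hc3 e1
    rw [h1, R.l_eq, real_inner_self_eq_norm_sq, hd] at this
    simpa using this
  have h3 : c ≤ R.lam i := by
    have h4 := hc3 er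
    rw [real_inner_self_eq_norm_sq, hu, R.l_eq] at h4
    have h5 : inner ℝ (R.dir i) (L er) ≤ 1 := by
      have h6 := real_inner_le_norm (R.dir i) (L er)
      have h7 : ‖L er‖ = 1 := by
        rw [hσ ⟨er, her⟩]; exact R.unit _ (σ ⟨er, her⟩).2
      rwa [hd, h7, one_mul] at h6
    have h6 : R.lam i * inner ℝ (R.dir i) (L er) ≤ R.lam i * 1 :=
      mul_le_mul_of_nonneg_left h5 hlp.le
    linarith
  have h4 : inner ℝ er (e1 : E) ≤ 1 := by
    have h6 := real_inner_le_norm er (e1 : E)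
    rwa [hu, R.unit _ e1.2, one_mul] at h6
  have h5 : c = R.lam i := by
    refine le_antisymm h3 ?_
    rw [h2]
    calc c * inner ℝ er (e1 : E) ≤ c * 1 := mul_le_mul_of_nonneg_left h4 hc
      _ = c := mul_one c
  rw [hc3, h5]

/-- **two laws which agree on positive values in a half space are equal.** -/
theorem eq_of_le {L1 L2 : E →ₗ[ℝ] E} (h1 : IsPerm R L1) (h2 : IsPerm R L2) {er : E}
    (her : er ∈ R.Eb)
    (h12 : ∀ a, inner ℝ er a < 0 → ∀ i, R.NZ i → R.l i (L1 a) ≤ max 0 (R.l i (L2 a)))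
    (h21 : ∀ a, inner ℝ er a < 0 → ∀ i, R.NZ i → R.l i (L2 a) ≤ max 0 (R.l i (L1 a))) :
    L1 = L2 := by
  have key : ∀ i, R.NZ i → ∀ L L' : E →ₗ[ℝ] E,
      (∀ a, inner ℝ er a < 0 → R.l i (L a) ≤ max 0 (R.l i (L' a))) →
      (∀ a, inner ℝ er a < 0 → R.l i (L' a) ≤ max 0 (R.l i (L a))) →
      (∃ a0, inner ℝ er a0 < 0 ∧ 0 < R.l i (L a0)) → ∀ v, R.l i (L v) = R.l i (L' v) := by
    intro i _ L L' h h' ⟨a0, ha0, hp⟩ v
    -- equality near `a0`
    have hloc : ∀ a, inner ℝ er a < 0 → 0 < R.l i (L a) → R.l i (L a) = R.l i (L' a) := by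
      intro a ha hpa
      have g1 := h a ha
      have g2 := h' a ha
      rw [max_eq_right hpa.le] at g2
      rcases le_or_gt (R.l i (L' a)) 0 with g3 | g3
      · rw [max_eq_left g3] at g1; linarith
      · rw [max_eq_right g3.le] at g1; linarith
    have e0 := hloc a0 ha0 hp
    -- perturb
    obtain ⟨t, ht, ht1, ht2⟩ : ∃ t : ℝ, 0 < t ∧ inner ℝ er (a0 + t • v) < 0 ∧
        0 < R.l i (L (a0 + t • v)) := by
      have c1 : Filter.Tendsto (fun t : ℝ => inner ℝ er (a0 + t • v)) (nhdsWithin 0 (Set.Ioi 0))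
          (nhds (inner ℝ er a0)) := by
        have : Continuous fun t : ℝ => inner ℝ er (a0 + t • v) := by fun_prop
        have := this.tendsto 0
        simp only [zero_smul, add_zero] at this
        exact this.mono_left nhdsWithin_le_nhds
      have c2 : Filter.Tendsto (fun t : ℝ => R.l i (L (a0 + t • v))) (nhdsWithin 0 (Set.Ioi 0))
          (nhds (R.l i (L a0))) := by
        have : Continuous fun t : ℝ => R.l i (L (a0 + t • v)) := by
          simp only [map_add, map_smul, smul_eq_mul]; fun_prop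
        have := this.tendsto 0
        simp only [zero_smul, add_zero] at this
        exact this.mono_left nhdsWithin_le_nhds
      have e1 := c1.eventually (gt_mem_nhds ha0)
      have e2 := c2.eventually (lt_mem_nhds hp)
      obtain ⟨t, ht⟩ := (e1.and (e2.and self_mem_nhdsWithin)).exists
      exact ⟨t, ht.2.2, ht.1, ht.2.1⟩
    have e1 := hloc _ ht1 ht2
    simp only [map_add, map_smul, smul_eq_mul] at e1
    have e2 : t * R.l i (L v) = t * R.l i (L' v) := by linarith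
    exact mul_left_cancel₀ ht.ne' e2
  have hall : ∀ i, R.NZ i → ∀ v, R.l i (L1 v) = R.l i (L2 v) := by
    intro i hi v
    by_cases c1 : ∃ a0, inner ℝ er a0 < 0 ∧ 0 < R.l i (L1 a0)
    · exact key i hi L1 L2 (fun a ha => h12 a ha i hi) (fun a ha => h21 a ha i hi) c1 v
    · by_cases c2 : ∃ a0, inner ℝ er a0 < 0 ∧ 0 < R.l i (L2 a0)
      · exact (key i hi L2 L1 (fun a ha => h21 a ha i hi) (fun a ha => h12 a ha i hi) c2 v).symm
      · push Not at c1 c2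
        rw [comp_of_nonpos h1 her hi c1, comp_of_nonpos h2 her hi c2]
  ext v
  have : L1 v - L2 v = 0 := by
    refine R.sep _ fun i => ?_
    by_cases hi : R.NZ i
    · rw [map_sub, hall i hi v, sub_self]
    · by_contra h3
      exact hi ⟨_, h3⟩
  exact sub_eq_zero.1 this

/-- the gap functional of the facet inequality -/
noncomputable def gap (R : RSys ι E) (i : ι) (a v1 v2 : E) : ℝ :=
  R.g a + R.l i v1 - R.g v1 - max 0 (R.l i v2)

/-- **geometry of FACET**: for different laws one of the four facet inequalities fails, in every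
open half space `⟪er, a⟫ < 0`. -/
theorem exists_gap {L1 L2 : E →ₗ[ℝ] E} (h1 : IsPerm R L1) (h2 : IsPerm R L2) (hne : L1 ≠ L2)
    {er : E} (her : er ∈ R.Eb) : ∃ a, inner ℝ er a < 0 ∧ ∃ i, R.NZ i ∧
      (0 < gap R i a (L1 a) (L1 a) ∨ 0 < gap R i a (L2 a) (L2 a) ∨
        0 < gap R i a (L1 a) (L2 a) ∨ 0 < gap R i a (L2 a) (L1 a)) := by
  by_contra hcon
  push Not at hcon
  have hty : ∀ L : E →ₗ[ℝ] E, IsPerm R L →
      (∀ a, inner ℝ er a < 0 → ∀ i, R.NZ i → gap R i a (L a) (L a) ≤ 0) →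
      ∀ a, R.g (L a) = R.g a := by
    intro L hL h
    refine g_eq_of_le hL her fun a ha => ?_
    obtain ⟨i, hi, hi2⟩ := exists_nonneg R her (L a)
    have := h a ha i hi
    unfold gap at this
    rw [max_eq_right hi2] at this
    linarith
  have g1 := hty L1 h1 fun a ha i hi => (hcon a ha i hi).1
  have g2 := hty L2 h2 fun a ha i hi => (hcon a ha i hi).2.1
  refine hne (eq_of_le h1 h2 her (fun a ha i hi => ?_) (fun a ha i hi => ?_))
  · have := (hcon a ha i hi).2.2.1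
    unfold gap at this
    rw [g1] at this
    linarith
  · have := (hcon a ha i hi).2.2.2
    unfold gap at this
    rw [g2] at this
    linarith

/-- the gap is homogeneous -/
theorem gap_smul {c : ℝ} (hc : 0 ≤ c) (i : ι) (a v1 v2 : E) :
    gap R i (c • a) (c • v1) (c • v2) = c * gap R i a v1 v2 := by
  unfold gap
  rw [R.g_smul_of_nonneg hc, R.g_smul_of_nonneg hc, map_smul, map_smul, smul_eq_mul, smul_eq_mul]
  have : max 0 (c * R.l i v2) = c * max 0 (R.l i v2) := by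
    rw [mul_max_of_nonneg _ _ hc, mul_zero]
  rw [this]; ring

end

end Crest.Agent.R182.Facet
end

-- ▼ part R182/FacetChange
section

set_option autoImplicit false
set_option linter.unusedSectionVars false

namespace Crest.Agent.R182.Facet

open MeasureTheory Cap CapModel

variable {G H ι E : Type*} [Group G] [Group H] [MeasurableSpace H] [MeasurableMul₂ H]
    [MeasurableInv H] [Fintype ι] [NormedAddCommGroup E] [NormedSpace ℝ E]

variable {M : CapModel G H ι E}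

theorem F_base (Ψ : G → G) (x g0 : G) (n : H) (g : G) :
    F M Ψ (x * g0) n g = F M Ψ x (M.cj g0 n) (g0 * g) := by
  unfold F
  rw [M.emb_cj]
  congr 2
  group

theorem cj_preserving (M : CapModel G H ι E) (g : G) : MeasurePreserving (M.cj g) M.μ M.μ :=
  ⟨M.cj_meas g, M.cj_map g⟩

theorem Tk_base (g0 : G) (B : Set H) (n : H) :
    Star.Tk M.ν (M.cj 1) (M.cj g0 ⁻¹' B) n = Star.Tk M.ν (M.cj g0) B (M.cj g0 n) := by
  unfold Star.Tk
  congr 1
  ext p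
  show M.cj g0 (n * (M.cj 1 p.1)⁻¹ * M.cj 1 p.2) ∈ B ↔ _
  rw [M.cj_one, M.cj_one, map_mul, map_mul, map_inv]
  rfl

/-- **the facet inequality**, at the base vertex `g0` -/
theorem facet_ineq' (hR : M.Reach) (hE : M.Ent) {K : ℝ} (hK : 1 ≤ K) (q : ℕ) {i : ι}
    (hi : M.S.NZ i) : ∃ Ac : ℝ, 0 ≤ Ac ∧ ∀ Ψ : G → G, QI M K Ψ →
    ∀ (r m : ℕ) (s e : ℝ) (c : ℕ → G) (d : ℕ → ℕ → G), StarData M q r m s c d →
    (∀ t, d 0 t = 1) → 0 ≤ e → ∀ Zs Zt : ι → ℝ, (∀ j, 0 ≤ Zs j) → (∀ j, 0 ≤ Zt j) →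
    (∀ j, ∃ k ≤ q, Zs j ≤ max 0 (M.S.l j (M.hgt (c k)))) →
    (∀ k ≤ q, ∀ t ≤ r, ∀ j, M.S.l j (M.hgt (d k t)) ≤ Zs j + e) →
    ∀ v : E, (∀ j, M.S.l j v ≤ Zt j) → ‖v‖ ≤ m →
    ∀ (x g0 : G) (A B : Set H) (v1 v2 : ℕ → E), MeasurableSet A → MeasurableSet B →
    (∀ n ∈ A, ∀ k ≤ q, ‖F M Ψ x n (g0 * c k) - F M Ψ x n g0 - v1 k‖ ≤ e) →
    (∀ n ∈ B, ∀ k ≤ q, ‖F M Ψ x n (g0 * c k) - F M Ψ x n g0 - v2 k‖ ≤ e) →
    (∀ n ∈ A, ∀ k ≤ q, ∀ t ≤ r, ∀ j,
      M.S.l j (F M Ψ x n (g0 * d k t)) ≤ M.S.l j (F M Ψ x n g0) + Zt j + e) →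
    ∀ Y : ℝ, 0 ≤ Y →
    (∀ n ∈ B, ∀ k ≤ q, ∀ t ≤ r,
      M.S.l i (F M Ψ x n (g0 * d k t)) ≤ M.S.l i (F M Ψ x n g0) + Y + e) →
    ∀ Q' : Set H, MeasurableSet Q' → M.μ Q' ≠ ⊤ → M.μ Q' ≠ 0 → M.μ A ≤ M.μ Q' → M.μ B ≤ M.μ Q' →
    (∀ k ≤ q, ∀ a ∈ M.V, ∀ n ∈ A, n * (M.cj (g0 * c k) a)⁻¹ ∈ Q') →
    (∀ k ≤ q, ∀ a ∈ M.V, ∀ n ∈ B, n * (M.cj (g0 * c k) a)⁻¹ ∈ Q') →
    ∀ β : ℝ, 0 < β →
    ENNReal.ofReal β * M.μ Q' ≤ ∫⁻ n in A, Star.Tk M.ν (M.cj g0) B n ∂M.μ →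
    M.S.Gt Zs + M.S.l i v ≤ M.S.Gt Zt + Y + Ac * (s + 1 + e) + Ac * Real.log m +
      Ac * |Real.log β| := by
  obtain ⟨Ac, hAc, hfac⟩ := facet_ineq hR hE hK q hi
  refine ⟨Ac, hAc, ?_⟩
  intro Ψ hΨ r m s e c d hst hd0 he Zs Zt hZs hZt hZs1 hZs2 v hv hvm x g0 A B v1 v2 hAm hBm hA hB
    hAZ Y hY hBY Q' hQ'm hQ'fin hQ'0 hAQ hBQ hAV hBV β hβ hedge
  have hm : ∀ S : Set H, M.μ (M.cj g0 ⁻¹' S) = M.μ S := M.μ_cj_image g0
  have hF1 : ∀ n, F M Ψ (x * g0) n 1 = F M Ψ x (M.cj g0 n) g0 := by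
    intro n; rw [F_base, mul_one]
  refine hfac Ψ hΨ r m s e c d hst hd0 he Zs Zt hZs hZt hZs1 hZs2 v hv hvm (x * g0)
    (M.cj g0 ⁻¹' A) (M.cj g0 ⁻¹' B) v1 v2 ⟨M.cj_meas g0 hAm, ?_⟩ ⟨M.cj_meas g0 hBm, ?_⟩ ?_ Y hY ?_
    (M.cj g0 ⁻¹' Q') (M.cj_meas g0 hQ'm) (by rw [hm]; exact hQ'fin) (by rw [hm]; exact hQ'0)
    (by rw [hm, hm]; exact hAQ) (by rw [hm, hm]; exact hBQ) ?_ ?_ β hβ ?_
  · intro n hn k hk
    rw [hF1, F_base]
    exact hA _ hn k hk
  · intro n hn k hk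
    rw [hF1, F_base]
    exact hB _ hn k hk
  · intro n hn k hk t ht j
    rw [hF1, F_base]
    exact hAZ _ hn k hk t ht j
  · intro n hn k hk t ht
    rw [hF1, F_base]
    exact hBY _ hn k hk t ht
  · intro k hk a ha n hn
    show M.cj g0 (n * (M.cj (c k) a)⁻¹) ∈ Q'
    rw [map_mul, map_inv, ← M.cj_mul]
    exact hAV k hk a ha _ hn
  · intro k hk a ha n hn
    show M.cj g0 (n * (M.cj (c k) a)⁻¹) ∈ Q'
    rw [map_mul, map_inv, ← M.cj_mul]
    exact hBV k hk a ha _ hn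
  · rw [hm, hst.c_zero]
    refine hedge.trans (le_of_eq ?_)
    have h1 : ∀ n, Star.Tk M.ν (M.cj 1) (M.cj g0 ⁻¹' B) n =
        Star.Tk M.ν (M.cj g0) B (M.cj g0 n) := Tk_base g0 B
    simp only [h1]
    have hTm : Measurable (Star.Tk M.ν (M.cj g0) B) := Star.measurable_Tk (M.cj_meas g0) hBm
    exact ((cj_preserving M g0).setLIntegral_comp_preimage hAm hTm).symm

end Crest.Agent.R182.Facet
end

-- ▼ part R182/FacetPair
section

set_option autoImplicit false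
set_option linter.unusedSectionVars false

namespace Crest.Agent.R182.Facet

open MeasureTheory Cap CapModel Crest.Agent.R182.Star Conv

variable {G H ι E : Type*} [Group G] [Group H] [MeasurableSpace H] [MeasurableMul₂ H]
    [MeasurableInv H] [Fintype ι] [NormedAddCommGroup E] [InnerProductSpace ℝ E]

/-- a test path at scale `N`: steps of length `≤ s N`, normalised heights close to the segment
`[0, a]`. -/
structure TPath (M : CapModel G H ι E) (N : ℕ) (s ζ Cm : ℝ) (r : ℕ) (d : ℕ → G) (a : E) :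
    Prop where
  zero : d 0 = 1
  step : ∀ t < r, M.len ((d t)⁻¹ * d (t + 1)) ≤ s * N
  mem : ∃ m : ℕ, (m : ℝ) ≤ Cm * N ∧ d r ∈ M.Cl m
  seg : ∀ t ≤ r, ∃ θ : ℝ, 0 ≤ θ ∧ θ ≤ 1 ∧ ‖(N : ℝ)⁻¹ • M.hgt (d t) - θ • a‖ ≤ ζ
  fin : ‖(N : ℝ)⁻¹ • M.hgt (d r) - a‖ ≤ ζ

/-- the image of the test path is close to the segment `[0, v]`. -/
def TLaw (M : CapModel G H ι E) (N : ℕ) (Ψ : G → G) (x : G) (g0 : G) (r : ℕ) (d : ℕ → G) (v : E)
    (e : ℝ) (n : H) : Prop :=
  ‖GF M N Ψ x n (g0 * d r) - GF M N Ψ x n g0 - v‖ ≤ e ∧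
  ∀ t ≤ r, ∃ θ : ℝ, 0 ≤ θ ∧ θ ≤ 1 ∧ ‖GF M N Ψ x n (g0 * d t) - GF M N Ψ x n g0 - θ • v‖ ≤ e

theorem F_eq_GF {M : CapModel G H ι E} {N : ℕ} (hN : (N : ℝ) ≠ 0) (Ψ : G → G) (x : G) (n : H)
    (g : G) : F M Ψ x n g = (N : ℝ) • GF M N Ψ x n g := by
  unfold F GF
  rw [smul_smul, mul_inv_cancel₀ hN, one_smul]

theorem l_seg_le (M : CapModel G H ι E) (j : ι) {u v : E} {θ ζ : ℝ} (h0 : 0 ≤ θ) (h1 : θ ≤ 1)
    (h : ‖u - θ • v‖ ≤ ζ) : M.S.l j u ≤ max 0 (M.S.l j v) + M.C0 * ζ := by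
  have h2 := l_drift (M := M) j h
  rw [map_smul, smul_eq_mul] at h2
  have h3 : θ * M.S.l j v ≤ max 0 (M.S.l j v) := by
    calc θ * M.S.l j v ≤ θ * max 0 (M.S.l j v) := mul_le_mul_of_nonneg_left (le_max_right _ _) h0
      _ ≤ 1 * max 0 (M.S.l j v) := mul_le_mul_of_nonneg_right h1 (le_max_left _ _)
      _ = _ := one_mul _
  linarith

/-- **the facet inequality between two classes, at scale `N`.** -/
theorem pair_rare {M : CapModel G H ι E} (hR : M.Reach) (hE : M.Ent) {K : ℝ} (hK : 1 ≤ K) {i : ι}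
    (hi : M.S.NZ i) : ∃ Cc : ℝ, 0 ≤ Cc ∧ ∀ (r : ℕ) (Cm β δ0 : ℝ), 0 < β → 0 < δ0 → ∃ N0 : ℕ,
    ∀ N ≥ N0, ∀ Ψ : G → G, QI M K Ψ → ∀ (s ζ e : ℝ), 0 ≤ s → s ≤ 1 → 0 ≤ ζ → 0 ≤ e →
    ∀ (d : ℕ → G) (a v1 v2 : E), TPath M N s ζ Cm r d a → ‖v1‖ ≤ Cm → ∀ (x g0 : G) (A B : Set H),
    MeasurableSet A → MeasurableSet B → (∀ n ∈ A, TLaw M N Ψ x g0 r d v1 e n) →
    (∀ n ∈ B, TLaw M N Ψ x g0 r d v2 e n) →
    ∀ Q' : Set H, MeasurableSet Q' → M.μ Q' ≠ ⊤ → M.μ Q' ≠ 0 → M.μ A ≤ M.μ Q' → M.μ B ≤ M.μ Q' →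
    (∀ b ∈ M.V, ∀ n ∈ A, n * (M.cj g0 b)⁻¹ ∈ Q') →
    (∀ b ∈ M.V, ∀ n ∈ B, n * (M.cj g0 b)⁻¹ ∈ Q') →
    (∀ b ∈ M.V, ∀ n ∈ A, n * (M.cj (g0 * d r) b)⁻¹ ∈ Q') →
    (∀ b ∈ M.V, ∀ n ∈ B, n * (M.cj (g0 * d r) b)⁻¹ ∈ Q') →
    ENNReal.ofReal β * M.μ Q' ≤ ∫⁻ n in A, Star.Tk M.ν (M.cj g0) B n ∂M.μ →
    M.S.g a + M.S.l i v1 ≤ M.S.g v1 + max 0 (M.S.l i v2) + Cc * (s + ζ + e) + δ0 := by
  obtain ⟨Ac, hAc, hfac⟩ := facet_ineq' hR hE hK 1 hi
  have hC0 := M.one_le_C0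
  have hLip := M.S.Lip_nonneg
  refine ⟨M.S.Lip * M.C0 + Ac * (1 + 2 * M.C0), by positivity, ?_⟩
  intro r Cm β δ0 hβ hδ0
  set cm : ℝ := |Cm| + 1 + 2 * M.C0 + r + 2 with hcm
  obtain ⟨N1, hN1⟩ := log_le_eventually Ac (C := cm) (δ0 := δ0 / 2) (by positivity)
  set κ0 : ℝ := Ac * (2 * M.C0 + 1) + Ac * |Real.log β| with hκ0
  obtain ⟨N2, hN2⟩ := exists_nat_ge (κ0 / (δ0 / 2))
  refine ⟨max (max N1 N2) 1, ?_⟩
  intro N hN Ψ hΨ s ζ e hs hs1 hζ he d a v1 v2 hd hv1 x g0 A B hAm hBm hA hB Q' hQ'm hQ'fin hQ'0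
    hAQ hBQ hA0 hB0 hA1 hB1 hedge
  have hN1' : N1 ≤ N := le_of_max_le_left (le_of_max_le_left hN)
  have hN2' : N2 ≤ N := le_of_max_le_right (le_of_max_le_left hN)
  have hNp : (1 : ℝ) ≤ N := by exact_mod_cast le_of_max_le_right hN
  have hNpos : (0 : ℝ) < N := by linarith
  have hNne : (N : ℝ) ≠ 0 := hNpos.ne'
  obtain ⟨m0, hm0, hm0'⟩ := hd.mem
  set m : ℕ := ⌈(|Cm| + 1) * N + 2 * M.C0⌉₊ + r + 1 with hm
  have hmge : (|Cm| + 1) * N + 2 * M.C0 + r + 1 ≤ m := by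
    rw [hm]; push_cast
    have := Nat.le_ceil ((|Cm| + 1) * N + 2 * M.C0)
    linarith
  have habs := abs_nonneg Cm
  have hCmle := le_abs_self Cm
  have hrn : (0 : ℝ) ≤ r := Nat.cast_nonneg r
  have hmle : (m : ℝ) ≤ cm * (N + 1) := by
    rw [hm]; push_cast
    have h1 := Nat.ceil_lt_add_one (a := (|Cm| + 1) * N + 2 * M.C0) (by positivity)
    have h2 : cm * (N + 1) = (|Cm| + 1) * N + (|Cm| + 1) +
        (2 * M.C0 + r + 2) * N + (2 * M.C0 + r + 2) := by rw [hcm]; ring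
    have h4 : 0 ≤ (2 * M.C0 + r + 2) * N := by positivity
    rw [h2]; linarith
  set sf : ℝ := s * N + 2 * M.C0 with hsf
  set ef : ℝ := 2 * M.C0 * (e + ζ) * N with hef
  have hef0 : 0 ≤ ef := by positivity
  set c' : ℕ → G := fun k => if k = 0 then 1 else d r with hc'
  set d' : ℕ → ℕ → G := fun k t => if k = 0 then 1 else d t with hd'
  have hCmN : Cm * N ≤ m := by
    have : Cm * N ≤ (|Cm| + 1) * N := by gcongr; linarith
    linarith
  have hsm : sf ≤ m := by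
    have h1 : s * N ≤ (|Cm| + 1) * N := by gcongr; linarith
    rw [hsf]; linarith
  have hstar : StarData M 1 r m sf c' d' := by
    refine ⟨by rw [hm]; omega, by simp [hc'], ?_, ?_, ?_, ?_, ?_, by rw [hm]; omega, hsm⟩
    · intro k _
      simp only [hc']
      split_ifs
      · exact M.Cl_mono 0 m (Nat.zero_le _) M.one_mem_Cl
      · refine M.Cl_mono m0 m ?_ hm0'
        exact_mod_cast hm0.trans hCmN
    · intro k
      simp only [hd']
      split_ifs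
      · rfl
      · exact hd.zero
    · intro k
      simp only [hd', hc']
    · intro k j hj
      simp only [hd']
      split_ifs
      · rw [M.dst_self, hsf]; positivity
      · refine (hd.step j hj).trans ?_
        rw [hsf]; linarith
    · rw [hsf]
      have : 0 ≤ s * N := by positivity
      linarith
  set Zs : ι → ℝ := fun j => max 0 (M.S.l j (M.hgt (d r))) with hZs
  set Zt : ι → ℝ := fun j => N * max 0 (M.S.l j v1) with hZt
  -- heights
  have hNζ : (N : ℝ) * (M.C0 * ζ) ≤ ef := by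
    rw [hef]
    have h1 : 0 ≤ M.C0 * ζ * N := by positivity
    have h2 : 0 ≤ M.C0 * e * N := by positivity
    linarith
  have hhgt : ∀ g : G, ∀ j, M.S.l j (M.hgt g) = N * M.S.l j ((N : ℝ)⁻¹ • M.hgt g) := by
    intro g j
    rw [map_smul, smul_eq_mul, ← mul_assoc, mul_inv_cancel₀ hNne, one_mul]
  have hla : ∀ j, N * max (M.S.l j a) 0 ≤ Zs j + M.C0 * ζ * N := by
    intro j
    have h1 : M.S.l j a ≤ M.S.l j ((N : ℝ)⁻¹ • M.hgt (d r)) + M.C0 * ζ := by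
      refine l_drift (M := M) j ?_
      rw [← norm_neg, neg_sub]; exact hd.fin
    have h2 : (N : ℝ) * M.S.l j a ≤ M.S.l j (M.hgt (d r)) + M.C0 * ζ * N := by
      rw [hhgt (d r) j]
      have := mul_le_mul_of_nonneg_left h1 hNpos.le
      linarith
    rw [mul_max_of_nonneg _ _ hNpos.le, mul_zero]
    have h3 : 0 ≤ M.C0 * ζ * N := by positivity
    simp only [hZs]
    refine max_le ?_ ?_
    · have := le_max_right 0 (M.S.l j (M.hgt (d r)))
      linarith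
    · have := le_max_left 0 (M.S.l j (M.hgt (d r)))
      linarith
  have hZs2 : ∀ k ≤ 1, ∀ t ≤ r, ∀ j, M.S.l j (M.hgt (d' k t)) ≤ Zs j + ef := by
    intro k _ t ht j
    have hZ0 : 0 ≤ Zs j := le_max_left _ _
    simp only [hd']
    split_ifs
    · rw [M.hgt_one, map_zero]; linarith
    · obtain ⟨θ, h0, h1, h2⟩ := hd.seg t ht
      have h3 := l_seg_le M j h0 h1 h2
      rw [hhgt (d t) j]
      have h4 := hla j
      rw [max_comm] at h4
      have h5 := mul_le_mul_of_nonneg_left h3 hNpos.le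
      rw [hef]
      have h6 : 0 ≤ M.C0 * e * N := by positivity
      linarith
  -- images
  have hFd : ∀ (n : H) (g g' : G), F M Ψ x n g - F M Ψ x n g' =
      (N : ℝ) • (GF M N Ψ x n g - GF M N Ψ x n g') := by
    intro n g g'
    rw [F_eq_GF hNne, F_eq_GF hNne, smul_sub]
  have hinc : ∀ (v : E) (n : H), TLaw M N Ψ x g0 r d v e n → ∀ k ≤ 1,
      ‖F M Ψ x n (g0 * c' k) - F M Ψ x n g0 - (if k = 0 then 0 else (N : ℝ) • v)‖ ≤ ef := by
    intro v n hn k _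
    simp only [hc']
    split_ifs
    · rw [mul_one, sub_self, sub_self, norm_zero]; exact hef0
    · rw [hFd, ← smul_sub, norm_smul, Real.norm_of_nonneg hNpos.le]
      have h1 := mul_le_mul_of_nonneg_left hn.1 hNpos.le
      refine h1.trans ?_
      rw [hef]
      have h2 : 0 ≤ M.C0 * ζ * N := by positivity
      have h3 : e * N ≤ M.C0 * (e * N) := le_mul_of_one_le_left (by positivity) hC0
      linarith
  have hhei : ∀ (v : E) (n : H), TLaw M N Ψ x g0 r d v e n → ∀ k ≤ 1, ∀ t ≤ r, ∀ j,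
      M.S.l j (F M Ψ x n (g0 * d' k t)) ≤ M.S.l j (F M Ψ x n g0) + N * max 0 (M.S.l j v) + ef := by
    intro v n hn k _ t ht j
    have hp : 0 ≤ N * max 0 (M.S.l j v) := mul_nonneg hNpos.le (le_max_left _ _)
    simp only [hd']
    split_ifs
    · rw [mul_one]; linarith
    · obtain ⟨θ, h0, h1, h2⟩ := hn.2 t ht
      have h3 := l_seg_le M j h0 h1 h2
      have h4 := mul_le_mul_of_nonneg_left h3 hNpos.le
      have h5 : M.S.l j (F M Ψ x n (g0 * d t)) - M.S.l j (F M Ψ x n g0) =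
          N * M.S.l j (GF M N Ψ x n (g0 * d t) - GF M N Ψ x n g0) := by
        rw [← map_sub, hFd, map_smul, smul_eq_mul]
      have h6 : (N : ℝ) * (M.C0 * e) ≤ ef := by
        rw [hef]
        have h1 : 0 ≤ M.C0 * ζ * N := by positivity
        have h2 : 0 ≤ M.C0 * e * N := by positivity
        linarith
      linarith
  have hkey := hfac Ψ hΨ r m sf ef c' d' hstar (fun t => by simp [hd']) hef0 Zs Zt
    (fun j => le_max_left _ _) (fun j => mul_nonneg hNpos.le (le_max_left _ _))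
    (fun j => ⟨1, le_rfl, by simp [hZs, hc']⟩) hZs2 ((N : ℝ) • v1)
    (fun j => by
      rw [map_smul, smul_eq_mul]
      exact mul_le_mul_of_nonneg_left (le_max_right _ _) hNpos.le)
    (by
      rw [norm_smul, Real.norm_of_nonneg hNpos.le]
      have : (N : ℝ) * ‖v1‖ ≤ N * Cm := mul_le_mul_of_nonneg_left hv1 hNpos.le
      linarith)
    x g0 A B (fun k => if k = 0 then 0 else (N : ℝ) • v1)
    (fun k => if k = 0 then 0 else (N : ℝ) • v2) hAm hBm
    (fun n hn k hk => hinc v1 n (hA n hn) k hk) (fun n hn k hk => hinc v2 n (hB n hn) k hk)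
    (fun n hn k hk t ht j => hhei v1 n (hA n hn) k hk t ht j)
    (N * max 0 (M.S.l i v2)) (mul_nonneg hNpos.le (le_max_left _ _))
    (fun n hn k hk t ht => hhei v2 n (hB n hn) k hk t ht i)
    Q' hQ'm hQ'fin hQ'0 hAQ hBQ
    (fun k _ b hb n hn => by
      simp only [hc']
      split_ifs
      · rw [mul_one]; exact hA0 b hb n hn
      · exact hA1 b hb n hn)
    (fun k _ b hb n hn => by
      simp only [hc']
      split_ifs
      · rw [mul_one]; exact hB0 b hb n hn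
      · exact hB1 b hb n hn) β hβ hedge
  rw [map_smul, smul_eq_mul] at hkey
  have g1 : (N : ℝ) * M.S.g a ≤ M.S.Gt Zs + M.S.Lip * (M.C0 * ζ * N) := by
    unfold GenSys.g
    rw [← M.S.Gt_smul hNpos.le]
    exact M.S.Gt_le_add (by positivity) hla
  have g2 : M.S.Gt Zt = N * M.S.g v1 := by
    unfold GenSys.g
    rw [← M.S.Gt_smul hNpos.le]
    congr 1
    funext j
    simp only [hZt, max_comm]
  rw [g2] at hkey
  have hm1' : (1 : ℝ) ≤ m := by exact_mod_cast hstar.one_le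
  have g3 := hN1 N hN1' m hm1' hmle
  have g4 : κ0 ≤ δ0 / 2 * N := by
    have h1 : (N2 : ℝ) ≤ N := by exact_mod_cast hN2'
    have h2 := hN2.trans h1
    rw [div_le_iff₀ (by positivity)] at h2
    linarith
  have g5 : (N : ℝ) * (M.S.g a + M.S.l i v1) ≤ N * (M.S.g v1 + max 0 (M.S.l i v2) +
      (M.S.Lip * M.C0 + Ac * (1 + 2 * M.C0)) * (s + ζ + e) + δ0) := by
    have h1 : (N : ℝ) * (M.S.g v1 + max 0 (M.S.l i v2) +
      (M.S.Lip * M.C0 + Ac * (1 + 2 * M.C0)) * (s + ζ + e) + δ0) =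
      N * M.S.g v1 + N * max 0 (M.S.l i v2) + (M.S.Lip * (M.C0 * ζ * N) +
        Ac * (s * N + 2 * M.C0 * (e + ζ) * N)) + δ0 * N +
        (M.S.Lip * M.C0 * (s + e) + Ac * (ζ + e) + 2 * Ac * M.C0 * s) * N := by ring
    have h2 : 0 ≤ (M.S.Lip * M.C0 * (s + e) + Ac * (ζ + e) + 2 * Ac * M.C0 * s) * N := by
      positivity
    rw [h1]
    rw [hκ0] at g4
    rw [hsf, hef] at hkey
    linarith
  exact le_of_mul_le_mul_left g5 hNpos

end Crest.Agent.R182.Facet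
end

-- ▼ part R182/FacetWord
section

set_option autoImplicit false
set_option linter.unusedSectionVars false

namespace Crest.Agent.R182.Facet

open List Crest.Agent.R182.Star Conv

section Lists

/-- first nonpositive, then nonnegative numbers with nonpositive sum: all prefixes have nonpositive
sum. -/
theorem prefix_sum_le {α : Type*} (f : α → ℝ) {l1 l2 l' : List α} (h1 : ∀ x ∈ l1, f x ≤ 0)
    (h2 : ∀ x ∈ l2, 0 ≤ f x) (hs : ((l1 ++ l2).map f).sum ≤ 0) (h : l' <+: l1 ++ l2) :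
    (l'.map f).sum ≤ 0 := by
  have hneg : ∀ l : List α, (∀ x ∈ l, f x ≤ 0) → (l.map f).sum ≤ 0 := by
    intro l
    induction l with
    | nil => intro _; simp
    | cons x l ih =>
      intro hl
      rw [map_cons, sum_cons]
      have := hl x mem_cons_self
      have := ih fun y hy => hl y (mem_cons_of_mem _ hy)
      linarith
  have hpos : ∀ l : List α, (∀ x ∈ l, 0 ≤ f x) → 0 ≤ (l.map f).sum := by
    intro l
    induction l with
    | nil => intro _; simp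
    | cons x l ih =>
      intro hl
      rw [map_cons, sum_cons]
      have := hl x mem_cons_self
      have := ih fun y hy => hl y (mem_cons_of_mem _ hy)
      linarith
  rcases prefix_or_prefix_of_prefix h (prefix_append l1 l2) with h3 | h3
  · exact hneg l' fun x hx => h1 x (h3.subset hx)
  · obtain ⟨l'', rfl⟩ := h3
    rw [prefix_append_right_inj] at h
    obtain ⟨l3, rfl⟩ := h
    rw [← append_assoc, map_append, sum_append] at hs
    have := hpos l3 fun x hx => h2 x (mem_append_right _ hx)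
    linarith

/-- prefixes of a repeated list -/
theorem prefix_flatten_replicate {α : Type*} (w : List α) (m : ℕ) :
    ∀ w', w' <+: (replicate m w).flatten →
      ∃ j ≤ m, ∃ w'', w'' <+: w ∧ w' = (replicate j w).flatten ++ w'' := by
  induction m with
  | zero =>
    intro w' h
    have : w' = [] := by simpa using h
    subst this
    exact ⟨0, le_rfl, [], nil_prefix, by simp⟩
  | succ m ih =>
    intro w' h
    rw [replicate_succ, flatten_cons] at h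
    rcases prefix_or_prefix_of_prefix h (prefix_append w _) with h1 | h1
    · exact ⟨0, Nat.zero_le _, w', h1, by simp⟩
    · obtain ⟨u, rfl⟩ := h1
      rw [prefix_append_right_inj] at h
      obtain ⟨j, hj, w'', hw'', rfl⟩ := ih u h
      refine ⟨j + 1, by omega, w'', hw'', ?_⟩
      rw [replicate_succ, flatten_cons, append_assoc]

end Lists

variable {ι : Type*} [Fintype ι] {E : Type*} [NormedAddCommGroup E] [InnerProductSpace ℝ E]

theorem tsum_append {Eb : Finset E} (w w' : List (Eb × ℝ)) :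
    tsum (w ++ w') = tsum w + tsum w' := by
  simp [Star.tsum]

theorem tsum_flatten {Eb : Finset E} (w : List (Eb × ℝ)) (j : ℕ) :
    tsum (replicate j w).flatten = (j : ℝ) • tsum w := by
  induction j with
  | zero => simp [Star.tsum]
  | succ j ih =>
    rw [replicate_succ, flatten_cons, tsum_append, ih]
    push_cast
    rw [add_smul, one_smul, add_comm]

variable [FiniteDimensional ℝ E]

/-- **test words.** -/
theorem exists_word (R : RSys ι E) (er : E) {a : E} (ha : inner ℝ er a < 0) {s ζ : ℝ}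
    (hs : 0 < s) (hζ : 0 < ζ) : ∃ w : List (R.Eb × ℝ), tsum w = a ∧
      (∀ p ∈ w, 0 ≤ p.2 ∧ p.2 ≤ s) ∧ ∀ w', w' <+: w → inner ℝ er (tsum w') ≤ 0 ∧
        ∃ θ : ℝ, 0 ≤ θ ∧ θ ≤ 1 ∧ ‖tsum w' - θ • a‖ ≤ ζ := by
  classical
  obtain ⟨c0, hc0, hrel⟩ := R.exists_rel
  obtain ⟨C0, _, hC0⟩ := exists_decomp R.span_Eb hc0 hrel
  obtain ⟨c, hc, hca, _⟩ := hC0 a
  set Sc : ℝ := ∑ e, c e with hSc
  have hSc0 : 0 ≤ Sc := Finset.sum_nonneg fun e _ => hc e
  have hcS : ∀ e, c e ≤ Sc := fun e =>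
    Finset.single_le_sum (fun e _ => hc e) (Finset.mem_univ e)
  obtain ⟨m, hm⟩ := exists_nat_gt (Sc / min s ζ)
  have hsζ : 0 < min s ζ := lt_min hs hζ
  have hm0 : (0 : ℝ) < m := lt_of_le_of_lt (by positivity) hm
  have hm1 : Sc / m ≤ min s ζ := by
    rw [div_lt_iff₀ hsζ] at hm
    rw [div_le_iff₀ hm0]; linarith
  set Ng : List R.Eb := (Finset.univ : Finset R.Eb).toList.filter
    (fun e => decide (inner ℝ er (e : E) ≤ 0)) with hNg
  set Ps : List R.Eb := (Finset.univ : Finset R.Eb).toList.filter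
    (fun e => !decide (inner ℝ er (e : E) ≤ 0)) with hPs
  have hperm : (Ng ++ Ps).Perm (Finset.univ : Finset R.Eb).toList :=
    List.filter_append_perm _ _
  set f : R.Eb → R.Eb × ℝ := fun e => (e, c e / m) with hf
  set round : List (R.Eb × ℝ) := (Ng ++ Ps).map f with hround
  have hts : ∀ l : List R.Eb, tsum (l.map f) = (l.map fun e => (c e / m) • (e : E)).sum := by
    intro l
    rw [Star.tsum, map_map]
    rfl
  have hsum_round : tsum round = (m : ℝ)⁻¹ • a := by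
    rw [hround, hts, (hperm.map _).sum_eq, Finset.sum_map_toList, ← hca, comb_apply,
      Finset.smul_sum]
    refine Finset.sum_congr rfl fun e _ => ?_
    rw [smul_smul, div_eq_inv_mul]
  -- prefixes of a round
  have hpre : ∀ w'', w'' <+: round → inner ℝ er (tsum w'') ≤ 0 ∧ ‖tsum w''‖ ≤ ζ := by
    intro w'' hw''
    obtain ⟨l', hl', rfl⟩ : ∃ l', l' <+: Ng ++ Ps ∧ w'' = l'.map f := by
      refine ⟨(Ng ++ Ps).take w''.length, take_prefix _ _, ?_⟩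
      rw [map_take]
      exact (prefix_iff_eq_take.1 hw'')
    have hinner : ∀ l : List R.Eb, inner ℝ er (tsum (l.map f)) =
        (l.map fun e => c e / m * inner ℝ er (e : E)).sum := by
      intro l
      rw [hts]
      induction l with
      | nil => simp
      | cons e l ih =>
        rw [map_cons, sum_cons, inner_add_right, ih, inner_smul_right, map_cons, sum_cons]
    constructor
    · rw [hinner]
      refine prefix_sum_le _ (l1 := Ng) (l2 := Ps) ?_ ?_ ?_ hl'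
      · intro e he
        have h1 : inner ℝ er (e : E) ≤ 0 := by
          have := (mem_filter.1 he).2
          simpa using this
        exact mul_nonpos_of_nonneg_of_nonpos (div_nonneg (hc e) hm0.le) h1
      · intro e he
        have h1 : ¬ inner ℝ er (e : E) ≤ 0 := by
          have := (mem_filter.1 he).2
          simpa using this
        exact mul_nonneg (div_nonneg (hc e) hm0.le) (by push Not at h1; exact h1.le)
      · rw [← hinner, ← hround, hsum_round, inner_smul_right]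
        exact mul_nonpos_of_nonneg_of_nonpos (by positivity) ha.le
    · rw [hts]
      have h1 : ∀ l : List R.Eb, ‖(l.map fun e => (c e / m) • (e : E)).sum‖ ≤
          (l.map fun e => c e / m).sum := by
        intro l
        induction l with
        | nil => simp
        | cons e l ih =>
          rw [map_cons, sum_cons, map_cons, sum_cons]
          refine (norm_add_le _ _).trans (add_le_add ?_ ih)
          rw [norm_smul, R.unit _ e.2, mul_one, Real.norm_of_nonneg (div_nonneg (hc e) hm0.le)]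
      refine (h1 l').trans ?_
      have h2 : (l'.map fun e => c e / m).sum ≤ ((Ng ++ Ps).map fun e => c e / m).sum := by
        obtain ⟨l3, hl3⟩ := hl'
        rw [← hl3, map_append, sum_append]
        have : 0 ≤ (l3.map fun e => c e / m).sum := by
          refine List.sum_nonneg ?_
          intro x hx
          obtain ⟨e, _, rfl⟩ := mem_map.1 hx
          exact div_nonneg (hc e) hm0.le
        linarith
      refine h2.trans ?_
      rw [(hperm.map _).sum_eq, Finset.sum_map_toList, ← Finset.sum_div, ← hSc]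
      exact hm1.trans (min_le_right _ _)
  refine ⟨(replicate m round).flatten, ?_, ?_, ?_⟩
  · rw [tsum_flatten, hsum_round, smul_smul, mul_inv_cancel₀ hm0.ne', one_smul]
  · intro p hp
    rw [mem_flatten] at hp
    obtain ⟨l, hl, hp⟩ := hp
    rw [eq_of_mem_replicate hl, hround, mem_map] at hp
    obtain ⟨e, _, rfl⟩ := hp
    refine ⟨div_nonneg (hc e) hm0.le, ?_⟩
    calc c e / m ≤ Sc / m := by gcongr; exact hcS e
      _ ≤ s := hm1.trans (min_le_left _ _)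
  · intro w' hw'
    obtain ⟨j, hj, w'', hw'', rfl⟩ := prefix_flatten_replicate _ _ _ hw'
    obtain ⟨h1, h2⟩ := hpre w'' hw''
    have hj' : (j : ℝ) ≤ m := by exact_mod_cast hj
    have e1 : tsum ((replicate j round).flatten ++ w'') = ((j : ℝ) / m) • a + tsum w'' := by
      rw [tsum_append, tsum_flatten, hsum_round, smul_smul, div_eq_mul_inv]
    refine ⟨?_, (j : ℝ) / m, by positivity, by rw [div_le_one hm0]; exact hj', ?_⟩
    · rw [e1, inner_add_right, inner_smul_right]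
      have : (j : ℝ) / m * inner ℝ er a ≤ 0 :=
        mul_nonpos_of_nonneg_of_nonpos (by positivity) ha.le
      linarith
    · rw [e1, add_sub_cancel_left]; exact h2

end Crest.Agent.R182.Facet
end

-- ▼ part R182/FacetThm
section

set_option autoImplicit false
set_option linter.unusedSectionVars false

namespace Crest.Agent.R182.Facet

open MeasureTheory Cap CapModel Crest.Agent.R182.Star Conv

variable {G H ι E : Type*} [Group G] [Group H] [MeasurableSpace H] [MeasurableMul₂ H]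
    [MeasurableInv H] [Fintype ι] [NormedAddCommGroup E] [InnerProductSpace ℝ E]

/-- timed legs at scale `N`: `ψ (e, t)` is a vertical of length `O(N)` with height `≈ N t e`. -/
structure LegsAt (M : CapModel G H ι E) (R : RSys ι E) (N : ℕ) (Cs Cm e : ℝ)
    (ψ : R.Eb × ℝ → G) : Prop where
  len : ∀ p, 0 ≤ p.2 → p.2 ≤ 1 → M.len (ψ p) ≤ (Cs * p.2 + e) * N
  hgt : ∀ p, 0 ≤ p.2 → p.2 ≤ 1 → ‖(N : ℝ)⁻¹ • M.hgt (ψ p) - p.2 • (p.1 : E)‖ ≤ e
  mem : ∀ p, 0 ≤ p.2 → p.2 ≤ 1 → ∃ m : ℕ, (m : ℝ) ≤ Cm * N ∧ ψ p ∈ M.Cl m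

/-- the law `L` relative to the position `g0`, along a timed word. -/
def WLaw1 (M : CapModel G H ι E) {R : RSys ι E} (N : ℕ) (Ψ : G → G) (x g0 : G)
    (ψ : R.Eb × ℝ → G) (w : List (R.Eb × ℝ)) (L : E →ₗ[ℝ] E) (e : ℝ) (n : H) : Prop :=
  ∀ w', w' <+: w →
    ‖GF M N Ψ x n (g0 * (w'.map ψ).prod) - GF M N Ψ x n g0 - L (tsum w')‖ ≤ e

section Words

variable {M : CapModel G H ι E} {R : RSys ι E} {N : ℕ} {Cs Cm e : ℝ} {ψ : R.Eb × ℝ → G}

theorem LegsAt.hgt_word (h : LegsAt M R N Cs Cm e ψ) (w : List (R.Eb × ℝ))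
    (hw : ∀ p ∈ w, 0 ≤ p.2 ∧ p.2 ≤ 1) :
    ‖(N : ℝ)⁻¹ • M.hgt (w.map ψ).prod - tsum w‖ ≤ w.length * e := by
  induction w with
  | nil => simp [Star.tsum, M.hgt_one]
  | cons p w ih =>
    have h1 := ih fun q hq => hw q (List.mem_cons_of_mem _ hq)
    have h2 := h.hgt p (hw p List.mem_cons_self).1 (hw p List.mem_cons_self).2
    rw [List.map_cons, List.prod_cons, M.hgt_mul, smul_add]
    have h3 : tsum (p :: w) = p.2 • (p.1 : E) + tsum w := by simp [Star.tsum]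
    rw [h3]
    have h4 : (N : ℝ)⁻¹ • M.hgt (ψ p) + (N : ℝ)⁻¹ • M.hgt (w.map ψ).prod -
        (p.2 • (p.1 : E) + tsum w) = ((N : ℝ)⁻¹ • M.hgt (ψ p) - p.2 • (p.1 : E)) +
        ((N : ℝ)⁻¹ • M.hgt (w.map ψ).prod - tsum w) := by abel
    rw [h4]
    refine (norm_add_le _ _).trans ?_
    rw [List.length_cons]
    push_cast
    linarith

theorem LegsAt.mem_word (h : LegsAt M R N Cs Cm e ψ) (w : List (R.Eb × ℝ))
    (hw : ∀ p ∈ w, 0 ≤ p.2 ∧ p.2 ≤ 1) :
    ∃ m : ℕ, (m : ℝ) ≤ w.length * Cm * N ∧ (w.map ψ).prod ∈ M.Cl m := by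
  induction w with
  | nil => exact ⟨0, by simp, by simpa using M.one_mem_Cl⟩
  | cons p w ih =>
    obtain ⟨m, hm, h1⟩ := ih fun q hq => hw q (List.mem_cons_of_mem _ hq)
    obtain ⟨m', hm', h2⟩ := h.mem p (hw p List.mem_cons_self).1 (hw p List.mem_cons_self).2
    refine ⟨m' + m, ?_, ?_⟩
    · push_cast
      rw [List.length_cons]
      push_cast
      linarith
    · rw [List.map_cons, List.prod_cons]
      exact M.Cl_mul _ _ _ _ h2 h1

theorem LegsAt.tpath (h : LegsAt M R N Cs Cm e ψ) (w : List (R.Eb × ℝ)) {s ζ : ℝ} (hs1 : s ≤ 1)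
    (hCs : 0 ≤ Cs) (he : 0 ≤ e) (hw : ∀ p ∈ w, 0 ≤ p.2 ∧ p.2 ≤ s) {a : E} (ha : tsum w = a)
    (hseg : ∀ w', w' <+: w → ∃ θ : ℝ, 0 ≤ θ ∧ θ ≤ 1 ∧ ‖tsum w' - θ • a‖ ≤ ζ) :
    TPath M N (Cs * s + e) (w.length * e + ζ) (w.length * Cm) w.length
      (fun t => ((w.take t).map ψ).prod) a := by
  have hw1 : ∀ p ∈ w, 0 ≤ p.2 ∧ p.2 ≤ 1 := fun p hp => ⟨(hw p hp).1, (hw p hp).2.trans hs1⟩
  have hζ : 0 ≤ ζ := by
    obtain ⟨θ, _, _, h1⟩ := hseg w (List.prefix_refl _)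
    exact (norm_nonneg _).trans h1
  have hle : 0 ≤ (w.length : ℝ) * e := by positivity
  refine ⟨by simp, ?_, ?_, ?_, ?_⟩
  · intro t ht
    have h1 : w.take (t + 1) = w.take t ++ [w[t]] := by
      rw [List.take_succ_eq_append_getElem ht]
    show M.len (((w.take t).map ψ).prod⁻¹ * ((w.take (t + 1)).map ψ).prod) ≤ _
    rw [h1, List.map_append, List.prod_append]
    simp only [List.map_cons, List.map_nil, List.prod_cons, List.prod_nil, mul_one,
      inv_mul_cancel_left]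
    have h2 := hw _ (List.getElem_mem ht)
    refine (h.len _ h2.1 (h2.2.trans hs1)).trans ?_
    have h3 : Cs * (w[t]).2 ≤ Cs * s := mul_le_mul_of_nonneg_left h2.2 hCs
    have h4 : (0 : ℝ) ≤ N := Nat.cast_nonneg N
    exact mul_le_mul_of_nonneg_right (by linarith) h4
  · obtain ⟨m, hm, h1⟩ := h.mem_word w hw1
    exact ⟨m, hm, by simpa using h1⟩
  · intro t _
    obtain ⟨θ, h0, h1, h2⟩ := hseg _ (List.take_prefix t w)
    refine ⟨θ, h0, h1, ?_⟩
    have h3 := h.hgt_word (w.take t) fun p hp => hw1 p (List.mem_of_mem_take hp)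
    have h4 : ((w.take t).length : ℝ) * e ≤ w.length * e := by
      have : ((w.take t).length : ℝ) ≤ w.length := by
        exact_mod_cast (List.take_prefix t w).length_le
      gcongr
    calc ‖(N : ℝ)⁻¹ • M.hgt ((w.take t).map ψ).prod - θ • a‖
        = ‖((N : ℝ)⁻¹ • M.hgt ((w.take t).map ψ).prod - tsum (w.take t)) +
          (tsum (w.take t) - θ • a)‖ := by congr 1; abel
      _ ≤ _ := norm_add_le _ _
      _ ≤ _ := by linarith
  · have h3 := h.hgt_word w hw1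
    simp only [List.take_length]
    rw [← ha]
    linarith

theorem WLaw1.tlaw {Ψ : G → G} {x g0 : G} {w : List (R.Eb × ℝ)} {L : E →ₗ[ℝ] E} {e' : ℝ} {n : H}
    (h : WLaw1 M N Ψ x g0 ψ w L e' n) {a : E} (ha : tsum w = a) {ζ CL : ℝ} (hCL : 0 ≤ CL)
    (hL : ∀ v, ‖L v‖ ≤ CL * ‖v‖)
    (hseg : ∀ w', w' <+: w → ∃ θ : ℝ, 0 ≤ θ ∧ θ ≤ 1 ∧ ‖tsum w' - θ • a‖ ≤ ζ) :
    TLaw M N Ψ x g0 w.length (fun t => ((w.take t).map ψ).prod) (L a) (e' + CL * ζ) n := by
  have hζ : 0 ≤ ζ := by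
    obtain ⟨θ, _, _, h1⟩ := hseg w (List.prefix_refl _)
    exact (norm_nonneg _).trans h1
  refine ⟨?_, fun t _ => ?_⟩
  · simp only [List.take_length]
    have h1 := h w (List.prefix_refl _)
    rw [ha] at h1
    have : 0 ≤ CL * ζ := by positivity
    linarith
  · obtain ⟨θ, h0, h1, h2⟩ := hseg _ (List.take_prefix t w)
    refine ⟨θ, h0, h1, ?_⟩
    have h3 := h _ (List.take_prefix t w)
    have h4 : ‖L (tsum (w.take t)) - θ • L a‖ ≤ CL * ζ := by
      rw [← map_smul, ← map_sub]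
      exact (hL _).trans (mul_le_mul_of_nonneg_left h2 hCL)
    calc ‖GF M N Ψ x n (g0 * ((w.take t).map ψ).prod) - GF M N Ψ x n g0 - θ • L a‖
        = ‖(GF M N Ψ x n (g0 * ((w.take t).map ψ).prod) - GF M N Ψ x n g0 -
          L (tsum (w.take t))) + (L (tsum (w.take t)) - θ • L a)‖ := by congr 1; abel
      _ ≤ _ := norm_add_le _ _
      _ ≤ _ := by linarith

end Words

variable [FiniteDimensional ℝ E]

theorem exists_norm_le (L : E →ₗ[ℝ] E) : ∃ CL : ℝ, 0 ≤ CL ∧ ∀ v, ‖L v‖ ≤ CL * ‖v‖ := by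
  refine ⟨‖LinearMap.toContinuousLinearMap L‖, norm_nonneg _, fun v => ?_⟩
  exact (LinearMap.toContinuousLinearMap L).le_opNorm v

section Meas

variable {M : CapModel G H ι E} {K : ℝ} {Ψ : G → G}

theorem measurableSet_GF (hΨ : QI M K Ψ) (N : ℕ) (x g g' : G) (v : E) (e : ℝ) :
    MeasurableSet {n | ‖GF M N Ψ x n g - GF M N Ψ x n g' - v‖ ≤ e} := by
  letI : MeasurableSpace E := borel E
  haveI : BorelSpace E := ⟨rfl⟩
  have hm : ∀ g, Measurable fun n => GF M N Ψ x n g := by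
    intro g T _
    have := hΨ.meas x g ((fun y => (N : ℝ)⁻¹ • M.hgt y) ⁻¹' T)
    exact this
  exact measurableSet_le (((hm g).sub (hm g')).sub measurable_const).norm measurable_const

theorem measurableSet_WLaw1 {R : RSys ι E} (hΨ : QI M K Ψ) (N : ℕ) (x g0 : G) (ψ : R.Eb × ℝ → G)
    (w : List (R.Eb × ℝ)) (L : E →ₗ[ℝ] E) (e : ℝ) :
    MeasurableSet {n | WLaw1 M N Ψ x g0 ψ w L e n} := by
  have : {n | WLaw1 M N Ψ x g0 ψ w L e n} = ⋂ t : ℕ, {n |
      ‖GF M N Ψ x n (g0 * ((w.take t).map ψ).prod) - GF M N Ψ x n g0 -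
        L (tsum (w.take t))‖ ≤ e} := by
    ext n
    simp only [Set.mem_iInter, Set.mem_ofPred_eq]
    constructor
    · intro h t
      exact h _ (List.take_prefix t w)
    · intro h w' hw'
      rw [List.prefix_iff_eq_take.1 hw']
      exact h _
  rw [this]
  exact MeasurableSet.iInter fun t => measurableSet_GF hΨ N x _ _ _ _

end Meas

/-- **one gap**: edges between the classes of `L1` and `L2` are rare. -/
theorem edge_gap {M : CapModel G H ι E} (hR : M.Reach) (hE : M.Ent) {K : ℝ} (hK : 1 ≤ K)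
    (R : RSys ι E) (hRS : M.S = R.toGenSys) {i : ι} (hi : R.NZ i) {L1 L2 : E →ₗ[ℝ] E} {a : E}
    (hgap : 0 < gap R i a (L1 a) (L2 a)) {Cs : ℝ} (hCs : 0 ≤ Cs) :
    ∃ e0 : ℝ, 0 < e0 ∧ ∀ w : List (R.Eb × ℝ), tsum w = a → (∀ p ∈ w, 0 ≤ p.2 ∧ p.2 ≤ e0) →
      (∀ w', w' <+: w → ∃ θ : ℝ, 0 ≤ θ ∧ θ ≤ 1 ∧ ‖tsum w' - θ • a‖ ≤ e0) →
      ∃ e1 : ℝ, 0 < e1 ∧ ∀ Cm β : ℝ, 0 < β → ∃ N0 : ℕ, ∀ N ≥ N0, ∀ e' : ℝ, 0 ≤ e' → e' ≤ e1 →
      ∀ ψ : R.Eb × ℝ → G, LegsAt M R N Cs Cm e' ψ → ∀ Ψ : G → G, QI M K Ψ → ∀ (x g0 : G)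
      (Q Q' : Set H), MeasurableSet Q → MeasurableSet Q' → M.μ Q' ≠ ⊤ → M.μ Q' ≠ 0 →
      M.μ Q ≤ M.μ Q' → (∀ b ∈ M.V, ∀ n ∈ Q, n * (M.cj g0 b)⁻¹ ∈ Q') →
      (∀ b ∈ M.V, ∀ n ∈ Q, n * (M.cj (g0 * (w.map ψ).prod) b)⁻¹ ∈ Q') →
      ∫⁻ n in (Q ∩ {n | WLaw1 M N Ψ x g0 ψ w L1 e' n}),
        Tk M.ν (M.cj g0) (Q ∩ {n | WLaw1 M N Ψ x g0 ψ w L2 e' n}) n ∂M.μ ≤
        ENNReal.ofReal β * M.μ Q' := by
  have hi' : M.S.NZ i := by rw [hRS]; exact hi
  obtain ⟨Cc, hCc, hpair⟩ := pair_rare hR hE hK hi'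
  obtain ⟨C1, hC1, hL1⟩ := exists_norm_le L1
  obtain ⟨C2, hC2, hL2⟩ := exists_norm_le L2
  set ε := gap R i a (L1 a) (L2 a) with hε
  set CL := max C1 C2 with hCL
  have hCLp : 0 ≤ CL := hC1.trans (le_max_left _ _)
  -- constants
  set e0 : ℝ := min (min 1 (1 / (2 * (Cs + 1)))) (ε / (8 * (Cc + 1) * (Cs + CL + 1))) with he0
  have he0p : 0 < e0 := by
    rw [he0]
    refine lt_min (lt_min one_pos (by positivity)) (by positivity)
  refine ⟨e0, he0p, ?_⟩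
  intro w hwa hw hseg
  set lw : ℝ := (w.length : ℝ) with hlw
  have hlw0 : 0 ≤ lw := Nat.cast_nonneg _
  set e1 : ℝ := min (1 / 2) (ε / (8 * (Cc + 1) * (lw + 2))) with he1
  have he1p : 0 < e1 := by
    rw [he1]; exact lt_min (by norm_num) (by positivity)
  refine ⟨e1, he1p, ?_⟩
  intro Cm β hβ
  obtain ⟨N0, hN0⟩ := hpair w.length (max (lw * Cm) ‖L1 a‖) β (ε / 4) hβ (by positivity)
  refine ⟨N0, ?_⟩
  intro N hN e' he' he'1 ψ hψ Ψ hΨ x g0 Q Q' hQ hQ' hQ'fin hQ'0 hQQ hV0 hV1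
  by_contra hcon
  push Not at hcon
  have he0s : e0 ≤ 1 := (min_le_left _ _).trans (min_le_left _ _)
  have he0Cs : Cs * e0 ≤ 1 / 2 := by
    have h1 : e0 ≤ 1 / (2 * (Cs + 1)) := (min_le_left _ _).trans (min_le_right _ _)
    calc Cs * e0 ≤ Cs * (1 / (2 * (Cs + 1))) := mul_le_mul_of_nonneg_left h1 hCs
      _ ≤ 1 / 2 := by
        rw [mul_one_div, div_le_div_iff₀ (by positivity) (by norm_num)]
        linarith
  have hp1 := hψ.tpath w he0s hCs he' hw hwa hseg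
  have hp2 : TPath M N (Cs * e0 + e') (lw * e' + e0) (max (lw * Cm) ‖L1 a‖) w.length
      (fun t => ((w.take t).map ψ).prod) a := by
    refine ⟨hp1.zero, hp1.step, ?_, hp1.seg, hp1.fin⟩
    obtain ⟨m, hm, hm'⟩ := hp1.mem
    refine ⟨m, hm.trans ?_, hm'⟩
    exact mul_le_mul_of_nonneg_right (le_max_left _ _) (Nat.cast_nonneg N)
  have hT1 : ∀ n ∈ Q ∩ {n | WLaw1 M N Ψ x g0 ψ w L1 e' n},
      TLaw M N Ψ x g0 w.length (fun t => ((w.take t).map ψ).prod) (L1 a) (e' + CL * e0) n :=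
    fun n hn => WLaw1.tlaw hn.2 hwa hCLp
      (fun v => (hL1 v).trans (by gcongr; exact le_max_left _ _)) hseg
  have hT2 : ∀ n ∈ Q ∩ {n | WLaw1 M N Ψ x g0 ψ w L2 e' n},
      TLaw M N Ψ x g0 w.length (fun t => ((w.take t).map ψ).prod) (L2 a) (e' + CL * e0) n :=
    fun n hn => WLaw1.tlaw hn.2 hwa hCLp
      (fun v => (hL2 v).trans (by gcongr; exact le_max_right _ _)) hseg
  have hkey := hN0 N hN Ψ hΨ (Cs * e0 + e') (lw * e' + e0) (e' + CL * e0) (by positivity)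
    (by
      have : e' ≤ 1 / 2 := he'1.trans (min_le_left _ _)
      linarith) (by positivity) (by positivity) _ a (L1 a) (L2 a) hp2 (le_max_right _ _) x g0
    _ _ (hQ.inter (measurableSet_WLaw1 hΨ N x g0 ψ w L1 e'))
    (hQ.inter (measurableSet_WLaw1 hΨ N x g0 ψ w L2 e')) hT1 hT2 Q' hQ' hQ'fin hQ'0
    ((measure_mono Set.inter_subset_left).trans hQQ)
    ((measure_mono Set.inter_subset_left).trans hQQ)
    (fun b hb n hn => hV0 b hb n hn.1) (fun b hb n hn => hV0 b hb n hn.1)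
    (fun b hb n hn => by
      simp only [List.take_length]
      exact hV1 b hb n hn.1)
    (fun b hb n hn => by
      simp only [List.take_length]
      exact hV1 b hb n hn.1) hcon.le
  rw [hRS] at hkey
  have hεd : ε = R.g a + R.l i (L1 a) - R.g (L1 a) - max 0 (R.l i (L2 a)) := rfl
  have hsum : Cc * (Cs * e0 + e' + (lw * e' + e0) + (e' + CL * e0)) ≤ ε / 4 := by
    have h1 : Cc * (Cs * e0 + e' + (lw * e' + e0) + (e' + CL * e0)) =
        (Cc * (Cs + CL + 1)) * e0 + (Cc * (lw + 2)) * e' := by ring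
    rw [h1]
    have h2 : (Cc * (Cs + CL + 1)) * e0 ≤ ε / 8 := by
      have h3 : e0 ≤ ε / (8 * (Cc + 1) * (Cs + CL + 1)) := min_le_right _ _
      calc (Cc * (Cs + CL + 1)) * e0 ≤ (Cc * (Cs + CL + 1)) *
            (ε / (8 * (Cc + 1) * (Cs + CL + 1))) := by gcongr
        _ = ε / 8 * (Cc / (Cc + 1)) := by field_simp
        _ ≤ ε / 8 * 1 := by
          gcongr
          rw [div_le_one (by positivity)]; linarith
        _ = _ := mul_one _
    have h4 : (Cc * (lw + 2)) * e' ≤ ε / 8 := by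
      have h3 : e' ≤ ε / (8 * (Cc + 1) * (lw + 2)) := he'1.trans (min_le_right _ _)
      calc (Cc * (lw + 2)) * e' ≤ (Cc * (lw + 2)) * (ε / (8 * (Cc + 1) * (lw + 2))) := by gcongr
        _ = ε / 8 * (Cc / (Cc + 1)) := by field_simp
        _ ≤ ε / 8 * 1 := by
          gcongr
          rw [div_le_one (by positivity)]; linarith
        _ = _ := mul_one _
    linarith
  linarith

/-- the measure of the set of edges -/
theorem prod_edge {μ ν : Measure H} [SFinite μ] [SFinite ν] {φ : H → H} (hφ : Measurable φ)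
    {A B : Set H} (hA : MeasurableSet A) (hB : MeasurableSet B) :
    (μ.prod (ν.prod ν)) {p | p.1 ∈ A ∧ p.1 * (φ p.2.1)⁻¹ * φ p.2.2 ∈ B} =
      ∫⁻ n in A, Tk ν φ B n ∂μ := by
  have hm : MeasurableSet {p : H × (H × H) | p.1 ∈ A ∧ p.1 * (φ p.2.1)⁻¹ * φ p.2.2 ∈ B} :=
    (measurable_fst hA).inter (measurableSet_step hφ hB)
  rw [Measure.prod_apply hm, ← lintegral_indicator hA]
  refine lintegral_congr fun n => ?_
  by_cases hn : n ∈ A
  · rw [Set.indicator_of_mem hn]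
    unfold Tk
    congr 1
    ext p
    simp [hn]
  · rw [Set.indicator_of_notMem hn]
    have : (Prod.mk n ⁻¹' {p : H × (H × H) | p.1 ∈ A ∧ p.1 * (φ p.2.1)⁻¹ * φ p.2.2 ∈ B}) = ∅ := by
      ext p
      simp [hn]
    rw [this, measure_empty]

/-- **one pair of laws** -/
theorem edge_pair {M : CapModel G H ι E} (hR : M.Reach) (hE : M.Ent) {K : ℝ} (hK : 1 ≤ K)
    (R : RSys ι E) (hRS : M.S = R.toGenSys) {er : E} (her : er ∈ R.Eb) {L1 L2 : E →ₗ[ℝ] E}
    (h1 : IsPerm R L1) (h2 : IsPerm R L2) (hne : L1 ≠ L2) {Cs : ℝ} (hCs : 0 ≤ Cs) {ρ η : ℝ}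
    (hρ : 0 < ρ) (hη : 0 < η) :
    ∃ (w : List (R.Eb × ℝ)) (e1 : ℝ), 0 < e1 ∧ (∀ p ∈ w, 0 ≤ p.2 ∧ p.2 ≤ 1) ∧
      inner ℝ er (tsum w) < 0 ∧
      (∀ w', w' <+: w → inner ℝ er (tsum w') ≤ 0 ∧ ‖tsum w'‖ ≤ ρ) ∧
      ∀ Cm : ℝ, ∃ N0 : ℕ, ∀ N ≥ N0, ∀ e' : ℝ, 0 ≤ e' → e' ≤ e1 →
      ∀ ψ : R.Eb × ℝ → G, LegsAt M R N Cs Cm e' ψ → ∀ Ψ : G → G, QI M K Ψ → ∀ (x g0 : G)
      (Q Q' : Set H), MeasurableSet Q → MeasurableSet Q' → M.μ Q' ≠ ⊤ → M.μ Q' ≠ 0 →
      M.μ Q ≤ M.μ Q' → (∀ b ∈ M.V, ∀ n ∈ Q, n * (M.cj g0 b)⁻¹ ∈ Q') →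
      (∀ b ∈ M.V, ∀ n ∈ Q, n * (M.cj (g0 * (w.map ψ).prod) b)⁻¹ ∈ Q') →
      ∫⁻ n in (Q ∩ {n | WLaw1 M N Ψ x g0 ψ w L1 e' n}),
        Tk M.ν (M.cj g0) (Q ∩ {n | WLaw1 M N Ψ x g0 ψ w L2 e' n}) n ∂M.μ ≤
        ENNReal.ofReal η * M.μ Q' := by
  obtain ⟨a0, ha0, i, hi, hgaps⟩ := exists_gap h1 h2 hne her
  -- rescale
  set c : ℝ := ρ / (2 * (‖a0‖ + 1)) with hc
  have hcp : 0 < c := by positivity
  set a : E := c • a0 with ha
  have har : inner ℝ er a < 0 := by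
    rw [ha, inner_smul_right]
    exact mul_neg_of_pos_of_neg hcp ha0
  have han : ‖a‖ ≤ ρ / 2 := by
    rw [ha, norm_smul, Real.norm_of_nonneg hcp.le, hc, div_mul_eq_mul_div,
      div_le_div_iff₀ (by positivity) (by norm_num)]
    nlinarith [norm_nonneg a0]
  obtain ⟨P, P', hPP, hgap⟩ : ∃ P P' : E →ₗ[ℝ] E,
      ((P = L1 ∧ P' = L1) ∨ (P = L2 ∧ P' = L2) ∨ (P = L1 ∧ P' = L2) ∨ (P = L2 ∧ P' = L1)) ∧
      0 < gap R i a (P a) (P' a) := by
    have hsc : ∀ P P' : E →ₗ[ℝ] E, 0 < gap R i a0 (P a0) (P' a0) →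
        0 < gap R i a (P a) (P' a) := by
      intro P P' h
      rw [ha, map_smul, map_smul, gap_smul hcp.le]
      exact mul_pos hcp h
    rcases hgaps with h | h | h | h
    · exact ⟨L1, L1, Or.inl ⟨rfl, rfl⟩, hsc _ _ h⟩
    · exact ⟨L2, L2, Or.inr (Or.inl ⟨rfl, rfl⟩), hsc _ _ h⟩
    · exact ⟨L1, L2, Or.inr (Or.inr (Or.inl ⟨rfl, rfl⟩)), hsc _ _ h⟩
    · exact ⟨L2, L1, Or.inr (Or.inr (Or.inr ⟨rfl, rfl⟩)), hsc _ _ h⟩
  obtain ⟨e0, he0, hedge⟩ := edge_gap hR hE hK R hRS hi hgap hCs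
  obtain ⟨w, hwa, hw, hwp⟩ := exists_word R er har (s := min e0 1) (ζ := min e0 (ρ / 2))
    (lt_min he0 one_pos) (lt_min he0 (by positivity))
  obtain ⟨e1, he1, hfin⟩ := hedge w hwa (fun p hp => ⟨(hw p hp).1, (hw p hp).2.trans (min_le_left _ _)⟩)
    (fun w' hw' => by
      obtain ⟨θ, h0, h1, h2⟩ := (hwp w' hw').2
      exact ⟨θ, h0, h1, h2.trans (min_le_left _ _)⟩)
  refine ⟨w, e1, he1, fun p hp => ⟨(hw p hp).1, (hw p hp).2.trans (min_le_right _ _)⟩, ?_, ?_, ?_⟩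
  · rw [hwa]; exact har
  · intro w' hw'
    obtain ⟨g1, θ, h0, h1, h2⟩ := hwp w' hw'
    refine ⟨g1, ?_⟩
    have h3 : ‖tsum w'‖ ≤ ‖tsum w' - θ • a‖ + ‖θ • a‖ := by
      calc ‖tsum w'‖ = ‖(tsum w' - θ • a) + θ • a‖ := by rw [sub_add_cancel]
        _ ≤ _ := norm_add_le _ _
    have h4 : ‖θ • a‖ ≤ ρ / 2 := by
      rw [norm_smul, Real.norm_of_nonneg h0]
      calc θ * ‖a‖ ≤ 1 * (ρ / 2) := by gcongr
        _ = ρ / 2 := one_mul _
    have h5 := h2.trans (min_le_right _ _)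
    linarith
  · intro Cm
    obtain ⟨N1, hN1⟩ := hfin Cm η hη
    obtain ⟨N2, hN2⟩ := hfin Cm (η ^ 2) (by positivity)
    refine ⟨max N1 N2, ?_⟩
    intro N hN e' he' he'1 ψ hψ Ψ hΨ x g0 Q Q' hQ hQ' hQ'fin hQ'0 hQQ hV0 hV1
    have g1 := hN1 N (le_of_max_le_left hN) e' he' he'1 ψ hψ Ψ hΨ x g0 Q Q' hQ hQ' hQ'fin hQ'0 hQQ
      hV0 hV1
    have g2 := hN2 N (le_of_max_le_right hN) e' he' he'1 ψ hψ Ψ hΨ x g0 Q Q' hQ hQ' hQ'fin hQ'0
      hQQ hV0 hV1
    have hmeas : ∀ L : E →ₗ[ℝ] E, MeasurableSet (Q ∩ {n | WLaw1 M N Ψ x g0 ψ w L e' n}) :=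
      fun L => hQ.inter (measurableSet_WLaw1 hΨ N x g0 ψ w L e')
    have hcjm : Measurable (M.cj g0) := M.cj_meas g0
    -- the class of a bad type is small
    have hself : ∀ L : E →ₗ[ℝ] E, ∫⁻ n in (Q ∩ {n | WLaw1 M N Ψ x g0 ψ w L e' n}),
        Tk M.ν (M.cj g0) (Q ∩ {n | WLaw1 M N Ψ x g0 ψ w L e' n}) n ∂M.μ ≤
        ENNReal.ofReal (η ^ 2) * M.μ Q' →
        M.μ (Q ∩ {n | WLaw1 M N Ψ x g0 ψ w L e' n}) ≤ ENNReal.ofReal η * M.μ Q' := by
      intro L hL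
      have h3 := sq_le_Tk (μ := M.μ) (ν := M.ν) hcjm (hmeas L) hQ' (by
        filter_upwards [M.ae_mem_V] with b hb n hn using hV0 b hb n hn.1)
      have h4 : M.μ (Q ∩ {n | WLaw1 M N Ψ x g0 ψ w L e' n}) ^ 2 ≤
          (ENNReal.ofReal η * M.μ Q') ^ 2 := by
        refine h3.trans ((mul_le_mul_right hL _).trans (le_of_eq ?_))
        rw [mul_pow, ENNReal.ofReal_pow hη.le]; ring
      exact (ENNReal.pow_le_pow_left_iff (by norm_num)).1 h4
    have hle : ∀ A B : Set H, ∫⁻ n in A, Tk M.ν (M.cj g0) B n ∂M.μ ≤ M.μ A := by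
      intro A B
      calc ∫⁻ n in A, Tk M.ν (M.cj g0) B n ∂M.μ ≤ ∫⁻ _ in A, 1 ∂M.μ :=
            lintegral_mono fun n => Tk_le_one _ _ _
        _ = M.μ A := by simp
    rcases hPP with ⟨rfl, rfl⟩ | ⟨rfl, rfl⟩ | ⟨rfl, rfl⟩ | ⟨rfl, rfl⟩
    · exact (hle _ _).trans (hself _ g2)
    · rw [lintegral_Tk_symm hcjm (hmeas _) (hmeas _)]
      exact (hle _ _).trans (hself _ g2)
    · exact g1
    · rw [lintegral_Tk_symm hcjm (hmeas _) (hmeas _)]
      exact g1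

/-- **FACET**: typical moves at the position `g0` do not change the law; the laws are only tested on
finitely many timed words in the half space `⟪er, ·⟫ ≤ 0`. -/
theorem facet_edge {M : CapModel G H ι E} (hR : M.Reach) (hE : M.Ent) {K : ℝ} (hK : 1 ≤ K)
    (R : RSys ι E) (hRS : M.S = R.toGenSys) {er : E} (her : er ∈ R.Eb) {Cs : ℝ} (hCs : 0 ≤ Cs)
    {ρ η : ℝ} (hρ : 0 < ρ) (hη : 0 < η) :
    ∃ (e1 : ℝ) (W : Finset (List (R.Eb × ℝ))), 0 < e1 ∧
      (∀ w ∈ W, (∀ p ∈ w, 0 ≤ p.2 ∧ p.2 ≤ 1) ∧ inner ℝ er (tsum w) < 0 ∧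
        ∀ w', w' <+: w → inner ℝ er (tsum w') ≤ 0 ∧ ‖tsum w'‖ ≤ ρ) ∧
      ∀ Cm : ℝ, ∃ N0 : ℕ, ∀ N ≥ N0, ∀ e' : ℝ, 0 ≤ e' → e' ≤ e1 →
      ∀ ψ : R.Eb × ℝ → G, LegsAt M R N Cs Cm e' ψ → ∀ Ψ : G → G, QI M K Ψ → ∀ (x g0 : G)
      (Q Q' : Set H), MeasurableSet Q → MeasurableSet Q' → M.μ Q' ≠ ⊤ → M.μ Q' ≠ 0 →
      M.μ Q ≤ M.μ Q' → (∀ b ∈ M.V, ∀ n ∈ Q, n * (M.cj g0 b)⁻¹ ∈ Q') →
      (∀ w ∈ W, ∀ b ∈ M.V, ∀ n ∈ Q, n * (M.cj (g0 * (w.map ψ).prod) b)⁻¹ ∈ Q') →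
      (M.μ.prod (M.ν.prod M.ν)) {p | p.1 ∈ Q ∧ p.1 * (M.cj g0 p.2.1)⁻¹ * M.cj g0 p.2.2 ∈ Q ∧
        ∃ L1 L2 : E →ₗ[ℝ] E, IsPerm R L1 ∧ IsPerm R L2 ∧ L1 ≠ L2 ∧
          (∀ w ∈ W, WLaw1 M N Ψ x g0 ψ w L1 e' p.1) ∧
          ∀ w ∈ W, WLaw1 M N Ψ x g0 ψ w L2 e' (p.1 * (M.cj g0 p.2.1)⁻¹ * M.cj g0 p.2.2)} ≤
        ENNReal.ofReal η * M.μ Q' := by
  classical
  set LL : Finset (E →ₗ[ℝ] E) := (finite_isPerm (R := R)).toFinset with hLL
  set PP : Finset ((E →ₗ[ℝ] E) × (E →ₗ[ℝ] E)) := (LL ×ˢ LL).filter fun p => p.1 ≠ p.2 with hPP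
  have hmem : ∀ p ∈ PP, IsPerm R p.1 ∧ IsPerm R p.2 ∧ p.1 ≠ p.2 := by
    intro p hp
    rw [hPP, Finset.mem_filter, Finset.mem_product, hLL, Set.Finite.mem_toFinset,
      Set.Finite.mem_toFinset] at hp
    exact ⟨hp.1.1, hp.1.2, hp.2⟩
  set η' : ℝ := η / (PP.card + 1) with hη'
  have hη'p : 0 < η' := by positivity
  have key : ∀ p : PP, ∃ (w : List (R.Eb × ℝ)) (e1 : ℝ), 0 < e1 ∧ (∀ p ∈ w, 0 ≤ p.2 ∧ p.2 ≤ 1) ∧
      inner ℝ er (tsum w) < 0 ∧
      (∀ w', w' <+: w → inner ℝ er (tsum w') ≤ 0 ∧ ‖tsum w'‖ ≤ ρ) ∧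
      ∀ Cm : ℝ, ∃ N0 : ℕ, ∀ N ≥ N0, ∀ e' : ℝ, 0 ≤ e' → e' ≤ e1 →
      ∀ ψ : R.Eb × ℝ → G, LegsAt M R N Cs Cm e' ψ → ∀ Ψ : G → G, QI M K Ψ → ∀ (x g0 : G)
      (Q Q' : Set H), MeasurableSet Q → MeasurableSet Q' → M.μ Q' ≠ ⊤ → M.μ Q' ≠ 0 →
      M.μ Q ≤ M.μ Q' → (∀ b ∈ M.V, ∀ n ∈ Q, n * (M.cj g0 b)⁻¹ ∈ Q') →
      (∀ b ∈ M.V, ∀ n ∈ Q, n * (M.cj (g0 * (w.map ψ).prod) b)⁻¹ ∈ Q') →
      ∫⁻ n in (Q ∩ {n | WLaw1 M N Ψ x g0 ψ w (p : (E →ₗ[ℝ] E) × (E →ₗ[ℝ] E)).1 e' n}),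
        Tk M.ν (M.cj g0) (Q ∩ {n | WLaw1 M N Ψ x g0 ψ w (p : (E →ₗ[ℝ] E) × (E →ₗ[ℝ] E)).2 e' n})
          n ∂M.μ ≤ ENNReal.ofReal η' * M.μ Q' := by
    intro p
    obtain ⟨h1, h2, h3⟩ := hmem p p.2
    exact edge_pair hR hE hK R hRS her h1 h2 h3 hCs hρ hη'p
  choose w e1 he1 hw1 hw2 hw3 hN using key
  obtain ⟨em, hem, hem'⟩ : ∃ em : ℝ, 0 < em ∧ ∀ p, em ≤ e1 p := by
    by_cases hne : Nonempty PP
    · refine ⟨Finset.univ.inf' Finset.univ_nonempty e1, ?_, fun p =>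
        Finset.inf'_le _ (Finset.mem_univ p)⟩
      rw [Finset.lt_inf'_iff]; exact fun p _ => he1 p
    · exact ⟨1, one_pos, fun p => (hne ⟨p⟩).elim⟩
  refine ⟨em, Finset.univ.image w, hem, ?_, ?_⟩
  · intro w' hw'
    obtain ⟨p, _, rfl⟩ := Finset.mem_image.1 hw'
    exact ⟨hw1 p, hw2 p, hw3 p⟩
  · intro Cm
    choose N0 hN0 using fun p => hN p Cm
    refine ⟨Finset.univ.sup N0, ?_⟩
    intro N hNN e' he' he'1 ψ hψ Ψ hΨ x g0 Q Q' hQ hQ' hQ'fin hQ'0 hQQ hV0 hV1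
    have hmeas : ∀ (w : List (R.Eb × ℝ)) (L : E →ₗ[ℝ] E),
        MeasurableSet (Q ∩ {n | WLaw1 M N Ψ x g0 ψ w L e' n}) :=
      fun w L => hQ.inter (measurableSet_WLaw1 hΨ N x g0 ψ w L e')
    have hcjm : Measurable (M.cj g0) := M.cj_meas g0
    have hsub : {p : H × (H × H) | p.1 ∈ Q ∧ p.1 * (M.cj g0 p.2.1)⁻¹ * M.cj g0 p.2.2 ∈ Q ∧
        ∃ L1 L2 : E →ₗ[ℝ] E, IsPerm R L1 ∧ IsPerm R L2 ∧ L1 ≠ L2 ∧
          (∀ w' ∈ Finset.univ.image w, WLaw1 M N Ψ x g0 ψ w' L1 e' p.1) ∧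
          ∀ w' ∈ Finset.univ.image w,
            WLaw1 M N Ψ x g0 ψ w' L2 e' (p.1 * (M.cj g0 p.2.1)⁻¹ * M.cj g0 p.2.2)} ⊆
        ⋃ P : PP, {p : H × (H × H) | p.1 ∈ Q ∩ {n | WLaw1 M N Ψ x g0 ψ (w P)
            (P : (E →ₗ[ℝ] E) × (E →ₗ[ℝ] E)).1 e' n} ∧
          p.1 * (M.cj g0 p.2.1)⁻¹ * M.cj g0 p.2.2 ∈ Q ∩ {n | WLaw1 M N Ψ x g0 ψ (w P)
            (P : (E →ₗ[ℝ] E) × (E →ₗ[ℝ] E)).2 e' n}} := by
      rintro p ⟨hp1, hp2, L1, L2, h1, h2, h3, h4, h5⟩
      have hPm : (L1, L2) ∈ PP := by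
        rw [hPP, Finset.mem_filter, Finset.mem_product, hLL, Set.Finite.mem_toFinset,
          Set.Finite.mem_toFinset]
        exact ⟨⟨h1, h2⟩, h3⟩
      have hwm : w ⟨(L1, L2), hPm⟩ ∈ Finset.univ.image w :=
        Finset.mem_image_of_mem w (Finset.mem_univ _)
      refine Set.mem_iUnion.2 ⟨⟨(L1, L2), hPm⟩, ⟨hp1, h4 _ hwm⟩, ⟨hp2, h5 _ hwm⟩⟩
    refine (measure_mono hsub).trans ((measure_iUnion_fintype_le _ _).trans ?_)
    have hone : ∀ P : PP, (M.μ.prod (M.ν.prod M.ν)) {p : H × (H × H) |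
          p.1 ∈ Q ∩ {n | WLaw1 M N Ψ x g0 ψ (w P) (P : (E →ₗ[ℝ] E) × (E →ₗ[ℝ] E)).1 e' n} ∧
          p.1 * (M.cj g0 p.2.1)⁻¹ * M.cj g0 p.2.2 ∈ Q ∩ {n | WLaw1 M N Ψ x g0 ψ (w P)
            (P : (E →ₗ[ℝ] E) × (E →ₗ[ℝ] E)).2 e' n}} ≤ ENNReal.ofReal η' * M.μ Q' := by
      intro P
      rw [prod_edge hcjm (hmeas _ _) (hmeas _ _)]
      exact hN0 P N ((Finset.le_sup (Finset.mem_univ P)).trans hNN) e' he'
        (he'1.trans (hem' P)) ψ hψ Ψ hΨ x g0 Q Q' hQ hQ' hQ'fin hQ'0 hQQ hV0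
        (hV1 _ (Finset.mem_image_of_mem w (Finset.mem_univ P)))
    refine (Finset.sum_le_sum fun P _ => hone P).trans ?_
    rw [Finset.sum_const, Finset.card_univ, Fintype.card_coe, nsmul_eq_mul, ← mul_assoc]
    refine mul_le_mul_left ?_ _
    rw [← ENNReal.ofReal_natCast, ← ENNReal.ofReal_mul (Nat.cast_nonneg _)]
    refine ENNReal.ofReal_le_ofReal ?_
    rw [hη', mul_div_assoc', div_le_iff₀ (by positivity)]
    nlinarith

end Crest.Agent.R182.Facet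
end

-- ▼ part R182/FacetLegs
section

set_option autoImplicit false
set_option linter.unusedSectionVars false

namespace Crest.Agent.R182.Facet

open MeasureTheory Cap CapModel Crest.Agent.R182.Star Conv

variable {G H ι E : Type*} [Group G] [Group H] [MeasurableSpace H] [MeasurableMul₂ H]
    [MeasurableInv H] [Fintype ι] [NormedAddCommGroup E] [InnerProductSpace ℝ E]

/-- **timed legs** -/
theorem exists_legsAt (M : CapModel G H ι E) (R : RSys ι E) {T : Set G} {r0 : ℕ}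
    (hT : ∀ s ∈ T, s ∈ M.Cl r0) (Cb : ℝ) {eps e : ℝ} (heps : 0 ≤ eps) (he : 0 < e)
    (hee : eps ≤ e / 2) (𝓛 : Legs M R T Cb eps) :
    ∃ N0 : ℕ, 1 ≤ N0 ∧ ∀ N ≥ N0, LegsAt M R N (M.C0 * (r0 * |Cb|)) (r0 * |Cb|) e
      (fun p => 𝓛.u N p.2 p.1) := by
  obtain ⟨N0, hN01, hN0⟩ := exists_N_inv (C := 𝓛.mX) (δ := e / 2) (by positivity)
  refine ⟨N0, hN01, fun N hN => ?_⟩
  have hNp : (1 : ℝ) ≤ N := by exact_mod_cast hN01.trans hN
  have hNpos : (0 : ℝ) < N := by linarith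
  have hC0 := M.C0_pos
  have hm : ∀ p : R.Eb × ℝ, 0 ≤ p.2 → ((𝓛.p N p.2 p.1 * 𝓛.rb p.1 : ℕ) : ℝ) ≤ |Cb| * (p.2 * N) :=
    fun p hp => (𝓛.p_rb_le hp p.1).trans
      (mul_le_mul_of_nonneg_right (le_abs_self _) (mul_nonneg hp hNpos.le))
  refine ⟨?_, ?_, ?_⟩
  · intro p hp _
    have h1 := len_Bl M hT (𝓛.u_mem N p.2 p.1)
    have h2 := hm p hp
    calc M.len (𝓛.u N p.2 p.1) ≤ M.C0 * (r0 * ((𝓛.p N p.2 p.1 * 𝓛.rb p.1 : ℕ) : ℝ)) := h1
      _ ≤ M.C0 * (r0 * (|Cb| * (p.2 * N))) := by gcongr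
      _ = (M.C0 * (r0 * |Cb|) * p.2) * N := by ring
      _ ≤ (M.C0 * (r0 * |Cb|) * p.2 + e) * N := by gcongr; linarith
  · intro p hp hp1
    have h1 := 𝓛.hgt_u (N := N) hp heps p.1 1 (R.unit _ p.1.2)
    rw [pow_one, Nat.cast_one, one_mul, one_mul] at h1
    have h2 : (N : ℝ)⁻¹ • M.hgt (𝓛.u N p.2 p.1) - p.2 • (p.1 : E) =
        (N : ℝ)⁻¹ • (M.hgt (𝓛.u N p.2 p.1) - (p.2 * N) • (p.1 : E)) := by
      rw [smul_sub, smul_smul, mul_comm p.2, inv_mul_cancel_left₀ hNpos.ne']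
    show ‖(N : ℝ)⁻¹ • M.hgt (𝓛.u N p.2 p.1) - p.2 • (p.1 : E)‖ ≤ e
    rw [h2, norm_smul, norm_inv, Real.norm_of_nonneg hNpos.le, inv_mul_le_iff₀ hNpos]
    refine h1.trans ?_
    have h3 := hN0 N hN
    rw [div_le_iff₀ hNpos] at h3
    have h4 := 𝓛.mE_le p.1
    have h5 : eps * (p.2 * N) ≤ e / 2 * N := by
      calc eps * (p.2 * N) ≤ (e / 2) * (1 * N) := by gcongr
        _ = e / 2 * N := by ring
    linarith
  · intro p hp hp1
    refine ⟨𝓛.p N p.2 p.1 * 𝓛.rb p.1 * r0, ?_, Bl_subset_Cl M hT (𝓛.u_mem N p.2 p.1)⟩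
    have h2 := hm p hp
    have h0 := abs_nonneg Cb
    rw [Nat.cast_mul]
    calc ((𝓛.p N p.2 p.1 * 𝓛.rb p.1 : ℕ) : ℝ) * r0 ≤ (|Cb| * (p.2 * N)) * r0 := by gcongr
      _ ≤ (|Cb| * (1 * N)) * r0 := by gcongr
      _ = r0 * |Cb| * N := by ring

end Crest.Agent.R182.Facet
end

-- ▼ part R182/FacetBad
section

set_option autoImplicit false
set_option linter.unusedSectionVars false

namespace Crest.Agent.R182.Facet

open MeasureTheory Cap CapModel Crest.Agent.R182.Star Conv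

section Meas

variable {H : Type*} [Group H] [MeasurableSpace H] [MeasurableMul₂ H] [MeasurableInv H]

theorem nested_eq {μ : Measure H} [SFinite μ] {T : Set (H × H × H)} (hT : MeasurableSet T) :
    ∫⁻ q, ∫⁻ a, ∫⁻ b, T.indicator (fun _ => (1 : ENNReal)) (q, a, b) ∂μ ∂μ ∂μ =
      (μ.prod (μ.prod μ)) T := by
  rw [Measure.prod_apply hT]
  refine lintegral_congr fun q => ?_
  rw [Measure.prod_apply (measurable_prodMk_left hT)]
  refine lintegral_congr fun a => ?_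
  have hm : MeasurableSet (Prod.mk a ⁻¹' (Prod.mk q ⁻¹' T)) :=
    measurable_prodMk_left (measurable_prodMk_left hT)
  rw [← lintegral_indicator_one hm]
  rfl

end Meas

variable {G H ι E : Type*} [Group G] [Group H] [MeasurableSpace H] [MeasurableMul₂ H]
    [MeasurableInv H] [Fintype ι] [NormedAddCommGroup E] [InnerProductSpace ℝ E]

theorem smul_ν (M : CapModel G H ι E) : M.μ M.V • M.ν = M.μ.restrict M.V := by
  unfold CapModel.ν
  rw [smul_smul, ENNReal.mul_inv_cancel M.V_pos M.V_fin, one_smul]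

/-- from Lebesgue measure on `V` to `ν` -/
theorem prod_V (M : CapModel G H ι E) {T : Set (H × H × H)} (hT : MeasurableSet T)
    (hTV : ∀ p ∈ T, p.2.1 ∈ M.V ∧ p.2.2 ∈ M.V) :
    (M.μ.prod (M.μ.prod M.μ)) T = (M.μ.prod (M.ν.prod M.ν)) T * M.μ M.V ^ 2 := by
  have h1 : (M.μ.prod (M.μ.prod M.μ)) T =
      (M.μ.prod ((M.μ.restrict M.V).prod (M.μ.restrict M.V))) T := by
    rw [Measure.prod_apply hT, Measure.prod_apply hT]
    refine lintegral_congr fun q => ?_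
    rw [Measure.prod_restrict, Measure.restrict_apply (measurable_prodMk_left hT)]
    congr 1
    ext p
    simp only [Set.mem_inter_iff, Set.mem_preimage, Set.mem_prod]
    constructor
    · intro h; exact ⟨h, (hTV _ h).1, (hTV _ h).2⟩
    · intro h; exact h.1
  rw [h1, ← smul_ν]
  have h2 : (M.μ M.V • M.ν).prod (M.μ M.V • M.ν) = (M.μ M.V ^ 2) • M.ν.prod M.ν := by
    rw [Measure.prod_smul_left, Measure.prod_smul_right, smul_smul, sq]
  rw [h2, Measure.prod_smul_right, Measure.smul_apply, smul_eq_mul, mul_comm]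

/-- the law of a point, used in `facet_bad` -/
def GoodAt (M : CapModel G H ι E) (R : RSys ι E) (N : ℕ) (Ψ : G → G) (x g0 : G) (y0 : E)
    (ψ : R.Eb × ℝ → G) (W : Finset (List (R.Eb × ℝ))) {κ : Type*} (g : κ → G) (y : κ → E) (e : ℝ)
    (n : H) : Prop :=
  ∃ L : E →ₗ[ℝ] E, IsPerm R L ∧ ‖GF M N Ψ x n g0 - GF M N Ψ x n 1 - L y0‖ ≤ e ∧
    (∀ w ∈ W, ∀ w', w' <+: w →
      ‖GF M N Ψ x n (g0 * (w'.map ψ).prod) - GF M N Ψ x n 1 - L (y0 + tsum w')‖ ≤ e) ∧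
    ∀ k, ‖GF M N Ψ x n (g k) - GF M N Ψ x n 1 - L (y k)‖ ≤ e

theorem wlaw_of_good {M : CapModel G H ι E} {R : RSys ι E} {N : ℕ} {Ψ : G → G} {x g0 : G} {y0 : E}
    {ψ : R.Eb × ℝ → G} {w : List (R.Eb × ℝ)} {e : ℝ} {n : H} {L : E →ₗ[ℝ] E}
    (h0 : ‖GF M N Ψ x n g0 - GF M N Ψ x n 1 - L y0‖ ≤ e)
    (h : ∀ w', w' <+: w →
      ‖GF M N Ψ x n (g0 * (w'.map ψ).prod) - GF M N Ψ x n 1 - L (y0 + tsum w')‖ ≤ e) :
    WLaw1 M N Ψ x g0 ψ w L (2 * e) n := by
  intro w' hw'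
  have h1 := h w' hw'
  have h2 : GF M N Ψ x n (g0 * (w'.map ψ).prod) - GF M N Ψ x n g0 - L (tsum w') =
      (GF M N Ψ x n (g0 * (w'.map ψ).prod) - GF M N Ψ x n 1 - L (y0 + tsum w')) -
      (GF M N Ψ x n g0 - GF M N Ψ x n 1 - L y0) := by
    rw [map_add]; abel
  rw [h2]
  refine (norm_sub_le _ _).trans ?_
  linarith

/-- points joined by a move at `g0` -/
theorem GF_move {M : CapModel G H ι E} {K : ℝ} {Ψ : G → G} (hΨ : QI M K Ψ) (N : ℕ) (x g0 : G)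
    (n a b : H) (ha : a ∈ M.V) (hb : b ∈ M.V) :
    ‖GF M N Ψ x n g0 - GF M N Ψ x (n * M.cj g0 (a⁻¹ * b)) g0‖ ≤
      (M.C0 * (K * (2 * M.C0) + K)) / N := by
  refine (GF_sub_le hΨ N x _ _ g0 g0).trans ?_
  have h1 : M.dst (x * M.emb n * g0) (x * M.emb (n * M.cj g0 (a⁻¹ * b)) * g0) ≤ 2 * M.C0 := by
    unfold CapModel.dst
    have e1 : (x * M.emb n * g0)⁻¹ * (x * M.emb (n * M.cj g0 (a⁻¹ * b)) * g0) =
        (M.emb a)⁻¹ * M.emb b := by
      rw [map_mul, M.emb_cj, map_mul, map_inv]; group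
    rw [e1]
    refine (M.len_mul _ _).trans ?_
    rw [M.len_inv]
    have h2 := M.V_le a ha
    have h3 := M.V_le b hb
    linarith
  have hC0 := M.C0_pos
  have hK := hΨ.one_le
  rw [div_eq_inv_mul]
  gcongr

variable [FiniteDimensional ℝ E]

/-- **FACET, final form**: the amount of bad random moves at the position `g0`. -/
theorem facet_bad {M : CapModel G H ι E} (hR : M.Reach) (hE : M.Ent) {K : ℝ} (hK : 1 ≤ K)
    (R : RSys ι E) (hRS : M.S = R.toGenSys) {er : E} (her : er ∈ R.Eb) {Cs : ℝ} (hCs : 0 ≤ Cs)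
    {ρ η : ℝ} (hρ : 0 < ρ) (hη : 0 < η) :
    ∃ (e1 : ℝ) (W : Finset (List (R.Eb × ℝ))), 0 < e1 ∧
      (∀ w ∈ W, (∀ p ∈ w, 0 ≤ p.2 ∧ p.2 ≤ 1) ∧ inner ℝ er (tsum w) < 0 ∧
        ∀ w', w' <+: w → inner ℝ er (tsum w') ≤ 0 ∧ ‖tsum w'‖ ≤ ρ) ∧
      ∀ Cm : ℝ, ∃ N0 : ℕ, ∀ N ≥ N0, ∀ e : ℝ, 0 ≤ e → e ≤ e1 →
      ∀ ψ : R.Eb × ℝ → G, LegsAt M R N Cs Cm e ψ → ∀ Ψ : G → G, QI M K Ψ → ∀ (x g0 : G)
      (Q0 Q Q' : Set H), MeasurableSet Q → MeasurableSet Q' → M.μ Q' ≠ ⊤ → M.μ Q' ≠ 0 →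
      M.μ Q ≤ M.μ Q' → (∀ b ∈ M.V, ∀ n ∈ Q, n * (M.cj g0 b)⁻¹ ∈ Q') →
      (∀ w ∈ W, ∀ b ∈ M.V, ∀ n ∈ Q, n * (M.cj (g0 * (w.map ψ).prod) b)⁻¹ ∈ Q') →
      Q0 ⊆ Q → (∀ a ∈ M.V, ∀ b ∈ M.V, ∀ n ∈ Q0, n * M.cj g0 (a⁻¹ * b) ∈ Q) →
      ∀ {κ : Type} [Fintype κ] (g : κ → G) (y : κ → E) (y0 : E) (δ : ℝ),
      4 * e + (M.C0 * (K * (2 * M.C0) + K)) / N ≤ δ →
      Gen.badInt M.μ (fun n (k : κ) => GF M N Ψ x n (g k)) δ (M.cj g0) Q0 M.V ≤
        (ENNReal.ofReal η * M.μ Q' + 2 * M.μ {n | n ∈ Q ∧ ¬ GoodAt M R N Ψ x g0 y0 ψ W g y e n}) *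
          M.μ M.V ^ 2 := by
  classical
  obtain ⟨e1, W, he1, hW, hN⟩ := facet_edge hR hE hK R hRS her hCs hρ hη
  refine ⟨e1 / 2, W, by positivity, hW, ?_⟩
  intro Cm
  obtain ⟨N0, hN0⟩ := hN Cm
  refine ⟨N0, ?_⟩
  intro N hNN e he hee ψ hψ Ψ hΨ x g0 Q0 Q Q' hQ hQ' hQ'fin hQ'0 hQQ hV0 hV1 hQ0 hmv κ _ g y y0 δ hδ
  have hψ2 : LegsAt M R N Cs Cm (2 * e) ψ := by
    have hNn : (0 : ℝ) ≤ N := Nat.cast_nonneg N
    refine ⟨fun p h0 h1 => (hψ.len p h0 h1).trans ?_, fun p h0 h1 => (hψ.hgt p h0 h1).trans ?_,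
      hψ.mem⟩
    · gcongr; linarith
    · linarith
  have hedge := hN0 N hNN (2 * e) (by positivity) (by linarith) ψ hψ2 Ψ hΨ x g0 Q Q' hQ hQ' hQ'fin
    hQ'0 hQQ hV0 hV1
  set Bad : Set H := {n | n ∈ Q ∧ ¬ GoodAt M R N Ψ x g0 y0 ψ W g y e n} with hBad
  set Edge : Set (H × H × H) := {p | p.1 ∈ Q ∧ p.1 * (M.cj g0 p.2.1)⁻¹ * M.cj g0 p.2.2 ∈ Q ∧
        ∃ L1 L2 : E →ₗ[ℝ] E, IsPerm R L1 ∧ IsPerm R L2 ∧ L1 ≠ L2 ∧
          (∀ w ∈ W, WLaw1 M N Ψ x g0 ψ w L1 (2 * e) p.1) ∧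
          ∀ w ∈ W, WLaw1 M N Ψ x g0 ψ w L2 (2 * e)
            (p.1 * (M.cj g0 p.2.1)⁻¹ * M.cj g0 p.2.2)} with hEdge
  set VV : Set (H × H × H) := Set.univ ×ˢ (M.V ×ˢ M.V) with hVV
  have hVVm : MeasurableSet VV := MeasurableSet.univ.prod (M.V_meas.prod M.V_meas)
  set mv : H × H × H → H := fun p => p.1 * (M.cj g0 p.2.1)⁻¹ * M.cj g0 p.2.2 with hmvd
  have hcj := M.cj_meas g0
  have hmvm : Measurable mv := by
    have h1 : Measurable fun p : H × H × H => M.cj g0 p.2.1 := hcj.comp (by fun_prop)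
    have h2 : Measurable fun p : H × H × H => M.cj g0 p.2.2 := hcj.comp (by fun_prop)
    exact (measurable_fst.mul h1.inv).mul h2
  set T1 : Set (H × H × H) := Prod.fst ⁻¹' (toMeasurable M.μ Bad) with hT1
  set T2 : Set (H × H × H) := mv ⁻¹' (toMeasurable M.μ Bad) with hT2
  set T3 : Set (H × H × H) := toMeasurable (M.μ.prod (M.ν.prod M.ν)) Edge with hT3
  have hT1m : MeasurableSet T1 := measurable_fst (measurableSet_toMeasurable _ _)
  have hT2m : MeasurableSet T2 := hmvm (measurableSet_toMeasurable _ _)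
  have hT3m : MeasurableSet T3 := measurableSet_toMeasurable _ _
  set T : Set (H × H × H) := ((T1 ∪ T2) ∪ T3) ∩ VV with hT
  have hTm : MeasurableSet T := ((hT1m.union hT2m).union hT3m).inter hVVm
  have hmv' : ∀ p : H × H × H, mv p = p.1 * M.cj g0 (p.2.1⁻¹ * p.2.2) := by
    intro p
    simp only [hmvd]
    rw [map_mul, map_inv, mul_assoc]
  -- the inclusion
  have hsub : (Q0 ×ˢ M.V ×ˢ M.V ∩ {p : H × H × H |
      δ < dist (fun k : κ => GF M N Ψ x p.1 (g k))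
        (fun k : κ => GF M N Ψ x (p.1 * M.cj g0 (p.2.1⁻¹ * p.2.2)) (g k))}) ⊆ T := by
    rintro p ⟨⟨hp1, hp2, hp3⟩, hp4⟩
    refine ⟨?_, Set.mem_univ _, hp2, hp3⟩
    by_contra hcon
    rw [Set.mem_union, Set.mem_union, not_or, not_or] at hcon
    obtain ⟨⟨c1, c2⟩, c3⟩ := hcon
    have hq1 : p.1 ∉ Bad := fun h => c1 (subset_toMeasurable _ _ h)
    have hq2 : mv p ∉ Bad := fun h => c2 (subset_toMeasurable _ _ h)
    have hq3 : p ∉ Edge := fun h => c3 (subset_toMeasurable _ _ h)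
    have hQ1 : p.1 ∈ Q := hQ0 hp1
    have hQ2 : mv p ∈ Q := by rw [hmv']; exact hmv _ hp2 _ hp3 _ hp1
    have hg1 : GoodAt M R N Ψ x g0 y0 ψ W g y e p.1 := by
      by_contra h; exact hq1 ⟨hQ1, h⟩
    have hg2 : GoodAt M R N Ψ x g0 y0 ψ W g y e (mv p) := by
      by_contra h; exact hq2 ⟨hQ2, h⟩
    obtain ⟨L1, hL1, a1, b1, d1⟩ := hg1
    obtain ⟨L2, hL2, a2, b2, d2⟩ := hg2
    have hLL : L1 = L2 := by
      by_contra hne
      exact hq3 ⟨hQ1, hQ2, L1, L2, hL1, hL2, hne, fun w hw => wlaw_of_good a1 (b1 w hw),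
        fun w hw => wlaw_of_good a2 (b2 w hw)⟩
    subst hLL
    -- the two families are close
    have hbase := GF_move hΨ N x g0 p.1 p.2.1 p.2.2 hp2 hp3
    rw [← hmv'] at hbase
    have h1 : ‖GF M N Ψ x p.1 1 - GF M N Ψ x (mv p) 1‖ ≤
        2 * e + (M.C0 * (K * (2 * M.C0) + K)) / N := by
      have e2 : GF M N Ψ x p.1 1 - GF M N Ψ x (mv p) 1 =
          (GF M N Ψ x p.1 g0 - GF M N Ψ x (mv p) g0) -
          (GF M N Ψ x p.1 g0 - GF M N Ψ x p.1 1 - L1 y0) +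
          (GF M N Ψ x (mv p) g0 - GF M N Ψ x (mv p) 1 - L1 y0) := by abel
      rw [e2]
      refine (norm_add_le _ _).trans ?_
      have := norm_sub_le (GF M N Ψ x p.1 g0 - GF M N Ψ x (mv p) g0)
        (GF M N Ψ x p.1 g0 - GF M N Ψ x p.1 1 - L1 y0)
      linarith
    have h2 : dist (fun k : κ => GF M N Ψ x p.1 (g k)) (fun k : κ => GF M N Ψ x (mv p) (g k)) ≤
        δ := by
      have hCp : 0 ≤ (M.C0 * (K * (2 * M.C0) + K)) / N := by
        have := M.C0_pos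
        positivity
      have hδ0 : 0 ≤ δ := le_trans (by positivity) hδ
      rw [dist_pi_le_iff hδ0]
      intro k
      rw [dist_eq_norm]
      have e2 : GF M N Ψ x p.1 (g k) - GF M N Ψ x (mv p) (g k) =
          (GF M N Ψ x p.1 (g k) - GF M N Ψ x p.1 1 - L1 (y k)) -
          (GF M N Ψ x (mv p) (g k) - GF M N Ψ x (mv p) 1 - L1 (y k)) +
          (GF M N Ψ x p.1 1 - GF M N Ψ x (mv p) 1) := by abel
      rw [e2]
      refine (norm_add_le _ _).trans ?_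
      have h3 := norm_sub_le (GF M N Ψ x p.1 (g k) - GF M N Ψ x p.1 1 - L1 (y k))
        (GF M N Ψ x (mv p) (g k) - GF M N Ψ x (mv p) 1 - L1 (y k))
      have h4 := d1 k
      have h5 := d2 k
      linarith
    have hp4' : δ < dist (fun k : κ => GF M N Ψ x p.1 (g k))
        (fun k : κ => GF M N Ψ x (p.1 * M.cj g0 (p.2.1⁻¹ * p.2.2)) (g k)) := hp4
    rw [← hmv'] at hp4'
    linarith
  -- measures
  have hμT1 : (M.μ.prod (M.ν.prod M.ν)) T1 = M.μ Bad := by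
    have : T1 = toMeasurable M.μ Bad ×ˢ (Set.univ : Set (H × H)) := by
      ext p; simp [hT1]
    rw [this, Measure.prod_prod, measure_toMeasurable, measure_univ, mul_one]
  have hμT2 : (M.μ.prod (M.ν.prod M.ν)) T2 = M.μ Bad := by
    rw [Measure.prod_apply_symm hT2m]
    have : ∀ p : H × H, M.μ ((fun q => (q, p)) ⁻¹' T2) = M.μ Bad := by
      intro p
      have e1 : (fun q => (q, p)) ⁻¹' T2 =
          (fun q => q * ((M.cj g0 p.1)⁻¹ * M.cj g0 p.2)) ⁻¹' (toMeasurable M.μ Bad) := by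
        ext q
        simp only [hT2, hmvd, Set.mem_preimage, mul_assoc]
      rw [e1, measure_preimage_mul_right, measure_toMeasurable]
    simp only [this]
    rw [lintegral_const, measure_univ, mul_one]
  have hμT3 : (M.μ.prod (M.ν.prod M.ν)) T3 ≤ ENNReal.ofReal η * M.μ Q' := by
    rw [hT3, measure_toMeasurable]
    exact hedge
  have hμT : (M.μ.prod (M.ν.prod M.ν)) T ≤ ENNReal.ofReal η * M.μ Q' + 2 * M.μ Bad := by
    calc (M.μ.prod (M.ν.prod M.ν)) T ≤ (M.μ.prod (M.ν.prod M.ν)) ((T1 ∪ T2) ∪ T3) :=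
          measure_mono Set.inter_subset_left
      _ ≤ (M.μ.prod (M.ν.prod M.ν)) (T1 ∪ T2) + (M.μ.prod (M.ν.prod M.ν)) T3 :=
          measure_union_le _ _
      _ ≤ ((M.μ.prod (M.ν.prod M.ν)) T1 + (M.μ.prod (M.ν.prod M.ν)) T2) +
          (M.μ.prod (M.ν.prod M.ν)) T3 := by gcongr; exact measure_union_le _ _
      _ ≤ (M.μ Bad + M.μ Bad) + ENNReal.ofReal η * M.μ Q' := by
          rw [hμT1, hμT2]; gcongr
      _ = _ := by rw [two_mul]; ring
  calc Gen.badInt M.μ (fun n (k : κ) => GF M N Ψ x n (g k)) δ (M.cj g0) Q0 M.V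
      ≤ ∫⁻ q, ∫⁻ a, ∫⁻ b, T.indicator (fun _ => (1 : ENNReal)) (q, a, b) ∂M.μ ∂M.μ ∂M.μ := by
        unfold Gen.badInt
        refine lintegral_mono fun q => lintegral_mono fun a => lintegral_mono fun b => ?_
        exact Set.indicator_le_indicator_of_subset hsub (fun _ => zero_le) _
    _ = (M.μ.prod (M.μ.prod M.μ)) T := nested_eq hTm
    _ = (M.μ.prod (M.ν.prod M.ν)) T * M.μ M.V ^ 2 :=
        prod_V M hTm fun p hp => ⟨hp.2.2.1, hp.2.2.2⟩
    _ ≤ _ := by gcongr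

end Crest.Agent.R182.Facet
end

-- ▼ part R182/BoxOne

set_option autoImplicit false
set_option linter.unusedSectionVars false

open MeasureTheory Set
open scoped ENNReal Pointwise Topology

namespace Crest.Agent.R182.Gen

open Crest.Agent.R182.Nb Crest.Agent.R182.Core Crest.Agent.R182.Cap Crest.Agent.R182.Star
  Crest.Agent.R182.Facet

section len

variable {Γ : Type*} [Group Γ] {k : ℕ} {S : Set Γ} {π : Γ →* Multiplicative (Fin k → ℤ)}
  (M : BModel S π)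

theorem len_CW {Rl P : ℝ} (hRl : 0 ≤ Rl) {g : M.G} (h : CW M Rl P g) : M.len g ≤ P * Rl := by
  obtain ⟨l, rfl, hl, hP⟩ := h
  refine (M.len_list_le l fun s hs => (hl s hs).2).trans ?_
  have : (l.length : ℝ) ≤ P := by linarith
  gcongr

/-- the points of a box have linear length -/
theorem exists_len_box (Rl C R' : ℝ) (hRl : 0 ≤ Rl) (hC : 0 ≤ C) (hR' : 1 ≤ R') :
    ∃ c2 : ℝ, 0 ≤ c2 ∧ ∀ {ρ : Type} (ray : M.gen → ρ) (g : ρ → M.G) (N : ℕ), 1 ≤ N →
      (∀ r, CW M Rl (2 + C * N) (g r)) → ∀ n ∈ box M (fun i => R' • fam M ray g i) 1,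
        M.len (M.toG n) ≤ c2 * N := by
  obtain ⟨J, hJ⟩ := exists_gen_moves M (bgen M) (R' ^ M.c * 1) 1 one_pos
  have ha := M.a0
  have hlog : 0 ≤ Real.log (2 + 1) := Real.log_nonneg (by norm_num)
  set c0 : ℝ := 2 * ((2 + C) * Rl) + M.a * Real.log (2 + 1) with hc0
  have hc00 : 0 ≤ c0 := by positivity
  refine ⟨J * c0, by positivity, fun {ρ} ray g N hN hg n hn => ?_⟩
  have hN1 : (1 : ℝ) ≤ N := by exact_mod_cast hN
  have hn' : n ∈ box M (fam M ray g) (R' ^ M.c * 1) := Bx_unscale hR' zero_le_one hn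
  obtain ⟨l, hl1, hl2, rfl⟩ := hJ ray g n hn'
  have hstep : ∀ p ∈ l, M.len (M.toG (M.conjN (g p.1) p.2)) ≤ c0 * N := by
    intro p hp
    rw [M.toG_conjN]
    have h1 := M.isLen.mul (g p.1 * M.toG p.2) (g p.1)⁻¹
    have h2 := M.isLen.mul (g p.1) (M.toG p.2)
    have h3 : M.len (g p.1)⁻¹ = M.len (g p.1) := M.isLen.inv _
    have h4 := len_CW M hRl (hg p.1)
    have h5 := M.len_toG_le p.2
    have h6 : Real.log (2 + ‖p.2‖) ≤ Real.log (2 + 1) :=
      Real.log_le_log (by positivity) (by linarith [hl1 p hp])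
    have h7 : M.a * Real.log (2 + ‖p.2‖) ≤ M.a * Real.log (2 + 1) := by gcongr
    have h8 : (2 + C * N) * Rl ≤ ((2 + C) * Rl) * N := by nlinarith [mul_nonneg hRl hC]
    have h9 : M.a * Real.log (2 + 1) ≤ M.a * Real.log (2 + 1) * N :=
      le_mul_of_one_le_right (by positivity) hN1
    rw [h3] at h1
    have h10 : c0 * N = 2 * (((2 + C) * Rl) * N) + M.a * Real.log (2 + 1) * N := by rw [hc0]; ring
    rw [h10]
    generalize ((2 + C) * Rl) * (N : ℝ) = X1 at *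
    generalize M.a * Real.log (2 + 1) * (N : ℝ) = X2 at *
    generalize M.a * Real.log (2 + 1) = X3 at *
    linarith
  have key : ∀ l : List (ρ × M.NN), (∀ p ∈ l, M.len (M.toG (M.conjN (g p.1) p.2)) ≤ c0 * N) →
      M.len (M.toG (l.map fun p => M.conjN (g p.1) p.2).prod) ≤ l.length * (c0 * N) := by
    intro l
    induction l with
    | nil => intro _; simp [M.isLen.one]
    | cons p l ih =>
      intro h
      rw [List.map_cons, List.prod_cons, map_mul]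
      have h1 := M.isLen.mul (M.toG (M.conjN (g p.1) p.2))
        (M.toG (l.map fun p => M.conjN (g p.1) p.2).prod)
      have h2 := ih fun q hq => h q (List.mem_cons_of_mem _ hq)
      have h3 := h p List.mem_cons_self
      rw [List.length_cons]; push_cast; linarith
  refine (key l hstep).trans ?_
  have : (l.length : ℝ) ≤ J := by exact_mod_cast hl2
  calc (l.length : ℝ) * (c0 * N) ≤ J * (c0 * N) := by gcongr
    _ = J * c0 * N := by ring

end len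

end Crest.Agent.R182.Gen

namespace Crest.Agent.R182.Gen

open Crest.Agent.R182.Nb Crest.Agent.R182.Core Crest.Agent.R182.Cap Crest.Agent.R182.Star
  Crest.Agent.R182.Facet

section words

variable {G H ι E : Type*} [Group G] [Group H] [MeasurableSpace H] [MeasurableMul₂ H]
    [MeasurableInv H] [Fintype ι] [NormedAddCommGroup E] [InnerProductSpace ℝ E]

/-- replacing the first letter by a close one -/
theorem exists_close (M : CapModel G H ι E) {T : Set G} {r0 : ℕ} (hT : ∀ s ∈ T, s ∈ M.Cl r0)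
    (hS : Slow T) {K : ℝ} (hK : 0 ≤ K) (A : ℝ) {δ : ℝ} (hδ : 0 < δ) :
    ∃ κ : ℝ, 0 < κ ∧ ∃ N0 : ℕ, 1 ≤ N0 ∧ ∀ N ≥ N0, ∀ Ψ : G → G, QI M K Ψ → ∀ (x : G) (n : H)
      (u g p : G), (∃ m : ℕ, (m : ℝ) ≤ κ * N ∧ u⁻¹ * g ∈ Bl T m) →
      (∃ m : ℕ, (m : ℝ) ≤ A * N ∧ p ∈ Bl T m) →
      ‖GF M N Ψ x n (u * p) - GF M N Ψ x n (g * p)‖ ≤ δ := by
  have hC0 := M.C0_pos
  set cK : ℝ := M.C0 * K * (M.C0 * r0) with hcK
  have hcKp : 0 ≤ cK := by positivity
  obtain ⟨κ, hκ, N1, h1⟩ := hS A (δ / (2 * (cK + 1))) (by positivity)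
  obtain ⟨N2, hN21, hN2⟩ := exists_N_inv (C := M.C0 * K) (δ := δ / 2) (by positivity)
  refine ⟨κ, hκ, max N1 N2, le_max_of_le_right hN21, fun N hN Ψ hΨ x n u g p hu hp => ?_⟩
  obtain ⟨m, hm, hum⟩ := hu
  obtain ⟨m', hm', hpm⟩ := hp
  have hN2' : N2 ≤ N := le_of_max_le_right hN
  obtain ⟨m'', hm'', hmem⟩ := h1 N (le_of_max_le_left hN) m m' hm hm' _ hum _ hpm
  have e1 : (u * p)⁻¹ * (g * p) = p⁻¹ * (u⁻¹ * g) * p := by group
  have h2 := GF_close hT hΨ (hN21.trans hN2') x n (u * p) (g * p) hm'' (by rw [e1]; exact hmem)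
  refine h2.trans ?_
  have h3 := hN2 N hN2'
  have h4 : cK * (δ / (2 * (cK + 1))) ≤ δ / 2 := by
    rw [mul_div_assoc', div_le_div_iff₀ (by positivity) (by positivity)]
    nlinarith
  linarith

variable {M : CapModel G H ι E} {R : RSys ι E} {T : Set G} {Cb eps : ℝ} (𝓛 : Legs M R T Cb eps)

theorem tpos_mem {N : ℕ} {tW : ℝ} (w : List (R.Eb × ℝ)) (hw : ∀ p ∈ w, 0 ≤ p.2 ∧ p.2 ≤ tW) :
    ∃ m : ℕ, (m : ℝ) ≤ |Cb| * (w.length * tW) * N ∧ 𝓛.tpos N w ∈ Bl T m := by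
  induction w with
  | nil => exact ⟨0, by simp, by simpa [Legs.tpos] using one_mem_Bl (T := T) 0⟩
  | cons p w ih =>
    obtain ⟨m, hm, hmem⟩ := ih fun q hq => hw q (List.mem_cons_of_mem _ hq)
    obtain ⟨hp0, hp1⟩ := hw p List.mem_cons_self
    obtain ⟨m', hm', he⟩ := 𝓛.u_pow_mem (N := N) hp0 p.1 1
    rw [pow_one] at he
    refine ⟨m' + m, ?_, ?_⟩
    · have h1 : |Cb| * p.2 * N ≤ |Cb| * tW * N := by gcongr
      rw [List.length_cons]; push_cast at hm' ⊢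
      calc (m' : ℝ) + m ≤ |Cb| * (1 * p.2) * N + |Cb| * (w.length * tW) * N := by linarith
        _ ≤ _ := by
          have : |Cb| * (1 * p.2) * N = |Cb| * p.2 * N := by ring
          rw [this]
          linarith
    · have : 𝓛.tpos N (p :: w) = 𝓛.u N p.2 p.1 * 𝓛.tpos N w := by simp [Legs.tpos]
      rw [this]; exact Bl_mul he hmem

theorem hgt_tpos {N : ℕ} {tW : ℝ} (heps : 0 ≤ eps) (w : List (R.Eb × ℝ))
    (hw : ∀ p ∈ w, 0 ≤ p.2 ∧ p.2 ≤ tW) :
    ‖M.hgt (𝓛.tpos N w) - (N : ℝ) • tsum w‖ ≤ w.length * (eps * (tW * N) + 𝓛.mX) := by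
  induction w with
  | nil => simp [Legs.tpos, Star.tsum, M.hgt_one]
  | cons p w ih =>
    have ih' := ih fun q hq => hw q (List.mem_cons_of_mem _ hq)
    obtain ⟨hp0, hp1⟩ := hw p List.mem_cons_self
    have h1 : 𝓛.tpos N (p :: w) = 𝓛.u N p.2 p.1 * 𝓛.tpos N w := by simp [Legs.tpos]
    have h2 := 𝓛.hgt_u (N := N) hp0 heps p.1 1 (R.unit _ p.1.2)
    rw [pow_one, Nat.cast_one, one_mul, one_mul] at h2
    have h3 : tsum (p :: w) = p.2 • (p.1 : E) + tsum w := by simp [Star.tsum]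
    rw [h1, M.hgt_mul, h3]
    have h4 : M.hgt (𝓛.u N p.2 p.1) + M.hgt (𝓛.tpos N w) - (N : ℝ) • (p.2 • (p.1 : E) + tsum w) =
        (M.hgt (𝓛.u N p.2 p.1) - (p.2 * N) • (p.1 : E)) +
        (M.hgt (𝓛.tpos N w) - (N : ℝ) • tsum w) := by
      rw [smul_add, smul_smul, mul_comm p.2]; abel
    rw [h4]
    refine (norm_add_le _ _).trans ?_
    rw [List.length_cons]; push_cast
    have h5 := 𝓛.mE_le p.1
    have h6 : eps * (p.2 * N) ≤ eps * (tW * N) := by gcongr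
    linarith

end words

end Crest.Agent.R182.Gen

namespace Crest.Agent.R182.Gen

open Crest.Agent.R182.Nb Crest.Agent.R182.Core Crest.Agent.R182.Cap Crest.Agent.R182.Star
  Crest.Agent.R182.Facet

section shape

variable {ι : Type*} [Fintype ι] {E : Type*} [NormedAddCommGroup E] [InnerProductSpace ℝ E]
  {R : RSys ι E} {X : R.Eb → ℝ}

/-- the shape with sides `X` -/
def Om (R : RSys ι E) (X : R.Eb → ℝ) : Set E := {v | ∀ e : R.Eb, inner ℝ (e : E) v ≤ X e}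

theorem convex_Om : Convex ℝ (Om R X) := by
  intro v hv w hw a b ha hb hab e
  rw [inner_add_right, inner_smul_right, inner_smul_right]
  have h1 := mul_le_mul_of_nonneg_left (hv e) ha
  have h2 := mul_le_mul_of_nonneg_left (hw e) hb
  have h3 : a * X e + b * X e = X e := by rw [← add_mul, hab, one_mul]
  linarith

theorem mem_Om_of_norm {v : E} (hv : ‖v‖ ≤ 1 / 2) (hX : ∀ e, |X e - 1| ≤ 1 / 2) : v ∈ Om R X := by
  intro e
  have h1 := real_inner_le_norm (e : E) v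
  rw [R.unit e e.2, one_mul] at h1
  have := (abs_le.1 (hX e)).1
  linarith

theorem ball_Om (hX : ∀ e, |X e - 1| ≤ 1 / 2) : Metric.ball (0 : E) (1 / 2) ⊆ Om R X := by
  intro v hv
  exact mem_Om_of_norm (by simpa using (Metric.mem_ball.1 hv).le) hX

theorem zero_mem_Om (hX : ∀ e, |X e - 1| ≤ 1 / 2) : (0 : E) ∈ Om R X :=
  mem_Om_of_norm (by simp) hX

theorem touch_mem_Om {m1 : ℝ} (hm1 : 0 < m1) (hm11 : m1 ≤ 1)
    (hm : ∀ e ∈ R.Eb, ∀ e' ∈ R.Eb, e ≠ e' → inner ℝ e e' ≤ 1 - m1)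
    (hX : ∀ e, |X e - 1| ≤ m1 / 10) {er : R.Eb} {v : E} (hv : inner ℝ (er : E) v ≤ 0)
    (hv2 : ‖v‖ ≤ m1 / 2) : X er • (er : E) + v ∈ Om R X := by
  intro e
  rw [inner_add_right, inner_smul_right]
  by_cases h : e = er
  · subst h
    rw [real_inner_self_eq_norm_sq, R.unit e e.2]
    linarith
  · have h1 := hm e e.2 er er.2 fun h' => h (Subtype.ext h')
    have h2 := real_inner_le_norm (e : E) v
    rw [R.unit e e.2, one_mul] at h2
    have h3 := (abs_le.1 (hX er)).1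
    have h4 := (abs_le.1 (hX er)).2
    have h5 := (abs_le.1 (hX e)).1
    have h6 : X er * inner ℝ (e : E) (er : E) ≤ X er * (1 - m1) :=
      mul_le_mul_of_nonneg_left h1 (by linarith)
    nlinarith

end shape

section good

variable {Γ : Type*} [Group Γ] [Countable Γ] {k : ℕ} {S : Set Γ}
  {π : Γ →* Multiplicative (Fin k → ℤ)}
  {M : BModel S π} {E : Type} [NormedAddCommGroup E] [InnerProductSpace ℝ E]
  {T : (Fin k → ℝ) ≃ₗ[ℝ] E} {V : Set M.NN} {RC : ℝ} {P : BModel.CapPar M T V RC}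
  {R : RSys (GI M) E} {Tt : Set M.G} {r0 : ℕ} {Cb eps : ℝ}

/-- the law at a point -/
def SGood (𝓛 : Legs (M.toCap P) R Tt Cb eps) (N : ℕ) (X : R.Eb → ℝ) (kw : ℕ) (tW η : ℝ)
    (Ψ : M.G → M.G) (x : M.G) (n : M.NN) : Prop :=
  ∃ (σ : Equiv.Perm R.Eb) (L : E →ₗ[ℝ] E), (∀ e : R.Eb, L e = σ e) ∧
    ∀ w : List (R.Eb × ℝ), w.length ≤ kw → (∀ p ∈ w, 0 ≤ p.2 ∧ p.2 ≤ tW) →
      (∀ w', w' <+: w → tsum w' ∈ Om R X) →
      ‖GF (M.toCap P) N Ψ x n (𝓛.tpos N w) - GF (M.toCap P) N Ψ x n 1 - L (tsum w)‖ ≤ η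

/-- the test positions -/
noncomputable def tg (𝓛 : Legs (M.toCap P) R Tt Cb eps) (N : ℕ) : Option R.Eb → M.G
  | none => 1
  | some e => 𝓛.u N (1 / 2) e

noncomputable def ty (R : RSys (GI M) E) : Option R.Eb → E
  | none => 0
  | some e => (1 / 2 : ℝ) • (e : E)

/-- from the law at a point to the hypothesis of the facets -/
theorem SGood.goodAt {𝓛 : Legs (M.toCap P) R Tt Cb eps} {N : ℕ} {X : R.Eb → ℝ} {kw : ℕ}
    {tW η e' : ℝ} {Ψ : M.G → M.G} {x : M.G} {n : M.NN} (h : SGood 𝓛 N X kw tW η Ψ x n)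
    {m1 : ℝ} (hm1 : 0 < m1) (hm11 : m1 ≤ 1)
    (hm : ∀ e ∈ R.Eb, ∀ e' ∈ R.Eb, e ≠ e' → inner ℝ e e' ≤ 1 - m1)
    (hX : ∀ e, |X e - 1| ≤ m1 / 10) (htW : 2 ≤ tW) (er : R.Eb) {W : Finset (List (R.Eb × ℝ))}
    (hW : ∀ w ∈ W, (∀ p ∈ w, 0 ≤ p.2 ∧ p.2 ≤ 1) ∧ w.length + 1 ≤ kw ∧
      ∀ w', w' <+: w → inner ℝ (er : E) (tsum w') ≤ 0 ∧ ‖tsum w'‖ ≤ m1 / 2) (hkw : 1 ≤ kw)
    {g0 : M.G} (hη : η + e' ≤ e' + e') 
    (hclose : ∀ w : List (R.Eb × ℝ), w.length ≤ kw → (∀ p ∈ w, 0 ≤ p.2 ∧ p.2 ≤ 1) →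
      ‖GF (M.toCap P) N Ψ x n (𝓛.u N (X er) er * 𝓛.tpos N w) -
        GF (M.toCap P) N Ψ x n (g0 * 𝓛.tpos N w)‖ ≤ e') :
    GoodAt (M.toCap P) R N Ψ x g0 (X er • (er : E)) (fun p => 𝓛.u N p.2 p.1) W (tg 𝓛 N) (ty R)
      (e' + e') n := by
  obtain ⟨σ, L, hL, hlaw⟩ := h
  have hX2 : ∀ e, |X e - 1| ≤ 1 / 2 := fun e => (hX e).trans (by linarith)
  have hXer := abs_le.1 (hX er)
  have he'0 : 0 ≤ e' := (norm_nonneg _).trans (hclose [] (by simp) (by simp))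
  have hpre0 : ∀ w' : List (R.Eb × ℝ), w' <+: [] → tsum w' ∈ Om R X := by
    intro w' hw'
    have : w' = [] := by simpa using hw'
    subst this
    simpa [Star.tsum] using zero_mem_Om (R := R) hX2
  -- words at the touching point
  have key : ∀ w : List (R.Eb × ℝ), w.length + 1 ≤ kw → (∀ p ∈ w, 0 ≤ p.2 ∧ p.2 ≤ 1) →
      (∀ w', w' <+: w → inner ℝ (er : E) (tsum w') ≤ 0 ∧ ‖tsum w'‖ ≤ m1 / 2) →
      ‖GF (M.toCap P) N Ψ x n (g0 * 𝓛.tpos N w) - GF (M.toCap P) N Ψ x n 1 -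
        L (X er • (er : E) + tsum w)‖ ≤ e' + e' := by
    intro w hwl hw hpre
    have h1 := hlaw ((er, X er) :: w) (by simpa using hwl) (by
      intro p hp
      rcases List.mem_cons.1 hp with rfl | hp
      · constructor
        · change 0 ≤ X er; linarith
        · change X er ≤ tW; linarith
      · have := hw p hp
        exact ⟨this.1, by linarith⟩) (by
      intro w' hw'
      rcases List.prefix_cons_iff.1 hw' with rfl | ⟨t, rfl, ht⟩
      · simpa [Star.tsum] using zero_mem_Om (R := R) hX2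
      · have : tsum ((er, X er) :: t) = X er • (er : E) + tsum t := by simp [Star.tsum]
        rw [this]
        exact touch_mem_Om hm1 hm11 hm hX (hpre t ht).1 (hpre t ht).2)
    have e1 : 𝓛.tpos N ((er, X er) :: w) = 𝓛.u N (X er) er * 𝓛.tpos N w := by simp [Legs.tpos]
    have e2 : tsum ((er, X er) :: w) = X er • (er : E) + tsum w := by simp [Star.tsum]
    rw [e1, e2] at h1
    have h2 := hclose w (by omega) hw
    rw [norm_sub_rev] at h2
    have e3 : GF (M.toCap P) N Ψ x n (g0 * 𝓛.tpos N w) - GF (M.toCap P) N Ψ x n 1 -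
        L (X er • (er : E) + tsum w) =
        (GF (M.toCap P) N Ψ x n (g0 * 𝓛.tpos N w) -
          GF (M.toCap P) N Ψ x n (𝓛.u N (X er) er * 𝓛.tpos N w)) +
        (GF (M.toCap P) N Ψ x n (𝓛.u N (X er) er * 𝓛.tpos N w) - GF (M.toCap P) N Ψ x n 1 -
          L (X er • (er : E) + tsum w)) := by abel
    rw [e3]
    refine (norm_add_le _ _).trans ?_
    linarith
  refine ⟨L, ⟨σ, hL⟩, ?_, ?_, ?_⟩
  · have h1 := key [] (by simpa using hkw) (by simp) (by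
      intro w' hw'
      have : w' = [] := by simpa using hw'
      subst this
      simp [Star.tsum]; linarith)
    simpa [Legs.tpos, Star.tsum] using h1
  · intro w hw w' hw'
    obtain ⟨h1, h2, h3⟩ := hW w hw
    have hlen : w'.length ≤ w.length := hw'.length_le
    exact key w' (by omega) (fun p hp => h1 p (hw'.subset hp)) fun w'' hw'' =>
      h3 w'' (hw''.trans hw')
  · intro o
    cases o with
    | none =>
      change ‖GF (M.toCap P) N Ψ x n 1 - GF (M.toCap P) N Ψ x n 1 - L 0‖ ≤ e' + e'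
      rw [map_zero, sub_self, sub_zero, norm_zero]
      linarith
    | some e =>
      have h1 := hlaw [(e, 1 / 2)] (by simpa using hkw) (by
        intro p hp
        have : p = (e, 1 / 2) := by simpa using hp
        subst this
        constructor
        · norm_num
        · change (1 / 2 : ℝ) ≤ tW; linarith) (by
        intro w' hw'
        rcases List.prefix_cons_iff.1 hw' with rfl | ⟨t, rfl, ht⟩
        · simpa [Star.tsum] using zero_mem_Om (R := R) hX2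
        · have ht' : t = [] := by simpa using ht
          subst ht'
          refine mem_Om_of_norm ?_ hX2
          have : tsum [(e, (1 / 2 : ℝ))] = (1 / 2 : ℝ) • (e : E) := by simp [Star.tsum]
          rw [this, norm_smul, R.unit e e.2]
          norm_num)
      have e1 : 𝓛.tpos N [(e, (1 / 2 : ℝ))] = 𝓛.u N (1 / 2) e := by simp [Legs.tpos]
      have e2 : tsum [(e, (1 / 2 : ℝ))] = (1 / 2 : ℝ) • (e : E) := by simp [Star.tsum]
      rw [e1, e2] at h1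
      change ‖GF (M.toCap P) N Ψ x n (𝓛.u N (1 / 2) e) - GF (M.toCap P) N Ψ x n 1 -
        L ((1 / 2 : ℝ) • (e : E))‖ ≤ e' + e'
      linarith

end good

end Crest.Agent.R182.Gen
private theorem rz_7b17826cc1 : type_of% @_root_.Crest.Agent.R182.Gen.tg.eq_1 := @_root_.Crest.Agent.R182.Gen.tg.eq_1 -- L248
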