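/-
R182, module POLYC (PC6, part 2): the real Mal'cev completion `N_ℝ` inside `GL_n(ℝ)`.
-/
import Mathlib
import Crest.Agent.R182.PolycEmbDefs
import Crest.Agent.R182.PolycPoly

set_option autoImplicit false

namespace Crest.Agent.R182.Polyc

section units

variable {σ τ : Type*} {n : ℕ}

/-- unit-valued polynomial functions -/
def IsPolyU (f : (σ → ℝ) → (Matrix (Fin n) (Fin n) ℝ)ˣ) : Prop :=
  IsPolyM (fun x => (f x : Matrix (Fin n) (Fin n) ℝ)) ∧
    IsPolyM (fun x => (((f x)⁻¹ : (Matrix (Fin n) (Fin n) ℝ)ˣ) : Matrix (Fin n) (Fin n) ℝ))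

theorem IsPolyU.const (g : (Matrix (Fin n) (Fin n) ℝ)ˣ) : IsPolyU (fun _ : σ → ℝ => g) :=
  ⟨IsPolyM.const _, IsPolyM.const _⟩

theorem IsPolyU.mul {f g : (σ → ℝ) → (Matrix (Fin n) (Fin n) ℝ)ˣ} (hf : IsPolyU f)
    (hg : IsPolyU g) : IsPolyU (fun x => f x * g x) := by
  refine ⟨?_, ?_⟩
  · simpa using hf.1.mul hg.1
  · simpa using hg.2.mul hf.2

theorem IsPolyU.inv {f : (σ → ℝ) → (Matrix (Fin n) (Fin n) ℝ)ˣ} (hf : IsPolyU f) :
    IsPolyU (fun x => (f x)⁻¹) := by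
  refine ⟨hf.2, ?_⟩
  simpa using hf.1

theorem IsPolyU.comp {f : (σ → ℝ) → (Matrix (Fin n) (Fin n) ℝ)ˣ} (hf : IsPolyU f)
    {g : (τ → ℝ) → (σ → ℝ)} (hg : ∀ i, IsPoly (fun y => g y i)) :
    IsPolyU (fun y => f (g y)) :=
  ⟨hf.1.comp hg, hf.2.comp hg⟩

theorem IsPolyU.listProd (l : List ((σ → ℝ) → (Matrix (Fin n) (Fin n) ℝ)ˣ))
    (hl : ∀ f ∈ l, IsPolyU f) : IsPolyU (fun x => (l.map (fun f => f x)).prod) := by
  induction l with
  | nil => simpa using IsPolyU.const (σ := σ) (1 : (Matrix (Fin n) (Fin n) ℝ)ˣ)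
  | cons f l ih =>
    simp only [List.map_cons, List.prod_cons]
    exact (hl f List.mem_cons_self).mul (ih fun g hg => hl g (List.mem_cons_of_mem _ hg))

theorem IsPolyU.eq_of_int {f g : (σ → ℝ) → (Matrix (Fin n) (Fin n) ℝ)ˣ} (hf : IsPolyU f)
    (hg : IsPolyU g) (h : ∀ z : σ → ℤ, f (fun i => (z i : ℝ)) = g (fun i => (z i : ℝ)))
    (x : σ → ℝ) : f x = g x :=
  Units.ext (hf.1.eq_of_int hg.1 (fun z => by rw [h z]) x)

end units

namespace EmbData

variable {Γ : Type*} [Group Γ] {N : Subgroup Γ} (D : EmbData Γ N)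

/-- integral matrices inside real matrices -/
noncomputable def toR (n : ℕ) : Matrix (Fin n) (Fin n) ℤ →+* Matrix (Fin n) (Fin n) ℝ :=
  (Int.castRingHom ℝ).mapMatrix

theorem toR_apply (n : ℕ) (M : Matrix (Fin n) (Fin n) ℤ) (i j : Fin n) :
    toR n M i j = (M i j : ℝ) := rfl

theorem toR_injective (n : ℕ) : Function.Injective (toR n) := by
  intro A B h
  ext i j
  have := congrFun (congrFun h i) j
  simpa [toR_apply] using this

/-- the embedding into units of real matrices -/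
noncomputable def ρu : Γ →* (Matrix (Fin D.n) (Fin D.n) ℝ)ˣ :=
  ((toR D.n).toMonoidHom.comp D.ρ).toHomUnits

theorem coe_ρu (g : Γ) : ((D.ρu g : (Matrix (Fin D.n) (Fin D.n) ℝ)ˣ) :
    Matrix (Fin D.n) (Fin D.n) ℝ) = toR D.n (D.ρ g) := rfl

theorem ρu_injective : Function.Injective D.ρu := by
  intro g h hgh
  apply D.inj
  apply toR_injective
  rw [← coe_ρu, ← coe_ρu, hgh]

theorem unipR {g : Γ} (hg : g ∈ N) :
    ((D.ρu g : Matrix (Fin D.n) (Fin D.n) ℝ) - 1) ^ D.n = 0 := by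
  have h1 := D.unip g hg
  have h2 := congrArg (toR D.n) h1
  rw [map_pow, map_sub, map_one, map_zero] at h2
  exact h2

/-- one-parameter groups through the Mal'cev basis -/
noncomputable def P (i : Fin D.r) (t : ℝ) : (Matrix (Fin D.n) (Fin D.n) ℝ)ˣ where
  val := pw (D.ρu (D.a i)) t
  inv := pw (D.ρu (D.a i)) (-t)
  val_inv := pw_mul_neg (D.unipR (D.mem i)) t
  inv_val := pw_neg_mul (D.unipR (D.mem i)) t

theorem isPolyU_P {σ : Type*} (i : Fin D.r) {f : (σ → ℝ) → ℝ} (hf : IsPoly f) :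
    IsPolyU (fun x => D.P i (f x)) :=
  ⟨isPolyM_pw _ hf, isPolyM_pw _ hf.neg⟩

theorem P_add (i : Fin D.r) (s t : ℝ) : D.P i (s + t) = D.P i s * D.P i t :=
  Units.ext (pw_add (D.unipR (D.mem i)) s t)

theorem P_zero (i : Fin D.r) : D.P i 0 = 1 := Units.ext (pw_zero (D.unipR (D.mem i)))

theorem P_neg (i : Fin D.r) (t : ℝ) : D.P i (-t) = (D.P i t)⁻¹ := by
  rw [eq_inv_iff_mul_eq_one, ← P_add, neg_add_cancel, P_zero]

theorem P_nat (i : Fin D.r) (m : ℕ) : D.P i (m : ℝ) = D.ρu (D.a i) ^ m := by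
  apply Units.ext
  rw [Units.val_pow_eq_pow_val]
  exact pw_nat (D.unipR (D.mem i)) m

theorem P_int (i : Fin D.r) (m : ℤ) : D.P i (m : ℝ) = D.ρu (D.a i ^ m) := by
  rw [map_zpow]
  obtain ⟨k, rfl | rfl⟩ := m.eq_nat_or_neg
  · simpa using D.P_nat i k
  · have := D.P_nat i k
    push_cast
    rw [P_neg, this, zpow_neg, zpow_natCast]

/-- coordinates of the second kind -/
noncomputable def Eu (x : Fin D.r → ℝ) : (Matrix (Fin D.n) (Fin D.n) ℝ)ˣ :=
  (List.ofFn fun i => D.P i (x i)).prod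

theorem isPolyU_Eu : IsPolyU D.Eu := by
  have h := IsPolyU.listProd (List.ofFn fun (i : Fin D.r) (x : Fin D.r → ℝ) => D.P i (x i)) (by
    intro f hf
    obtain ⟨i, rfl⟩ := (List.mem_ofFn' _ _).mp hf
    exact D.isPolyU_P i (IsPoly.coord i))
  have e : (fun x : Fin D.r → ℝ => ((List.ofFn fun (i : Fin D.r) (x : Fin D.r → ℝ) =>
      D.P i (x i)).map (fun f => f x)).prod) = D.Eu := by
    funext x
    rw [List.map_ofFn]; rfl
  rw [e] at h
  exact h

theorem Eu_int (e : Fin D.r → ℤ) : D.Eu (fun i => (e i : ℝ)) = D.ρu (prodE D.a e) := by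
  rw [Eu, prodE, map_list_prod, List.map_ofFn]
  congr 2
  funext i
  exact D.P_int i (e i)

theorem Eu_zero : D.Eu 0 = 1 := by
  have := D.Eu_int 0
  have h2 : prodE D.a 0 = 1 := by
    rw [prodE]
    apply List.prod_eq_one
    intro x hx
    obtain ⟨i, rfl⟩ := (List.mem_ofFn' _ _).mp hx
    simp
  rw [h2, map_one] at this
  rw [← this]
  congr 1
  funext i; simp

/-- real extension of the coordinate functionals -/
noncomputable def cR (i : Fin D.r) : Matrix (Fin D.n) (Fin D.n) ℝ →ₗ[ℝ] ℝ where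
  toFun M := ∑ j, ∑ k, (D.coord i (Matrix.single j k 1) : ℝ) * M j k
  map_add' A B := by
    simp only [Matrix.add_apply, mul_add, Finset.sum_add_distrib]
  map_smul' c A := by
    simp only [Matrix.smul_apply, smul_eq_mul, RingHom.id_apply, Finset.mul_sum]
    refine Finset.sum_congr rfl fun j _ => Finset.sum_congr rfl fun k _ => ?_
    ring

theorem cR_toR (i : Fin D.r) (M : Matrix (Fin D.n) (Fin D.n) ℤ) :
    D.cR i (toR D.n M) = (D.coord i M : ℝ) := by
  have h1 : D.coord i M = ∑ j, ∑ k, D.coord i (Matrix.single j k 1) * M j k := by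
    conv_lhs => rw [Matrix.matrix_eq_sum_single M]
    rw [map_sum]
    refine Finset.sum_congr rfl fun j _ => ?_
    rw [map_sum]
    refine Finset.sum_congr rfl fun k _ => ?_
    have : Matrix.single j k (M j k) = (M j k) • Matrix.single j k (1 : ℤ) := by
      rw [Matrix.smul_single]; simp
    rw [this, map_smul, smul_eq_mul, mul_comm]
  rw [h1]
  change ∑ j, ∑ k, (D.coord i (Matrix.single j k 1) : ℝ) * (toR D.n M) j k = _
  push_cast
  rfl

/-- coordinates of a matrix -/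
noncomputable def crd (g : (Matrix (Fin D.n) (Fin D.n) ℝ)ˣ) : Fin D.r → ℝ :=
  fun i => D.cR i (g : Matrix (Fin D.n) (Fin D.n) ℝ)

theorem crd_ρu (g : Γ) (i : Fin D.r) : D.crd (D.ρu g) i = (D.coord i (D.ρ g) : ℝ) :=
  D.cR_toR i (D.ρ g)

theorem isPoly_crd {σ : Type*} {f : (σ → ℝ) → (Matrix (Fin D.n) (Fin D.n) ℝ)ˣ}
    (hf : IsPolyU f) (i : Fin D.r) : IsPoly (fun x => D.crd (f x) i) :=
  hf.1.linear (D.cR i)

theorem crd_Eu (x : Fin D.r → ℝ) : D.crd (D.Eu x) = x := by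
  funext i
  refine (D.isPoly_crd D.isPolyU_Eu i).eq_of_int (IsPoly.coord i) ?_ x
  intro z
  simp only
  rw [Eu_int, crd_ρu, D.coord_spec]


/-- Zariski density: a polynomial family which is in `ρ(N)` at integer points is in `N_ℝ`. -/
theorem eq_Eu_of_poly {σ : Type*} {f : (σ → ℝ) → (Matrix (Fin D.n) (Fin D.n) ℝ)ˣ}
    (hf : IsPolyU f) (h : ∀ z : σ → ℤ, ∃ g ∈ N, f (fun i => (z i : ℝ)) = D.ρu g)
    (x : σ → ℝ) : f x = D.Eu (D.crd (f x)) := by
  refine hf.eq_of_int (D.isPolyU_Eu.comp fun i => D.isPoly_crd hf i) ?_ x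
  intro z
  obtain ⟨g, hg, hfg⟩ := h z
  obtain ⟨e, rfl⟩ := D.surj g hg
  rw [hfg, ← Eu_int, crd_Eu]

/-- The real Mal'cev completion. -/
noncomputable def NR : Subgroup (Matrix (Fin D.n) (Fin D.n) ℝ)ˣ where
  carrier := Set.range D.Eu
  one_mem' := ⟨0, D.Eu_zero⟩
  mul_mem' := by
    rintro _ _ ⟨x, rfl⟩ ⟨y, rfl⟩
    have hf : IsPolyU (fun z : Fin D.r ⊕ Fin D.r → ℝ =>
        D.Eu (fun i => z (Sum.inl i)) * D.Eu (fun i => z (Sum.inr i))) :=
      (D.isPolyU_Eu.comp (g := fun z i => z (Sum.inl i)) fun i => IsPoly.coord _).mul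
        (D.isPolyU_Eu.comp (g := fun z i => z (Sum.inr i)) fun i => IsPoly.coord _)
    have h1 := D.eq_Eu_of_poly hf (by
      intro z
      refine ⟨prodE D.a (fun i => z (Sum.inl i)) * prodE D.a (fun i => z (Sum.inr i)), ?_, ?_⟩
      · refine N.mul_mem ?_ ?_
        all_goals
          rw [prodE]
          apply Subgroup.list_prod_mem
          intro x hx
          obtain ⟨i, rfl⟩ := (List.mem_ofFn' _ _).mp hx
          exact N.zpow_mem (D.mem i) _
      · rw [map_mul, ← Eu_int, ← Eu_int]) (Sum.elim x y)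
    simp only [Sum.elim_inl, Sum.elim_inr] at h1
    exact ⟨_, h1.symm⟩
  inv_mem' := by
    rintro _ ⟨x, rfl⟩
    have h1 := D.eq_Eu_of_poly D.isPolyU_Eu.inv (by
      intro z
      refine ⟨(prodE D.a z)⁻¹, ?_, ?_⟩
      · refine N.inv_mem ?_
        rw [prodE]
        apply Subgroup.list_prod_mem
        intro x hx
        obtain ⟨i, rfl⟩ := (List.mem_ofFn' _ _).mp hx
        exact N.zpow_mem (D.mem i) _
      · rw [map_inv, ← Eu_int]) x
    exact ⟨_, h1.symm⟩

theorem mem_NR {g : (Matrix (Fin D.n) (Fin D.n) ℝ)ˣ} : g ∈ D.NR ↔ D.Eu (D.crd g) = g := by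
  constructor
  · rintro ⟨x, rfl⟩
    rw [crd_Eu]
  · intro h
    exact ⟨_, h⟩

theorem Eu_mem (x : Fin D.r → ℝ) : D.Eu x ∈ D.NR := ⟨x, rfl⟩

theorem prodE_mem (e : Fin D.r → ℤ) : prodE D.a e ∈ N := by
  rw [prodE]
  apply Subgroup.list_prod_mem
  intro x hx
  obtain ⟨i, rfl⟩ := (List.mem_ofFn' _ _).mp hx
  exact N.zpow_mem (D.mem i) _

theorem ρu_mem_NR_iff (g : Γ) : D.ρu g ∈ D.NR ↔ g ∈ N := by
  constructor
  · intro h
    rw [mem_NR] at h
    have h1 : D.crd (D.ρu g) = fun i => ((D.coord i (D.ρ g) : ℤ) : ℝ) := by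
      funext i; exact D.crd_ρu g i
    rw [h1, Eu_int] at h
    rw [← D.ρu_injective h]
    exact D.prodE_mem _
  · intro h
    obtain ⟨e, rfl⟩ := D.surj g h
    rw [← Eu_int]
    exact D.Eu_mem _

/-- `Γ` normalises `N_ℝ`. -/
theorem conj_mem_NR [hN : N.Normal] (γ : Γ) {g : (Matrix (Fin D.n) (Fin D.n) ℝ)ˣ}
    (hg : g ∈ D.NR) : D.ρu γ * g * (D.ρu γ)⁻¹ ∈ D.NR := by
  obtain ⟨x, rfl⟩ := hg
  have hf : IsPolyU (fun x => D.ρu γ * D.Eu x * (D.ρu γ)⁻¹) :=
    ((IsPolyU.const _).mul D.isPolyU_Eu).mul (IsPolyU.const _)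
  have h1 := D.eq_Eu_of_poly hf (by
    intro z
    refine ⟨γ * prodE D.a z * γ⁻¹, hN.conj_mem _ (D.prodE_mem z) γ, ?_⟩
    rw [map_mul, map_mul, map_inv, ← Eu_int]) x
  exact ⟨_, h1.symm⟩

/-- elements of `N_ℝ` are unipotent -/
theorem unip_NR {g : (Matrix (Fin D.n) (Fin D.n) ℝ)ˣ} (hg : g ∈ D.NR) :
    ((g : Matrix (Fin D.n) (Fin D.n) ℝ) - 1) ^ D.n = 0 := by
  obtain ⟨x, rfl⟩ := hg
  refine (((D.isPolyU_Eu.1.sub (IsPolyM.const 1)).pow D.n).eq_of_int (IsPolyM.const 0) ?_ x)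
  intro z
  rw [Eu_int]
  exact D.unipR (D.prodE_mem z)

/-! ### Fundamental domain -/

/-- truncation of coordinates -/
def trunc {r : ℕ} (j : ℕ) (y : Fin r → ℝ) : Fin r → ℝ := fun i => if (i : ℕ) < j then y i else 0

theorem isPoly_trunc {σ : Type*} {r : ℕ} (j : ℕ) {f : (σ → ℝ) → (Fin r → ℝ)}
    (hf : ∀ i, IsPoly (fun x => f x i)) (i : Fin r) : IsPoly (fun x => trunc j (f x) i) := by
  unfold trunc
  by_cases h : (i : ℕ) < j
  · simpa [h] using hf i
  · simpa [h] using IsPoly.const (σ := σ) 0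

theorem trunc_eq {r : ℕ} {j : ℕ} {y : Fin r → ℝ} (hy : ∀ i : Fin r, j ≤ (i : ℕ) → y i = 0) :
    trunc j y = y := by
  funext i
  unfold trunc
  split_ifs with h
  · rfl
  · exact (hy i (not_lt.mp h)).symm

/-- normality of the `j`-th term in real coordinates -/
theorem normalR (j : ℕ) (x y : Fin D.r → ℝ) (hy : ∀ i : Fin D.r, j ≤ (i : ℕ) → y i = 0)
    (i : Fin D.r) (hi : j ≤ (i : ℕ)) : D.crd (D.Eu x * D.Eu y * (D.Eu x)⁻¹) i = 0 := by
  have hf : IsPolyU (fun z : Fin D.r ⊕ Fin D.r → ℝ =>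
      D.Eu (fun i => z (Sum.inl i)) * D.Eu (trunc j fun i => z (Sum.inr i)) *
        (D.Eu (fun i => z (Sum.inl i)))⁻¹) :=
    ((D.isPolyU_Eu.comp (g := fun z i => z (Sum.inl i)) fun i => IsPoly.coord _).mul
      (D.isPolyU_Eu.comp (g := fun z => trunc j fun i => z (Sum.inr i))
        (isPoly_trunc j fun i => IsPoly.coord _))).mul
      (D.isPolyU_Eu.comp (g := fun z i => z (Sum.inl i)) fun i => IsPoly.coord _).inv
  have h1 := (D.isPoly_crd hf i).eq_of_int (IsPoly.const 0) (by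
    intro z
    simp only
    have e : (trunc j fun i => ((z (Sum.inr i) : ℤ) : ℝ)) =
        fun i : Fin D.r => (((if (i : ℕ) < j then z (Sum.inr i) else 0 : ℤ)) : ℝ) := by
      funext i
      unfold trunc
      split_ifs <;> simp
    rw [e, Eu_int, Eu_int, ← map_inv, ← map_mul, ← map_mul, crd_ρu]
    have := D.normal j (fun i : Fin D.r => if (i : ℕ) < j then z (Sum.inr i) else 0)
      (fun i => z (Sum.inl i)) (fun i hi => by simp [not_lt.mpr hi]) i hi
    rw [this]; simp) (Sum.elim x y)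
  simp only [Sum.elim_inl, Sum.elim_inr, trunc_eq hy] at h1
  exact h1

/-- partial products -/
noncomputable def Ep (j : ℕ) (x : Fin D.r → ℝ) : (Matrix (Fin D.n) (Fin D.n) ℝ)ˣ :=
  ((List.ofFn fun i => D.P i (x i)).take j).prod

theorem Ep_eq (j : ℕ) (x : Fin D.r → ℝ) (hx : ∀ i : Fin D.r, j ≤ (i : ℕ) → x i = 0) :
    D.Eu x = D.Ep j x := by
  rw [Eu, Ep]
  conv_lhs => rw [← List.take_append_drop j (List.ofFn fun i => D.P i (x i)), List.prod_append]
  have : ((List.ofFn fun i => D.P i (x i)).drop j).prod = 1 := by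
    apply List.prod_eq_one
    intro y hy
    obtain ⟨k, hk, rfl⟩ := List.mem_iff_getElem.mp hy
    rw [List.getElem_drop, List.getElem_ofFn, hx _ (by simp), P_zero]
  rw [this, mul_one]

theorem Ep_succ (j : ℕ) (hj : j < D.r) (x : Fin D.r → ℝ) :
    D.Ep (j + 1) x = D.Ep j x * D.P ⟨j, hj⟩ (x ⟨j, hj⟩) := by
  rw [Ep, Ep, List.prod_take_succ _ _ (by simpa using hj), List.getElem_ofFn]

/-- reversed products over the unit cube: a fundamental domain -/
noncomputable def Qd : ℕ → (Fin D.r → ℝ) → (Matrix (Fin D.n) (Fin D.n) ℝ)ˣ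
  | 0, _ => 1
  | j + 1, s => if h : j < D.r then D.P ⟨j, h⟩ (s ⟨j, h⟩) * Qd j s else Qd j s

theorem isPolyU_Qd (j : ℕ) : IsPolyU (D.Qd j) := by
  induction j with
  | zero => exact IsPolyU.const 1
  | succ j ih =>
    by_cases h : j < D.r
    · have : D.Qd (j + 1) = fun s => D.P ⟨j, h⟩ (s ⟨j, h⟩) * D.Qd j s := by
        funext s; simp [Qd, h]
      rw [this]
      exact (D.isPolyU_P _ (IsPoly.coord _)).mul ih
    · have : D.Qd (j + 1) = D.Qd j := by
        funext s; simp [Qd, h]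
      rw [this]; exact ih

theorem Qd_congr (j : ℕ) {s t : Fin D.r → ℝ} (h : ∀ i : Fin D.r, (i : ℕ) < j → s i = t i) :
    D.Qd j s = D.Qd j t := by
  induction j with
  | zero => rfl
  | succ j ih =>
    rw [Qd, Qd, ih (fun i hi => h i (by omega))]
    split_ifs with h'
    · rw [h ⟨j, h'⟩ (by simp)]
    · rfl

theorem exists_Qd (j : ℕ) (hj : j ≤ D.r) : ∀ y : Fin D.r → ℝ,
    (∀ i : Fin D.r, j ≤ (i : ℕ) → y i = 0) →
    ∃ s : Fin D.r → ℝ, (∀ i, 0 ≤ s i ∧ s i ≤ 1) ∧ ∃ ν ∈ N, D.Eu y = D.Qd j s * D.ρu ν := by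
  induction j with
  | zero =>
    intro y hy
    refine ⟨0, fun i => by simp, 1, N.one_mem, ?_⟩
    have : y = 0 := by funext i; exact hy i (Nat.zero_le _)
    rw [this, Eu_zero, map_one]; simp [Qd]
  | succ j ih =>
    intro y hy
    have hj' : j < D.r := by omega
    set jj : Fin D.r := ⟨j, hj'⟩ with hjj
    set t : ℝ := Int.fract (y jj) with ht
    -- first part
    let y' : Fin D.r → ℝ := trunc j y
    have hy' : ∀ i : Fin D.r, j ≤ (i : ℕ) → y' i = 0 := by
      intro i hi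
      simp [y', trunc, not_lt.mpr hi]
    have h1 : D.Eu y = D.Eu y' * D.P jj (y jj) := by
      rw [D.Ep_eq (j + 1) y hy, Ep_succ D j hj', D.Ep_eq j y' hy']
      congr 1
      rw [Ep, Ep]
      congr 1
      apply List.ext_getElem
      · simp
      · intro k hk1 hk2
        rw [List.getElem_take, List.getElem_take, List.getElem_ofFn, List.getElem_ofFn]
        have : k < j := by
          rw [List.length_take] at hk1; exact lt_of_lt_of_le hk1 (min_le_left _ _)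
        simp [y', trunc, this]
    -- the conjugate
    have hPt : D.P jj t = D.Eu (Pi.single jj t) := by
      rw [D.Ep_eq (j + 1) (Pi.single jj t), Ep_succ D j hj']
      · have : D.Ep j (Pi.single jj t) = D.Eu 0 := by
          rw [D.Ep_eq j 0 (fun _ _ => rfl), Ep, Ep]
          congr 1
          apply List.ext_getElem
          · simp
          · intro k hk1 hk2
            rw [List.getElem_take, List.getElem_take, List.getElem_ofFn, List.getElem_ofFn]
            have h3 : k < j := by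
              rw [List.length_take] at hk1; exact lt_of_lt_of_le hk1 (min_le_left _ _)
            rw [Pi.single_eq_of_ne]
            · rfl
            · intro h
              have h5 := congrArg Fin.val h
              simp only [hjj] at h5
              omega
        rw [this, Eu_zero, one_mul, Pi.single_eq_same]
      · intro i hi
        rw [Pi.single_eq_of_ne]
        intro h; rw [h, hjj] at hi; simp at hi
    let g' := (D.P jj t)⁻¹ * D.Eu y' * D.P jj t
    have hg' : g' ∈ D.NR := by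
      have := D.NR.mul_mem (D.NR.mul_mem (D.NR.inv_mem (D.Eu_mem (Pi.single jj t)))
        (D.Eu_mem y')) (D.Eu_mem (Pi.single jj t))
      rwa [← hPt] at this
    have hcg' : ∀ i : Fin D.r, j ≤ (i : ℕ) → D.crd g' i = 0 := by
      intro i hi
      obtain ⟨w, hw⟩ : ∃ w, D.Eu w = (D.P jj t)⁻¹ := by
        have := D.NR.inv_mem (D.Eu_mem (Pi.single jj t))
        rw [← hPt] at this
        exact this
      have := D.normalR j w y' hy' i hi
      rw [hw, inv_inv] at this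
      exact this
    have hg'2 : g' = D.Eu (D.crd g') := (D.mem_NR.mp hg').symm
    obtain ⟨s, hs, ν, hν, h2⟩ := ih (by omega) (D.crd g') hcg'
    refine ⟨Function.update s jj t, ?_, ν * D.a jj ^ ⌊y jj⌋, ?_, ?_⟩
    · intro i
      by_cases hi : i = jj
      · rw [hi, Function.update_self]
        exact ⟨Int.fract_nonneg _, (Int.fract_lt_one _).le⟩
      · rw [Function.update_of_ne hi]; exact hs i
    · exact N.mul_mem hν (N.zpow_mem (D.mem jj) _)
    · have h3 : D.P jj (y jj) = D.P jj t * D.ρu (D.a jj ^ ⌊y jj⌋) := by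
        rw [← D.P_int, ← P_add]
        congr 1
        rw [ht]; exact (Int.fract_add_floor _).symm
      have h4 : D.Eu y' * D.P jj t = D.P jj t * g' := by
        simp only [g']; group
      rw [h1, h3, ← mul_assoc, h4, hg'2, h2, map_mul, Qd]
      simp only [hj', dif_pos]
      rw [Function.update_self, D.Qd_congr j (s := Function.update s jj t) (t := s)]
      · simp only [mul_assoc, hjj]
      · intro i hi
        rw [Function.update_of_ne]
        intro h; rw [h, hjj] at hi; simp at hi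

/-- `N` is cocompact in `N_ℝ`: `N_ℝ = K · N` with bounded `K`. -/
theorem exists_cocompact : ∃ C : ℝ, ∀ g ∈ D.NR, ∃ ν ∈ N, ∀ i j,
    |((g * (D.ρu ν)⁻¹ : (Matrix (Fin D.n) (Fin D.n) ℝ)ˣ) : Matrix (Fin D.n) (Fin D.n) ℝ) i j| ≤ C ∧
    |(((g * (D.ρu ν)⁻¹)⁻¹ : (Matrix (Fin D.n) (Fin D.n) ℝ)ˣ) : Matrix (Fin D.n) (Fin D.n) ℝ) i j|
      ≤ C := by
  have hcpt : IsCompact (Set.Icc (0 : Fin D.r → ℝ) 1) := isCompact_Icc
  have hb : ∀ f : (Fin D.r → ℝ) → ℝ, Continuous f →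
      ∃ C : ℝ, ∀ s ∈ Set.Icc (0 : Fin D.r → ℝ) 1, |f s| ≤ C := by
    intro f hf
    obtain ⟨C, hC⟩ := hcpt.exists_bound_of_continuousOn hf.continuousOn
    exact ⟨C, fun s hs => hC s hs⟩
  choose C1 hC1 using fun i j => hb _ ((D.isPolyU_Qd D.r).1 i j).continuous
  choose C2 hC2 using fun i j => hb _ ((D.isPolyU_Qd D.r).2 i j).continuous
  refine ⟨∑ i, ∑ j, (|C1 i j| + |C2 i j|), ?_⟩
  rintro _ ⟨x, rfl⟩
  obtain ⟨s, hs, ν, hν, h⟩ := D.exists_Qd D.r le_rfl x (fun i hi => absurd i.2 (not_lt.mpr hi))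
  refine ⟨ν, hν, ?_⟩
  have hs' : s ∈ Set.Icc (0 : Fin D.r → ℝ) 1 := ⟨fun i => (hs i).1, fun i => (hs i).2⟩
  have e : D.Eu x * (D.ρu ν)⁻¹ = D.Qd D.r s := by rw [h]; group
  intro i j
  rw [e]
  have hle : |C1 i j| + |C2 i j| ≤ ∑ i, ∑ j, (|C1 i j| + |C2 i j|) := by
    refine (Finset.single_le_sum (f := fun j => |C1 i j| + |C2 i j|)
      (fun j _ => add_nonneg (abs_nonneg _) (abs_nonneg _)) (Finset.mem_univ j)).trans ?_
    exact Finset.single_le_sum (f := fun i => ∑ j, (|C1 i j| + |C2 i j|))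
      (fun i _ => Finset.sum_nonneg fun j _ => add_nonneg (abs_nonneg _) (abs_nonneg _))
      (Finset.mem_univ i)
  refine ⟨?_, ?_⟩
  · refine (hC1 i j s hs').trans (le_trans ?_ hle)
    have := le_abs_self (C1 i j)
    have := abs_nonneg (C2 i j)
    linarith
  · refine (hC2 i j s hs').trans (le_trans ?_ hle)
    have := le_abs_self (C2 i j)
    have := abs_nonneg (C1 i j)
    linarith

/-- discreteness of `Γ` -/
theorem finite_bounded (C : ℝ) : {g : Γ | ∀ i j,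
    |((D.ρu g : (Matrix (Fin D.n) (Fin D.n) ℝ)ˣ) : Matrix (Fin D.n) (Fin D.n) ℝ) i j| ≤ C}.Finite := by
  have h1 : {M : Matrix (Fin D.n) (Fin D.n) ℤ | ∀ i j, M i j ∈ Set.Icc (-⌈C⌉) ⌈C⌉}.Finite := by
    have : {M : Matrix (Fin D.n) (Fin D.n) ℤ | ∀ i j, M i j ∈ Set.Icc (-⌈C⌉) ⌈C⌉} =
        {M : Fin D.n → Fin D.n → ℤ | ∀ i, M i ∈ {v : Fin D.n → ℤ | ∀ j, v j ∈
          Set.Icc (-⌈C⌉) ⌈C⌉}} := rfl
    rw [this]
    exact Set.Finite.pi' fun i => Set.Finite.pi' fun j => Set.finite_Icc _ _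
  refine (h1.preimage (f := D.ρ) D.inj.injOn).subset ?_
  intro g hg i j
  have h2 := hg i j
  rw [coe_ρu, toR_apply] at h2
  have h3 : |D.ρ g i j| ≤ ⌈C⌉ := by
    have : ((|D.ρ g i j| : ℤ) : ℝ) ≤ ⌈C⌉ := by
      rw [Int.cast_abs]
      exact h2.trans (Int.le_ceil C)
    exact_mod_cast this
  exact abs_le.mp h3

end EmbData

end Crest.Agent.R182.Polyc
private theorem rz_b4d62f00e5 : type_of% @_root_.Crest.Agent.R182.Polyc.EmbData.Qd.eq_def := @_root_.Crest.Agent.R182.Polyc.EmbData.Qd.eq_def -- L370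
private theorem rz_77abab94e3 : type_of% @_root_.Crest.Agent.R182.Polyc.EmbData.Qd.eq_1 := @_root_.Crest.Agent.R182.Polyc.EmbData.Qd.eq_1 -- L370
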