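/-
R182, block (CNT), part 2: in polynomial coordinates Lebesgue measure is a bi-invariant Haar measure.
-/
import Mathlib
import Crest.Agent.R182.ModelJac
import Crest.Agent.R182.PolycReal

set_option autoImplicit false
set_option linter.unusedSectionVars false

namespace Crest.Agent.R182.ModelCount

open MvPolynomial MeasureTheory Crest.Agent.R182.Polyc

section abstract

variable {σ : Type*} [Fintype σ] [DecidableEq σ] {G : Type*} [Group G]

/-- Polynomial coordinates `E : ℝ^σ → G`, `c : G → ℝ^σ` on a group: multiplication and inversion are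
polynomial. -/
structure PolyCoord (σ : Type*) (G : Type*) [Group G] where
  E : (σ → ℝ) → G
  c : G → (σ → ℝ)
  cE : ∀ x, c (E x) = x
  Ec : ∀ g, E (c g) = g
  mul : ∀ i, IsPoly (fun z : σ ⊕ σ → ℝ =>
    c (E (fun a => z (Sum.inl a)) * E (fun b => z (Sum.inr b))) i)
  inv : ∀ i, IsPoly (fun x : σ → ℝ => c (E x)⁻¹ i)

namespace PolyCoord

variable (P : PolyCoord σ G)



/-- right multiplication preserves Lebesgue measure in the coordinates -/
theorem volume_right (g : G) {S : Set (σ → ℝ)} (hS : MeasurableSet S) :
    volume ((fun x => P.c (P.E x * g)) '' S) = volume S := by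
  have hsw : ∀ {F : (σ ⊕ σ → ℝ) → ℝ}, IsPoly F →
      IsPoly (fun z : σ ⊕ σ → ℝ => F (fun i => z (Sum.swap i))) := by
    intro F hF
    exact hF.comp (g := fun (z : σ ⊕ σ → ℝ) i => z (Sum.swap i)) fun i => IsPoly.coord _
  have h := volume_image_family (τ := σ) (F := fun t x => P.c (P.E x * P.E t))
    (G := fun t x => P.c (P.E x * (P.E t)⁻¹)) ?_ ?_ ?_ (t₀ := P.c 1) ?_ (P.c g) hS
  · simpa only [P.Ec] using h
  · intro i
    exact hsw (P.mul i)
  · intro i
    have h1 := IsPoly.comp (P.mul i) (g := fun (z : σ ⊕ σ → ℝ) =>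
      Sum.elim (fun b => z (Sum.inr b)) (fun a => P.c (P.E (fun a => z (Sum.inl a)))⁻¹ a)) ?_
    · simpa only [Sum.elim_inl, Sum.elim_inr, P.Ec] using h1
    · intro j
      rcases j with j | j
      · exact IsPoly.coord _
      · exact IsPoly.comp (P.inv j) (g := fun (z : σ ⊕ σ → ℝ) a => z (Sum.inl a))
          fun a => IsPoly.coord _
  · intro t x
    simp only [P.Ec, mul_inv_cancel_right, P.cE]
  · intro x
    simp only [P.Ec, mul_one, P.cE]



/-! ### Volume of subsets of the group; packing and covering -/

open scoped Pointwise ENNReal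

/-- volume of a subset of `G` -/
noncomputable def vol (S : Set G) : ℝ≥0∞ := volume (P.E ⁻¹' S)








theorem continuous_mul_left (g : G) : Continuous (fun x => P.c (g * P.E x)) := by
  refine continuous_pi fun i => IsPoly.continuous ?_
  have := IsPoly.comp (P.mul i) (g := fun (x : σ → ℝ) => Sum.elim (P.c g) x) ?_
  · simpa only [Sum.elim_inl, Sum.elim_inr, P.Ec] using this
  · intro j
    rcases j with j | j
    · exact Polyc.IsPoly.const _
    · exact IsPoly.coord _

theorem continuous_mul_right (g : G) : Continuous (fun x => P.c (P.E x * g)) := by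
  refine continuous_pi fun i => IsPoly.continuous ?_
  have := IsPoly.comp (P.mul i) (g := fun (x : σ → ℝ) => Sum.elim x (P.c g)) ?_
  · simpa only [Sum.elim_inl, Sum.elim_inr, P.Ec] using this
  · intro j
    rcases j with j | j
    · exact IsPoly.coord _
    · exact Polyc.IsPoly.const _







end PolyCoord

end abstract

end Crest.Agent.R182.ModelCount
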