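import Mathlib
import Crest.Agent.R182.NbStar
import Crest.Agent.R182.ModelHaar
import Crest.Agent.R182.BoxNN
import Crest.Agent.R182.BoxReach

-- ▼ part R182/BoxPack
section

set_option autoImplicit false
set_option linter.unusedSectionVars false

open MeasureTheory Set
open scoped Pointwise ENNReal

namespace Crest.Agent.R182.BoxVol

section packing

variable {G Q : Type*} [Group G] [MeasurableSpace G] [MeasurableMul G]
  [Group Q] [MeasurableSpace Q] [MeasurableMul Q]

/-- right translates of a measurable set are measurable -/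
theorem measurableSet_mul_singleton {A : Set G} (hA : MeasurableSet A) (u : G) :
    MeasurableSet (A * {u}) := by
  rw [mul_singleton]
  exact (MeasurableEquiv.mulRight u).measurableSet_image.mpr hA

theorem measure_mul_singleton (μ : Measure G) [μ.IsMulRightInvariant] (A : Set G) (u : G) :
    μ (A * {u}) = μ A := by
  rw [mul_singleton]
  have h : (fun x => x * u) '' A = (fun x => x * u⁻¹) ⁻¹' A := by
    ext x
    constructor
    · rintro ⟨a, ha, rfl⟩
      simpa using ha
    · intro hx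
      exact ⟨x * u⁻¹, hx, by simp⟩
  rw [h, measure_preimage_mul_right]

/-- The number of pairwise disjoint right translates. -/
theorem card_mul_le (ν : Measure Q) [ν.IsMulRightInvariant] (π : G →* Q) {P : Set Q}
    (hP : MeasurableSet P) {U : Set G} (F : Finset G) (hF : (F : Set G) ⊆ U)
    (hd : (F : Set G).PairwiseDisjoint fun u => P * {π u}) :
    (F.card : ℝ≥0∞) * ν P ≤ ν (P * π '' U) := by
  have h1 : ν (⋃ u ∈ F, P * {π u}) = ∑ u ∈ F, ν (P * {π u}) :=
    measure_biUnion_finset hd fun u _ => measurableSet_mul_singleton hP _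
  have h2 : ∑ u ∈ F, ν (P * {π u}) = (F.card : ℝ≥0∞) * ν P := by
    rw [Finset.sum_congr rfl fun u _ => measure_mul_singleton ν P (π u), Finset.sum_const,
      nsmul_eq_mul]
  rw [← h2, ← h1]
  refine measure_mono (iUnion₂_subset fun u hu => ?_)
  exact mul_subset_mul_left (singleton_subset_iff.2 (mem_image_of_mem _ (hF hu)))

/-- A maximal finite set with pairwise disjoint translates. -/
theorem exists_maximal (ν : Measure Q) [ν.IsMulRightInvariant] (π : G →* Q) {P : Set Q}
    (hP : MeasurableSet P) (hP0 : ν P ≠ 0) (U : Set G) (hfin : ν (P * π '' U) ≠ ∞) :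
    ∃ F : Finset G, (F : Set G) ⊆ U ∧ ((F.card : ℝ≥0∞) * ν P ≤ ν (P * π '' U)) ∧
      ∀ u ∈ U, ∃ u' ∈ F, ∃ x ∈ P, ∃ y ∈ P, π u = x⁻¹ * y * π u' := by
  classical
  -- the cardinalities are bounded
  obtain ⟨n, hn⟩ : ∃ n : ℕ, ν (P * π '' U) < n * ν P := by
    by_cases hPtop : ν P = ∞
    · refine ⟨1, ?_⟩
      rw [hPtop, Nat.cast_one, one_mul]
      exact lt_of_le_of_ne le_top hfin
    · obtain ⟨n, hn⟩ := ENNReal.exists_nat_mul_gt hP0 hfin
      exact ⟨n, hn⟩
  let p : ℕ → Prop := fun m => ∃ F : Finset G, (F : Set G) ⊆ U ∧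
    (F : Set G).PairwiseDisjoint (fun u => P * {π u}) ∧ F.card = m
  have hb : ∀ m, p m → m ≤ n := by
    rintro m ⟨F, hF, hd, rfl⟩
    by_contra hlt
    push Not at hlt
    have h1 := card_mul_le ν π hP F hF hd
    have h2 : (n : ℝ≥0∞) * ν P ≤ (F.card : ℝ≥0∞) * ν P := by gcongr
    exact absurd (h2.trans h1) (not_le.2 hn)
  have h0 : p 0 := ⟨∅, by simp, by simp, rfl⟩
  have hne : p (Nat.findGreatest p n) := Nat.findGreatest_spec (P := p) (Nat.zero_le n) h0
  obtain ⟨F, hF, hd, hcard⟩ := hne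
  refine ⟨F, hF, card_mul_le ν π hP F hF hd, fun u hu => ?_⟩
  have hPne : P.Nonempty := by
    rw [nonempty_iff_ne_empty]
    rintro rfl
    simp at hP0
  obtain ⟨x₀, hx₀⟩ := hPne
  by_cases huF : u ∈ F
  · exact ⟨u, huF, x₀, hx₀, x₀, hx₀, by simp⟩
  by_contra hcon
  push Not at hcon
  have hins : p (Nat.findGreatest p n + 1) := by
    refine ⟨insert u F, ?_, ?_, ?_⟩
    · rw [Finset.coe_insert]
      exact insert_subset hu hF
    · rw [Finset.coe_insert]
      refine hd.insert fun u' hu' _ => ?_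
      refine disjoint_left.2 ?_
      rintro z ⟨x, hx, _, rfl, hz⟩ ⟨y, hy, _, rfl, hz'⟩
      refine hcon u' hu' x hx y hy ?_
      have : x * π u = y * π u' := hz.trans hz'.symm
      rw [mul_assoc, ← this]; group
    · rw [Finset.card_insert_of_notMem huF, hcard]
  have := Nat.le_findGreatest (hb _ hins) hins
  omega


/-- **Upper bound** for the measure of `N * U`. -/
theorem measure_mul_upper (μ : Measure G) [μ.IsMulRightInvariant] (ν : Measure Q)
    [ν.IsMulRightInvariant] (π : G →* Q) {N U N₂ : Set G} {P : Set Q} (hP : MeasurableSet P)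
    (hP0 : ν P ≠ 0) (hfin : ν (P * π '' U) ≠ ∞)
    (hN₂ : ∀ u ∈ U, ∀ u' ∈ U, ∀ x ∈ P, ∀ y ∈ P, π (u * u'⁻¹) = x⁻¹ * y → u * u'⁻¹ ∈ N₂) :
    μ (N * U) * ν P ≤ ν (P * π '' U) * μ (N * N₂) := by
  obtain ⟨F, hF, hcard, hcov⟩ := exists_maximal ν π hP hP0 U hfin
  have h1 : μ (N * U) ≤ F.card * μ (N * N₂) := by
    calc μ (N * U) ≤ μ (⋃ u ∈ F, (N * N₂) * {u}) := by
          refine measure_mono ?_
          rintro _ ⟨n, hn, u, hu, rfl⟩
          obtain ⟨u', hu', x, hx, y, hy, h⟩ := hcov u hu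
          refine mem_iUnion₂.2 ⟨u', hu', n * (u * u'⁻¹), mul_mem_mul hn ?_, u', rfl, ?_⟩
          · refine hN₂ u hu u' (hF hu') x hx y hy ?_
            rw [map_mul, map_inv, h]; group
          · simp [mul_assoc]
      _ ≤ ∑ u ∈ F, μ ((N * N₂) * {u}) := measure_biUnion_finset_le _ _
      _ = F.card * μ (N * N₂) := by
          rw [Finset.sum_congr rfl fun u _ => measure_mul_singleton μ (N * N₂) u,
            Finset.sum_const, nsmul_eq_mul]
  calc μ (N * U) * ν P ≤ (F.card * μ (N * N₂)) * ν P := by gcongr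
    _ = (F.card * ν P) * μ (N * N₂) := by ring
    _ ≤ ν (P * π '' U) * μ (N * N₂) := by gcongr

end packing

section slab

variable {V : Type*} [NormedAddCommGroup V] [NormedSpace ℝ V] [FiniteDimensional ℝ V]
  [MeasurableSpace V] [BorelSpace V] (μ : Measure V) [μ.IsAddHaarMeasure]

open Module

/-- **Slabs** of a convex set. -/
theorem slab_le {K : Set V} (hK : Convex ℝ K) (h0 : (0 : V) ∈ K) (hKm : MeasurableSet K)
    (ℓ : V →ₗ[ℝ] ℝ) {x₀ : V} (hx₀ : x₀ ∈ K) {H η : ℝ} (hH : 0 < H) (hℓ : H ≤ ℓ x₀) (hη : 0 < η) :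
    μ {x ∈ K | |ℓ x| ≤ η * H} ≤ ENNReal.ofReal (4 * 2 ^ finrank ℝ V * η) * μ K := by
  set S : Set V := {x ∈ K | |ℓ x| ≤ η * H} with hS
  have hℓc : Continuous ℓ := ℓ.continuous_of_finiteDimensional
  have hSm : MeasurableSet S := by
    rw [hS]
    exact hKm.inter ((hℓc.abs.measurable) measurableSet_Iic)
  set m : ℕ := ⌊1 / (4 * η)⌋₊ with hm
  have hmle : (m : ℝ) ≤ 1 / (4 * η) := Nat.floor_le (by positivity)
  have hmlt : 1 / (4 * η) < (m : ℝ) + 1 := Nat.lt_floor_add_one _
  set T : ℕ → Set V := fun j => ((j * (2 * η)) • x₀) +ᵥ ((1 / 2 : ℝ) • S) with hT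
  have hTm : ∀ j, MeasurableSet (T j) := fun j =>
    (hSm.const_smul_of_ne_zero (by norm_num : (1 / 2 : ℝ) ≠ 0)).const_vadd _
  have hTμ : ∀ j, μ (T j) = ENNReal.ofReal ((1 / 2) ^ finrank ℝ V) * μ S := by
    intro j
    rw [hT]
    simp only
    rw [measure_vadd, Measure.addHaar_smul, abs_of_pos (by positivity)]
  have hTK : ∀ j ∈ Finset.range (m + 1), T j ⊆ K := by
    intro j hj
    rw [Finset.mem_range, Nat.lt_succ_iff] at hj
    rintro _ ⟨_, ⟨x, hx, rfl⟩, rfl⟩
    have h1 : (j : ℝ) * (2 * η) ≤ 1 / 2 := by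
      have h2 : (j : ℝ) ≤ 1 / (4 * η) := (Nat.cast_le.2 hj).trans hmle
      calc (j : ℝ) * (2 * η) ≤ 1 / (4 * η) * (2 * η) := by gcongr
        _ = 1 / 2 := by field_simp; norm_num
    have h3 : (0 : ℝ) ≤ j * (2 * η) := by positivity
    have h5 : (j * (2 * η)) • x₀ + (1 / 2 : ℝ) • x =
        ((j * (2 * η)) • x₀ + (1 / 2 : ℝ) • x) + (1 - (j * (2 * η)) - 1 / 2) • (0 : V) := by simp
    change (j * (2 * η)) • x₀ + (1 / 2 : ℝ) • x ∈ K
    rw [h5]
    have h6 := hK.sum_mem (t := (Finset.univ : Finset (Fin 3)))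
      (w := ![j * (2 * η), 1 / 2, 1 - (j * (2 * η)) - 1 / 2]) (z := ![x₀, x, 0]) (by
        intro i _; fin_cases i <;> simp <;> nlinarith) (by
        rw [Fin.sum_univ_three]; simp) (by
        intro i _; fin_cases i <;> simp <;> [exact hx₀; exact hx.1; exact h0])
    rw [Fin.sum_univ_three] at h6
    simpa using h6
  have hd : ((Finset.range (m + 1) : Finset ℕ) : Set ℕ).PairwiseDisjoint T := by
    intro i _ j _ hij
    refine disjoint_left.2 ?_
    rintro _ ⟨_, ⟨x, hx, rfl⟩, rfl⟩ ⟨_, ⟨y, hy, rfl⟩, h⟩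
    have h1 := congrArg ℓ h
    simp only [vadd_eq_add, map_add, map_smul, smul_eq_mul] at h1
    have hx2 := abs_le.1 hx.2
    have hy2 := abs_le.1 hy.2
    have h2 : ((j : ℝ) - i) * (2 * η * ℓ x₀) = (ℓ x - ℓ y) / 2 := by linarith
    have h3 : |((j : ℝ) - i) * (2 * η * ℓ x₀)| ≤ η * H := by
      rw [h2, abs_le]; constructor <;> linarith [hx2.1, hx2.2, hy2.1, hy2.2]
    have h4 : (1 : ℝ) ≤ |(j : ℝ) - i| := by
      have : ((j : ℤ) - i) ≠ 0 := by
        intro h; apply hij; omega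
      have h5 := Int.one_le_abs this
      exact_mod_cast h5
    have hp : 0 < 2 * η * ℓ x₀ := by
      have : 0 < ℓ x₀ := lt_of_lt_of_le hH hℓ
      positivity
    rw [abs_mul, abs_of_pos hp] at h3
    have h6 : 2 * η * ℓ x₀ ≤ η * H := le_trans (le_mul_of_one_le_left hp.le h4) h3
    nlinarith [mul_le_mul_of_nonneg_left hℓ hη.le, mul_pos hη hH]
  have hsum : ((m : ℝ≥0∞) + 1) * (ENNReal.ofReal ((1 / 2) ^ finrank ℝ V) * μ S) ≤ μ K := by
    calc ((m : ℝ≥0∞) + 1) * (ENNReal.ofReal ((1 / 2) ^ finrank ℝ V) * μ S)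
        = ∑ j ∈ Finset.range (m + 1), μ (T j) := by
          rw [Finset.sum_congr rfl fun j _ => hTμ j, Finset.sum_const, Finset.card_range,
            nsmul_eq_mul]
          push_cast; rfl
      _ = μ (⋃ j ∈ Finset.range (m + 1), T j) :=
          (measure_biUnion_finset hd fun j _ => hTm j).symm
      _ ≤ μ K := measure_mono (iUnion₂_subset hTK)
  -- conclude
  have h1 : ENNReal.ofReal (1 / (4 * η)) ≤ (m : ℝ≥0∞) + 1 := by
    have : (m : ℝ≥0∞) + 1 = ENNReal.ofReal ((m : ℝ) + 1) := by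
      rw [ENNReal.ofReal_add (by positivity) (by norm_num)]; simp
    rw [this]
    exact ENNReal.ofReal_le_ofReal hmlt.le
  calc μ S = ENNReal.ofReal (4 * 2 ^ finrank ℝ V * η) *
        (ENNReal.ofReal (1 / (4 * η)) * (ENNReal.ofReal ((1 / 2) ^ finrank ℝ V) * μ S)) := by
        rw [← mul_assoc, ← mul_assoc, ← ENNReal.ofReal_mul (by positivity),
          ← ENNReal.ofReal_mul (by positivity)]
        have : 4 * 2 ^ finrank ℝ V * η * (1 / (4 * η)) * (1 / 2) ^ finrank ℝ V = 1 := by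
          field_simp
          rw [← mul_pow]; norm_num
        rw [this, ENNReal.ofReal_one, one_mul]
    _ ≤ ENNReal.ofReal (4 * 2 ^ finrank ℝ V * η) *
        (((m : ℝ≥0∞) + 1) * (ENNReal.ofReal ((1 / 2) ^ finrank ℝ V) * μ S)) := by gcongr
    _ ≤ ENNReal.ofReal (4 * 2 ^ finrank ℝ V * η) * μ K := by gcongr


end slab

end Crest.Agent.R182.BoxVol
end

-- ▼ part R182/BoxQuot
section

set_option autoImplicit false
set_option linter.unusedSectionVars false

open MeasureTheory Set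
open scoped Pointwise ENNReal

namespace Crest.Agent.R182.BoxVol

open Crest.Agent.R182.Nb Crest.Agent.R182.Polyc Crest.Agent.R182.ModelCount

section poly

variable {L : Type*} [LieRing L] [LieAlgebra ℝ L] {τ : Type*}
  {κ : Type*} [Fintype κ] (b : Module.Basis κ ℝ L)

/-- an `L`-valued function with polynomial coordinates -/
def PolyL (f : (τ → ℝ) → L) : Prop := ∀ i, Polyc.IsPoly (fun x => b.repr (f x) i)

theorem PolyL.lie {f g : (τ → ℝ) → L} (hf : PolyL b f) (hg : PolyL b g) :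
    PolyL b (fun x => ⁅f x, g x⁆) := by
  intro l
  have key : ∀ x, b.repr ⁅f x, g x⁆ l =
      ∑ i, ∑ j, (b.repr (f x) i * b.repr (g x) j) * b.repr ⁅b i, b j⁆ l := by
    intro x
    conv_lhs => rw [← b.sum_repr (f x), ← b.sum_repr (g x)]
    rw [sum_lie, map_sum, Finsupp.finsetSum_apply]
    refine Finset.sum_congr rfl fun i _ => ?_
    rw [lie_sum, map_sum, Finsupp.finsetSum_apply]
    refine Finset.sum_congr rfl fun j _ => ?_
    rw [smul_lie, lie_smul, smul_smul, map_smul, Finsupp.smul_apply, smul_eq_mul]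
  simp_rw [key]
  exact Polyc.IsPoly.sum _ fun i _ => Polyc.IsPoly.sum _ fun j _ => ((hf i).mul (hg j)).mul (Polyc.IsPoly.const _)

theorem PolyL.zero : PolyL b (fun _ : τ → ℝ => (0 : L)) := by
  intro i
  simpa using Polyc.IsPoly.const (σ := τ) 0

theorem PolyL.add {f g : (τ → ℝ) → L} (hf : PolyL b f) (hg : PolyL b g) :
    PolyL b (fun x => f x + g x) := by
  intro i
  simpa using (hf i).add (hg i)

theorem PolyL.smul {f : (τ → ℝ) → L} (c : ℝ) (hf : PolyL b f) : PolyL b (fun x => c • f x) := by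
  intro i
  simpa using (Polyc.IsPoly.const c).mul (hf i)

theorem PolyL.mon {σ : Type*} {v : (τ → ℝ) → σ → L} (hv : ∀ s, PolyL b fun x => v x s)
    (κ' : List σ) : PolyL b fun x => mon (v x) κ' := by
  induction κ' with
  | nil => exact PolyL.zero b
  | cons i κ' ih =>
    by_cases h : κ' = []
    · subst h; exact hv i
    · have : (fun x => Nb.mon (v x) (i :: κ')) = fun x => ⁅v x i, Nb.mon (v x) κ'⁆ := by
        funext x; rw [mon_cons _ i h]
      rw [this]
      exact PolyL.lie b (hv i) ih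

theorem PolyL.lp {σ : Type*} {f : (σ → L) → L} (hf : f ∈ LP σ L) {v : (τ → ℝ) → σ → L}
    (hv : ∀ s, PolyL b fun x => v x s) : PolyL b fun x => f (v x) := by
  induction hf using Submodule.span_induction with
  | mem f hf =>
    obtain ⟨κ', rfl⟩ := hf
    exact PolyL.mon b hv κ'
  | zero => exact PolyL.zero b
  | add f g _ _ hf hg => exact PolyL.add b hf hg
  | smul c f _ hf => exact PolyL.smul b c hf

/-- linear functions of polynomial functions -/
theorem PolyL.linear {J : Type*} {f : (τ → ℝ) → L} (hf : PolyL b f) (P : L →ₗ[ℝ] (J → ℝ)) (j : J) :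
    Polyc.IsPoly (fun x => P (f x) j) := by
  have : ∀ x, P (f x) j = ∑ i, b.repr (f x) i * P (b i) j := by
    intro x
    conv_lhs => rw [← b.sum_repr (f x)]
    rw [map_sum, Finset.sum_apply]
    exact Finset.sum_congr rfl fun i _ => by rw [map_smul]; rfl
  simp_rw [this]
  exact Polyc.IsPoly.sum _ fun i _ => (hf i).mul (Polyc.IsPoly.const _)

end poly

section ideal

variable {L : Type*} [LieRing L] [LieAlgebra ℝ L] {I : Submodule ℝ L}

theorem mon_sub_mem (hI : ∀ (x : L), ∀ m ∈ I, ⁅x, m⁆ ∈ I) {σ : Type*} {v v' : σ → L}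
    (h : ∀ i, v i - v' i ∈ I) (κ : List σ) : mon v κ - mon v' κ ∈ I := by
  induction κ with
  | nil => simp
  | cons i κ ih =>
    by_cases hκ : κ = []
    · subst hκ; exact h i
    · rw [mon_cons v i hκ, mon_cons v' i hκ]
      have : ⁅v i, mon v κ⁆ - ⁅v' i, mon v' κ⁆ = ⁅v i, mon v κ - mon v' κ⁆ -
          ⁅mon v' κ, v i - v' i⁆ := by
        rw [lie_sub, lie_sub, ← lie_skew (v i) (mon v' κ), ← lie_skew (v' i) (mon v' κ)]; abel
      rw [this]
      exact I.sub_mem (hI _ _ ih) (hI _ _ (h i))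

theorem lp_sub_mem (hI : ∀ (x : L), ∀ m ∈ I, ⁅x, m⁆ ∈ I) {σ : Type*} {f : (σ → L) → L}
    (hf : f ∈ LP σ L) {v v' : σ → L} (h : ∀ i, v i - v' i ∈ I) : f v - f v' ∈ I := by
  induction hf using Submodule.span_induction with
  | mem f hf =>
    obtain ⟨κ, rfl⟩ := hf
    exact mon_sub_mem hI h κ
  | zero => simp
  | add f g _ _ hf hg =>
    have : (f + g) v - (f + g) v' = (f v - f v') + (g v - g v') := by
      simp only [Pi.add_apply]; abel
    rw [this]; exact I.add_mem hf hg
  | smul c f _ hf =>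
    have : (c • f) v - (c • f) v' = c • (f v - f v') := by
      simp only [Pi.smul_apply, smul_sub]
    rw [this]; exact I.smul_mem _ hf

theorem op_sub_mem (S : Nb.Star L) (hI : ∀ (x : L), ∀ m ∈ I, ⁅x, m⁆ ∈ I) {x x' y y' : L}
    (hx : x - x' ∈ I) (hy : y - y' ∈ I) : S.op x y - S.op x' y' ∈ I := by
  have := lp_sub_mem hI S.lp (v := fun b => if b = false then x else y)
    (v' := fun b => if b = false then x' else y') (by intro b; cases b <;> simpa)
  simpa using this

end ideal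

/-- A surjection `P : L → ℝ^J` whose kernel is a Lie ideal, with a linear section. -/
structure QData {L : Type*} [LieRing L] [LieAlgebra ℝ L] (S : Nb.Star L) (J : Type) [Fintype J] where
  P : L →ₗ[ℝ] (J → ℝ)
  s : (J → ℝ) →ₗ[ℝ] L
  Ps : ∀ q, P (s q) = q
  ideal : ∀ x y : L, P y = 0 → P ⁅x, y⁆ = 0

namespace QData

variable {L : Type*} [LieRing L] [LieAlgebra ℝ L] {S : Nb.Star L} {J : Type} [Fintype J]
  (D : QData S J)

/-- the quotient group in coordinates -/
def QN (_ : QData S J) : Type := J → ℝ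

noncomputable instance : NormedAddCommGroup D.QN := inferInstanceAs (NormedAddCommGroup (J → ℝ))
noncomputable instance : NormedSpace ℝ D.QN := inferInstanceAs (NormedSpace ℝ (J → ℝ))
instance : FiniteDimensional ℝ D.QN := inferInstanceAs (FiniteDimensional ℝ (J → ℝ))
noncomputable instance : MeasureSpace D.QN := inferInstanceAs (MeasureSpace (J → ℝ))
instance : BorelSpace D.QN := inferInstanceAs (BorelSpace (J → ℝ))
instance : (volume : Measure D.QN).IsAddHaarMeasure :=
  inferInstanceAs ((volume : Measure (J → ℝ)).IsAddHaarMeasure)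

theorem P_sub_eq {x x' : L} : D.P x = D.P x' ↔ x - x' ∈ LinearMap.ker D.P := by
  rw [LinearMap.mem_ker, map_sub, sub_eq_zero]

theorem hI : ∀ (x : L), ∀ m ∈ LinearMap.ker D.P, ⁅x, m⁆ ∈ LinearMap.ker D.P := fun x m hm => by
  rw [LinearMap.mem_ker] at hm ⊢
  exact D.ideal x m hm

theorem P_op {x x' y y' : L} (hx : D.P x = D.P x') (hy : D.P y = D.P y') :
    D.P (S.op x y) = D.P (S.op x' y') :=
  D.P_sub_eq.2 (op_sub_mem S D.hI (D.P_sub_eq.1 hx) (D.P_sub_eq.1 hy))

theorem P_sP (x : L) : D.P (D.s (D.P x)) = D.P x := D.Ps _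

/-- the group law in coordinates -/
noncomputable def qop (q q' : J → ℝ) : J → ℝ := D.P (S.op (D.s q) (D.s q'))

theorem qop_assoc (q q' q'' : J → ℝ) : D.qop (D.qop q q') q'' = D.qop q (D.qop q' q'') := by
  unfold qop
  rw [D.P_op (D.P_sP _) rfl, D.P_op rfl (D.P_sP _), S.assoc]

theorem zero_qop (q : J → ℝ) : D.qop 0 q = q := by
  unfold qop; rw [map_zero, S.zero_op, D.Ps]

theorem qop_zero (q : J → ℝ) : D.qop q 0 = q := by
  unfold qop; rw [map_zero, S.op_zero, D.Ps]

theorem neg_qop (q : J → ℝ) : D.qop (-q) q = 0 := by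
  have h : S.op (D.s (-q)) (D.s q) = 0 := by
    have := S.op_neg (D.s (-q))
    rwa [map_neg, neg_neg, ← map_neg] at this
  unfold qop
  rw [h, map_zero]

noncomputable instance : Group D.QN where
  mul := D.qop
  one := (0 : J → ℝ)
  inv := fun q => (fun j => - q j)
  mul_assoc := D.qop_assoc
  one_mul := D.zero_qop
  mul_one := D.qop_zero
  inv_mul_cancel := D.neg_qop

theorem mul_def (q q' : D.QN) : q * q' = D.qop q q' := rfl

/-- the projection as a map to `QN` -/
def pr (x : L) : D.QN := D.P x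

theorem pr_op (x y : L) : D.pr (S.op x y) = D.pr x * D.pr y :=
  D.P_op (D.P_sP x).symm (D.P_sP y).symm


variable {κ : Type*} [Fintype κ] (b : Module.Basis κ ℝ L)

theorem polyL_s {τ : Type*} {f : (τ → ℝ) → (J → ℝ)} (hf : ∀ j, Polyc.IsPoly fun x => f x j) :
    PolyL b (fun x => D.s (f x)) := by
  classical
  intro i
  have : ∀ x, b.repr (D.s (f x)) i = ∑ j, f x j * b.repr (D.s (Pi.single j 1)) i := by
    intro x
    have h1 : f x = ∑ j, f x j • (Pi.single j (1:ℝ) : J → ℝ) := by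
      funext j'
      simp [Finset.sum_apply, Pi.single_apply]
    conv_lhs => rw [h1]
    rw [map_sum, map_sum, Finsupp.finsetSum_apply]
    exact Finset.sum_congr rfl fun j _ => by rw [map_smul, map_smul]; rfl
  simp_rw [this]
  exact Polyc.IsPoly.sum _ fun j _ => (hf j).mul (Polyc.IsPoly.const _)

/-- polynomial coordinates on the quotient -/
noncomputable def polyCoord : PolyCoord J D.QN where
  E := fun q => q
  c := fun q => q
  cE _ := rfl
  Ec _ := rfl
  mul := by
    intro j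
    refine PolyL.linear b (f := fun z : J ⊕ J → ℝ =>
      S.op (D.s fun a => z (Sum.inl a)) (D.s fun b => z (Sum.inr b))) ?_ D.P j
    have := PolyL.lp b S.lp (v := fun (z : J ⊕ J → ℝ) (t : Bool) =>
      if t = false then D.s (fun a => z (Sum.inl a)) else D.s (fun b => z (Sum.inr b))) (by
        intro t
        cases t
        · simpa using D.polyL_s b (f := fun (z : J ⊕ J → ℝ) a => z (Sum.inl a))
            fun j => Polyc.IsPoly.coord _
        · simpa using D.polyL_s b (f := fun (z : J ⊕ J → ℝ) a => z (Sum.inr a))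
            fun j => Polyc.IsPoly.coord _)
    simpa using this
  inv := by
    intro j
    have : (fun x : J → ℝ => ((x : D.QN)⁻¹ : D.QN) j) = fun x => - x j := rfl
    exact (Polyc.IsPoly.coord j).neg

variable [Module.Finite ℝ L]

/-- the polynomial coordinates for a chosen basis -/
noncomputable def pc : PolyCoord J D.QN := D.polyCoord (Module.finBasis ℝ L)

theorem volume_mul_right (g : D.QN) {A : Set D.QN} (hA : MeasurableSet A) :
    volume ((fun x => x * g) '' A) = volume A := by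
  classical
  exact D.pc.volume_right g hA

theorem continuous_mul_left (g : D.QN) : Continuous (fun x : D.QN => g * x) := by
  classical
  exact D.pc.continuous_mul_left g

theorem continuous_mul_right (g : D.QN) : Continuous (fun x : D.QN => x * g) := by
  classical
  exact D.pc.continuous_mul_right g

instance : MeasurableMul D.QN where
  measurable_const_mul g := (D.continuous_mul_left g).measurable
  measurable_mul_const g := (D.continuous_mul_right g).measurable

instance : (volume : Measure D.QN).IsMulRightInvariant where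
  map_mul_right_eq_self g := by
    ext A hA
    rw [Measure.map_apply (D.continuous_mul_right g).measurable hA]
    have h : (fun x => x * g) ⁻¹' A = (fun x => x * g⁻¹) '' A := by
      ext x
      constructor
      · intro hx
        exact ⟨x * g, hx, by simp⟩
      · rintro ⟨y, hy, rfl⟩
        simpa using hy
    rw [h, D.volume_mul_right _ hA]

/-- Lie endomorphisms of `L` preserving the kernel act linearly on the quotient. -/
def down (T : L →ₗ[ℝ] L) : (J → ℝ) →ₗ[ℝ] (J → ℝ) := D.P ∘ₗ T ∘ₗ D.s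

/-- `T` preserves the kernel -/
def Pres (T : L →ₗ[ℝ] L) : Prop := ∀ x, D.P x = 0 → D.P (T x) = 0

variable {D}

theorem Pres.P_eq {T : L →ₗ[ℝ] L} (hT : D.Pres T) (x : L) : D.P (T x) = D.down T (D.P x) := by
  unfold down
  rw [LinearMap.comp_apply, LinearMap.comp_apply, ← sub_eq_zero, ← map_sub, ← map_sub]
  apply hT
  rw [map_sub, D.P_sP, sub_self]

theorem Pres.comp {T T' : L →ₗ[ℝ] L} (hT : D.Pres T) (hT' : D.Pres T') : D.Pres (T ∘ₗ T') :=
  fun x hx => hT _ (hT' x hx)

theorem Pres.down_comp {T T' : L →ₗ[ℝ] L} (hT : D.Pres T) :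
    D.down (T ∘ₗ T') = D.down T ∘ₗ D.down T' := by
  ext q
  change D.P (T (T' (D.s _))) _ = _
  rw [hT.P_eq]; rfl

variable (D)

theorem down_id : D.down LinearMap.id = LinearMap.id := by
  refine LinearMap.ext fun q => ?_
  exact D.Ps q

/-- the determinant on the quotient -/
noncomputable def qdet (T : L →ₗ[ℝ] L) : ℝ := |LinearMap.det (D.down T)|

theorem qdet_id : D.qdet LinearMap.id = 1 := by
  unfold qdet; rw [down_id, LinearMap.det_id, abs_one]

variable {D}

theorem Pres.qdet_comp {T T' : L →ₗ[ℝ] L} (hT : D.Pres T) :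
    D.qdet (T ∘ₗ T') = D.qdet T * D.qdet T' := by
  unfold qdet; rw [hT.down_comp, LinearMap.det_comp, abs_mul]

theorem Pres.P_image {T : L →ₗ[ℝ] L} (hT : D.Pres T) (B : Set L) :
    D.P '' (T '' B) = D.down T '' (D.P '' B) := by
  rw [image_image, image_image]
  exact image_congr fun x _ => hT.P_eq x

theorem Pres.volume_pr {T : L →ₗ[ℝ] L} (hT : D.Pres T) (B : Set L) :
    (volume : Measure D.QN) (D.pr '' (T '' B)) =
      ENNReal.ofReal (D.qdet T) * (volume : Measure D.QN) (D.pr '' B) := by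
  have h : (volume : Measure (J → ℝ)) (D.P '' (T '' B)) =
      ENNReal.ofReal (D.qdet T) * (volume : Measure (J → ℝ)) (D.P '' B) := by
    rw [hT.P_image]
    exact Measure.addHaar_image_linearMap (volume : Measure (J → ℝ)) (D.down T) (D.P '' B)
  exact h

end QData

end Crest.Agent.R182.BoxVol
end

-- ▼ part R182/BoxVol
section

set_option autoImplicit false
set_option linter.unusedSectionVars false

open MeasureTheory Set
open scoped Pointwise ENNReal

namespace Crest.Agent.R182.BoxVol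

open Crest.Agent.R182.Nb Crest.Agent.R182.Core

section alg

variable {L : Type*} [LieRing L] [LieAlgebra ℝ L] {S : Nb.Star L} {J : Type} [Fintype J]
  (D : QData S J) {σ : Type*} {c : ℕ}

/-- `T` is a Lie endomorphism -/
def IsLie (T : L →ₗ[ℝ] L) : Prop := ∀ x y : L, T ⁅x, y⁆ = ⁅T x, T y⁆

theorem IsLie.mon {T : L →ₗ[ℝ] L} (hT : IsLie T) (v : σ → L) (κ : List σ) :
    mon (fun i => T (v i)) κ = T (mon v κ) := by
  induction κ with
  | nil => simp
  | cons i κ ih =>
    by_cases hκ : κ = []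
    · subst hκ; rfl
    · rw [mon_cons _ i hκ, ih, mon_cons v i hκ, hT]

theorem IsLie.comp {T T' : L →ₗ[ℝ] L} (hT : IsLie T) (hT' : IsLie T') : IsLie (T ∘ₗ T') := by
  intro x y
  rw [LinearMap.comp_apply, hT', hT]; rfl

variable [Fintype σ]

theorem IsLie.image_Bx {T : L →ₗ[ℝ] L} (hT : IsLie T) (v : σ → L) (s : ℝ) :
    T '' Bx c v s = Bx c (fun i => T (v i)) s := by
  ext x
  constructor
  · rintro ⟨_, ⟨a, ha, rfl⟩, rfl⟩
    refine ⟨a, ha, ?_⟩
    rw [map_sum]
    exact Finset.sum_congr rfl fun κ _ => by rw [hT.mon, map_smul]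
  · rintro ⟨a, ha, rfl⟩
    refine ⟨_, ⟨a, ha, rfl⟩, ?_⟩
    rw [map_sum]
    exact Finset.sum_congr rfl fun κ _ => by rw [hT.mon, map_smul]

variable (w : σ → Prop) [DecidablePred w]

/-- restricted families agree if the families agree on `w` -/
theorem rst_congr {v v' : σ → L} (h : ∀ i, w i → v i = v' i) : rst v w = rst v' w := by
  funext i
  unfold rst
  split_ifs with hi
  · exact h i hi
  · rfl

theorem IsLie.rst {T : L →ₗ[ℝ] L} (v : σ → L) :
    (fun i => T (rst v w i)) = rst (fun i => T (v i)) w := by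
  funext i
  unfold Nb.rst
  split_ifs
  · rfl
  · exact map_zero T

variable {w}

/-- monomials with a letter in the kernel lie in the kernel -/
theorem P_mon_eq_zero {v : σ → L} (hv : ∀ i, ¬ w i → D.P (v i) = 0) {κ : List σ}
    (h : ¬ ∀ i ∈ κ, w i) : D.P (mon v κ) = 0 := by
  induction κ with
  | nil => simp
  | cons i κ ih =>
    by_cases hκ : κ = []
    · subst hκ
      exact hv i fun hi => h (by simpa using hi)
    · rw [mon_cons _ i hκ]
      by_cases hi : w i
      · exact D.ideal _ _ (ih fun h' => h (List.forall_mem_cons.2 ⟨hi, h'⟩))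
      · rw [← lie_skew, map_neg, D.ideal _ _ (hv i hi), neg_zero]

/-- modulo the kernel only the letters in `w` matter -/
theorem P_image_Bx {v : σ → L} (hv : ∀ i, ¬ w i → D.P (v i) = 0) {s : ℝ} (hs : 0 ≤ s) :
    D.P '' Bx c v s = D.P '' Bx c (rst v w) s := by
  classical
  ext q
  constructor
  · rintro ⟨_, ⟨a, ha, rfl⟩, rfl⟩
    refine ⟨∑ κ ∈ KL σ c, a κ • mon (rst v w) κ, ⟨a, ha, rfl⟩, ?_⟩
    rw [map_sum, map_sum]
    refine Finset.sum_congr rfl fun κ _ => ?_
    rw [map_smul, map_smul]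
    by_cases h : ∀ i ∈ κ, w i
    · rw [mon_rst_of w h]
    · rw [mon_rst_not w h, P_mon_eq_zero D hv h, map_zero]
  · rintro ⟨_, ⟨a, ha, rfl⟩, rfl⟩
    refine ⟨∑ κ ∈ KL σ c, (if ∀ i ∈ κ, w i then a κ else 0) • mon v κ, ⟨_, fun κ => ?_, rfl⟩, ?_⟩
    · split_ifs
      · exact ha κ
      · rwa [abs_zero]
    · rw [map_sum, map_sum]
      refine Finset.sum_congr rfl fun κ _ => ?_
      by_cases h : ∀ i ∈ κ, w i
      · rw [if_pos h, mon_rst_of w h]
      · rw [if_neg h, zero_smul, mon_rst_not w h, smul_zero]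

end alg

section model

variable {Γ : Type*} [Group Γ] {k : ℕ} {S : Set Γ} {π : Γ →* Multiplicative (Fin k → ℤ)}
  {M : BModel S π} {J : Type} [Fintype J] (D : QData M.star J)

instance finite_L (M : BModel S π) : Module.Finite ℝ M.L := Module.Finite.of_basis M.bas

/-- the projection of the group `E` to the quotient group -/
noncomputable def prN : M.NN →* D.QN where
  toFun n := D.pr (M.E n)
  map_one' := by
    change D.P (M.E (0 : M.NN)) = (0 : J → ℝ)
    rw [map_zero, map_zero]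
  map_mul' x y := by
    rw [BModel.E_mul, D.pr_op]

theorem prN_apply (n : M.NN) : prN D n = D.pr (M.E n) := rfl

variable {σ : Type*} [Fintype σ] {w : σ → Prop} [DecidablePred w]

theorem prN_image_NB {fam : σ → M.L} (hv : ∀ i, ¬ w i → D.P (fam i) = 0) {s : ℝ} (hs : 0 ≤ s) :
    prN D '' M.NB fam s = D.pr '' Bx M.c (rst fam w) s := by
  have h : prN D '' M.NB fam s = D.P '' Bx M.c fam s := by
    ext q
    constructor
    · rintro ⟨n, hn, rfl⟩
      exact ⟨M.E n, hn, rfl⟩
    · rintro ⟨x, hx, rfl⟩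
      refine ⟨M.E.symm x, ?_, ?_⟩
      · rw [BModel.mem_NB, LinearEquiv.apply_symm_apply]; exact hx
      · rw [prN_apply, LinearEquiv.apply_symm_apply]; rfl
  rw [h, P_image_Bx D hv hs]
  rfl

variable (w) in
/-- volume of the standard ball of the quotient -/
noncomputable def vQ (bs : σ → M.L) (s : ℝ) : ℝ≥0∞ :=
  (volume : Measure D.QN) (D.pr '' Bx M.c (rst bs w) s)

theorem vQ_mono (bs : σ → M.L) {s t : ℝ} (h : s ≤ t) : vQ D w bs s ≤ vQ D w bs t :=
  measure_mono (image_mono (Bx_mono h))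


/-- volume of the projection of a box whose `w`-letters are `T (bs i)` -/
theorem volume_prN_NB {fam bs : σ → M.L} {T : M.L →ₗ[ℝ] M.L} (hT : IsLie T) (hP : D.Pres T)
    (hw : ∀ i, w i → fam i = T (bs i)) (hv : ∀ i, ¬ w i → D.P (fam i) = 0) {s : ℝ} (hs : 0 ≤ s) :
    (volume : Measure D.QN) (prN D '' M.NB fam s) = ENNReal.ofReal (D.qdet T) * vQ D w bs s := by
  rw [prN_image_NB D hv hs, rst_congr w hw, ← IsLie.rst w, ← hT.image_Bx, hP.volume_pr]
  rfl

/-- the measure on the moves `T (s q)`, `q` in a cube of size `ρ` -/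
noncomputable def lamV (ρ : ℝ) (T : M.L →ₗ[ℝ] M.L) : Measure M.NN :=
  Measure.map (fun q : J → ℝ => M.E.symm (T (D.s q)))
    ((volume : Measure (J → ℝ)).restrict (Set.pi univ fun _ => Icc (-ρ) ρ))

theorem continuous_move (T : M.L →ₗ[ℝ] M.L) :
    Continuous (fun q : J → ℝ => M.E.symm (T (D.s q))) := by
  have : Continuous ((M.E.symm.toLinearMap ∘ₗ T) ∘ₗ D.s) :=
    LinearMap.continuous_of_finiteDimensional _
  exact this

theorem lamV_univ {ρ : ℝ} (hρ : 0 ≤ ρ) (T : M.L →ₗ[ℝ] M.L) :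
    lamV D ρ T univ = ENNReal.ofReal ((2 * ρ) ^ Fintype.card J) := by
  unfold lamV
  rw [Measure.map_apply (continuous_move D T).measurable MeasurableSet.univ, preimage_univ,
    Measure.restrict_apply_univ, volume_pi_pi, Finset.prod_congr rfl fun _ _ => Real.volume_Icc,
    Finset.prod_const, Finset.card_univ, ← ENNReal.ofReal_pow (by linarith)]
  congr 2
  ring

/-- the set of moves -/
def mvs (ρ : ℝ) (T : M.L →ₗ[ℝ] M.L) : Set M.NN :=
  {n | ∃ q : J → ℝ, (∀ j, |q j| ≤ ρ) ∧ M.E n = T (D.s q)}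

theorem mvs_eq (ρ : ℝ) (T : M.L →ₗ[ℝ] M.L) : mvs D ρ T =
    (fun q : J → ℝ => M.E.symm (T (D.s q))) '' (Set.pi univ fun _ => Icc (-ρ) ρ) := by
  ext n
  constructor
  · rintro ⟨q, hq, h⟩
    refine ⟨q, fun j _ => abs_le.1 (hq j), ?_⟩
    change M.E.symm (T (D.s q)) = n
    rw [← h, LinearEquiv.symm_apply_apply]
  · rintro ⟨q, hq, rfl⟩
    exact ⟨q, fun j => abs_le.2 (hq j (mem_univ j)), LinearEquiv.apply_symm_apply _ _⟩

theorem isCompact_mvs (ρ : ℝ) (T : M.L →ₗ[ℝ] M.L) : IsCompact (mvs D ρ T) := by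
  rw [mvs_eq]
  exact (isCompact_univ_pi fun _ => isCompact_Icc).image (continuous_move D T)

theorem lamV_compl (ρ : ℝ) (T : M.L →ₗ[ℝ] M.L) : lamV D ρ T (mvs D ρ T)ᶜ = 0 := by
  unfold lamV
  rw [Measure.map_apply (continuous_move D T).measurable (isCompact_mvs D ρ T).measurableSet.compl,
    Measure.restrict_apply' (MeasurableSet.univ_pi fun _ => measurableSet_Icc)]
  refine measure_mono_null ?_ measure_empty
  rintro q ⟨h1, h2⟩
  apply h1
  rw [mvs_eq]
  exact mem_image_of_mem _ h2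

theorem prN_move {T : M.L →ₗ[ℝ] M.L} (q : J → ℝ) :
    prN D (M.E.symm (T (D.s q))) = D.down T q := by
  rw [prN_apply, LinearEquiv.apply_symm_apply]
  rfl

theorem volume_inv_mul_singleton (B : Set D.QN) (y : D.QN) :
    (volume : Measure D.QN) (B⁻¹ * {y}) = (volume : Measure D.QN) B := by
  rw [measure_mul_singleton]
  have h : B⁻¹ = (fun x : J → ℝ => -x) ⁻¹' B := rfl
  rw [h]
  exact (Measure.measurePreserving_neg (volume : Measure (J → ℝ))).measure_preimage_equiv
    (f := MeasurableEquiv.neg (J → ℝ)) B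

/-- **cosets are small**: the `lamV`-measure of the moves in `N⁻¹ y`. -/
theorem lamV_le {ρ : ℝ} {T : M.L →ₗ[ℝ] M.L} (hdet : D.qdet T ≠ 0) (N : Set M.NN)
    (hN : MeasurableSet N) (y : M.NN) :
    lamV D ρ T {v | y * v⁻¹ ∈ N} ≤
      ENNReal.ofReal (D.qdet T)⁻¹ * (volume : Measure D.QN) (prN D '' N) := by
  have hdet' : LinearMap.det (D.down T) ≠ 0 := by
    intro h
    apply hdet
    unfold QData.qdet
    rw [h, abs_zero]
  have hm : MeasurableSet {v : M.NN | y * v⁻¹ ∈ N} := by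
    have : Continuous fun v : M.NN => y * v⁻¹ := by fun_prop
    exact this.measurable hN
  unfold lamV
  rw [Measure.map_apply (continuous_move D T).measurable hm]
  refine (Measure.restrict_apply_le _ _).trans ?_
  have hsub : (fun q : J → ℝ => M.E.symm (T (D.s q))) ⁻¹' {v | y * v⁻¹ ∈ N} ⊆
      D.down T ⁻¹' ((prN D '' N)⁻¹ * {prN D y} : Set D.QN) := by
    intro q hq
    refine ⟨(prN D (y * (M.E.symm (T (D.s q)))⁻¹))⁻¹, ?_, prN D y, rfl, ?_⟩
    · rw [Set.inv_mem_inv]
      exact mem_image_of_mem _ hq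
    · change (prN D (y * (M.E.symm (T (D.s q)))⁻¹))⁻¹ * prN D y = D.down T q
      rw [← prN_move D q, map_mul, map_inv]
      group
  refine (measure_mono hsub).trans ?_
  have h1 := Measure.addHaar_preimage_linearMap (volume : Measure (J → ℝ)) hdet'
    ((prN D '' N)⁻¹ * {prN D y} : Set D.QN)
  rw [h1, abs_inv]
  have h2 : (volume : Measure (J → ℝ)) ((prN D '' N)⁻¹ * {prN D y} : Set D.QN) =
      (volume : Measure D.QN) (prN D '' N) := volume_inv_mul_singleton D _ _
  rw [h2]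
  exact le_rfl

theorem continuous_prN : Continuous (prN D) := by
  have : Continuous (D.P ∘ₗ M.E.toLinearMap) := LinearMap.continuous_of_finiteDimensional _
  exact this

theorem Bx_rst_subset (g : σ → M.L) (s : ℝ) (hs : 0 ≤ s) :
    Bx M.c (rst g w) s ⊆ Bx M.c g s := by
  classical
  rintro x ⟨a, ha, rfl⟩
  refine ⟨fun κ => if ∀ i ∈ κ, w i then a κ else 0, fun κ => ?_, ?_⟩
  · beta_reduce
    split_ifs
    · exact ha κ
    · rwa [abs_zero]
  · refine Finset.sum_congr rfl fun κ _ => ?_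
    beta_reduce
    by_cases h : ∀ i ∈ κ, w i
    · rw [if_pos h, mon_rst_of w h]
    · rw [if_neg h, zero_smul, mon_rst_not w h, smul_zero]

/-- **Upper bound** for the volume of `NB g (A e) * U`. -/
theorem exists_mul_upper (M : BModel S π) (σ : Type*) [Fintype σ] (A : ℝ) (hA : 1 ≤ A) :
    ∃ A₁ : ℝ, 1 ≤ A₁ ∧ ∀ B : ℝ, 1 ≤ B → ∃ C : ℝ, 0 < C ∧
      ∀ {J : Type} [Fintype J] (D : QData M.star J) (w : σ → Prop) [DecidablePred w]
        (bs g : σ → M.L) (T₀ T : M.L →ₗ[ℝ] M.L), IsLie T₀ → IsLie T → D.Pres T₀ → D.Pres T →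
        (∀ i, w i → g i = T₀ (bs i)) → (∀ i, ¬ w i → D.P (g i) = 0) →
        (∀ i, w i → g i ∈ Bx M.c (rst (fun i => T (bs i)) w) A) →
        ∀ e : ℝ, 0 < e → e ≤ 1 →
        (∀ x, D.P x = 0 → x ∈ Bx M.c (rst (fun i => T (bs i)) w) A₁ → x ∈ Bx M.c g (B * e)) →
        ∀ U : Set M.NN, U ⊆ M.NB (rst (fun i => T (bs i)) w) A →
        volume (M.NB g (A * e) * U) * (ENNReal.ofReal (D.qdet T₀) * vQ D w bs e) ≤
          (ENNReal.ofReal (D.qdet T) * vQ D w bs A₁) * (ENNReal.ofReal C * volume (M.NB g e)) := by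
  obtain ⟨A₂, H₂⟩ := M.star.exists_famConst M.c σ A hA
  obtain ⟨A₃, hA₃, h₃⟩ := exists_Bx_comp M.c σ σ A hA
  have hA₂ := H₂.one_le
  set T₁ : ℝ := A₃ + A with hT₁
  obtain ⟨A₄, H₄⟩ := M.star.exists_famConst M.c σ T₁ (by linarith)
  have hA₄ := H₄.one_le
  set A₁ : ℝ := A₂ * A + A₃ * A₂ + A₄ * T₁ with hA₁
  have hA₁1 : 1 ≤ A₁ := by nlinarith
  refine ⟨A₁, hA₁1, fun B hB => ?_⟩
  set T₂ : ℝ := A + A₂ + B with hT₂
  obtain ⟨A₅, H₅⟩ := M.star.exists_famConst M.c σ T₂ (by linarith)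
  have hA₅ := H₅.one_le
  refine ⟨(A₅ * T₂) ^ M.r, by positivity, ?_⟩
  intro J _ D w _ bs g T₀ T hT₀ hT hP₀ hP hw hv h1 e he he1 h2 U hU
  have hNg : Nil M.c g := M.nilC.nil g
  set f : σ → M.L := rst (fun i => T (bs i)) w with hf
  have hNf : Nil M.c f := M.nilC.nil f
  have hfw : ∀ i, w i → f i = T (bs i) := fun i hi => if_pos hi
  have hfv : ∀ i, ¬ w i → D.P (f i) = 0 := fun i hi => by
    have : f i = 0 := if_neg hi
    rw [this, map_zero]
  have hrf : rst f w = f := by
    funext i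
    rw [hf]; unfold Nb.rst
    split_ifs <;> rfl
  have hgf : ∀ i, rst g w i ∈ Bx M.c f A := by
    intro i
    unfold Nb.rst
    split_ifs with hi
    · exact h1 i hi
    · exact Bx_zero_mem (by linarith)
  -- the small set in the quotient
  set P : Set D.QN := prN D '' M.NB g e with hPdef
  have hPeq : P = prN D '' M.NB (rst g w) e := by
    rw [hPdef, prN_image_NB D hv he.le, prN_image_NB D (w := w) (fam := rst g w) ?_ he.le]
    · congr 2
      funext i
      unfold Nb.rst; split_ifs <;> rfl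
    · intro i hi
      have : rst g w i = 0 := if_neg hi
      rw [this, map_zero]
  have hPm : MeasurableSet P :=
    ((BModel.isCompact_NB M g e).image (continuous_prN D)).measurableSet
  have hPv : (volume : Measure D.QN) P = ENNReal.ofReal (D.qdet T₀) * vQ D w bs e :=
    volume_prN_NB D hT₀ hP₀ hw hv he.le
  have hPU : P * prN D '' U ⊆ prN D '' M.NB f A₁ := by
    rw [hPeq]
    rintro _ ⟨_, ⟨n, hn, rfl⟩, _, ⟨u, hu, rfl⟩, rfl⟩
    refine ⟨n * u, ?_, map_mul _ _ _⟩
    rw [BModel.mem_NB, BModel.E_mul]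
    have hn' : M.E n ∈ Bx M.c f (A₃ * e) := h₃ f (rst g w) hNf hgf e he.le hn
    have hu' : M.E u ∈ Bx M.c f A := hU hu
    have h3 := H₄.op_mem f hNf (A₃ * e) A (by positivity) (by nlinarith) (by linarith)
      (by linarith) _ hn' _ hu'
    refine Bx_mono ?_ h3
    have h4 : max (A₃ * e) A ≤ T₁ := max_le (by nlinarith) (by linarith)
    have h5 : A₄ * max (A₃ * e) A ≤ A₄ * T₁ := by gcongr
    nlinarith
  have hPUv : (volume : Measure D.QN) (P * prN D '' U) ≤
      ENNReal.ofReal (D.qdet T) * vQ D w bs A₁ := by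
    refine (measure_mono hPU).trans (le_of_eq ?_)
    exact volume_prN_NB D hT hP hfw hfv (by linarith)
  rw [← hPv]
  by_cases hP0 : (volume : Measure D.QN) P = 0
  · rw [hP0, mul_zero]; exact zero_le
  have hfin : (volume : Measure D.QN) (P * prN D '' U) ≠ ∞ := by
    refine ((measure_mono hPU).trans_lt ?_).ne
    exact ((BModel.isCompact_NB M f A₁).image (continuous_prN D)).measure_lt_top
  have key := measure_mul_upper (volume : Measure M.NN) (volume : Measure D.QN) (prN D)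
    (N := M.NB g (A * e)) (U := U) (N₂ := M.NB g ((A₂ + B) * e)) hPm hP0 hfin ?_
  · refine key.trans ?_
    have hNN : M.NB g (A * e) * M.NB g ((A₂ + B) * e) ⊆ M.NB g ((A₅ * T₂) * e) := by
      rintro _ ⟨n, hn, n', hn', rfl⟩
      rw [BModel.mem_NB, BModel.E_mul]
      have h3 := H₅.op_mem g hNg (A * e) ((A₂ + B) * e) (by positivity) (by nlinarith)
        (by positivity) (by nlinarith) _ hn _ hn'
      refine Bx_mono ?_ h3
      have h4 : max (A * e) ((A₂ + B) * e) ≤ T₂ * e := max_le (by gcongr; linarith)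
        (by gcongr; linarith)
      calc A₅ * max (A * e) ((A₂ + B) * e) ≤ A₅ * (T₂ * e) := by gcongr
        _ = (A₅ * T₂) * e := by ring
    calc (volume : Measure D.QN) (P * prN D '' U) * volume (M.NB g (A * e) * M.NB g ((A₂ + B) * e))
        ≤ (ENNReal.ofReal (D.qdet T) * vQ D w bs A₁) * volume (M.NB g ((A₅ * T₂) * e)) := by
          gcongr
      _ = _ := by rw [BModel.volume_NB_smul (by positivity)]
  · intro u hu u' hu' x hx y hy hxy
    obtain ⟨n, hn, rfl⟩ := hx
    obtain ⟨n', hn', rfl⟩ := hy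
    rw [← map_inv, ← map_mul] at hxy
    have h3 : M.E (n⁻¹ * n') ∈ Bx M.c g (A₂ * e) := by
      rw [BModel.E_mul]
      have := H₂.op_mem g hNg e e he.le (by linarith) he.le (by linarith) _
        (BModel.NB_inv hn) _ hn'
      rwa [max_self] at this
    have h4 : D.P (M.E (n⁻¹ * n')) ∈ D.P '' Bx M.c (rst g w) (A₂ * e) := by
      rw [← P_image_Bx D hv (by positivity)]
      exact mem_image_of_mem _ h3
    obtain ⟨z, hz, hz'⟩ := h4
    have h5 : M.E (u * u'⁻¹) ∈ Bx M.c f (A₂ * A) := by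
      rw [BModel.E_mul]
      have := H₂.op_mem f hNf A A (by linarith) le_rfl (by linarith) le_rfl _ (hU hu) _
        (BModel.NB_inv (hU hu'))
      rwa [max_self] at this
    have h6 : z ∈ Bx M.c f (A₃ * (A₂ * e)) := h₃ f (rst g w) hNf hgf _ (by positivity) hz
    have h7 : D.P (M.E (u * u'⁻¹) - z) = 0 := by
      rw [map_sub, hz', sub_eq_zero]; exact hxy
    have h8 : M.E (u * u'⁻¹) - z ∈ Bx M.c f A₁ := by
      rw [sub_eq_add_neg]
      refine Bx_mono ?_ (Bx_add h5 (Bx_neg h6))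
      have : A₃ * (A₂ * e) ≤ A₃ * A₂ := by
        have : A₂ * e ≤ A₂ := by nlinarith
        gcongr
      nlinarith
    have h9 := h2 _ h7 h8
    rw [BModel.mem_NB]
    have h10 : M.E (u * u'⁻¹) = z + (M.E (u * u'⁻¹) - z) := by abel
    rw [h10]
    refine Bx_mono ?_ (Bx_add (Bx_rst_subset g (A₂ * e) (by positivity) hz) h9)
    linarith

end model

end Crest.Agent.R182.BoxVol
end

-- ▼ part R182/BoxRay

set_option autoImplicit false
set_option linter.unusedSectionVars false

open MeasureTheory Set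
open scoped Pointwise ENNReal

namespace Crest.Agent.R182.BoxVol

open Crest.Agent.R182.Nb Crest.Agent.R182.Core

variable {Γ : Type*} [Group Γ] {k : ℕ} {S : Set Γ} {π : Γ →* Multiplicative (Fin k → ℤ)}

/-- `w` is the set of generating letters whose weight is a positive multiple of `ρ` -/
structure IsRay (M : BModel S π) (w : GI M → Prop) (ρ : (Fin k → ℝ) →ₗ[ℝ] ℝ) : Prop where
  pos : ∀ i, w i → ∃ c : ℝ, 0 < c ∧ wg M i = c • ρ
  off : ∀ i, (∃ c : ℝ, 0 < c ∧ wg M i = c • ρ) → w i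

section ideal

variable (M : BModel S π) (w : GI M → Prop)

/-- the span of the monomials with a letter outside `w` -/
def Mw : Submodule ℝ M.L :=
  Submodule.span ℝ {x | ∃ κ : List (GI M), ¬ (∀ i ∈ κ, w i) ∧ x = mon (eg M) κ}

theorem eg_lie_mem_Mw (i : GI M) {y : M.L} (hy : y ∈ Mw M w) : ⁅eg M i, y⁆ ∈ Mw M w := by
  induction hy using Submodule.span_induction with
  | mem y hy =>
    obtain ⟨κ, hκ, rfl⟩ := hy
    have hne : κ ≠ [] := by rintro rfl; simp at hκ
    refine Submodule.subset_span ⟨i :: κ, ?_, (mon_cons _ i hne).symm⟩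
    intro h
    exact hκ fun j hj => h j (List.mem_cons_of_mem _ hj)
  | zero => rw [lie_zero]; exact Submodule.zero_mem _
  | add a b _ _ h h' => rw [lie_add]; exact Submodule.add_mem _ h h'
  | smul r a _ h => rw [lie_smul]; exact Submodule.smul_mem _ _ h

theorem mon_lie_mem_Mw (κ : List (GI M)) : ∀ {y : M.L}, y ∈ Mw M w →
    ⁅mon (eg M) κ, y⁆ ∈ Mw M w := by
  induction κ with
  | nil => intro y _; rw [mon_nil, zero_lie]; exact Submodule.zero_mem _
  | cons i κ ih =>
    intro y hy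
    by_cases hκ : κ = []
    · subst hκ; exact eg_lie_mem_Mw M w i hy
    · rw [mon_cons _ i hκ, lie_lie]
      exact Submodule.sub_mem _ (eg_lie_mem_Mw M w i (ih hy)) (ih (eg_lie_mem_Mw M w i hy))

theorem lie_mem_Mw (x : M.L) {y : M.L} (hy : y ∈ Mw M w) : ⁅x, y⁆ ∈ Mw M w := by
  have hx : x ∈ Pm (eg M) := by rw [span_mon]; exact Submodule.mem_top
  unfold Pm at hx
  induction hx using Submodule.span_induction with
  | mem x hx => obtain ⟨κ, rfl⟩ := hx; exact mon_lie_mem_Mw M w κ hy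
  | zero => rw [zero_lie]; exact Submodule.zero_mem _
  | add a b _ _ h h' => rw [add_lie]; exact Submodule.add_mem _ h h'
  | smul r a _ h => rw [smul_lie]; exact Submodule.smul_mem _ _ h

end ideal

/-- The quotient of a ray with a basis of pure monomials. -/
structure RayQ (M : BModel S π) (w : GI M → Prop) where
  n : ℕ
  D : QData M.star (Fin n)
  κ : Fin n → List (GI M)
  κ_w : ∀ j, ∀ i ∈ κ j, w i
  κ_len : ∀ j, (κ j).length ≤ M.c
  κ_inj : Function.Injective κ
  s_eq : ∀ q, D.s q = ∑ j, q j • mon (eg M) (κ j)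
  ker : ∀ x, D.P x = 0 ↔ x ∈ Mw M w

theorem exists_rayQ (M : BModel S π) (w : GI M → Prop) : Nonempty (RayQ M w) := by
  classical
  let V := M.L ⧸ Mw M w
  let mk : M.L →ₗ[ℝ] V := (Mw M w).mkQ
  have hmk : ∀ x, mk x = 0 ↔ x ∈ Mw M w := fun x => Submodule.Quotient.mk_eq_zero _
  set s : Set V := {v | ∃ κ : List (GI M), (∀ i ∈ κ, w i) ∧ κ.length ≤ M.c ∧ v = mk (mon (eg M) κ)}
    with hs
  have hspan : ⊤ ≤ Submodule.span ℝ s := by
    intro v hv
    clear hv
    obtain ⟨x, rfl⟩ := Submodule.mkQ_surjective _ v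
    have hx : x ∈ Pm (eg M) := by rw [span_mon]; exact Submodule.mem_top
    unfold Pm at hx
    change mk x ∈ _
    induction hx using Submodule.span_induction with
    | mem x hx =>
      obtain ⟨κ, rfl⟩ := hx
      by_cases h1 : ∀ i ∈ κ, w i
      · by_cases h2 : κ.length ≤ M.c
        · exact Submodule.subset_span ⟨κ, h1, h2, rfl⟩
        · have : mon (eg M) κ = 0 := M.nilC.nil _ κ (by omega)
          simp only [this, map_zero]
          exact Submodule.zero_mem _
      · have : mk (mon (eg M) κ) = 0 := (hmk _).2 (Submodule.subset_span ⟨κ, h1, rfl⟩)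
        simp only [this]
        exact Submodule.zero_mem _
    | zero => rw [map_zero]; exact Submodule.zero_mem _
    | add a b _ _ h h' => rw [map_add]; exact Submodule.add_mem _ h h'
    | smul r a _ h => rw [map_smul]; exact Submodule.smul_mem _ _ h
  set B₀ := Module.Basis.ofSpan hspan with hB₀
  set B := B₀.reindex (B₀.indexEquiv (Module.finBasis ℝ V)) with hB
  have hmem : ∀ j, ∃ κ : List (GI M), (∀ i ∈ κ, w i) ∧ κ.length ≤ M.c ∧ B j = mk (mon (eg M) κ) := by
    intro j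
    have h1 : B j ∈ s := by
      rw [hB, Module.Basis.reindex_apply]
      exact Module.Basis.ofSpan_subset hspan ⟨_, rfl⟩
    exact h1
  choose κ hκ1 hκ2 hκ3 using hmem
  have hP : ∀ x, B.equivFun (mk x) = 0 ↔ x ∈ Mw M w := fun x => by
    rw [LinearEquiv.map_eq_zero_iff]; exact hmk x
  refine ⟨{
    n := _
    D := {
      P := B.equivFun.toLinearMap ∘ₗ mk
      s := Fintype.linearCombination ℝ fun j => mon (eg M) (κ j)
      Ps := ?_
      ideal := ?_ }
    κ := κ
    κ_w := hκ1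
    κ_len := hκ2
    κ_inj := ?_
    s_eq := ?_
    ker := ?_ }⟩
  · intro q
    change B.equivFun (mk (Fintype.linearCombination ℝ (fun j => mon (eg M) (κ j)) q)) = q
    rw [Fintype.linearCombination_apply, map_sum]
    have : ∀ j, mk (q j • mon (eg M) (κ j)) = q j • B j := fun j => by rw [map_smul, hκ3]
    rw [Finset.sum_congr rfl fun j _ => this j]
    have h2 := B.equivFun_symm_apply q
    rw [← h2, LinearEquiv.apply_symm_apply]
  · intro x y hy
    exact (hP _).2 (lie_mem_Mw M w x ((hP _).1 hy))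
  · intro j j' h
    apply B.injective
    rw [hκ3, hκ3, h]
  · intro q
    exact Fintype.linearCombination_apply _ _ _
  · intro x
    exact hP x

namespace RayQ

variable {M : BModel S π} {w : GI M → Prop} (R : RayQ M w)

theorem P_eg {i : GI M} (hi : ¬ w i) : R.D.P (eg M i) = 0 :=
  (R.ker _).2 (Submodule.subset_span ⟨[i], fun h => hi (h i (by simp)), rfl⟩)

theorem κ_ne (j : Fin R.n) : R.κ j ≠ [] := by
  intro h
  have h1 := R.s_eq (Pi.single j 1)
  have h2 : ∑ j', (Pi.single j (1:ℝ) : Fin R.n → ℝ) j' • mon (eg M) (R.κ j') = 0 := by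
    rw [Finset.sum_eq_single j]
    · rw [h]; simp
    · intro j' _ hj'
      rw [Pi.single_eq_of_ne hj', zero_smul]
    · intro h'; exact absurd (Finset.mem_univ _) h'
  rw [h2] at h1
  have h3 := R.D.Ps (Pi.single j 1)
  rw [h1, map_zero] at h3
  have := congrFun h3 j
  simp at this

/-- Lie endomorphisms mapping the letters outside `w` to the kernel preserve the kernel -/
theorem pres_of [DecidablePred w] {T : M.L →ₗ[ℝ] M.L} (hT : IsLie T)
    (h : ∀ i, ¬ w i → R.D.P (T (eg M i)) = 0) : R.D.Pres T := by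
  intro x hx
  rw [R.ker] at hx
  unfold Mw at hx
  induction hx using Submodule.span_induction with
  | mem x hx =>
    obtain ⟨κ, hκ, rfl⟩ := hx
    rw [← hT.mon]
    exact P_mon_eq_zero R.D h hκ
  | zero => rw [map_zero, map_zero]
  | add a b _ _ h h' => rw [map_add, map_add, h, h', add_zero]
  | smul r a _ h => rw [map_smul, map_smul, h, smul_zero]

/-- the total weight of the quotient -/
noncomputable def τ : (Fin k → ℝ) →ₗ[ℝ] ℝ := ∑ j, ((R.κ j).map (wg M)).sum

end RayQ

/-- a nonempty sum of weights of a ray is a positive multiple of `ρ` -/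
theorem IsRay.sum_pos {M : BModel S π} {w : GI M → Prop} {ρ : (Fin k → ℝ) →ₗ[ℝ] ℝ}
    (h : IsRay M w ρ) {κ : List (GI M)} (hκ : ∀ i ∈ κ, w i) (hne : κ ≠ []) :
    ∃ c : ℝ, 0 < c ∧ (κ.map (wg M)).sum = c • ρ := by
  induction κ with
  | nil => exact absurd rfl hne
  | cons i κ ih =>
    obtain ⟨c, hc, hi⟩ := h.pos i (hκ i List.mem_cons_self)
    by_cases hκ0 : κ = []
    · subst hκ0
      exact ⟨c, hc, by simp [hi]⟩
    · obtain ⟨c', hc', h'⟩ := ih (fun j hj => hκ j (List.mem_cons_of_mem _ hj)) hκ0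
      exact ⟨c + c', by positivity, by rw [List.map_cons, List.sum_cons, hi, h', add_smul]⟩

/-- the weight spaces outside the ray are in the kernel -/
theorem IsRay.bas_mem {M : BModel S π} {w : GI M → Prop} {ρ : (Fin k → ℝ) →ₗ[ℝ] ℝ}
    (h : IsRay M w ρ) (i : Fin M.r) (hi : ∀ c : ℝ, 0 < c → M.wt i ≠ c • ρ) :
    M.bas i ∈ Mw M w := by
  have h1 := M.monSpan i
  refine (Submodule.span_le.2 ?_) h1
  rintro _ ⟨κ, hκ, rfl⟩
  by_cases hne : κ = []
  · subst hne; rw [mon_nil]; exact Submodule.zero_mem _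
  · refine Submodule.subset_span ⟨κ, fun hw => ?_, rfl⟩
    obtain ⟨c, hc, hs⟩ := h.sum_pos hw hne
    exact hi c hc (hκ.symm.trans hs)

section dil

variable (M : BModel S π)

/-- the dilation `e^{wt i v}` on the weight spaces -/
noncomputable def dil (v : Fin k → ℝ) : M.L →ₗ[ℝ] M.L :=
  M.bas.constr ℝ fun i => Real.exp (M.wt i v) • M.bas i

theorem dil_bas (v : Fin k → ℝ) (i : Fin M.r) : dil M v (M.bas i) = Real.exp (M.wt i v) • M.bas i := by
  rw [dil, Module.Basis.constr_basis]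

theorem dil_eg (v : Fin k → ℝ) (i : GI M) : dil M v (eg M i) = Real.exp (wg M i v) • eg M i :=
  dil_bas M v i

theorem isLie_dil (v : Fin k → ℝ) : IsLie (dil M v) := by
  intro x y
  have hb : ∀ i j, dil M v ⁅M.bas i, M.bas j⁆ = ⁅dil M v (M.bas i), dil M v (M.bas j)⁆ := by
    intro i j
    rw [dil_bas, dil_bas, smul_lie, lie_smul, smul_smul, ← Real.exp_add]
    conv_lhs => rw [← M.bas.sum_repr ⁅M.bas i, M.bas j⁆]
    conv_rhs => rw [← M.bas.sum_repr ⁅M.bas i, M.bas j⁆]
    rw [map_sum, Finset.smul_sum]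
    refine Finset.sum_congr rfl fun l _ => ?_
    rw [map_smul, dil_bas]
    by_cases h : M.bas.repr ⁅M.bas i, M.bas j⁆ l = 0
    · rw [h, zero_smul, zero_smul, smul_zero]
    · rw [M.lie_wt i j l h, LinearMap.add_apply, smul_comm]
  conv_lhs => rw [← M.bas.sum_repr x, ← M.bas.sum_repr y]
  conv_rhs => rw [← M.bas.sum_repr x, ← M.bas.sum_repr y]
  rw [sum_lie, map_sum, map_sum, sum_lie]
  refine Finset.sum_congr rfl fun i _ => ?_
  rw [lie_sum, map_sum, map_sum, lie_sum]
  refine Finset.sum_congr rfl fun j _ => ?_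
  rw [smul_lie, lie_smul, map_smul, map_smul, hb, map_smul, map_smul, smul_lie, lie_smul]

theorem dil_mon (v : Fin k → ℝ) (κ : List (GI M)) :
    dil M v (mon (eg M) κ) = Real.exp ((κ.map (wg M)).sum v) • mon (eg M) κ := by
  rw [← (isLie_dil M v).mon]
  have : (fun i => dil M v (eg M i)) = gZ (eg M) fun i => wg M i v := by
    funext i; rw [dil_eg]; rfl
  rw [this, mon_gZ, M.sum_wt_apply]

end dil

namespace RayQ

variable {M : BModel S π} {w : GI M → Prop} [DecidablePred w] (R : RayQ M w)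

theorem pres_dil (v : Fin k → ℝ) : R.D.Pres (dil M v) :=
  R.pres_of (isLie_dil M v) fun i hi => by rw [dil_eg, map_smul, R.P_eg hi, smul_zero]

theorem isLie_Ad (g : M.G) : IsLie (M.Ad g : M.L →ₗ[ℝ] M.L) := fun x y => M.Ad_lie g x y

theorem pres_Ad {ρ : (Fin k → ℝ) →ₗ[ℝ] ℝ} (hw : IsRay M w ρ) {g : M.G} (hg : g ∈ M.C) :
    R.D.Pres (M.Ad g : M.L →ₗ[ℝ] M.L) := by
  refine R.pres_of (isLie_Ad g) fun i hi => ?_
  rw [R.ker]
  change M.Ad g (M.bas i) ∈ _
  rw [← M.bas.sum_repr (M.Ad g (M.bas i))]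
  refine Submodule.sum_mem _ fun j _ => ?_
  by_cases h : M.bas.repr (M.Ad g (M.bas i)) j = 0
  · rw [h, zero_smul]; exact Submodule.zero_mem _
  · refine Submodule.smul_mem _ _ (hw.bas_mem j fun c hc hj => hi (hw.off i ⟨c, hc, ?_⟩))
    exact (M.Ad_C g hg j i h).symm.trans hj

/-- the dilations are diagonal on the quotient -/
theorem down_dil (v : Fin k → ℝ) (q : Fin R.n → ℝ) (j : Fin R.n) :
    R.D.down (dil M v) q j = Real.exp (((R.κ j).map (wg M)).sum v) * q j := by
  have h1 : R.D.down (dil M v) q = R.D.P (dil M v (R.D.s q)) := rfl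
  have h2 : dil M v (R.D.s q) =
      R.D.s fun j => Real.exp (((R.κ j).map (wg M)).sum v) * q j := by
    rw [R.s_eq, R.s_eq, map_sum]
    refine Finset.sum_congr rfl fun j _ => ?_
    rw [map_smul, dil_mon, smul_smul, mul_comm]
  rw [h1, h2, R.D.Ps]

theorem qdet_dil (v : Fin k → ℝ) : R.D.qdet (dil M v) = Real.exp (R.τ v) := by
  have h1 : R.D.down (dil M v) =
      Matrix.toLin' (Matrix.diagonal fun j => Real.exp (((R.κ j).map (wg M)).sum v)) := by
    refine LinearMap.ext fun q => ?_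
    funext j
    rw [R.down_dil, Matrix.toLin'_apply, Matrix.mulVec_diagonal]
  unfold QData.qdet
  rw [h1, LinearMap.det_toLin', Matrix.det_diagonal, ← Real.exp_sum,
    abs_of_pos (Real.exp_pos _)]
  congr 1
  rw [τ, LinearMap.sum_apply]

/-- polynomial growth of the determinant of a power -/
theorem growth_aux {x y C : ℝ} {D : ℕ} (hx : 0 ≤ x) (hy : 0 < y) (hC : 0 ≤ C)
    (h : ∀ n : ℕ, x ^ n ≤ C * (1 + n) ^ D * y ^ n) : x ≤ y := by
  by_contra hlt
  push Not at hlt
  set r := x / y with hr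
  have hr1 : 1 < r := (one_lt_div hy).2 hlt
  have h1 : ∀ n : ℕ, r ^ n ≤ C * (1 + n) ^ D := by
    intro n
    rw [hr, div_pow, div_le_iff₀ (pow_pos hy n)]
    exact h n
  -- exponential beats polynomial
  have h2 := tendsto_pow_const_div_const_pow_of_one_lt D hr1
  have h3 : Filter.Tendsto (fun n : ℕ => C * 2 ^ D * ((n : ℝ) ^ D / r ^ n)) Filter.atTop
      (nhds (C * 2 ^ D * 0)) := h2.const_mul _
  rw [mul_zero] at h3
  have h4 := (h3.eventually (gt_mem_nhds (by norm_num : (0:ℝ) < 1))).and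
    (Filter.eventually_ge_atTop 1)
  obtain ⟨n, hn1, hn2⟩ := h4.exists
  have hn2' : (1:ℝ) ≤ n := by exact_mod_cast hn2
  have hrn : 0 < r ^ n := by positivity
  have h5 : C * (1 + n) ^ D ≤ C * 2 ^ D * (n : ℝ) ^ D := by
    rw [mul_assoc, ← mul_pow]
    gcongr
    linarith
  have h6 : C * 2 ^ D * ((n : ℝ) ^ D / r ^ n) = C * 2 ^ D * (n : ℝ) ^ D / r ^ n := by ring
  rw [h6, div_lt_one hrn] at hn1
  linarith [h1 n]

theorem abs_P_le (x : M.L) (j : Fin R.n) :
    |R.D.P x j| ≤ (∑ i, |R.D.P (M.bas i) j|) * ‖M.bas.equivFun x‖ := by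
  conv_lhs => rw [← M.bas.sum_equivFun x]
  rw [map_sum, Finset.sum_apply, Finset.sum_mul]
  refine (Finset.abs_sum_le_sum_abs _ _).trans (Finset.sum_le_sum fun i _ => ?_)
  rw [map_smul, Pi.smul_apply, smul_eq_mul, abs_mul, mul_comm]
  gcongr
  have := norm_le_pi_norm (M.bas.equivFun x) i
  rwa [Real.norm_eq_abs] at this

/-- upper bound for the entries of `Ad g` on the quotient -/
theorem exists_down_le (Rr : ℝ) : ∃ A : ℝ, 0 ≤ A ∧ ∀ l : List M.G,
    (∀ s ∈ l, s ∈ M.C ∧ M.len s ≤ Rr) → ∀ i j,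
      |R.D.down (M.Ad l.prod : M.L →ₗ[ℝ] M.L) (Pi.single j 1) i| ≤
        A * (1 + l.length) ^ M.d * Real.exp (((R.κ j).map (wg M)).sum (M.h l.prod)) := by
  obtain ⟨A₁, h1⟩ := M.Ad_C_le Rr
  set B : ℝ := ∑ j, ∑ i, |M.bas.repr (mon (eg M) (R.κ j)) i| with hB
  set P₁ : ℝ := ∑ j, ∑ i, |R.D.P (M.bas i) j| with hP₁
  refine ⟨P₁ * (B * |A₁|), by positivity, fun l hl i j => ?_⟩
  set x := mon (eg M) (R.κ j) with hx
  set ν := ((R.κ j).map (wg M)).sum with hν
  have hd : R.D.down (M.Ad l.prod : M.L →ₗ[ℝ] M.L) (Pi.single j 1) =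
      R.D.P (M.Ad l.prod x) := by
    have : R.D.s (Pi.single j 1) = x := by
      rw [R.s_eq, Finset.sum_eq_single j]
      · simp [hx]
      · intro j' _ hj'
        rw [Pi.single_eq_of_ne hj', zero_smul]
      · intro h'; exact absurd (Finset.mem_univ _) h'
    change R.D.P (M.Ad l.prod (R.D.s (Pi.single j 1))) = _
    rw [this]
  rw [hd]
  have hpoly : 0 ≤ |A₁| * (1 + (l.length:ℝ)) ^ M.d * Real.exp (ν (M.h l.prod)) := by positivity
  have hAx : ‖M.bas.equivFun (M.Ad l.prod x)‖ ≤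
      (∑ i, |M.bas.repr x i|) * (|A₁| * (1 + l.length) ^ M.d * Real.exp (ν (M.h l.prod))) := by
    rw [pi_norm_le_iff_of_nonneg (by positivity)]
    intro a
    rw [Real.norm_eq_abs]
    have e1 : M.bas.equivFun (M.Ad l.prod x) a =
        ∑ i', M.bas.repr x i' * M.bas.repr (M.Ad l.prod (M.bas i')) a := by
      conv_lhs => rw [← M.bas.sum_repr x]
      rw [map_sum, map_sum, Finset.sum_apply]
      exact Finset.sum_congr rfl fun i' _ => by rw [map_smul, map_smul]; rfl
    rw [e1, Finset.sum_mul]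
    refine (Finset.abs_sum_le_sum_abs _ _).trans (Finset.sum_le_sum fun i' _ => ?_)
    rw [abs_mul]
    by_cases h0 : M.bas.repr x i' = 0
    · rw [h0, abs_zero, zero_mul, zero_mul]
    · by_cases h00 : M.bas.repr (M.Ad l.prod (M.bas i')) a = 0
      · rw [h00, abs_zero, mul_zero]; positivity
      · have h2 : M.wt i' = ν := mon_wt M (fun i : GI M => (i : Fin M.r)) (R.κ j) i' h0
        have h3 := h1 l hl a i'
        have hC : l.prod ∈ M.C := M.C.list_prod_mem fun s hs => (hl s hs).1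
        have h4 : M.wt a = ν := (M.Ad_C _ hC a i' h00).trans h2
        rw [h4] at h3
        gcongr
        refine h3.trans ?_
        gcongr
        exact le_abs_self _
  calc |R.D.P (M.Ad l.prod x) i| ≤ (∑ i', |R.D.P (M.bas i') i|) * ‖M.bas.equivFun (M.Ad l.prod x)‖ :=
        R.abs_P_le _ _
    _ ≤ P₁ * ((∑ i, |M.bas.repr x i|) *
        (|A₁| * (1 + l.length) ^ M.d * Real.exp (ν (M.h l.prod)))) := by
        gcongr
        exact Finset.single_le_sum (f := fun j => ∑ i, |R.D.P (M.bas i) j|)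
          (fun j _ => Finset.sum_nonneg fun i _ => abs_nonneg _) (Finset.mem_univ i)
    _ ≤ P₁ * (B * (|A₁| * (1 + l.length) ^ M.d * Real.exp (ν (M.h l.prod)))) := by
        gcongr
        exact Finset.single_le_sum (f := fun j => ∑ i, |M.bas.repr (mon (eg M) (R.κ j)) i|)
          (fun j _ => Finset.sum_nonneg fun i _ => abs_nonneg _) (Finset.mem_univ j)
    _ = _ := by ring

theorem exists_qdet_le (Rr : ℝ) : ∃ A : ℝ, 0 ≤ A ∧ ∀ l : List M.G,
    (∀ s ∈ l, s ∈ M.C ∧ M.len s ≤ Rr) →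
      R.D.qdet (M.Ad l.prod : M.L →ₗ[ℝ] M.L) ≤
        A * (1 + l.length) ^ (M.d * R.n) * Real.exp (R.τ (M.h l.prod)) := by
  obtain ⟨A, hA, h⟩ := R.exists_down_le Rr
  refine ⟨(Fintype.card (Fin R.n)).factorial * A ^ R.n, by positivity, fun l hl => ?_⟩
  set T := R.D.down (M.Ad l.prod : M.L →ₗ[ℝ] M.L) with hT
  set e : Fin R.n → ℝ := fun j => Real.exp (((R.κ j).map (wg M)).sum (M.h l.prod)) with he
  set B : Matrix (Fin R.n) (Fin R.n) ℝ := Matrix.of fun i j => T (Pi.single j 1) i / e j with hB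
  have hTB : LinearMap.toMatrix' T = Matrix.of fun i j => e j * B i j := by
    ext i j
    rw [LinearMap.toMatrix'_apply, Matrix.of_apply, hB, Matrix.of_apply,
      mul_div_cancel₀ _ (Real.exp_pos _).ne']
  have hdet : LinearMap.det T = (∏ j, e j) * B.det := by
    rw [← LinearMap.det_toMatrix', hTB, Matrix.det_mul_row]
  have hprod : ∏ j, e j = Real.exp (R.τ (M.h l.prod)) := by
    rw [he, ← Real.exp_sum, τ, LinearMap.sum_apply]
  have hBle : |B.det| ≤ (Fintype.card (Fin R.n)).factorial •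
      (A * (1 + (l.length : ℝ)) ^ M.d) ^ Fintype.card (Fin R.n) := by
    refine Matrix.det_le (abv := IsAbsoluteValue.toAbsoluteValue abs) ?_
    intro i j
    change |B i j| ≤ _
    rw [hB, Matrix.of_apply, abs_div, abs_of_pos (Real.exp_pos _), div_le_iff₀ (Real.exp_pos _)]
    exact h l hl i j
  unfold QData.qdet
  rw [← hT, hdet, abs_mul, hprod, abs_of_pos (Real.exp_pos _), mul_comm]
  refine mul_le_mul_of_nonneg_right (hBle.trans (le_of_eq ?_)) (Real.exp_pos _).le
  rw [nsmul_eq_mul, Fintype.card_fin, mul_pow, ← pow_mul]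
  ring

/-- **the determinant of a vertical on the quotient** -/
theorem qdet_Ad {ρ : (Fin k → ℝ) →ₗ[ℝ] ℝ} (hw : IsRay M w ρ) {g : M.G} (hg : g ∈ M.C) :
    R.D.qdet (M.Ad g : M.L →ₗ[ℝ] M.L) = Real.exp (R.τ (M.h g)) := by
  -- one inequality for all verticals
  have key : ∀ g ∈ M.C, R.D.qdet (M.Ad g : M.L →ₗ[ℝ] M.L) ≤ Real.exp (R.τ (M.h g)) := by
    intro g hg
    obtain ⟨A, hA, h⟩ := R.exists_qdet_le (M.len g)
    have hnn : 0 ≤ R.D.qdet (M.Ad g : M.L →ₗ[ℝ] M.L) := abs_nonneg _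
    refine growth_aux (D := M.d * R.n) hnn (Real.exp_pos _) hA fun n => ?_
    have h1 := h (List.replicate n g) (fun s hs => by
      rw [List.mem_replicate] at hs
      rw [hs.2]; exact ⟨hg, le_rfl⟩)
    rw [List.prod_replicate, List.length_replicate] at h1
    have h2 : ∀ n : ℕ, R.D.qdet (M.Ad (g ^ n) : M.L →ₗ[ℝ] M.L) =
        R.D.qdet (M.Ad g : M.L →ₗ[ℝ] M.L) ^ n := by
      intro n
      induction n with
      | zero =>
        rw [pow_zero, pow_zero, map_one]
        exact R.D.qdet_id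
      | succ n ih =>
        rw [pow_succ, pow_succ, ← ih, map_mul]
        exact (R.pres_Ad hw (M.C.pow_mem hg n)).qdet_comp
    have h3 : ∀ n : ℕ, M.h (g ^ n) = (n : ℝ) • M.h g := by
      intro n
      induction n with
      | zero => rw [pow_zero, M.h_one]; simp
      | succ n ih => rw [pow_succ, M.h_mul, ih]; push_cast; rw [add_smul, one_smul]
    rw [← h2, ← Real.exp_nat_mul]
    rw [h3, map_smul, smul_eq_mul] at h1
    exact h1
  refine le_antisymm (key g hg) ?_
  have h1 := key g⁻¹ (M.C.inv_mem hg)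
  have h2 : R.D.qdet (M.Ad g : M.L →ₗ[ℝ] M.L) * R.D.qdet (M.Ad g⁻¹ : M.L →ₗ[ℝ] M.L) = 1 := by
    rw [← (R.pres_Ad hw hg).qdet_comp]
    have : ((M.Ad g : M.L →ₗ[ℝ] M.L) ∘ₗ (M.Ad g⁻¹ : M.L →ₗ[ℝ] M.L)) = LinearMap.id := by
      refine LinearMap.ext fun x => ?_
      change M.Ad g (M.Ad g⁻¹ x) = x
      rw [← LinearEquiv.mul_apply, ← map_mul, mul_inv_cancel, map_one]; rfl
    rw [this]; exact R.D.qdet_id
  rw [M.h_inv, map_neg, Real.exp_neg] at h1
  have h3 : 0 ≤ R.D.qdet (M.Ad g : M.L →ₗ[ℝ] M.L) := abs_nonneg _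
  have h4 : 1 ≤ R.D.qdet (M.Ad g : M.L →ₗ[ℝ] M.L) * (Real.exp (R.τ (M.h g)))⁻¹ := by
    rw [← h2]; gcongr
  rw [← div_eq_mul_inv, le_div_iff₀ (Real.exp_pos _), one_mul] at h4
  exact h4

/-- combinations of the basic monomials lie in the box -/
theorem sum_mem_Bx (v : GI M → M.L) {q : Fin R.n → ℝ} {s : ℝ} (hs : 0 ≤ s) (hq : ∀ j, |q j| ≤ s) :
    ∑ j, q j • mon v (R.κ j) ∈ Bx M.c (rst v w) s := by
  classical
  refine ⟨fun κ => if h : ∃ j, R.κ j = κ then q h.choose else 0, fun κ => ?_, ?_⟩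
  · beta_reduce
    split_ifs with h
    · exact hq _
    · rwa [abs_zero]
  · have h1 : ∀ κ ∈ KL (GI M) M.c, κ ∉ Finset.univ.image R.κ →
        (if h : ∃ j, R.κ j = κ then q h.choose else 0) • mon (rst v w) κ = 0 := by
      intro κ _ hκ
      rw [dif_neg, zero_smul]
      rintro ⟨j, hj⟩
      exact hκ (Finset.mem_image.2 ⟨j, Finset.mem_univ _, hj⟩)
    have hsub : Finset.univ.image R.κ ⊆ KL (GI M) M.c := by
      intro κ hκ
      obtain ⟨j, _, rfl⟩ := Finset.mem_image.1 hκ
      exact mem_KL.2 (R.κ_len j)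
    rw [← Finset.sum_subset hsub h1, Finset.sum_image fun _ _ _ _ h => R.κ_inj h]
    refine Finset.sum_congr rfl fun j _ => ?_
    have hex : ∃ j', R.κ j' = R.κ j := ⟨j, rfl⟩
    have hch : hex.choose = j := R.κ_inj hex.choose_spec
    rw [dif_pos hex, hch, mon_rst_of w (R.κ_w j)]

/-- the moves lie in the box of the ray letters -/
theorem mvs_subset {T : M.L →ₗ[ℝ] M.L} (hT : IsLie T) {s : ℝ} (hs : 0 ≤ s) :
    mvs R.D s T ⊆ M.NB (rst (fun i => T (eg M i)) w) s := by
  rintro n ⟨q, hq, h⟩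
  rw [BModel.mem_NB, h, R.s_eq, map_sum]
  have := R.sum_mem_Bx (fun i => T (eg M i)) hs hq
  refine (congrArg (· ∈ Bx M.c (rst (fun i => T (eg M i)) w) s) ?_).mp this
  refine Finset.sum_congr rfl fun j _ => ?_
  rw [hT.mon, map_smul]

theorem vQ_lt_top (s : ℝ) : vQ R.D w (eg M) s < ∞ := by
  have h : vQ R.D w (eg M) s = (volume : Measure R.D.QN) (prN R.D '' M.NB (rst (eg M) w) s) := by
    unfold vQ
    congr 1
    ext q
    constructor
    · rintro ⟨x, hx, rfl⟩
      refine ⟨M.E.symm x, ?_, ?_⟩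
      · rw [BModel.mem_NB, LinearEquiv.apply_symm_apply]; exact hx
      · rw [prN_apply, LinearEquiv.apply_symm_apply]
    · rintro ⟨n, hn, rfl⟩
      exact ⟨M.E n, hn, rfl⟩
  rw [h]
  exact ((BModel.isCompact_NB M _ s).image (continuous_prN R.D)).measure_lt_top

theorem vQ_pos {s : ℝ} (hs : 0 < s) : 0 < vQ R.D w (eg M) s := by
  have h1 : (volume : Measure (Fin R.n → ℝ)) (Set.pi univ fun _ => Icc (-s) s) ≤
      vQ R.D w (eg M) s := by
    refine measure_mono ?_
    intro q hq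
    refine ⟨∑ j, q j • mon (eg M) (R.κ j), R.sum_mem_Bx _ hs.le fun j => ?_, ?_⟩
    · exact abs_le.2 (hq j (mem_univ j))
    · change R.D.P _ = q
      rw [← R.s_eq, R.D.Ps]
  refine lt_of_lt_of_le ?_ h1
  rw [volume_pi_pi, Finset.prod_congr rfl fun _ _ => Real.volume_Icc]
  rw [CanonicallyOrderedAdd.prod_pos]
  intro j _
  rw [ENNReal.ofReal_pos]
  linarith

end RayQ

end Crest.Agent.R182.BoxVol
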