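/-
R182, module ELINST (helper329): the data `El.Data` of a `BModel` at one scale.
-/
import Mathlib
import Crest.Agent.R182.CapInst
import Crest.Agent.R182.StarSys
import Crest.Agent.R182.BoxLen
import Crest.Agent.R182.GenTouch
import Crest.Agent.R182.BoxRay
import Crest.Agent.R182.ElDefs

set_option autoImplicit false
set_option linter.unusedSectionVars false

open MeasureTheory Set
open scoped Pointwise RealInnerProductSpace ENNReal

namespace Crest.Agent.R182.ElI

open Crest.GroupTheory Crest.Geometry Crest.Agent.R182.QI Crest.Agent.R182.Core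
  Crest.Agent.R182.Nb Crest.Agent.R182.Gen

variable {Γ : Type*} [Group Γ] {k : ℕ} {S : Set Γ} {π : Γ →* Multiplicative (Fin k → ℤ)}

/-- `E ∩ C` is polynomially distorted in `C` -/
def CDist (M : BModel S π) : Prop := ∀ R : ℝ, ∃ A : ℕ, ∀ l : List M.G,
  (∀ s ∈ l, s ∈ M.C ∧ M.len s ≤ R) → ∀ x : M.L, M.ex x = l.prod →
    ‖M.bas.equivFun x‖ ≤ A * (1 + l.length) ^ A

/-- the geometry of the heights: identification `T` of the height space with `E`, and a system of
Riesz vectors of the generating weights. -/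
structure Geo (M : BModel S π) (E : Type*) [NormedAddCommGroup E] [InnerProductSpace ℝ E] where
  T : (Fin k → ℝ) ≃ₗ[ℝ] E
  RS : Star.RSys (GI M) E
  hRS : RS.toGenSys = M.gsysT T

variable {M : BModel S π} {E : Type*} [NormedAddCommGroup E] [InnerProductSpace ℝ E]

namespace Geo

variable (G : Geo M E)

/-- the rays -/
abbrev R : Type _ := {e // e ∈ G.RS.Eb}

theorem wg_eq (i : GI M) (v : Fin k → ℝ) :
    wg M i v = G.RS.lam i * ⟪G.RS.dir i, G.T v⟫ := by
  rw [← G.RS.l_eq, G.hRS, M.gsysT_l]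

theorem lam_ne (i : GI M) : G.RS.lam i ≠ 0 := by
  intro h
  refine M.wt_gen_ne i i.2 ?_
  ext v
  have := G.wg_eq i (Pi.single v 1)
  rw [h, zero_mul] at this
  simpa [wg] using this

theorem lam_pos (i : GI M) : 0 < G.RS.lam i :=
  lt_of_le_of_ne (G.RS.lam_nonneg i) (G.lam_ne i).symm

/-- the ray of a generating letter -/
def ray (i : GI M) : G.R := ⟨G.RS.dir i, G.RS.dir_mem i (G.lam_ne i)⟩

theorem ray_surj (r : G.R) : ∃ i, G.ray i = r := by
  obtain ⟨i, _, h⟩ := G.RS.exists_dir r r.2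
  exact ⟨i, Subtype.ext h⟩

theorem wg_ray (i : GI M) (v : Fin k → ℝ) :
    wg M i v = G.RS.lam i * ⟪(G.ray i : E), G.T v⟫ := G.wg_eq i v

theorem norm_ray (r : G.R) : ‖(r : E)‖ = 1 := G.RS.unit r r.2


end Geo

/-- unit legs: `T h(u e) ≈ τ S e`, a word of length `≤ Cb τ S` in letters of `C` of length `≤ RC` -/
structure Unit (G : Geo M E) (RC Cb ε₁ τ Sc : ℝ) where
  u : G.R → M.G
  w : G.R → List M.G
  w_prod : ∀ e, (w e).prod = u e
  w_mem : ∀ e, ∀ s ∈ w e, s ∈ M.C ∧ M.len s ≤ RC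
  w_len : ∀ e, ((w e).length : ℝ) ≤ Cb * (τ * Sc)
  acc : ∀ e, ‖G.T (M.h (u e)) - (τ * Sc) • (e : E)‖ ≤ ε₁ * (τ * Sc)

/-- the constants of the boxes: `c1` = size of the small boxes, `ρV` = size of the small moves,
`TU` = size of the boxes of moves, `κD` = exponent of the domain, `RQ` = quotients by the ideals of
the other rays. -/
structure Cst (G : Geo M E) where
  c1 : ℝ
  ρV : ℝ
  TU : ℝ
  κD : ℝ
  RQ : ∀ w : G.R, BoxVol.RayQ M (fun i => G.ray i = w)

/-- number of unit legs in a leg of length `s` -/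
noncomputable def num (τ s : ℝ) : ℕ := ⌊s / τ⌋₊

/-- the leg of the ray `r` of length `s` -/
noncomputable def leg {G : Geo M E} (u : G.R → M.G) (τ : ℝ) (r : G.R) (s : ℝ) : M.G :=
  u r ^ num τ s

/-- the tuple of the legs of the shape `Z` -/
noncomputable def legs {G : Geo M E} (u : G.R → M.G) (τ : ℝ) (Z : G.R → ℝ) : G.R → M.G :=
  fun r => leg u τ r (Z r)

/-- the family of the shape `Z` -/
noncomputable def fm (G : Geo M E) (u : G.R → M.G) (τ : ℝ) (Z : G.R → ℝ) : GI M → M.L :=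
  fam M G.ray (legs u τ Z)

/-- the weight of the basis vector `i` is a positive multiple of the ray `w` -/
def OnRay (G : Geo M E) (w : G.R) (i : Fin M.r) : Prop :=
  ∃ c : ℝ, 0 < c ∧ ∀ v, M.wt i v = c * ⟪(w : E), G.T v⟫

/-- the basis vectors with weights on the ray `w`, moved by the leg of length `t` -/
noncomputable def fw (G : Geo M E) (u : G.R → M.G) (τ : ℝ) (w : G.R) (t : ℝ) : Fin M.r → M.L := by
  classical exact rst (fun i => M.Ad (leg u τ w t) (M.bas i)) (OnRay G w)

/-- the size factor of the small boxes -/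
noncomputable def rho (G : Geo M E) (Z : G.R → ℝ) : ℝ := 1 + (∑ r, Z r) / (4 * (1 + Fintype.card G.R))

/-- target boxes -/
noncomputable def tBx (G : Geo M E) (Sc : ℝ) (X : G.R → ℝ) : Set M.NN :=
  M.NB (gZ (eg M) fun i => Sc * (G.RS.lam i * X (G.ray i))) 1

/-- target slabs -/
noncomputable def tDs (G : Geo M E) (Sc : ℝ) (r : G.R) (t : ℝ) : Set M.NN :=
  {n | ∀ i : GI M, G.ray i = r → |n i| ≤ Real.exp (Sc * (G.RS.lam i * t))}

/-- existence of the unipotent part -/
theorem exists_up (M : BModel S π) : ∃ R : ℝ, 1 ≤ R ∧ ∀ g : M.G, ∃ (n : M.NN) (l : List M.G),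
    g = M.toG n * l.prod ∧ (∀ s ∈ l, s ∈ M.C ∧ M.len s ≤ R) ∧ (l.length : ℝ) ≤ M.len g + 1 := by
  obtain ⟨A, D, hA, h⟩ := M.reach_mem M.a 0
  refine ⟨A, hA, fun g => ?_⟩
  obtain ⟨l, hl, hlen, hla⟩ := M.letters g
  -- the path of the partial products
  obtain ⟨Z, hZ⟩ : ∃ Z : GI M → ℝ, ∀ j ≤ l.length, ∀ i : GI M,
      wg M i (M.h (l.take j).prod) ≤ Z i := by
    refine ⟨fun i => ∑ j ∈ Finset.range (l.length + 1), |wg M i (M.h (l.take j).prod)|,
      fun j hj i => ?_⟩
    exact (le_abs_self _).trans (Finset.single_le_sum (f := fun j =>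
      |wg M i (M.h (l.take j).prod)|) (fun _ _ => abs_nonneg _)
      (Finset.mem_range.2 (by omega)))
  obtain ⟨y, l', h1, h2, h3, -⟩ := h Z (fun j => (l.take j).prod) l.length 0 [] (by simp)
    (by simp [M.ex_zero]) (fun j hj => by
      have e1 : (l.take (j + 1)).prod = (l.take j).prod * l[j] := by
        rw [List.prod_take_succ]
      beta_reduce
      rw [e1, inv_mul_cancel_left]
      exact hla _ (List.getElem_mem hj)) hZ
  refine ⟨M.E.symm y, l', ?_, h2, by rw [h1]; exact hlen⟩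
  beta_reduce at h3
  rw [List.take_length, M.star.zero_op, List.prod_nil, one_mul] at h3
  rw [hl, h3, M.toG_apply, LinearEquiv.apply_symm_apply]

/-- length of the letters of `C` in the decomposition -/
noncomputable def RU (M : BModel S π) : ℝ := (exists_up M).choose

/-- the unipotent part -/
noncomputable def up (M : BModel S π) (g : M.G) : M.NN := ((exists_up M).choose_spec.2 g).choose


theorem up_spec (M : BModel S π) (g : M.G) : ∃ l : List M.G, g = M.toG (up M g) * l.prod ∧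
    (∀ s ∈ l, s ∈ M.C ∧ M.len s ≤ RU M) ∧ (l.length : ℝ) ≤ M.len g + 1 :=
  ((exists_up M).choose_spec.2 g).choose_spec

/-- the image point of `x n b_r^{s}`, seen from the image of `x` -/
noncomputable def pnt {G : Geo M E} (Ψ : Γ → Γ) (x : M.G) (u : G.R → M.G) (τ : ℝ) (n : M.NN)
    (r : G.R) (s : ℝ) : M.G :=
  (M.ext Ψ x)⁻¹ * M.ext Ψ (x * M.toG n * leg u τ r s)

/-- the data at the scale `Sc` -/
noncomputable def data (G : Geo M E) (cs : Cst G) (Ψ : Γ → Γ) (x : M.G) (Sc τ : ℝ)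
    (u : G.R → M.G) : El.Data G.R E M.NN M.NN where
  μ := volume
  Dom := {n | ‖n‖ ≤ Real.exp (cs.κD * Sc)}
  A Z := M.NB (fm G u τ Z) (cs.c1 * rho G Z)
  Ah Z := M.NB (fm G u τ Z) 1
  U w t := M.NB (fw G u τ w t) cs.TU
  V w t := BoxVol.mvs (cs.RQ w).D cs.ρV (M.Ad (leg u τ w t) : M.L →ₗ[ℝ] M.L)
  lam w t := BoxVol.lamV (cs.RQ w).D cs.ρV (M.Ad (leg u τ w t) : M.L →ₗ[ℝ] M.L)
  f n r s := Sc⁻¹ • G.T (M.h (pnt Ψ x u τ n r s))
  g n r s := up M (pnt Ψ x u τ n r s)
  Bx _ X := tBx G Sc X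
  Ds r t := tDs G Sc r t

/-- homogeneous dimension of the quotient of a ray -/
noncomputable def Dw {G : Geo M E} (cs : Cst G) (w : G.R) : ℝ :=
  ∑ j, (((cs.RQ w).κ j).map G.RS.lam).sum

theorem τ_eq {G : Geo M E} (cs : Cst G) (w : G.R) (v : Fin k → ℝ) :
    (cs.RQ w).τ v = Dw cs w * ⟪(w : E), G.T v⟫ := by
  have h1 : ∀ κ : List (GI M), (∀ i ∈ κ, G.ray i = w) →
      (κ.map (wg M)).sum v = (κ.map G.RS.lam).sum * ⟪(w : E), G.T v⟫ := by
    intro κ hκ
    induction κ with
    | nil => simp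
    | cons i κ ih =>
      rw [List.map_cons, List.sum_cons, List.map_cons, List.sum_cons, LinearMap.add_apply,
        ih (fun j hj => hκ j (List.mem_cons_of_mem _ hj)), G.wg_ray, hκ i List.mem_cons_self,
        add_mul]
  rw [BoxVol.RayQ.τ, LinearMap.sum_apply, Dw, Finset.sum_mul]
  exact Finset.sum_congr rfl fun j _ => h1 _ ((cs.RQ w).κ_w j)

theorem Dw_pos {G : Geo M E} (cs : Cst G) (w : G.R) : 0 < Dw cs w := by
  classical
  obtain ⟨i, hi⟩ := G.ray_surj w
  have hpos : ∀ j, 0 < (((cs.RQ w).κ j).map G.RS.lam).sum := by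
    intro j
    have hne := (cs.RQ w).κ_ne j
    obtain ⟨a, l, hl⟩ := List.exists_cons_of_ne_nil hne
    rw [hl, List.map_cons, List.sum_cons]
    have h1 : 0 ≤ (l.map G.RS.lam).sum := List.sum_nonneg fun x hx => by
      rw [List.mem_map] at hx
      obtain ⟨y, _, rfl⟩ := hx
      exact G.RS.lam_nonneg y
    have := G.lam_pos a
    linarith
  have hn : Nonempty (Fin (cs.RQ w).n) := by
    by_contra h
    rw [not_nonempty_iff] at h
    have h1 : (cs.RQ w).D.P (eg M i) = 0 := Subsingleton.elim _ _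
    rw [(cs.RQ w).ker] at h1
    have h2 : ∀ x ∈ BoxVol.Mw M (fun i => G.ray i = w), M.bas.repr x i = 0 := by
      intro x hx
      induction hx using Submodule.span_induction with
      | mem x hx =>
        obtain ⟨κ, hκ, rfl⟩ := hx
        by_contra h0
        have h3 := coord_mon M i κ h0
        subst h3
        exact hκ (by simpa using hi)
      | zero => simp
      | add a b _ _ h h' => rw [map_add, Finsupp.add_apply, h, h', add_zero]
      | smul r a _ h => rw [map_smul, Finsupp.smul_apply, h, smul_zero]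
    have h3 := h2 _ h1
    rw [eg, Module.Basis.repr_self, Finsupp.single_eq_same] at h3
    exact one_ne_zero h3
  exact Finset.sum_pos (fun j _ => hpos j) Finset.univ_nonempty

/-- the logarithmic volume of boxes -/
noncomputable def GG (G : Geo M E) (X : G.R → ℝ) : ℝ :=
  G.RS.Gt fun i => G.RS.lam i * X (G.ray i)

theorem GG_trans (G : Geo M E) (X : G.R → ℝ) (θ : E) :
    GG G (fun r => X r + ⟪(r : E), θ⟫) = GG G X := by
  unfold GG
  have h := G.RS.Gt_add_l (fun i => G.RS.lam i * X (G.ray i)) θ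
  rw [← h]
  congr 1
  funext i
  rw [G.RS.l_eq, mul_add]
  rfl

theorem GG_shift (G : Geo M E) (X : G.R → ℝ) (s : ℝ) (hs : 0 ≤ s) :
    GG G (fun r => X r + s) ≤ GG G X + G.RS.Gt G.RS.lam * s := by
  unfold GG
  have h1 := G.RS.Gt_add_le (fun i => G.RS.lam i * X (G.ray i)) (fun i => s * G.RS.lam i)
  have e1 : (fun i => G.RS.lam i * (X (G.ray i) + s)) =
      fun i => G.RS.lam i * X (G.ray i) + s * G.RS.lam i := by
    funext i; ring
  rw [e1]
  refine h1.trans (add_le_add le_rfl ?_)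
  refine G.RS.Gt_le fun n hn => ?_
  have e2 : ∑ i, (n i : ℝ) * (s * G.RS.lam i) = (∑ i, (n i : ℝ) * G.RS.lam i) * s := by
    rw [Finset.sum_mul]; exact Finset.sum_congr rfl fun i _ => by ring
  rw [e2]
  exact mul_le_mul_of_nonneg_right (G.RS.le_Gt hn _) hs

theorem exists_frame [FiniteDimensional ℝ E] (G : Geo M E) : ∃ F : El.Frame G.R E,
    ∀ r, F.e r = (r : E) := by
  obtain ⟨c0, hc0, hc⟩ := G.RS.exists_rel
  refine ⟨⟨fun r => (r : E), G.norm_ray, Subtype.val_injective, c0, hc0, ?_, ?_⟩, fun _ => rfl⟩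
  · rw [← hc, Star.comb_apply]
  · have := G.RS.span_Eb
    rw [Subtype.range_coe_subtype]
    exact this

/-- the model with the constants `κ`, `C`, `c0`, `J` -/
noncomputable def mdl [FiniteDimensional ℝ E] {G : Geo M E} (cs : Cst G) (κ C c0 : ℝ) (J : ℕ)
    (hκ : 1 ≤ κ) (hκ' : G.RS.Gt G.RS.lam ≤ κ) (hC : 1 ≤ C) (hc0 : 0 < c0) : El.Mdl G.R E where
  toFrame := ⟨fun r => (r : E), G.norm_ray, Subtype.val_injective, (exists_frame G).choose.c,
    (exists_frame G).choose.c_pos, by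
      have h := (exists_frame G).choose.sum_e
      simp_rw [(exists_frame G).choose_spec] at h
      exact h, by
      have h := (exists_frame G).choose.span
      have e : (exists_frame G).choose.e = fun r : G.R => (r : E) :=
        funext (exists_frame G).choose_spec
      rwa [e] at h⟩
  G := GG G
  D := Dw cs
  κ := κ
  C := C
  c0 := c0
  J := J
  one_le_κ := hκ
  one_le_C := hC
  c0_pos := hc0
  D_pos := Dw_pos cs
  G_trans := GG_trans G
  G_shift X s hs := (GG_shift G X s hs).trans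
    (add_le_add le_rfl (mul_le_mul_of_nonneg_right hκ' hs))

/-- admissible shapes: near-round multiples of `τ` -/
def adm {R : Type*} (τ ω : ℝ) (Z : R → ℝ) : Prop := (∃ m : R → ℕ, ∀ r, Z r = m r * τ) ∧ El.NR ω Z

/-- the parameters of the scale -/
def par {R : Type*} (Sc ε δ ω : ℝ) (q : ℕ) (τ : ℝ) : El.Par R where
  S := Sc
  ε := ε
  δ := δ
  ω := ω
  q := q
  Adm := adm τ ω

end Crest.Agent.R182.ElI
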