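/-
R182, module CLAW (helper860), part 1: quantitative positive spanning, bounded words in `C`,
the size function `szA`.
-/
import Mathlib
import Crest.Agent.R182.OneScale2
import Crest.Agent.R182.BndMain

set_option autoImplicit false

open scoped Pointwise

namespace Crest.Agent.R182.CLaw

open Crest.GroupTheory Crest.Geometry Crest.Agent.R182.QI Crest.Agent.R182.FinPath
  Crest.Agent.R182.FinRed Crest.Agent.R182.Bnd Crest.Agent.R182.Core Crest.Agent.R182.OneScale

variable {Γ : Type*} [Group Γ] {k : ℕ} {S : Set Γ} {π : Γ →* Multiplicative (Fin k → ℤ)}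

/-- a functional is bounded by its `ℓ¹`-norm times the sup norm -/
theorem abs_le_nu1 (ν : (Fin k → ℝ) →ₗ[ℝ] ℝ) (x : Fin k → ℝ) : |ν x| ≤ nu1 ν * ‖x‖ := by
  have h1 : ν x = ∑ i, x i * ν (Pi.single i 1) := by
    conv_lhs => rw [← Finset.univ_sum_single x]
    rw [map_sum]
    refine Finset.sum_congr rfl fun i _ => ?_
    have : (Pi.single i (x i) : Fin k → ℝ) = x i • Pi.single i (1 : ℝ) := by
      rw [← Pi.single_smul, smul_eq_mul, mul_one]
    rw [this, map_smul, smul_eq_mul]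
  rw [h1, nu1, Finset.sum_mul]
  refine (Finset.abs_sum_le_sum_abs _ _).trans (Finset.sum_le_sum fun i _ => ?_)
  rw [abs_mul, mul_comm]
  exact mul_le_mul_of_nonneg_left (norm_le_pi_norm x i) (abs_nonneg _)




section

variable (M : BModel S π)

/-- bounded words in `C` -/
def Wd (R q : ℝ) (g : M.G) : Prop :=
  ∃ l : List M.G, (∀ s ∈ l, s ∈ M.C ∧ M.len s ≤ R) ∧ (l.length : ℝ) ≤ q ∧ g = l.prod

variable {M}

theorem Wd.mem {R q : ℝ} {g : M.G} (h : Wd M R q g) : g ∈ M.C := by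
  obtain ⟨l, hl, -, rfl⟩ := h
  exact M.C.list_prod_mem fun s hs => (hl s hs).1

theorem Wd.nonneg {R q : ℝ} {g : M.G} (h : Wd M R q g) : 0 ≤ q := by
  obtain ⟨l, -, hq, -⟩ := h
  exact (Nat.cast_nonneg _).trans hq

theorem Wd.one {R : ℝ} : Wd M R 0 1 := ⟨[], by simp, by simp, by simp⟩

theorem Wd.single {R : ℝ} {g : M.G} (hg : g ∈ M.C) (h : M.len g ≤ R) : Wd M R 1 g :=
  ⟨[g], by simpa using ⟨hg, h⟩, by simp, by simp⟩

theorem Wd.mul {R q q' : ℝ} {g g' : M.G} (h : Wd M R q g) (h' : Wd M R q' g') :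
    Wd M R (q + q') (g * g') := by
  obtain ⟨l, hl, hq, rfl⟩ := h
  obtain ⟨l', hl', hq', rfl⟩ := h'
  refine ⟨l ++ l', fun s hs => ?_, ?_, by rw [List.prod_append]⟩
  · rcases List.mem_append.1 hs with h | h
    exacts [hl s h, hl' s h]
  · rw [List.length_append]; push_cast; linarith

theorem Wd.inv {R q : ℝ} {g : M.G} (h : Wd M R q g) : Wd M R q g⁻¹ := by
  obtain ⟨l, hl, hq, rfl⟩ := h
  refine ⟨(l.map fun s => s⁻¹).reverse, fun s hs => ?_, ?_, ?_⟩
  · rw [List.mem_reverse, List.mem_map] at hs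
    obtain ⟨s, hs, rfl⟩ := hs
    exact ⟨M.C.inv_mem (hl s hs).1, by rw [M.isLen.inv]; exact (hl s hs).2⟩
  · simpa using hq
  · exact List.prod_inv_reverse l

theorem Wd.pow {R q : ℝ} {g : M.G} (h : Wd M R q g) (n : ℕ) : Wd M R (n * q) (g ^ n) := by
  induction n with
  | zero => simpa using Wd.one
  | succ n ih =>
    rw [pow_succ]
    have := ih.mul h
    push_cast
    rwa [add_mul, one_mul]

theorem Wd.mono {R R' q q' : ℝ} {g : M.G} (h : Wd M R q g) (hR : R ≤ R') (hq : q ≤ q') :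
    Wd M R' q' g := by
  obtain ⟨l, hl, hq', rfl⟩ := h
  exact ⟨l, fun s hs => ⟨(hl s hs).1, (hl s hs).2.trans hR⟩, hq'.trans hq, rfl⟩



/-- size of `Ad g` on `𝔢` -/
noncomputable def sA (M : BModel S π) (g : M.G) : ℝ :=
  ∑ i, ∑ j, |M.bas.repr (M.Ad g (M.bas j)) i|

/-- size function -/
noncomputable def szA (M : BModel S π) (g : M.G) : ℝ := sA M g + sA M g⁻¹

theorem sA_nonneg (g : M.G) : 0 ≤ sA M g :=
  Finset.sum_nonneg fun _ _ => Finset.sum_nonneg fun _ _ => abs_nonneg _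

theorem szA_nonneg (g : M.G) : 0 ≤ szA M g := add_nonneg (sA_nonneg g) (sA_nonneg _)

theorem szA_inv (g : M.G) : szA M g⁻¹ = szA M g := by
  unfold szA
  rw [inv_inv, add_comm]

theorem norm_Ad_le (g : M.G) (x : M.L) :
    ‖M.bas.equivFun (M.Ad g x)‖ ≤ sA M g * ‖M.bas.equivFun x‖ := by
  classical
  refine (pi_norm_le_iff_of_nonneg (mul_nonneg (sA_nonneg g) (norm_nonneg _))).2 fun i => ?_
  rw [Real.norm_eq_abs, Module.Basis.equivFun_apply]
  have hx1 : x = ∑ j, M.bas.repr x j • M.bas j := (M.bas.sum_repr x).symm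
  have h2 : M.bas.repr (M.Ad g x) i =
      ∑ j, M.bas.repr x j * M.bas.repr (M.Ad g (M.bas j)) i := by
    conv_lhs => rw [hx1]
    rw [map_sum, map_sum, Finsupp.coe_finsetSum, Finset.sum_apply]
    refine Finset.sum_congr rfl fun j _ => ?_
    rw [map_smul, map_smul, Finsupp.smul_apply, smul_eq_mul]
  rw [h2]
  refine (Finset.abs_sum_le_sum_abs _ _).trans ?_
  have h3 : ∑ j, |M.bas.repr x j * M.bas.repr (M.Ad g (M.bas j)) i| ≤
      ∑ j, |M.bas.repr (M.Ad g (M.bas j)) i| * ‖M.bas.equivFun x‖ := by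
    refine Finset.sum_le_sum fun j _ => ?_
    rw [abs_mul, mul_comm]
    exact mul_le_mul_of_nonneg_left (norm_le_pi_norm (M.bas.equivFun x) j) (abs_nonneg _)
  refine h3.trans ?_
  rw [← Finset.sum_mul]
  refine mul_le_mul_of_nonneg_right ?_ (norm_nonneg _)
  exact Finset.single_le_sum (f := fun i => ∑ j, |M.bas.repr (M.Ad g (M.bas j)) i|)
    (fun i _ => Finset.sum_nonneg fun _ _ => abs_nonneg _) (Finset.mem_univ i)

/-- `len (v e v⁻¹)` is logarithmic in the size of `v` -/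
theorem dec_szA : Dec M.len (szA M) (M.C : Set M.G) {v | v ∈ M.C ∧ M.h v = 0} := by
  intro R
  obtain ⟨R', hR'⟩ := M.dec R
  have ha := a0 M
  have hlog2 : 0 < Real.log 2 := Real.log_pos (by norm_num)
  refine ⟨M.a * (1 + Real.log (2 + |R'|) / Real.log 2), fun z hz => ?_⟩
  obtain ⟨x, g', hg', rfl, hx, -⟩ := hR' z hz
  refine ⟨M.ex x, g', rfl, hg', fun v _ => ?_⟩
  rw [M.conj_ex]
  refine (M.len_ex_le _).trans ?_
  rw [mul_assoc]
  refine mul_le_mul_of_nonneg_left ?_ ha
  have hs0 := szA_nonneg v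
  have h1 : ‖M.bas.equivFun (M.Ad v x)‖ ≤ szA M v * |R'| := by
    refine (norm_Ad_le v x).trans (mul_le_mul ?_ (hx.trans (le_abs_self _)) (norm_nonneg _) hs0)
    exact le_add_of_nonneg_right (sA_nonneg _)
  have h2 : 2 + ‖M.bas.equivFun (M.Ad v x)‖ ≤ (2 + |R'|) * (2 + szA M v) := by
    have := abs_nonneg R'
    nlinarith
  have h3 : Real.log (2 + ‖M.bas.equivFun (M.Ad v x)‖) ≤
      Real.log (2 + |R'|) + Real.log (2 + szA M v) := by
    have hR0 := abs_nonneg R'
    rw [← Real.log_mul (by positivity) (by positivity)]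
    exact Real.log_le_log (by positivity) h2
  have h4 : Real.log 2 ≤ Real.log (2 + szA M v) := Real.log_le_log (by norm_num) (by linarith)
  have h5 : 0 ≤ Real.log (2 + |R'|) := Real.log_nonneg (by have := abs_nonneg R'; linarith)
  have h6 : Real.log (2 + |R'|) ≤
      Real.log (2 + |R'|) / Real.log 2 * Real.log (2 + szA M v) := by
    rw [div_mul_eq_mul_div, le_div_iff₀ hlog2]
    exact mul_le_mul_of_nonneg_left h4 h5
  linarith

variable (M) in
/-- zero-height words have polynomial size -/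
theorem exists_szA (R : ℝ) : ∃ C : ℝ, 0 ≤ C ∧ ∀ q g, Wd M R q g → M.h g = 0 →
    Real.log (2 + szA M g) ≤ C * Real.log (2 + q) := by
  obtain ⟨A, hA⟩ := M.Ad_C_le R
  have hlog2 : 0 < Real.log 2 := Real.log_pos (by norm_num)
  set D : ℝ := ∑ _i : Fin M.r, ∑ _j : Fin M.r, |A| with hD
  have hD0 : 0 ≤ D := Finset.sum_nonneg fun _ _ => Finset.sum_nonneg fun _ _ => abs_nonneg _
  have hs : ∀ q g, Wd M R q g → M.h g = 0 → sA M g ≤ D * (2 + q) ^ M.d := by
    rintro q g ⟨l, hl, hq, rfl⟩ hg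
    rw [hD, Finset.sum_mul]
    refine Finset.sum_le_sum fun i _ => ?_
    rw [Finset.sum_mul]
    refine Finset.sum_le_sum fun j _ => ?_
    have h1 := hA l hl i j
    rw [hg, map_zero, Real.exp_zero, mul_one] at h1
    refine h1.trans (mul_le_mul (le_abs_self _) ?_ (by positivity) (abs_nonneg _))
    exact pow_le_pow_left₀ (by positivity) (by linarith) _
  refine ⟨Real.log (2 + 2 * D) / Real.log 2 + M.d, by
    have : 0 ≤ Real.log (2 + 2 * D) := Real.log_nonneg (by linarith)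
    positivity, fun q g hw hg => ?_⟩
  have hq0 := hw.nonneg
  have h1 := hs q g hw hg
  have h2 := hs q g⁻¹ hw.inv (by rw [OneScale.h_inv, hg, neg_zero])
  have h3 : 2 + szA M g ≤ (2 + 2 * D) * (2 + q) ^ M.d := by
    have h4 : (1 : ℝ) ≤ (2 + q) ^ M.d := one_le_pow₀ (by linarith)
    unfold szA
    nlinarith
  have h4 : Real.log (2 + szA M g) ≤ Real.log (2 + 2 * D) + M.d * Real.log (2 + q) := by
    have h5 : Real.log ((2 + 2 * D) * (2 + q) ^ M.d) =
        Real.log (2 + 2 * D) + M.d * Real.log (2 + q) := by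
      rw [Real.log_mul (by positivity) (by positivity), Real.log_pow]
    rw [← h5]
    exact Real.log_le_log (by have := szA_nonneg g; linarith) h3
  have h5 : Real.log 2 ≤ Real.log (2 + q) := Real.log_le_log (by norm_num) (by linarith)
  have h6 : 0 ≤ Real.log (2 + 2 * D) := Real.log_nonneg (by linarith)
  have h7 : Real.log (2 + 2 * D) ≤ Real.log (2 + 2 * D) / Real.log 2 * Real.log (2 + q) := by
    rw [div_mul_eq_mul_div, le_div_iff₀ hlog2]
    exact mul_le_mul_of_nonneg_left h5 h6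
  rw [add_mul]
  linarith

end

end Crest.Agent.R182.CLaw
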