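import Mathlib
import Crest.Agent.R182.CLaw1
import Crest.Agent.R182.ElData

-- ▼ part R182/OneScaleVerts
section

set_option autoImplicit false

namespace Crest.Agent.R182.OneScale

open Crest.GroupTheory Crest.Geometry Crest.Agent.R182.QI Crest.Agent.R182.FinPath
  Crest.Agent.R182.FinRed Crest.Agent.R182.Bnd Crest.Agent.R182.Core

variable {k : ℕ} {E : Type*} [NormedAddCommGroup E] [InnerProductSpace ℝ E]
  [FiniteDimensional ℝ E]

/-- the largest value of a functional on a finite positively spanning set controls the functional -/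
theorem exists_max_ge (T : (Fin k → ℝ) ≃ₗ[ℝ] E) (Eb : Finset E)
    (hspan : Submodule.span ℝ (Eb : Set E) = ⊤)
    (hrel : ∃ c : Eb → ℝ, (∀ e, 0 < c e) ∧ ∑ e, c e • (e : E) = 0) :
    ∃ C : ℝ, 0 < C ∧ ∀ ν : (Fin k → ℝ) →ₗ[ℝ] ℝ, ν ≠ 0 → ∃ e : Eb,
      nu1 ν ≤ C * ν (T.symm (e : E)) := by
  classical
  obtain ⟨c, hc, hrel⟩ := hrel
  -- representation of the standard vectors
  have hrep : ∀ i : Fin k, ∃ a : Eb → ℝ, ∑ e, a e • (e : E) = T (Pi.single i 1) := by
    intro i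
    have h1 : T (Pi.single i 1) ∈ Submodule.span ℝ (Eb : Set E) := by rw [hspan]; trivial
    have h2 : (Eb : Set E) = Set.range (Subtype.val : Eb → E) := by simp
    rw [h2] at h1
    obtain ⟨a, ha⟩ := (Submodule.mem_span_range_iff_exists_fun ℝ).1 h1
    exact ⟨a, ha⟩
  choose a ha using hrep
  by_cases hne : Nonempty Eb
  swap
  · -- no directions: `k = 0`
    refine ⟨1, one_pos, fun ν hν => ?_⟩
    exfalso
    apply hν
    refine LinearMap.pi_ext' fun i => LinearMap.ext_ring ?_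
    have h1 := ha i
    have h2 : T (Pi.single i 1) = 0 := by
      rw [← h1]
      exact Finset.sum_eq_zero fun e _ => absurd ⟨e⟩ hne
    have h3 : (Pi.single i 1 : Fin k → ℝ) = 0 := by
      apply T.injective; rw [h2, map_zero]
    simp only [LinearMap.comp_apply, LinearMap.coe_single, LinearMap.zero_apply]
    rw [h3, map_zero]
  -- the constants
  set sc := ∑ e, c e with hsc
  have hsc0 : 0 < sc := Finset.sum_pos (fun e _ => hc e) Finset.univ_nonempty
  set A := ∑ i, ∑ e, |a i e| * (sc / c e + 1) with hA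
  have hA0 : 0 ≤ A := Finset.sum_nonneg fun i _ => Finset.sum_nonneg fun e _ => by
    have := hc e; positivity
  refine ⟨A + 1, by linarith, fun ν hν => ?_⟩
  obtain ⟨e₀, -, hmax⟩ := Finset.exists_max_image (Finset.univ : Finset Eb)
    (fun e => ν (T.symm (e : E))) Finset.univ_nonempty
  refine ⟨e₀, ?_⟩
  set m := ν (T.symm (e₀ : E)) with hm
  have hle : ∀ e : Eb, ν (T.symm (e : E)) ≤ m := fun e => hmax e (Finset.mem_univ e)
  have hsum : ∑ e : Eb, c e * ν (T.symm (e : E)) = 0 := by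
    have h1 : ν (T.symm (∑ e : Eb, c e • (e : E))) = 0 := by rw [hrel, map_zero, map_zero]
    rw [map_sum, map_sum] at h1
    rw [← h1]
    exact Finset.sum_congr rfl fun e _ => by rw [map_smul, map_smul, smul_eq_mul]
  have hm0 : 0 ≤ m := by
    have h1 : 0 ≤ sc * m := by
      rw [← hsum, hsc, Finset.sum_mul]
      exact Finset.sum_le_sum fun e _ => mul_le_mul_of_nonneg_left (hle e) (hc e).le
    exact nonneg_of_mul_nonneg_right h1 hsc0
  have habs : ∀ e : Eb, |ν (T.symm (e : E))| ≤ (sc / c e + 1) * m := by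
    intro e
    have hce := hc e
    rw [abs_le]
    constructor
    · have h1 : c e * ν (T.symm (e : E)) + ∑ e' ∈ Finset.univ.erase e, c e' * ν (T.symm (e' : E)) = 0 := by
        rw [Finset.add_sum_erase Finset.univ (fun e : Eb => c e * ν (T.symm (e : E)))
          (Finset.mem_univ e)]
        exact hsum
      have h2 : ∑ e' ∈ Finset.univ.erase e, c e' * ν (T.symm (e' : E)) ≤ sc * m := by
        refine (Finset.sum_le_sum fun e' _ => mul_le_mul_of_nonneg_left (hle e') (hc e').le).trans ?_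
        rw [← Finset.sum_mul]
        refine mul_le_mul_of_nonneg_right ?_ hm0
        exact Finset.sum_le_sum_of_subset_of_nonneg (Finset.erase_subset _ _)
          fun e' _ _ => (hc e').le
      have h3 : -(sc * m) ≤ c e * ν (T.symm (e : E)) := by linarith
      have h4 : -(sc / c e * m) ≤ ν (T.symm (e : E)) := by
        have h5 : -(sc / c e * m) = -(sc * m) / c e := by ring
        rw [h5, div_le_iff₀ hce]
        linarith
      nlinarith
    · have h1 := hle e
      have h2 : 0 ≤ sc / c e * m := by positivity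
      nlinarith
  -- the norm
  have hν1 : nu1 ν ≤ A * m := by
    unfold nu1
    rw [hA, Finset.sum_mul]
    refine Finset.sum_le_sum fun i _ => ?_
    have h1 : (Pi.single i 1 : Fin k → ℝ) = ∑ e, a i e • T.symm (e : E) := by
      apply T.injective
      rw [map_sum, ← ha i]
      exact Finset.sum_congr rfl fun e _ => by rw [map_smul, LinearEquiv.apply_symm_apply]
    rw [h1, map_sum, Finset.sum_mul]
    refine (Finset.abs_sum_le_sum_abs _ _).trans (Finset.sum_le_sum fun e _ => ?_)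
    rw [map_smul, smul_eq_mul, abs_mul, mul_assoc]
    exact mul_le_mul_of_nonneg_left (habs e) (abs_nonneg _)
  linarith

/-- **legs are verticals**, with uniform constants. -/
theorem exists_verts (T : (Fin k → ℝ) ≃ₗ[ℝ] E) (Eb : Finset E) (hunit : ∀ e ∈ Eb, ‖e‖ = 1)
    (hspan : Submodule.span ℝ (Eb : Set E) = ⊤)
    (hrel : ∃ c : Eb → ℝ, (∀ e, 0 < c e) ∧ ∑ e, c e • (e : E) = 0) :
    ∃ c0 ε₀ : ℝ, 0 < c0 ∧ 0 < ε₀ ∧ ∀ {Γ : Type*} [Group Γ] {S : Set Γ}
      {π : Γ →* Multiplicative (Fin k → ℤ)} (M : BModel S π) (b : Eb → M.G),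
      (∀ e, b e ∈ M.C) → (∀ e, ∃ s : ℝ, 0 < s ∧ ‖T (M.h (b e)) - s • (e : E)‖ ≤ ε₀ * s) →
      Verts M c0 (Set.range b) := by
  classical
  obtain ⟨C, hC, hmax⟩ := exists_max_ge T Eb hspan hrel
  obtain ⟨D, hD, hDb⟩ : ∃ D : ℝ, 0 < D ∧ ∀ v : E, ‖T.symm v‖ ≤ D * ‖v‖ := by
    let f : E →L[ℝ] (Fin k → ℝ) :=
      LinearMap.toContinuousLinearMap (T.symm : E →ₗ[ℝ] (Fin k → ℝ))
    refine ⟨‖f‖ + 1, by positivity, fun v => ?_⟩
    have h1 : ‖f v‖ ≤ ‖f‖ * ‖v‖ := f.le_opNorm v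
    have h2 : f v = T.symm v := rfl
    rw [h2] at h1
    have := norm_nonneg v
    nlinarith
  set ε₀ : ℝ := min (1 / 2) (1 / (2 * C * D)) with hε₀
  have hε₀0 : 0 < ε₀ := lt_min (by norm_num) (by positivity)
  refine ⟨1 / (4 * C * D), ε₀, by positivity, hε₀0, fun M b hbC hb => ?_⟩
  have hne : ∀ e : Eb, M.h (b e) ≠ 0 := by
    intro e h0
    obtain ⟨s, hs, h⟩ := hb e
    rw [h0, map_zero, zero_sub, norm_neg, norm_smul, hunit e e.2, mul_one, Real.norm_eq_abs,
      abs_of_pos hs] at h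
    have : ε₀ ≤ 1 / 2 := min_le_left _ _
    nlinarith
  refine ⟨Set.finite_range b, ?_, ?_, ?_⟩
  · rintro _ ⟨e, rfl⟩; exact hbC e
  · rintro _ ⟨e, rfl⟩; exact hne e
  · intro ν hν
    obtain ⟨e, he⟩ := hmax ν hν
    refine ⟨b e, ⟨e, rfl⟩, ?_⟩
    obtain ⟨s, hs, hse⟩ := hb e
    have hν0 := nu1_pos hν
    set m := ν (T.symm (e : E)) with hm
    set err := T (M.h (b e)) - s • (e : E) with herr
    have h1 : M.h (b e) = s • T.symm (e : E) + T.symm err := by
      rw [herr, map_sub, LinearEquiv.symm_apply_apply, map_smul]; abel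
    have h2 : ‖T.symm err‖ ≤ D * (ε₀ * s) :=
      (hDb err).trans (mul_le_mul_of_nonneg_left hse hD.le)
    have h3 : |ν (T.symm err)| ≤ nu1 ν * (D * (ε₀ * s)) :=
      (CLaw.abs_le_nu1 ν _).trans (mul_le_mul_of_nonneg_left h2 hν0.le)
    have h4 : ν (M.h (b e)) = s * m + ν (T.symm err) := by
      rw [h1, map_add, map_smul, smul_eq_mul]
    have h5 : ε₀ * D ≤ 1 / (2 * C) := by
      have h6 : ε₀ ≤ 1 / (2 * C * D) := min_le_right _ _
      calc ε₀ * D ≤ 1 / (2 * C * D) * D := mul_le_mul_of_nonneg_right h6 hD.le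
        _ = 1 / (2 * C) := by field_simp
    have h6 : nu1 ν * s / (2 * C) ≤ ν (M.h (b e)) := by
      rw [h4]
      have h7 := (abs_le.1 h3).1
      have h8 : nu1 ν * (D * (ε₀ * s)) ≤ nu1 ν * s * (1 / (2 * C)) := by
        have h9 := mul_le_mul_of_nonneg_left h5 (mul_nonneg hν0.le hs.le)
        nlinarith
      have h9 : nu1 ν * s * (1 / C) ≤ s * m := by
        have h10 : nu1 ν / C ≤ m := by
          rw [div_le_iff₀ hC]; linarith
        have h11 := mul_le_mul_of_nonneg_left h10 hs.le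
        calc nu1 ν * s * (1 / C) = s * (nu1 ν / C) := by ring
          _ ≤ s * m := h11
      have h12 : nu1 ν * s / (2 * C) = nu1 ν * s * (1 / C) - nu1 ν * s * (1 / (2 * C)) := by
        field_simp; ring
      rw [h12]
      linarith
    have h7 : ‖M.h (b e)‖ ≤ 2 * D * s := by
      have h8 : ‖T.symm (e : E)‖ ≤ D := by
        have := hDb (e : E)
        rwa [hunit e e.2, mul_one] at this
      have h9 : ε₀ ≤ 1 / 2 := min_le_left _ _
      calc ‖M.h (b e)‖ ≤ ‖s • T.symm (e : E)‖ + ‖T.symm err‖ := by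
            conv_lhs => rw [h1]
            exact norm_add_le _ _
        _ ≤ s * D + D * (ε₀ * s) := by
            refine add_le_add ?_ h2
            rw [norm_smul, Real.norm_eq_abs, abs_of_pos hs]
            exact mul_le_mul_of_nonneg_left h8 hs.le
        _ ≤ 2 * D * s := by
            have : ε₀ * s ≤ 1 / 2 * s := mul_le_mul_of_nonneg_right h9 hs.le
            nlinarith
    calc 1 / (4 * C * D) * nu1 ν * ‖M.h (b e)‖ ≤ 1 / (4 * C * D) * nu1 ν * (2 * D * s) :=
          mul_le_mul_of_nonneg_left h7 (by positivity)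
      _ = nu1 ν * s / (2 * C) := by field_simp; ring
      _ ≤ _ := h6

end Crest.Agent.R182.OneScale
end

-- ▼ part R182/HoleLL

set_option autoImplicit false
set_option linter.unusedSectionVars false

namespace Crest.Agent.R182.HoleOne

open Crest.GroupTheory Crest.Geometry Crest.Agent.R182.QI Crest.Agent.R182.Core
  Crest.Agent.R182.Nb Crest.Agent.R182.Gen Crest.Agent.R182.ElI
  Crest.Agent.R182.FinPath Crest.Agent.R182.FinRed Crest.Agent.R182.Bnd
  Crest.Agent.R182.OneScale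

variable {Γ : Type*} [Group Γ] {k : ℕ} {S : Set Γ} {π : Γ →* Multiplicative (Fin k → ℤ)}
  {M : BModel S π} {E : Type*} [NormedAddCommGroup E] [InnerProductSpace ℝ E]

/-- the types on `E`: linear maps which permute the Riesz directions -/
def LLE (G : Geo M E) : Set (E →ₗ[ℝ] E) :=
  {L | ∃ σ : Equiv.Perm G.R, ∀ e : G.R, L (e : E) = (σ e : E)}

/-- the types on the height space -/
def LLV (G : Geo M E) : Set ((Fin k → ℝ) →ₗ[ℝ] (Fin k → ℝ)) :=
  {L | (G.T : (Fin k → ℝ) →ₗ[ℝ] E) ∘ₗ L ∘ₗ (G.T.symm : E →ₗ[ℝ] (Fin k → ℝ)) ∈ LLE G}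

/-- transport of a type -/
noncomputable def toV (G : Geo M E) (L : E →ₗ[ℝ] E) : (Fin k → ℝ) →ₗ[ℝ] (Fin k → ℝ) :=
  (G.T.symm : E →ₗ[ℝ] (Fin k → ℝ)) ∘ₗ L ∘ₗ (G.T : (Fin k → ℝ) →ₗ[ℝ] E)

theorem toV_apply (G : Geo M E) (L : E →ₗ[ℝ] E) (v : Fin k → ℝ) :
    toV G L v = G.T.symm (L (G.T v)) := rfl

theorem T_toV (G : Geo M E) (L : E →ₗ[ℝ] E) (v : Fin k → ℝ) :
    G.T (toV G L v) = L (G.T v) := by
  rw [toV_apply, LinearEquiv.apply_symm_apply]

theorem toV_mem {G : Geo M E} {L : E →ₗ[ℝ] E} (hL : L ∈ LLE G) : toV G L ∈ LLV G := by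
  change _ ∈ LLE G
  have h1 : (G.T : (Fin k → ℝ) →ₗ[ℝ] E) ∘ₗ toV G L ∘ₗ (G.T.symm : E →ₗ[ℝ] (Fin k → ℝ)) = L := by
    ext v
    simp [toV_apply]
  rw [h1]; exact hL


theorem LLV_eq (G : Geo M E) : LLV G = toV G '' LLE G := by
  ext L
  constructor
  · intro hL
    refine ⟨_, hL, LinearMap.ext fun v => ?_⟩
    rw [toV_apply]
    simp
  · rintro ⟨L, hL, rfl⟩
    exact toV_mem hL


section

variable [FiniteDimensional ℝ E]

theorem ext_R (G : Geo M E) {L L' : E →ₗ[ℝ] E} (h : ∀ e : G.R, L (e : E) = L' (e : E)) :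
    L = L' :=
  LinearMap.ext_on (G.RS.span_Eb) fun e he => h ⟨e, he⟩

theorem finite_LLE (G : Geo M E) : (LLE G).Finite := by
  have h1 : LLE G ⊆ ⋃ σ : Equiv.Perm G.R, {L | ∀ e : G.R, L (e : E) = (σ e : E)} := by
    rintro L ⟨σ, hσ⟩
    exact Set.mem_iUnion.2 ⟨σ, hσ⟩
  refine Set.Finite.subset (Set.finite_iUnion fun σ => ?_) h1
  refine Set.Subsingleton.finite ?_
  intro L hL L' hL'
  exact ext_R G fun e => (hL e).trans (hL' e).symm

theorem finite_LLV (G : Geo M E) : (LLV G).Finite := by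
  rw [LLV_eq]
  exact (finite_LLE G).image _

theorem injective_LLE (G : Geo M E) : ∀ L ∈ LLE G, Function.Injective L := by
  rintro L ⟨σ, hσ⟩
  rw [LinearMap.injective_iff_surjective, ← LinearMap.range_eq_top, eq_top_iff,
    ← G.RS.span_Eb, Submodule.span_le]
  intro e he
  refine ⟨(σ.symm ⟨e, he⟩ : E), ?_⟩
  rw [hσ, Equiv.apply_symm_apply]

theorem injective_LLV (G : Geo M E) : ∀ L ∈ LLV G, Function.Injective L := by
  rw [LLV_eq]
  rintro _ ⟨L, hL, rfl⟩ v w h
  rw [toV_apply, toV_apply] at h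
  exact G.T.injective (injective_LLE G L hL (G.T.symm.injective h))

/-- a common bound of the types -/
theorem exists_bound (G : Geo M E) : ∃ B : ℝ, 1 ≤ B ∧ ∀ L ∈ LLE G, ∀ v : E, ‖L v‖ ≤ B * ‖v‖ := by
  classical
  have h : BddAbove ((fun L : E →ₗ[ℝ] E => ‖LinearMap.toContinuousLinearMap L‖) '' LLE G) :=
    ((finite_LLE G).image _).bddAbove
  obtain ⟨B, hB⟩ := h
  refine ⟨max B 1, le_max_right _ _, fun L hL v => ?_⟩
  have h1 := (LinearMap.toContinuousLinearMap L).le_opNorm v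
  have h2 : ‖LinearMap.toContinuousLinearMap L‖ ≤ B := hB ⟨L, hL, rfl⟩
  have h3 : LinearMap.toContinuousLinearMap L v = L v := rfl
  rw [h3] at h1
  refine h1.trans (mul_le_mul_of_nonneg_right (h2.trans (le_max_left _ _)) (norm_nonneg _))

/-- distinct types are apart on the directions -/
theorem exists_sep (G : Geo M E) : ∃ s0 : ℝ, 0 < s0 ∧ ∀ L ∈ LLE G, ∀ L' ∈ LLE G,
    (∀ e : G.R, ‖L (e : E) - L' (e : E)‖ ≤ s0) → L = L' := by
  classical
  obtain ⟨s, hs, hsep⟩ : ∃ s : ℝ, 0 < s ∧ ∀ e e' : G.R, e ≠ e' → s < ‖(e : E) - (e' : E)‖ := by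
    set F : Finset ℝ := insert 1 ((Finset.univ.filter fun p : G.R × G.R => p.1 ≠ p.2).image
      fun p => ‖(p.1 : E) - (p.2 : E)‖) with hF
    have hne : F.Nonempty := ⟨1, Finset.mem_insert_self _ _⟩
    have hpos : 0 < F.min' hne := by
      rw [Finset.lt_min'_iff]
      intro y hy
      rcases Finset.mem_insert.1 hy with rfl | hy
      · exact one_pos
      · obtain ⟨p, hp, rfl⟩ := Finset.mem_image.1 hy
        have hp' := (Finset.mem_filter.1 hp).2
        rw [norm_pos_iff, sub_ne_zero]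
        exact fun h => hp' (Subtype.ext h)
    refine ⟨F.min' hne / 2, by linarith, fun e e' hee => ?_⟩
    have h1 : F.min' hne ≤ ‖(e : E) - (e' : E)‖ := by
      refine Finset.min'_le _ _ (Finset.mem_insert_of_mem (Finset.mem_image.2 ⟨(e, e'), ?_, rfl⟩))
      exact Finset.mem_filter.2 ⟨Finset.mem_univ _, hee⟩
    linarith
  refine ⟨s, hs, ?_⟩
  rintro L ⟨σ, hσ⟩ L' ⟨σ', hσ'⟩ h
  refine ext_R G fun e => ?_
  rw [hσ, hσ']
  by_contra hne
  have h1 := h e
  rw [hσ, hσ'] at h1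
  exact absurd h1 (not_le.2 (hsep _ _ fun h2 => hne (by rw [h2])))

/-- distinct types are apart on approximate legs -/
theorem exists_sep' (G : Geo M E) : ∃ s1 : ℝ, 0 < s1 ∧ ∃ e1 : ℝ, 0 < e1 ∧ ∀ a : ℝ, 0 < a →
    ∀ v : G.R → E, (∀ e, ‖v e - a • (e : E)‖ ≤ e1 * a) → ∀ L ∈ LLE G, ∀ L' ∈ LLE G,
    (∀ e, ‖L (v e) - L' (v e)‖ ≤ s1 * a) → L = L' := by
  obtain ⟨s0, hs0, h0⟩ := exists_sep G
  obtain ⟨B, hB, hb⟩ := exists_bound G
  refine ⟨s0 / 2, by linarith, s0 / (4 * B), by positivity, fun a ha v hv L hL L' hL' h => ?_⟩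
  refine h0 L hL L' hL' fun e => ?_
  have h1 : a • (L (e : E) - L' (e : E)) =
      (L (v e) - L' (v e)) - (L (v e - a • (e : E)) - L' (v e - a • (e : E))) := by
    simp only [map_sub, map_smul, smul_sub]
    abel
  have h2 : ‖a • (L (e : E) - L' (e : E))‖ ≤ s0 * a := by
    rw [h1]
    refine (norm_sub_le _ _).trans ?_
    have h3 := (norm_sub_le (L (v e - a • (e : E))) (L' (v e - a • (e : E)))).trans
      (add_le_add (hb L hL _) (hb L' hL' _))
    have h4 : B * ‖v e - a • (e : E)‖ ≤ s0 / 4 * a := by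
      calc B * ‖v e - a • (e : E)‖ ≤ B * (s0 / (4 * B) * a) :=
            mul_le_mul_of_nonneg_left (hv e) (by linarith)
        _ = s0 / 4 * a := by field_simp
    have h5 := h e
    linarith
  rw [norm_smul, Real.norm_of_nonneg ha.le, mul_comm] at h2
  exact le_of_mul_le_mul_right h2 ha

/-- the heights of the legs, recovered from `T` -/
theorem mem_C_of_word {l : List M.G} {R : ℝ} (h : ∀ s ∈ l, s ∈ M.C ∧ M.len s ≤ R) :
    l.prod ∈ M.C :=
  M.C.list_prod_mem fun s hs => (h s hs).1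

/-- **unit legs are verticals**, with a uniform constant -/
theorem exists_verts_unit (G : Geo M E) : ∃ c0 ε₀ : ℝ, 0 < c0 ∧ 0 < ε₀ ∧
    ∀ (RC Cb ε₁ τ Sc : ℝ), ε₁ ≤ ε₀ → 0 < τ → 0 < Sc → ∀ un : ElI.Unit G RC Cb ε₁ τ Sc,
      Verts M c0 (Set.range un.u) := by
  obtain ⟨c, hc, hrel⟩ := G.RS.exists_rel
  obtain ⟨c0, ε₀, hc0, hε₀, h⟩ := exists_verts G.T G.RS.Eb G.RS.unit G.RS.span_Eb
    ⟨c, hc, by rw [← Star.comb_apply]; exact hrel⟩
  refine ⟨c0, ε₀, hc0, hε₀, fun RC Cb ε₁ τ Sc h1 hτ hSc un => ?_⟩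
  refine h M un.u (fun e => ?_) fun e => ⟨τ * Sc, by positivity, ?_⟩
  · rw [← un.w_prod e]
    exact mem_C_of_word (un.w_mem e)
  · refine (un.acc e).trans ?_
    exact mul_le_mul_of_nonneg_right h1 (by positivity)

end

end Crest.Agent.R182.HoleOne
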