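/-
R182, module HOLE (helper860): the end of the hole argument: laws of three shapes at every base
point at one scale ⇒ the conclusion of `OneScaleLaw` at this scale.
-/
import Mathlib
import Crest.Agent.R182.HoleLL
import Crest.Agent.R182.HoleShift

set_option autoImplicit false
set_option linter.unusedSectionVars false

open MeasureTheory Set
open scoped ENNReal

namespace Crest.Agent.R182.HoleOne

open Crest.GroupTheory Crest.Geometry Crest.Agent.R182.QI Crest.Agent.R182.Core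
  Crest.Agent.R182.Core.BModel Crest.Agent.R182.HoleNil Crest.Agent.R182.OneScale
  Crest.Agent.R182.ElI

variable {Γ : Type*} [Group Γ] {k : ℕ} {S : Set Γ} {π : Γ →* Multiplicative (Fin k → ℤ)}
  {M : BModel S π} {E : Type*} [NormedAddCommGroup E] [InnerProductSpace ℝ E]

/-- the comparison words: `1` and the long legs -/
def ww (G : Geo M E) (u : G.R → M.G) (J : ℕ) : Option G.R → M.G
  | none => 1
  | some e => u e ^ J

/-- the first run -/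
def w1 (G : Geo M E) (u : G.R → M.G) (J : ℕ) : Option (G.R × Fin (J + 1)) → M.G
  | none => 1
  | some p => u p.1 ^ (p.2 : ℕ)

/-- the words with two runs -/
def ww' (G : Geo M E) (u : G.R → M.G) (J : ℕ) : Option (G.R × Fin (J + 1)) × Option G.R → M.G :=
  fun p => w1 G u J p.1 * ww G u J p.2

theorem law_restrict {Ψ : Γ → Γ} {ι κ : Type*} [Fintype ι] [Fintype κ] {y : M.G} {w : ι → M.G}
    {w' : κ → M.G} (v : ι → κ) (hv : ∀ i, w' (v i) = w i) {B : Set M.NN} {τ : ℝ} {e : ℝ≥0∞}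
    {n : M.NN} {L : (Fin k → ℝ) →ₗ[ℝ] (Fin k → ℝ)} {θ : Fin k → ℝ} 
    (h : Law volume (prof M Ψ y w') B τ e n (pr M w' L θ)) :
    Law volume (prof M Ψ y w) B τ e n (pr M w L θ) := by
  refine le_trans (measure_mono ?_) h
  rintro m ⟨hm, hd⟩
  refine ⟨hm, lt_of_lt_of_le hd ?_⟩
  rw [dist_pi_le_iff dist_nonneg]
  intro i
  have h1 := dist_le_pi_dist (prof M Ψ y w' (n * m)) (pr M w' L θ) (v i)
  have h2 : prof M Ψ y w' (n * m) (v i) = prof M Ψ y w (n * m) i := by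
    simp only [prof, hv]
  have h3 : pr M w' L θ (v i) = pr M w L θ i := by
    simp only [pr, hv]
  rwa [h2, h3] at h1

section

variable [FiniteDimensional ℝ E]

/-- separation of types in the height space -/
theorem exists_sepV (G : Geo M E) : ∃ s2 : ℝ, 0 < s2 ∧ ∃ e1 : ℝ, 0 < e1 ∧ ∀ a : ℝ, 0 < a →
    ∀ v : G.R → Fin k → ℝ, (∀ e, ‖G.T (v e) - a • (e : E)‖ ≤ e1 * a) → ∀ L ∈ LLV G, ∀ L' ∈ LLV G,
    (∀ e, ‖L (v e) - L' (v e)‖ ≤ s2 * a) → L = L' := by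
  obtain ⟨s1, hs1, e1, he1, h⟩ := exists_sep' G
  obtain ⟨D, hD, hDb⟩ : ∃ D : ℝ, 0 < D ∧ ∀ v : Fin k → ℝ, ‖G.T v‖ ≤ D * ‖v‖ := by
    let f : (Fin k → ℝ) →L[ℝ] E :=
      LinearMap.toContinuousLinearMap (G.T : (Fin k → ℝ) →ₗ[ℝ] E)
    refine ⟨‖f‖ + 1, by positivity, fun v => ?_⟩
    have h1 : ‖f v‖ ≤ ‖f‖ * ‖v‖ := f.le_opNorm v
    have h2 : f v = G.T v := rfl
    rw [h2] at h1
    have := norm_nonneg v
    nlinarith
  refine ⟨s1 / D, by positivity, e1, he1, fun a ha v hv => ?_⟩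
  rw [LLV_eq]
  rintro _ ⟨L, hL, rfl⟩ _ ⟨L', hL', rfl⟩ hd
  congr 1
  refine h a ha (fun e => G.T (v e)) hv L hL L' hL' fun e => ?_
  rw [← T_toV, ← T_toV, ← map_sub]
  refine (hDb _).trans ?_
  calc D * ‖toV G L (v e) - toV G L' (v e)‖ ≤ D * (s1 / D * a) :=
        mul_le_mul_of_nonneg_left (hd e) hD.le
    _ = s1 * a := by field_simp

/-- **The end of the hole argument.** -/
theorem end_scale [Countable Γ] (G : Geo M E) : ∃ R' : ℝ, 0 ≤ R' ∧ ∃ s2 : ℝ, 0 < s2 ∧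
    ∃ e1 : ℝ, 0 < e1 ∧ ∀ K : ℕ, ∃ cK : ℝ, 0 ≤ cK ∧ ∀ {Ψ : Γ → Γ}, QIMap S S Ψ K →
    ∀ {u : G.R → M.G} {J : ℕ} {a : ℝ}, 0 < a →
    (∀ e, ‖G.T (M.h (u e ^ J)) - a • (e : E)‖ ≤ e1 * a) →
    ∀ {B₁ B₁' B₂ B₂' B₃ B₃' : Set M.NN} {τ τ' s D₀ : ℝ} {δ : ℝ≥0∞},
    MeasurableSet B₁ → MeasurableSet B₂ → MeasurableSet B₂' → 0 ≤ τ → 0 ≤ τ' → 0 ≤ s →
    volume B₁ ≠ 0 → volume B₁ ≠ ∞ → volume B₂ ≠ 0 → volume B₂ ≠ ∞ →
    volume B₃ ≠ 0 → volume B₃ ≠ ∞ → B₁ ⊆ B₁' → B₂ ⊆ B₂' → B₃ ⊆ B₃' →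
    (∀ c, ((∃ e, ∃ j ≤ J, c = u e ^ j) ∨ (c ∈ M.C ∧ M.len c ≤ R')) →
      (∀ q ∈ B₂, ∀ g ∈ B₁, M.conjN c q * g ∈ M.conjN c '' B₂') ∧
      (∀ q ∈ B₂, ∀ g ∈ B₃, M.conjN c q * g ∈ B₃')) →
    (∀ n : M.NN, ‖n‖ ≤ R' → ∀ g ∈ B₃, n * g ∈ B₃') →
    (∀ n ∈ B₂, M.len (M.toG n) ≤ D₀) →
    (∀ y, ∃ L ∈ LLV G, ∃ θ, Law volume (prof M Ψ y (ww' G u J)) B₁' τ (δ * volume B₁) 1
      (pr M (ww' G u J) L θ)) →
    (∀ y, ∃ L ∈ LLV G, ∃ θ, Law volume (prof M Ψ y (ww' G u J)) B₂' τ (δ * volume B₂) 1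
      (pr M (ww' G u J) L θ)) →
    (∀ y, ∃ L ∈ LLV G, ∃ θ, Law volume (prof M Ψ y (ww' G u J)) B₃' τ (δ * volume B₃) 1
      (pr M (ww' G u J) L θ)) →
    (∀ y Λ Λ', Law volume (prof M Ψ y (ww' G u J)) B₁' τ (δ * volume B₁) 1 Λ →
      Law volume (prof M Ψ y (ww' G u J)) B₃' τ (δ * volume B₃) 1 Λ' → dist Λ Λ' ≤ s) →
    (∀ c ∈ M.C, M.len c ≤ R' → ∀ z o, dist (fh M Ψ (z * (c * ww G u J o)))
      (fh M Ψ (z * ww G u J o)) ≤ τ') →
    2 * δ < 1 → 2 * (4 * τ + τ' + s) ≤ s2 * a →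
    ∃ (θ : M.G → Fin k → ℝ) (Lx : M.G → (Fin k → ℝ) →ₗ[ℝ] (Fin k → ℝ)),
      (∀ g, Lx g ∈ LLV G) ∧
      (∀ g i, |θ g i - fh M Ψ g i| ≤ cK * (D₀ + 1) + τ) ∧
      (∀ g s, M.len s ≤ M.a → Lx (g * s) = Lx g) ∧
      ∀ g e, ∀ j ≤ J, ∀ i,
        |θ (g * u e ^ j) i - θ g i - Lx g (M.h (u e ^ j)) i| ≤ 2 * (4 * τ + τ' + s) := by
  classical
  obtain ⟨R', hR'⟩ := M.dec M.a
  obtain ⟨s2, hs2, e1, he1, hsep⟩ := exists_sepV G
  refine ⟨max R' 0, le_max_right _ _, s2, hs2, e1, he1, fun K => ?_⟩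
  obtain ⟨cK, hcK, hlip⟩ := fh_lip (M := M) K
  refine ⟨cK, hcK, ?_⟩
  intro Ψ hΨ u J a ha hua B₁ B₁' B₂ B₂' B₃ B₃' τ τ' s D₀ δ m₁ m₂ m₂' hτ hτ' hs z₁ t₁ z₂ t₂ z₃ t₃
    hB₁ hB₂ hB₃ hg hg3 hD₀ law₁ law₂ law₃ hole hC hδ hsm
  set η₀ : ℝ := 4 * τ + τ' + s with hη₀
  choose L₁ hL₁ θ₁ h₁ using law₁
  choose L₂ hL₂ θ₂ h₂ using law₂
  choose L₃ hL₃ θ₃ h₃ using law₃
  have hδδ : δ + δ < 1 := by rwa [← two_mul]
  have hδ1 : δ < 1 := lt_of_le_of_lt le_self_add hδδ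
  have h0 : M.h 1 = 0 := M.h_one
  -- equality of types from closeness of profiles
  have types : ∀ L ∈ LLV G, ∀ L' ∈ LLV G, ∀ t t' : Fin k → ℝ,
      (∀ o, ‖(t + L (M.h (ww G u J o))) - (t' + L' (M.h (ww G u J o)))‖ ≤ η₀) →
      L = L' ∧ ‖t - t'‖ ≤ η₀ := by
    intro L hL L' hL' t t' ho
    have hn := ho none
    simp only [ww, h0, map_zero, add_zero] at hn
    refine ⟨hsep a ha (fun e => M.h (u e ^ J)) hua L hL L' hL' fun e => ?_, hn⟩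
    have he := ho (some e)
    simp only [ww] at he
    have h3 : L (M.h (u e ^ J)) - L' (M.h (u e ^ J)) =
        ((t + L (M.h (u e ^ J))) - (t' + L' (M.h (u e ^ J)))) - (t - t') := by abel
    rw [h3]
    refine (norm_sub_le _ _).trans ?_
    linarith
  -- the shift
  have shift : ∀ (y c : M.G) (v : Option G.R → Option (G.R × Fin (J + 1)) × Option G.R),
      ((∃ e, ∃ j ≤ J, c = u e ^ j) ∨ (c ∈ M.C ∧ M.len c ≤ max R' 0)) →
      (∀ z o, dist (fh M Ψ (z * (c * ww G u J o))) (fh M Ψ (z * ww' G u J (v o))) ≤ τ') →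
      ∀ o, ‖(θ₃ y + L₃ y (M.h (ww' G u J (v o)))) - (θ₂ (y * c) + L₂ (y * c) (M.h (ww G u J o)))‖
        ≤ η₀ := by
    intro y c v hc hv o
    have h2' : Law volume (prof M Ψ (y * c) (ww G u J)) B₂' τ (δ * volume B₂) 1
        (pr M (ww G u J) (L₂ (y * c)) (θ₂ (y * c))) := by
      refine law_restrict (fun o => (none, o)) (fun o => ?_) (h₂ (y * c))
      simp [ww', w1]
    have key := shift_law (M := M) (Ψ := Ψ) (y := y) (c := c) (w := ww G u J) (w' := ww' G u J)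
      (v := v) (s := s) m₁ m₂ m₂' hτ' z₁ t₁ z₂ t₂ z₃ t₃ hB₁ hB₃ (hg c hc).1 (hg c hc).2 hv
      (fun n => ⟨_, law_iff.2 (h₁ (y * M.toG n))⟩) (fun n => ⟨_, law_iff.2 (h₃ (y * M.toG n))⟩)
      (fun n Λ Λ' hΛ hΛ' => hole (y * M.toG n) Λ Λ' (law_iff.1 hΛ) (law_iff.1 hΛ')) hδ (h₃ y) h2'
    have h4 := (dist_le_pi_dist _ _ o).trans key
    rw [dist_eq_norm] at h4
    exact h4
  have shiftC : ∀ y c : M.G, c ∈ M.C → M.len c ≤ max R' 0 →
      L₃ y = L₂ (y * c) ∧ ‖θ₃ y - θ₂ (y * c)‖ ≤ η₀ := by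
    intro y c hc1 hc2
    refine types _ (hL₃ y) _ (hL₂ _) _ _ fun o => ?_
    have h5 := shift y c (fun o => (none, o)) (Or.inr ⟨hc1, hc2⟩) (fun z o => ?_) o
    · have h6 : ww' G u J (none, o) = ww G u J o := by simp [ww', w1]
      rw [h6] at h5
      exact h5
    · have h6 : ww' G u J (none, o) = ww G u J o := by simp [ww', w1]
      rw [h6]
      exact hC c hc1 hc2 z o
  have hone : M.len 1 ≤ max R' 0 := by
    rw [M.isLen.one]; exact le_max_right _ _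
  have same : ∀ y, L₃ y = L₂ y ∧ ‖θ₃ y - θ₂ y‖ ≤ η₀ := by
    intro y
    have := shiftC y 1 M.C.one_mem hone
    rwa [mul_one] at this
  have shiftu : ∀ (y : M.G) (e : G.R), ∀ j ≤ J,
      ‖θ₃ y + L₃ y (M.h (u e ^ j)) - θ₂ (y * u e ^ j)‖ ≤ η₀ := by
    intro y e j hj
    have h5 := shift y (u e ^ j) (fun o => (some (e, ⟨j, Nat.lt_succ_of_le hj⟩), o))
      (Or.inl ⟨e, j, hj, rfl⟩) (fun z o => ?_) none
    · simp only [ww', w1, ww, mul_one, h0, map_zero, add_zero] at h5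
      exact h5
    · simp only [ww', w1, dist_self]
      exact hτ'
  -- the overlap
  have ovl : ∀ (y : M.G) (n : M.NN), ‖n‖ ≤ max R' 0 → L₃ (y * M.toG n) = L₃ y := by
    intro y n hn
    have h5 : Law volume (prof M Ψ y (ww' G u J)) B₃ τ (δ * volume B₃) (1 * n)
        (pr M (ww' G u J) (L₃ (y * M.toG n)) (θ₃ (y * M.toG n))) := by
      rw [one_mul]
      exact (law_iff.2 (h₃ (y * M.toG n))).mono hB₃ le_rfl le_rfl
    have h6 := (h₃ y).overlap h5 (fun g hg' => hg3 n hn g hg') (by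
      rw [← add_mul]
      calc (δ + δ) * volume B₃ < 1 * volume B₃ := by
            rw [ENNReal.mul_lt_mul_iff_left z₃ t₃]; exact hδδ
        _ = volume B₃ := one_mul _)
    refine (types _ (hL₃ _) _ (hL₃ y) (θ₃ (y * M.toG n)) (θ₃ y) fun o => ?_).1
    have h7 := (dist_le_pi_dist _ _ ((none, o) :
      Option (G.R × Fin (J + 1)) × Option G.R)).trans h6
    rw [dist_eq_norm] at h7
    have h8 : ww' G u J (none, o) = ww G u J o := by simp [ww', w1]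
    simp only [pr, h8] at h7
    refine h7.trans ?_
    rw [hη₀]; linarith
  refine ⟨θ₂, L₂, hL₂, ?_, ?_, ?_⟩
  · -- the distance to the map
    intro g i
    obtain ⟨n, hn, hnd⟩ : ∃ n ∈ B₂, dist (prof M Ψ g (ww' G u J) n)
        (pr M (ww' G u J) (L₂ g) (θ₂ g)) ≤ τ := by
      by_contra hcon
      push Not at hcon
      have h5 : B₂ ⊆ {m | m ∈ B₂' ∧ τ < dist (prof M Ψ g (ww' G u J) (1 * m))
          (pr M (ww' G u J) (L₂ g) (θ₂ g))} := by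
        intro m hm
        refine ⟨hB₂ hm, ?_⟩
        rw [one_mul]
        exact hcon m hm
      have h6 : volume B₂ ≤ δ * volume B₂ := (measure_mono h5).trans (h₂ g)
      have h7 : δ * volume B₂ < 1 * volume B₂ := by
        rw [ENNReal.mul_lt_mul_iff_left z₂ t₂]; exact hδ1
      rw [one_mul] at h7
      exact absurd h6 (not_le.2 h7)
    have h5 := (dist_le_pi_dist _ _ ((none, none) :
      Option (G.R × Fin (J + 1)) × Option G.R)).trans hnd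
    have h6 := (dist_le_pi_dist _ _ i).trans h5
    simp only [prof, pr, ww', w1, ww, mul_one, h0, map_zero, add_zero] at h6
    rw [Real.dist_eq] at h6
    have h7 := hlip Ψ hΨ g (M.toG n) i
    have h8 : cK * (M.len (M.toG n) + 1) ≤ cK * (D₀ + 1) :=
      mul_le_mul_of_nonneg_left (by linarith [hD₀ n hn]) hcK
    have h9 : θ₂ g i - fh M Ψ g i = (fh M Ψ (g * M.toG n) i - fh M Ψ g i) -
        (fh M Ψ (g * M.toG n) i - θ₂ g i) := by ring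
    rw [h9]
    refine (abs_sub _ _).trans ?_
    linarith
  · -- constancy of the type
    intro g t ht
    obtain ⟨x, c, hcC, hgt, hx, hcl⟩ := hR' t ht
    have hn : M.toG (M.E.symm x) = M.ex x := by rw [toG_apply, LinearEquiv.apply_symm_apply]
    have hnn : ‖M.E.symm x‖ ≤ max R' 0 := hx.trans (le_max_left _ _)
    rw [hgt, ← mul_assoc, ← hn, ← (shiftC (g * M.toG (M.E.symm x)) c hcC
      (hcl.trans (le_max_left _ _))).1, ovl g _ hnn, (same g).1]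
  · intro g e j hj i
    have h5 := (norm_le_pi_norm _ i).trans (shiftu g e j hj)
    have h6 := (norm_le_pi_norm _ i).trans (same g).2
    rw [Real.norm_eq_abs] at h5 h6
    simp only [Pi.sub_apply, Pi.add_apply] at h5 h6
    rw [(same g).1] at h5
    have h7 : θ₂ (g * u e ^ j) i - θ₂ g i - L₂ g (M.h (u e ^ j)) i =
        (θ₃ g i - θ₂ g i) - (θ₃ g i + L₂ g (M.h (u e ^ j)) i - θ₂ (g * u e ^ j) i) := by ring
    rw [h7]
    refine (abs_sub _ _).trans ?_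
    linarith

end

end Crest.Agent.R182.HoleOne
private theorem rz_e72368c535 : type_of% @_root_.Crest.Agent.R182.HoleOne.w1.eq_1 := @_root_.Crest.Agent.R182.HoleOne.w1.eq_1 -- L30
private theorem rz_c766989338 : type_of% @_root_.Crest.Agent.R182.HoleOne.ww.eq_1 := @_root_.Crest.Agent.R182.HoleOne.ww.eq_1 -- L25
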