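/-
R182, module HOLE (helper823): the geometry of the sets used in `HoleLaw` for boxes of families
(`SideGeo`), from finitely many comparisons of families.
-/
import Mathlib
import Crest.Agent.R182.HoleLaw
import Crest.Agent.R182.BoxNN
import Crest.Agent.R182.BoxGen
import Crest.Agent.R182.NbEntF
import Crest.Agent.R182.GenBox

set_option autoImplicit false
set_option linter.unusedSectionVars false

open MeasureTheory Set
open scoped ENNReal

namespace Crest.Agent.R182.Nb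

variable {L : Type*} [LieRing L] [LieAlgebra ℝ L]

theorem pow_le_aux {T : ℝ} (hT : 0 ≤ T) {n c : ℕ} (hn : 1 ≤ n) (hc : n ≤ c) :
    T ^ n ≤ T + T ^ c := by
  rcases le_total T 1 with h | h
  · have h1 : T ^ n ≤ T ^ 1 := pow_le_pow_of_le_one hT h hn
    rw [pow_one] at h1
    have : 0 ≤ T ^ c := by positivity
    linarith
  · have h1 : T ^ n ≤ T ^ c := pow_le_pow_right₀ h hc
    linarith

/-- **comparison of two families**, with arbitrary factor -/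
theorem exists_comp (c : ℕ) (σ τ : Type*) [Fintype σ] [Fintype τ] :
    ∃ A : ℝ, 1 ≤ A ∧ ∀ {L : Type*} [LieRing L] [LieAlgebra ℝ L] (g : σ → L) (g' : τ → L), Nil c g →
      ∀ T : ℝ, 0 ≤ T → (∀ i, g' i ∈ Bx c g T) → ∀ s, 0 ≤ s → Bx c g' s ⊆ Bx c g (A * ((T + T ^ c) * s)) := by
  have hC := brC_pos σ c
  set A : ℝ := (KL τ c).card * brC σ c ^ c + 1 with hA
  have hA1 : 0 ≤ (KL τ c).card * brC σ c ^ c := by positivity
  refine ⟨A, by linarith, ?_⟩
  intro L _ _ g g' hN T hT hg s hs x hx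
  obtain ⟨a, ha, rfl⟩ := hx
  have h1 : ∀ κ ∈ KL τ c, a κ • mon g' κ ∈ Bx c g (s * (brC σ c ^ c * (T + T ^ c))) := by
    intro κ hκ
    rw [mem_KL] at hκ
    by_cases hκ0 : κ = []
    · subst hκ0
      simp only [mon_nil, smul_zero]
      exact Bx_zero_mem (by positivity)
    have hκ1 : 1 ≤ κ.length := by
      rcases κ with _ | ⟨_, _⟩
      · exact absurd rfl hκ0
      · simp
    have h2 := mon_comp_mem hN (v := g') (t := fun _ => T) (fun _ => hT) hg κ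
    refine Bx_mono ?_ (Bx_smul h2 (a κ))
    rw [List.map_const', List.prod_replicate]
    have h3 : brC σ c ^ κ.length ≤ brC σ c ^ c := pow_le_pow_right₀ hC hκ
    have h4 : T ^ κ.length ≤ T + T ^ c := pow_le_aux hT hκ1 hκ
    have h5 := ha κ
    gcongr
  refine Bx_mono ?_ (Bx_sum _ _ _ h1)
  rw [Finset.sum_const, nsmul_eq_mul, hA]
  have h0 : 0 ≤ (T + T ^ c) * s := by positivity
  nlinarith

/-- comparison with a factor `≤ 1` -/
theorem exists_comp_small (c : ℕ) (σ τ : Type*) [Fintype σ] [Fintype τ] :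
    ∃ A : ℝ, 1 ≤ A ∧ ∀ {L : Type*} [LieRing L] [LieAlgebra ℝ L] (g : σ → L) (g' : τ → L), Nil c g →
      ∀ T : ℝ, 0 ≤ T → T ≤ 1 → (∀ i, g' i ∈ Bx c g T) → ∀ s, 0 ≤ s →
      Bx c g' s ⊆ Bx c g (A * (T * s)) := by
  obtain ⟨A, hA, h⟩ := exists_comp c σ τ
  refine ⟨2 * A, by linarith, ?_⟩
  intro L _ _ g g' hN T hT hT1 hg s hs x hx
  by_cases hc : 1 ≤ c
  · refine Bx_mono ?_ (h g g' hN T hT hg s hs hx)
    have h6 : T ^ c ≤ T ^ 1 := pow_le_pow_of_le_one hT hT1 hc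
    rw [pow_one] at h6
    have h7 : (T + T ^ c) * s ≤ (2 * T) * s := by gcongr; linarith
    calc A * ((T + T ^ c) * s) ≤ A * ((2 * T) * s) := by gcongr
      _ = 2 * A * (T * s) := by ring
  · have hc0 : c = 0 := by omega
    have h7 : x = 0 := by
      obtain ⟨a, -, rfl⟩ := hx
      refine Finset.sum_eq_zero fun κ' hκ => ?_
      rw [mem_KL] at hκ
      have h9 : κ' = [] := List.length_eq_zero_iff.1 (by omega)
      rw [h9, mon_nil, smul_zero]
    rw [h7]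
    exact Bx_zero_mem (by positivity)

/-- comparison with a factor `≥ 1` -/
theorem exists_comp_big (c : ℕ) (σ τ : Type*) [Fintype σ] [Fintype τ] :
    ∃ A : ℝ, 1 ≤ A ∧ ∀ {L : Type*} [LieRing L] [LieAlgebra ℝ L] (g : σ → L) (g' : τ → L), Nil c g →
      ∀ T : ℝ, 1 ≤ T → (∀ i, g' i ∈ Bx c g T) → ∀ s, 0 ≤ s →
      Bx c g' s ⊆ Bx c g (A * (T ^ (c + 1) * s)) := by
  obtain ⟨A, hA, h⟩ := exists_comp c σ τ
  refine ⟨2 * A, by linarith, ?_⟩
  intro L _ _ g g' hN T hT hg s hs x hx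
  refine Bx_mono ?_ (h g g' hN T (by linarith) hg s hs hx)
  have h6 : T ^ c ≤ T ^ (c + 1) := pow_le_pow_right₀ hT (by omega)
  have h8 : T ≤ T ^ (c + 1) := by
    calc T = T ^ 1 := (pow_one T).symm
      _ ≤ T ^ (c + 1) := pow_le_pow_right₀ hT (by omega)
  have h7 : (T + T ^ c) * s ≤ (2 * T ^ (c + 1)) * s := by gcongr; linarith
  calc A * ((T + T ^ c) * s) ≤ A * ((2 * T ^ (c + 1)) * s) := by gcongr
    _ = 2 * A * (T ^ (c + 1) * s) := by ring

end Crest.Agent.R182.Nb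

namespace Crest.Agent.R182.HoleGeo

open Crest.Agent.R182.Core Crest.Agent.R182.Core.BModel Crest.Agent.R182.Nb
  Crest.Agent.R182.HoleNil

variable {Γ : Type*} [Group Γ] {k : ℕ} {S : Set Γ} {π : Γ →* Multiplicative (Fin k → ℤ)}

variable (M : BModel S π) (σ : Type*) [Fintype σ]

/-- the constants of the geometry of boxes -/
structure GC where
  J : ℕ
  c1 : ℝ
  e0 : ℝ
  A0 : ℝ
  A1 : ℝ
  A2 : ℝ
  A3 : ℝ

variable {M} {σ} in
/-- the sets of the increment -/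
def side {ρ : Type*} (ray : σ → ρ) (κ : GC) (FYb FZ : σ → M.L) (FW : ρ → σ → M.L) (e : ℝ) :
    Side M.NN ρ where
  W r := M.NB (FW r) κ.c1
  W' r := M.NB (FW r) 1
  U r := {n | ∃ j, ray j = r ∧ ∃ a : ℝ, |a| ≤ κ.A0 ∧ M.E n = a • FZ j}
  K := M.NB FYb e
  K1 := M.NB FYb (κ.A1 * e)
  K2 := M.NB FYb (κ.A2 * e)
  K3 := M.NB FYb (κ.A3 * e)
  B := M.NB FZ κ.c1
  B' := M.NB FZ 1

/-- what the constants have to satisfy -/
structure GC.Ok (κ : GC) : Prop where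
  c1_pos : 0 < κ.c1
  c1_le : κ.c1 ≤ 1
  e0_pos : 0 < κ.e0
  e0_le : κ.e0 ≤ κ.c1
  A0_nonneg : 0 ≤ κ.A0
  A1_one : 1 ≤ κ.A1
  A12 : κ.A1 ≤ κ.A2
  A23 : κ.A2 ≤ κ.A3
  mul : ∀ F : σ → M.L, ∀ a ∈ M.NB F κ.c1, ∀ b ∈ M.NB F κ.c1, a * b ∈ M.NB F 1
  mul' : ∀ F : σ → M.L, ∀ e : ℝ, 0 ≤ e → e ≤ 1 → ∀ a ∈ M.NB F (κ.c1 * e), ∀ b ∈ M.NB F (κ.c1 * e),
    a * b ∈ M.NB F e
  geo : ∀ {ρ : Type} (ray : σ → ρ) (FY FYb FZ : σ → M.L) (FW : ρ → σ → M.L) (e : ℝ), 0 < e →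
    e ≤ κ.e0 → (∀ s, 0 < s → volume (M.NB FYb s) ≠ 0) → (∀ s, 0 < s → volume (M.NB FZ s) ≠ 0) →
    (∀ j, FZ j ∈ Bx M.c (FW (ray j)) κ.e0) → (∀ j, FZ j ∈ Bx M.c FYb 1) →
    (∀ j, FY j ∈ Bx M.c FYb e) → M.NB FYb e ⊆ M.NB FZ κ.e0 →
    SideGeo volume (M.NB FY κ.c1) (M.NB FY 1) κ.J (ENNReal.ofReal (κ.A3 ^ M.r))
      (side ray κ FYb FZ FW e)

theorem exists_GC (hB : M.star.BCH1 M.c) : ∃ κ : GC, κ.Ok M σ := by
  classical
  obtain ⟨J, A0', hA0', hgen⟩ := Star.exists_gen hB σ 1 zero_le_one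
  set A0 := A0' + 1 with hA0
  have hA01 : 1 ≤ A0 := by linarith
  obtain ⟨Ap, hAp, hprod⟩ := M.star.exists_prod_mem_T M.c σ A0 hA01 J
  obtain ⟨Ac, hAc, hcomp⟩ := Nb.exists_comp_small M.c σ σ
  set T := Ap * A0 + 2 * Ac with hT
  have hT1 : 1 ≤ T := by nlinarith
  obtain ⟨A, H⟩ := M.star.exists_famConst M.c σ (T * T) (by nlinarith)
  have hA := H.one_le
  have hTT : T ≤ T * T := by nlinarith
  set A1 := A with hA1
  set A2 := A * A1 with hA2
  set A3 := A * (A2 + 2 * Ac) with hA3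
  have hA21 : 1 ≤ A2 := by nlinarith
  have hA12 : A1 ≤ A2 := by nlinarith
  have hA23 : A2 ≤ A3 := by nlinarith
  have hA31 : 1 ≤ A3 := hA21.trans hA23
  have hA30 : 0 < A3 := by linarith
  set c1 := A⁻¹ with hc1
  have hc1p : 0 < c1 := by positivity
  have hc1l : c1 ≤ 1 := inv_le_one_of_one_le₀ hA
  have hAc1 : A * c1 = 1 := mul_inv_cancel₀ (by linarith)
  set e0 := c1 / (A3 * A0) with he0
  have he0p : 0 < e0 := by positivity
  have h1A : 1 ≤ A3 * A0 := by nlinarith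
  have he0c : e0 ≤ c1 := div_le_self hc1p.le h1A
  have he0A : A3 * e0 ≤ 1 := by
    rw [he0, mul_div_assoc', div_le_one (by positivity)]
    nlinarith
  have he0B : A0 * e0 ≤ c1 := by
    rw [he0, mul_div_assoc', div_le_iff₀ (by positivity)]
    nlinarith [mul_le_mul hA31 (le_refl (A0 * c1)) (by positivity) (by positivity)]
  have hmul' : ∀ F : σ → M.L, ∀ s : ℝ, 0 ≤ s → s ≤ T → ∀ t : ℝ, 0 ≤ t → t ≤ T →
      ∀ a ∈ M.NB F s, ∀ b ∈ M.NB F t, a * b ∈ M.NB F (A * max s t) := by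
    intro F s hs hsT t ht htT a ha b hb
    rw [mem_NB, E_mul]
    exact H.op_mem F (M.nilC.nil F) s t hs (hsT.trans hTT) ht (htT.trans hTT) _ ha _ hb
  have hmul : ∀ F : σ → M.L, ∀ a ∈ M.NB F c1, ∀ b ∈ M.NB F c1, a * b ∈ M.NB F 1 := by
    intro F a ha b hb
    have := hmul' F c1 hc1p.le (by linarith) c1 hc1p.le (by linarith) a ha b hb
    rwa [max_self, hAc1] at this
  refine ⟨⟨J, c1, e0, A0, A1, A2, A3⟩, hc1p, hc1l, he0p, he0c, by linarith, hA, hA12, hA23, hmul,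
    ?_, ?_⟩
  · intro F e he he1 a ha b hb
    have hce : 0 ≤ c1 * e := by positivity
    have hce1 : c1 * e ≤ T := by nlinarith
    have := hmul' F (c1 * e) hce hce1 (c1 * e) hce hce1 a ha b hb
    rwa [max_self, ← mul_assoc, hAc1, one_mul] at this
  intro ρ ray FY FYb FZ FW e he hee hV1 hV2 h1 h2 h3 h4
  have hA3e : A3 * e ≤ 1 := (mul_le_mul_of_nonneg_left hee hA30.le).trans he0A
  have he1 : e ≤ 1 := by nlinarith
  have hA2e : A2 * e ≤ 1 := (mul_le_mul_of_nonneg_right hA23 he.le).trans hA3e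
  have hA1e : A1 * e ≤ 1 := (mul_le_mul_of_nonneg_right hA12 he.le).trans hA2e
  have hUb : ∀ u : M.NN, (u ∈ ⋃ r, (side ray ⟨J, c1, e0, A0, A1, A2, A3⟩ FYb FZ FW e).U r) →
      M.E u ∈ Bx M.c FYb A0 := by
    intro u hu
    rw [mem_iUnion] at hu
    obtain ⟨r, j, -, a, ha, hua⟩ := hu
    rw [hua]
    refine Bx_mono ?_ (Bx_smul (h2 j) a)
    simpa using ha
  have hconj : ∀ p : M.NN, M.E p ∈ Bx M.c FYb T → ∀ t : ℝ, 0 ≤ t → t ≤ T → ∀ n ∈ M.NB FYb t,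
      p⁻¹ * n * p ∈ M.NB FYb (A * t) := by
    intro p hp t ht htT n hn
    have h5 : p⁻¹ * n * p = p⁻¹ * n * (p⁻¹)⁻¹ := by rw [inv_inv]
    rw [h5, mem_NB, E_conj, BModel.E_inv]
    exact H.cj_mem FYb (M.nilC.nil _) T t (by linarith) hTT ht (htT.trans hTT) _ (Bx_neg hp) _ hn
  have hFY : M.NB FY c1 ⊆ M.NB FYb (2 * Ac * e) := by
    intro n hn
    refine Bx_mono ?_ (hcomp FYb FY (M.nilC.nil _) e he.le he1 h3 c1 hc1p.le hn)
    have h6 : e * c1 ≤ e * 1 := by gcongr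
    nlinarith
  have hFYe : 2 * Ac * e ≤ T := by nlinarith
  constructor
  · exact measurableSet_NB M _ _
  · exact measurableSet_NB M _ _
  · exact measurableSet_NB M _ _
  · exact measurableSet_NB M _ _
  · exact hV1 e he
  · exact (volume_NB_lt_top M _ _).ne
  · exact hV2 c1 hc1p
  · exact (volume_NB_lt_top M _ _).ne
  · exact NB_mono (mul_le_mul_of_nonneg_right hA12 he.le)
  · -- conj
    intro l hl hlU n hn
    have h5 : M.E l.prod ∈ Bx M.c FYb T := by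
      rw [E_prod]
      refine Bx_mono ?_ (hprod FYb (M.nilC.nil _) A0 (by linarith) le_rfl (l.map M.E)
        (by simpa using hl) ?_)
      · nlinarith
      · intro y hy
        obtain ⟨u, hu, rfl⟩ := List.mem_map.1 hy
        exact hUb u (hlU u hu)
    exact hconj _ h5 e he.le (by linarith) n hn
  · -- conj1
    intro r u hu n hn
    have h5 : M.E u ∈ Bx M.c FYb T := by
      refine Bx_mono ?_ (hUb u (mem_iUnion.2 ⟨r, hu⟩))
      nlinarith
    have h6 := hconj u h5 (A1 * e) (by positivity) (by linarith) n hn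
    rw [← mul_assoc] at h6
    exact h6
  · -- K23
    intro n hn m hm
    have h5 : m⁻¹ ∈ M.NB FYb (2 * Ac * e) := hFY (NB_inv hm)
    refine NB_mono ?_ (hmul' FYb (A2 * e) (by positivity) (by linarith) (2 * Ac * e)
      (by positivity) hFYe n hn _ h5)
    change A * max (A2 * e) (2 * Ac * e) ≤ A3 * e
    have h8 : A3 * e = A * ((A2 + 2 * Ac) * e) := by rw [hA3]; ring
    rw [h8]
    refine mul_le_mul_of_nonneg_left (max_le ?_ ?_) (by linarith)
    · nlinarith [mul_nonneg (by linarith : (0:ℝ) ≤ Ac) he.le]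
    · nlinarith [mul_nonneg (by linarith : (0:ℝ) ≤ A2) he.le]
  · -- vol
    change volume (M.NB FYb (A3 * e)) ≤ _
    rw [volume_NB_smul hA30]
    exact le_rfl
  · intro r
    exact NB_mono hc1l
  · -- UW
    rintro r u ⟨j, hj, a, ha, hua⟩ g hg
    have h5 : u ∈ M.NB (FW r) c1 := by
      rw [mem_NB, hua]
      have h6 := h1 j
      rw [hj] at h6
      refine Bx_mono ?_ (Bx_smul h6 a)
      exact (mul_le_mul_of_nonneg_right ha he0p.le).trans he0B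
    exact hmul _ _ h5 _ hg
  · exact NB_mono hc1l
  · -- gen
    intro g hg
    obtain ⟨l, hl1, hl2, hl3⟩ := hgen FZ (M.nilC.nil _) (M.E g) (Bx_mono hc1l hg)
    refine ⟨l.map fun p => M.E.symm (p.1 • FZ p.2), by simpa using hl1, ?_, ?_⟩
    · intro u hu
      obtain ⟨p, hp, rfl⟩ := List.mem_map.1 hu
      refine mem_iUnion.2 ⟨ray p.2, p.2, rfl, p.1, (hl2 p hp).trans (by linarith), ?_⟩
      rw [LinearEquiv.apply_symm_apply]
    · apply M.E.injective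
      rw [E_prod, ← hl3, List.map_map]
      congr 1
      refine List.map_congr_left fun p _ => ?_
      rw [Function.comp_apply, LinearEquiv.apply_symm_apply]
  · -- KB
    intro k hk g hg
    exact hmul _ _ (NB_mono he0c (h4 hk)) _ hg

/-! ### comparison of word tuples -/

variable {M}

theorem Clr_mul {R : ℝ} {m m' : ℕ} {g g' : M.G} (h : g ∈ Clr M R m) (h' : g' ∈ Clr M R m') :
    g * g' ∈ Clr M R (m + m') := by
  obtain ⟨l, hl, rfl, h⟩ := h
  obtain ⟨l', hl', rfl, h'⟩ := h'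
  refine ⟨l ++ l', by simp; omega, List.prod_append, fun s hs => ?_⟩
  rcases List.mem_append.1 hs with hs | hs
  · exact h s hs
  · exact h' s hs

theorem Clr_mono {R : ℝ} {m m' : ℕ} {g : M.G} (h : g ∈ Clr M R m) (hm : m ≤ m') :
    g ∈ Clr M R m' := by
  obtain ⟨l, hl, h1⟩ := h
  exact ⟨l, hl.trans hm, h1⟩

theorem Clr_one (R : ℝ) : (1 : M.G) ∈ Clr M R 0 := ⟨[], le_rfl, rfl, by simp⟩

variable (M) in
/-- touching, for all basis vectors -/
def TouchAll {ρ : Type*} (ray : M.gen → ρ) (g : ρ → M.G) (T : ℝ) : Prop :=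
  ∀ r (l : Fin M.r), M.Ad (g r) (M.bas l) ∈ Bx M.c (Gen.fam M ray g) T

/-- touching for the generators implies touching for all basis vectors -/
theorem exists_touchAll (hs : Gen.Spans M) (T : ℝ) (hT : 0 ≤ T) : ∃ T' : ℝ, 0 ≤ T' ∧
    ∀ {ρ : Type} (ray : M.gen → ρ) (g : ρ → M.G), Gen.Touch M ray g T → TouchAll M ray g T' := by
  classical
  obtain ⟨A, hA, hcomp⟩ := Nb.exists_comp M.c M.gen M.gen
  have h1 : ∀ l : Fin M.r, ∃ t : ℝ, 0 ≤ t ∧ M.bas l ∈ Bx M.c (fun i : M.gen => M.bas i) t := by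
    intro l
    obtain ⟨t, ht, h⟩ := Nb.exists_mem_Bx (c := M.c) hs (M.nilC.nil _) (M.bas l)
    exact ⟨t, ht, h⟩
  choose t ht hmem using h1
  set B := ∑ l, t l with hB
  have hB0 : 0 ≤ B := Finset.sum_nonneg fun l _ => ht l
  have hle : ∀ l, t l ≤ B := fun l => Finset.single_le_sum (fun l _ => ht l) (Finset.mem_univ l)
  refine ⟨A * ((T + T ^ M.c) * B), by positivity, fun {ρ} ray g hT' r l => ?_⟩
  have h2 : M.Ad (g r) (M.bas l) ∈ Bx M.c (fun i : M.gen => M.Ad (g r) (M.bas i)) B :=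
    (mem_Bx_Ad (g r) _).2 (Bx_mono (hle l) (hmem l))
  exact hcomp (Gen.fam M ray g) (fun i : M.gen => M.Ad (g r) (M.bas i)) (M.nilC.nil _) T hT
    (fun i => hT' r i) B hB0 h2

/-- **(Q)**: comparison of two word tuples. -/
theorem exists_Q (M : BModel S π) (R T : ℝ) (hT : 0 ≤ T) : ∃ A : ℝ, 1 ≤ A ∧
    ∀ {ρ : Type} (ray : M.gen → ρ) (g g' : ρ → M.G) (c : M.G) (N : ℕ),
    (∀ r, g r ∈ Clr M R N) → (∀ r, g' r ∈ Clr M R N) → c ∈ Clr M R N → TouchAll M ray g' T →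
    ∀ i : M.gen, M.Ad c (Gen.fam M ray g i) ∈ Bx M.c (Gen.fam M ray g')
      (A * (1 + N) ^ M.d * Real.exp (M.wt i (M.h c + M.h (g (ray i)) - M.h (g' (ray i))))) := by
  classical
  obtain ⟨A, hA, hAd⟩ := exists_Ad_bound M R
  refine ⟨M.r * (A * 3 ^ M.d * T) + 1, by
    have : 0 ≤ M.r * (A * 3 ^ M.d * T) := by positivity
    linarith, fun {ρ} ray g g' c N hg hg' hc hT' i => ?_⟩
  set r := ray i with hr
  set z := (g' r)⁻¹ * (c * g r) with hz
  have hzC : z ∈ Clr M R (3 * N) := Clr_mono (Clr_mul (Clr_inv M (hg' r)) (Clr_mul hc (hg r)))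
    (by omega)
  have h1 : M.Ad c (Gen.fam M ray g i) = M.Ad (g' r) (M.Ad z (M.bas i)) := by
    have h2 : c * g r = g' r * z := by rw [hz]; group
    change M.Ad c (M.Ad (g r) (M.bas i)) = _
    rw [← LinearEquiv.mul_apply, ← map_mul, h2, map_mul, LinearEquiv.mul_apply]
  have hhz : M.h z = M.h c + M.h (g r) - M.h (g' r) := by
    rw [hz, M.h_mul, M.h_mul, M.h_inv]; abel
  rw [h1, ← hhz, ← M.bas.sum_repr (M.Ad z (M.bas i)), map_sum]
  have h3 : ∀ l ∈ (Finset.univ : Finset (Fin M.r)),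
      M.Ad (g' r) (M.bas.repr (M.Ad z (M.bas i)) l • M.bas l) ∈ Bx M.c (Gen.fam M ray g')
        (A * (1 + (3 * N : ℕ)) ^ M.d * Real.exp (M.wt i (M.h z)) * T) := by
    intro l _
    rw [map_smul]
    refine Bx_mono ?_ (Bx_smul (hT' r l) _)
    exact mul_le_mul_of_nonneg_right (hAd _ z hzC l i) hT
  refine Bx_mono ?_ (Bx_sum _ _ _ h3)
  rw [Finset.sum_const, Finset.card_univ, Fintype.card_fin, nsmul_eq_mul]
  have h4 : ((1:ℝ) + (3 * N : ℕ)) ^ M.d ≤ 3 ^ M.d * (1 + N) ^ M.d := by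
    rw [← mul_pow]
    push_cast
    gcongr
    linarith
  have h5 : 0 < Real.exp (M.wt i (M.h z)) := Real.exp_pos _
  calc (M.r : ℝ) * (A * (1 + (3 * N : ℕ)) ^ M.d * Real.exp (M.wt i (M.h z)) * T)
      ≤ M.r * (A * (3 ^ M.d * (1 + N) ^ M.d) * Real.exp (M.wt i (M.h z)) * T) := by gcongr
    _ = (M.r * (A * 3 ^ M.d * T)) * (1 + N) ^ M.d * Real.exp (M.wt i (M.h z)) := by ring
    _ ≤ (M.r * (A * 3 ^ M.d * T) + 1) * (1 + N) ^ M.d * Real.exp (M.wt i (M.h z)) := by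
        gcongr; linarith

theorem mem_span_of_Bx {L : Type*} [LieRing L] [LieAlgebra ℝ L] {σ : Type*} [Fintype σ] {c : ℕ}
    {g : σ → L} {s : ℝ} {x : L} (hx : x ∈ Bx c g s) :
    x ∈ Submodule.span ℝ (Set.range fun κ : List σ => mon g κ) := by
  obtain ⟨a, -, rfl⟩ := hx
  exact Submodule.sum_mem _ fun κ _ => Submodule.smul_mem _ _ (Submodule.subset_span ⟨κ, rfl⟩)

/-- the box of a touching tuple has positive volume -/
theorem volume_fam_ne_zero (hs : Gen.Spans M) {R T : ℝ} (hT : 0 ≤ T) {ρ : Type} {ray : M.gen → ρ}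
    {g : ρ → M.G} {N : ℕ} (hg : ∀ r, g r ∈ Clr M R N) (ht : TouchAll M ray g T) {s : ℝ}
    (h0 : 0 < s) : volume (M.NB (Gen.fam M ray g) s) ≠ 0 := by
  classical
  obtain ⟨A, hA, hQ⟩ := exists_Q M R T hT
  obtain ⟨A', hA', hcomp⟩ := Nb.exists_comp M.c M.gen M.gen
  refine (volume_NB_pos (M.nilC.nil _) (fun x => ?_) h0).ne'
  obtain ⟨t, ht0, hx⟩ := Nb.exists_mem_Bx (c := M.c) hs (M.nilC.nil _) x
  set B := ∑ i : M.gen, A * (1 + N) ^ M.d * Real.exp (M.wt i (M.h 1 + M.h 1 - M.h (g (ray i))))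
    with hB
  have hB0 : 0 ≤ B := Finset.sum_nonneg fun i _ => by positivity
  refine mem_span_of_Bx (hcomp (Gen.fam M ray g) (fun i : M.gen => M.bas i) (M.nilC.nil _) B hB0
    (fun i => ?_) t ht0 hx)
  have h1 := hQ ray (fun _ => 1) g 1 N (fun _ => Clr_mono (Clr_one R) (Nat.zero_le _)) hg
    (Clr_mono (Clr_one R) (Nat.zero_le _)) ht i
  have h2 : M.Ad 1 (Gen.fam M ray (fun _ => 1) i) = M.bas i := by
    change M.Ad 1 (M.Ad 1 (M.bas i)) = M.bas i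
    rw [map_one]; rfl
  rw [h2] at h1
  refine Bx_mono ?_ h1
  exact Finset.single_le_sum (f := fun i : M.gen => A * (1 + N) ^ M.d *
    Real.exp (M.wt i (M.h 1 + M.h 1 - M.h (g (ray i))))) (fun i _ => by positivity)
    (Finset.mem_univ i)

/-! ### the sets of a system of legs -/

section legs

variable {ρ : Type} (ray : M.gen → ρ) (x : ρ → M.G)

/-- the family of the shape `m` -/
noncomputable def F (m : ρ → ℕ) : M.gen → M.L := Gen.fam M ray fun r => x r ^ m r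

/-- touching of the shape `m` -/
def Tch (T : ℝ) (m : ρ → ℕ) : Prop := TouchAll M ray (fun r => x r ^ m r) T

/-- the exponents of the unit legs -/
structure LegB (N : ℕ) (R μ₁ μ₂ : ℝ) : Prop where
  pos : 0 < μ₁
  le : μ₁ ≤ μ₂
  lower : ∀ i : M.gen, μ₁ ≤ M.wt i (M.h (x (ray i)))
  upper : ∀ (i : M.gen) (r : ρ), |M.wt i (M.h (x r))| ≤ μ₂
  one : ∀ r, x r ∈ Clr M R N

theorem h_pow (g : M.G) (n : ℕ) : M.h (g ^ n) = (n : ℝ) • M.h g := by
  induction n with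
  | zero => simp [M.h_one]
  | succ n ih => rw [pow_succ, M.h_mul, ih, Nat.cast_succ, add_smul, one_smul]

theorem Clr_pow {R : ℝ} {m : ℕ} {g : M.G} (h : g ∈ Clr M R m) (n : ℕ) : g ^ n ∈ Clr M R (n * m) := by
  induction n with
  | zero => rw [pow_zero, Nat.zero_mul]; exact Clr_one R
  | succ n ih =>
    rw [pow_succ]
    exact Clr_mono (Clr_mul ih h) (by rw [Nat.succ_mul])

theorem LegB.mem {N : ℕ} {R μ₁ μ₂ : ℝ} (h : LegB ray x N R μ₁ μ₂) {Q : ℕ} {m : ρ → ℕ}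
    (hm : ∀ r, m r ≤ Q) (r : ρ) : x r ^ m r ∈ Clr M R (Q * N) :=
  Clr_mono (Clr_pow (h.one r) _) (Nat.mul_le_mul_right _ (hm r))

/-- comparison of two shapes, twisted by a word `c` -/
theorem exists_cmp (M : BModel S π) (R T : ℝ) (hT : 0 ≤ T) : ∃ A : ℝ, 1 ≤ A ∧
    ∀ {ρ : Type} (ray : M.gen → ρ) (x : ρ → M.G) (N : ℕ) (μ₁ μ₂ : ℝ), LegB ray x N R μ₁ μ₂ →
    ∀ (Q : ℕ) (m m' : ρ → ℕ), (∀ r, m r ≤ Q) → (∀ r, m' r ≤ Q) → Tch ray x T m' →
    ∀ c ∈ Clr M R (Q * N), ∀ i : M.gen, M.Ad c (F ray x m i) ∈ Bx M.c (F ray x m')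
      (A * (1 + (Q * N : ℕ)) ^ M.d * Real.exp (M.wt i (M.h c) +
        ((m (ray i) : ℝ) - m' (ray i)) * M.wt i (M.h (x (ray i))))) := by
  obtain ⟨A, hA, h⟩ := exists_Q M R T hT
  refine ⟨A, hA, fun {ρ} ray x N μ₁ μ₂ hL Q m m' hm hm' ht c hc i => ?_⟩
  have h1 := h ray (fun r => x r ^ m r) (fun r => x r ^ m' r) c (Q * N) (hL.mem ray x hm)
    (hL.mem ray x hm') hc ht i
  have h2 : M.wt i (M.h c + M.h (x (ray i) ^ m (ray i)) - M.h (x (ray i) ^ m' (ray i))) =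
      M.wt i (M.h c) + ((m (ray i) : ℝ) - m' (ray i)) * M.wt i (M.h (x (ray i))) := by
    rw [h_pow, h_pow, map_sub, map_add, map_smul, map_smul, smul_eq_mul, smul_eq_mul]
    ring
  rw [h2] at h1
  exact h1

/-- comparison of two shapes -/
theorem exists_cmp1 (M : BModel S π) (R T : ℝ) (hT : 0 ≤ T) : ∃ A : ℝ, 1 ≤ A ∧
    ∀ {ρ : Type} (ray : M.gen → ρ) (x : ρ → M.G) (N : ℕ) (μ₁ μ₂ : ℝ), LegB ray x N R μ₁ μ₂ →
    ∀ (Q : ℕ) (m m' : ρ → ℕ), (∀ r, m r ≤ Q) → (∀ r, m' r ≤ Q) → Tch ray x T m' →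
    ∀ i : M.gen, F ray x m i ∈ Bx M.c (F ray x m')
      (A * (1 + (Q * N : ℕ)) ^ M.d * Real.exp (((m (ray i) : ℝ) - m' (ray i)) *
        M.wt i (M.h (x (ray i))))) := by
  obtain ⟨A, hA, h⟩ := exists_cmp M R T hT
  refine ⟨A, hA, fun {ρ} ray x N μ₁ μ₂ hL Q m m' hm hm' ht i => ?_⟩
  have h1 := h ray x N μ₁ μ₂ hL Q m m' hm hm' ht 1 (Clr_mono (Clr_one R) (Nat.zero_le _)) i
  rw [M.h_one, map_zero, zero_add, map_one] at h1
  exact h1

/-- the geometry of two increments `q₁ < q₂` of the base shape `m`; `e_i = exp (-a_i)` is the size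
of the thin set `K_i`. -/
theorem exists_geo (κ : GC) (hκ : κ.Ok M M.gen) (hs : Gen.Spans M) (R T : ℝ) (hT : 0 ≤ T) :
    ∃ (P₀ : ℝ) (D₀ : ℕ), 1 ≤ P₀ ∧
    ∀ {ρ : Type} [DecidableEq ρ] (ray : M.gen → ρ) (x : ρ → M.G) (N : ℕ) (μ₁ μ₂ : ℝ),
    LegB ray x N R μ₁ μ₂ → ∀ (Q : ℕ) (m : ρ → ℕ) (q₁ q₂ t : ℕ) (a₁ a₂ : ℝ), (∀ r, m r + q₂ ≤ Q) →
    t ≤ q₁ → q₁ + t ≤ q₂ →
    (M.c + 1) * t * μ₂ + t * μ₁ ≤ a₁ → a₁ + t * μ₁ ≤ q₁ * μ₁ →
    (M.c + 1) * ((q₂ : ℝ) - q₁ + t) * μ₂ + t * μ₁ ≤ a₂ → a₂ + t * μ₁ ≤ q₂ * μ₁ →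
    a₂ + t * μ₁ ≤ a₁ + (q₂ - q₁) * μ₁ →
    Tch ray x T m → Tch ray x T (fun r => m r + q₁) → Tch ray x T (fun r => m r + q₂) →
    Tch ray x T (fun r => m r + (q₁ - t)) → Tch ray x T (fun r => m r + (q₂ - t)) →
    (∀ r, Tch ray x T (Function.update m r (m r + q₁))) →
    (∀ r, Tch ray x T (Function.update m r (m r + q₂))) →
    P₀ * (1 + (Q * N : ℕ)) ^ D₀ * Real.exp (-(t * μ₁)) ≤ 1 →
    SideGeo volume (M.NB (F ray x m) κ.c1) (M.NB (F ray x m) 1) κ.J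
      (ENNReal.ofReal (κ.A3 ^ M.r))
      (side ray κ (F ray x fun r => m r + q₁) (F ray x fun r => m r + (q₁ - t))
        (fun r => F ray x (Function.update m r (m r + q₁))) (Real.exp (-a₁))) ∧
    SideGeo volume (M.NB (F ray x m) κ.c1) (M.NB (F ray x m) 1) κ.J
      (ENNReal.ofReal (κ.A3 ^ M.r))
      (side ray κ (F ray x fun r => m r + q₂) (F ray x fun r => m r + (q₂ - t))
        (fun r => F ray x (Function.update m r (m r + q₂))) (Real.exp (-a₂))) ∧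
    M.NB (F ray x fun r => m r + q₁) (Real.exp (-a₁)) ⊆
      M.NB (F ray x fun r => m r + q₂) (κ.c1 * Real.exp (-a₂)) ∧
    M.NB (F ray x fun r => m r + q₂) (κ.c1 * Real.exp (-a₂)) ⊆
      M.NB (F ray x fun r => m r + (q₁ - t)) κ.c1 := by
  classical
  obtain ⟨A, hA, hcmp⟩ := exists_cmp1 M R T hT
  obtain ⟨As, hAs, hsmall⟩ := Nb.exists_comp_small M.c M.gen M.gen
  obtain ⟨Ab, hAb, hbig⟩ := Nb.exists_comp_big M.c M.gen M.gen
  have hc1 := hκ.c1_pos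
  have hc1' := hκ.c1_le
  have he0 := hκ.e0_pos
  have he0' := hκ.e0_le
  set P₀ : ℝ := (As + Ab) * A ^ (M.c + 1) / κ.e0 with hP₀
  have hA1 : 1 ≤ A ^ (M.c + 1) := one_le_pow₀ hA
  have hAA : A ≤ A ^ (M.c + 1) := by
    calc A = A ^ 1 := (pow_one A).symm
      _ ≤ A ^ (M.c + 1) := pow_le_pow_right₀ hA (by omega)
  have he01 : κ.e0 ≤ 1 := he0'.trans hc1'
  have hP1 : 1 ≤ P₀ := by
    rw [hP₀, le_div_iff₀ he0]
    nlinarith
  refine ⟨P₀, M.d * (M.c + 1), hP1, ?_⟩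
  intro ρ _ ray x N μ₁ μ₂ hL Q m q₁ q₂ t a₁ a₂ hQ htq1 hq h1 h1' h2 h2' h2'' T0 T1 T2 T3 T4 T5 T6 hP
  have hμ := hL.pos
  have hμ2 : 0 < μ₂ := hμ.trans_le hL.le
  set V : ℝ := (1 + (Q * N : ℕ)) ^ M.d with hV
  have hV1 : 1 ≤ V := one_le_pow₀ (le_add_of_nonneg_right (Nat.cast_nonneg _))
  set P : ℝ := A * V with hPdef
  have hP1' : 1 ≤ P := by nlinarith
  have hVc : (1 + (Q * N : ℕ) : ℝ) ^ (M.d * (M.c + 1)) = V ^ (M.c + 1) := by rw [pow_mul]
  rw [hVc] at hP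
  -- the basic estimate
  have key : (As + Ab) * P ^ (M.c + 1) * Real.exp (-(t * μ₁)) ≤ κ.e0 := by
    have h3 : P₀ * V ^ (M.c + 1) * Real.exp (-(t * μ₁)) * κ.e0 =
        (As + Ab) * P ^ (M.c + 1) * Real.exp (-(t * μ₁)) := by
      rw [hP₀, hPdef, mul_pow]
      field_simp
    rw [← h3]
    nlinarith
  have hPP : P ≤ P ^ (M.c + 1) := by
    calc P = P ^ 1 := (pow_one P).symm
      _ ≤ P ^ (M.c + 1) := pow_le_pow_right₀ hP1' (by omega)
  have hE : 0 < Real.exp (-(t * μ₁)) := Real.exp_pos _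
  have key1 : P * Real.exp (-(t * μ₁)) ≤ κ.e0 := by
    refine le_trans ?_ key
    refine mul_le_mul_of_nonneg_right ?_ hE.le
    nlinarith
  have key1' : As * (P * Real.exp (-(t * μ₁))) ≤ κ.e0 := by
    refine le_trans ?_ key
    have : As * P ≤ (As + Ab) * P ^ (M.c + 1) := by
      apply mul_le_mul (by linarith) hPP (by linarith) (by linarith)
    nlinarith
  have key2 : P * Real.exp (-(t * μ₁)) ≤ 1 := key1.trans he01
  have low : ∀ (m₁ m₂ : ρ → ℕ) (d : ℝ), 0 ≤ d → (∀ r, m₁ r ≤ Q) → (∀ r, m₂ r ≤ Q) →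
      Tch ray x T m₂ → ∀ i : M.gen, (m₁ (ray i) : ℝ) + d ≤ m₂ (ray i) →
      F ray x m₁ i ∈ Bx M.c (F ray x m₂) (P * Real.exp (-(d * μ₁))) := by
    intro m₁ m₂ d hd hm₁ hm₂ ht i hi
    refine Bx_mono ?_ (hcmp ray x N μ₁ μ₂ hL Q m₁ m₂ hm₁ hm₂ ht i)
    refine mul_le_mul_of_nonneg_left (Real.exp_le_exp.2 ?_) (by positivity)
    have h3 := hL.lower i
    nlinarith
  have up : ∀ (m₁ m₂ : ρ → ℕ) (d : ℝ), 0 ≤ d → (∀ r, m₁ r ≤ Q) → (∀ r, m₂ r ≤ Q) →
      Tch ray x T m₂ → ∀ i : M.gen, (m₁ (ray i) : ℝ) ≤ m₂ (ray i) + d →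
      F ray x m₁ i ∈ Bx M.c (F ray x m₂) (P * Real.exp (d * μ₂)) := by
    intro m₁ m₂ d hd hm₁ hm₂ ht i hi
    refine Bx_mono ?_ (hcmp ray x N μ₁ μ₂ hL Q m₁ m₂ hm₁ hm₂ ht i)
    refine mul_le_mul_of_nonneg_left (Real.exp_le_exp.2 ?_) (by positivity)
    have h3 := hL.lower i
    have h4 : M.wt i (M.h (x (ray i))) ≤ μ₂ := (le_abs_self _).trans (hL.upper i (ray i))
    have h5 : ((m₁ (ray i) : ℝ) - m₂ (ray i)) * M.wt i (M.h (x (ray i))) ≤
        d * M.wt i (M.h (x (ray i))) :=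
      mul_le_mul_of_nonneg_right (by linarith) (hμ.le.trans h3)
    exact h5.trans (mul_le_mul_of_nonneg_left h4 hd)
  have ht0 : (0:ℝ) ≤ t := Nat.cast_nonneg _
  have hq' : (q₁ : ℝ) + t ≤ q₂ := by exact_mod_cast hq
  have hcc : (0:ℝ) ≤ (M.c + 1) * t * μ₂ := by positivity
  have hmQ : ∀ r, m r ≤ Q := fun r => le_trans (Nat.le_add_right _ _) (hQ r)
  have hmQ1 : ∀ r, m r + q₁ ≤ Q := fun r => le_trans (by omega) (hQ r)
  have hmQ3 : ∀ r, m r + (q₁ - t) ≤ Q := fun r => le_trans (by omega) (hQ r)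
  have hmQ4 : ∀ r, m r + (q₂ - t) ≤ Q := fun r => le_trans (by omega) (hQ r)
  have hmQ5 : ∀ r r', Function.update m r (m r + q₁) r' ≤ Q := by
    intro r r'
    by_cases h : r' = r
    · subst h; rw [Function.update_self]; exact hmQ1 _
    · rw [Function.update_of_ne h]; exact hmQ _
  have hmQ6 : ∀ r r', Function.update m r (m r + q₂) r' ≤ Q := by
    intro r r'
    by_cases h : r' = r
    · subst h; rw [Function.update_self]; exact hQ _
    · rw [Function.update_of_ne h]; exact hmQ _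
  have expd : ∀ a b : ℝ, a ≤ b → Real.exp a ≤ Real.exp b := fun a b h => Real.exp_le_exp.2 h
  -- one side
  have one : ∀ (q : ℕ) (a : ℝ), (∀ r, m r + q ≤ Q) → t ≤ q →
      (M.c + 1) * t * μ₂ + t * μ₁ ≤ a → a + t * μ₁ ≤ q * μ₁ →
      Tch ray x T (fun r => m r + q) → Tch ray x T (fun r => m r + (q - t)) →
      (∀ r, Tch ray x T (Function.update m r (m r + q))) →
      SideGeo volume (M.NB (F ray x m) κ.c1) (M.NB (F ray x m) 1) κ.J
        (ENNReal.ofReal (κ.A3 ^ M.r))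
        (side ray κ (F ray x fun r => m r + q) (F ray x fun r => m r + (q - t))
        (fun r => F ray x (Function.update m r (m r + q))) (Real.exp (-a))) := by
    intro q a hq tq hc hc' Tq Tqt Tu
    have hmt : ∀ r, m r + (q - t) ≤ Q := fun r => le_trans (by omega) (hq r)
    have hmu : ∀ r r', Function.update m r (m r + q) r' ≤ Q := by
      intro r r'
      by_cases h : r' = r
      · subst h; rw [Function.update_self]; exact hq _
      · rw [Function.update_of_ne h]; exact hmQ _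
    have hqt : ((q - t : ℕ) : ℝ) = q - t := Nat.cast_sub tq
    have he1 : Real.exp (-a) ≤ κ.e0 := by
      refine le_trans (expd _ (-(t * μ₁)) ?_) ?_
      · linarith
      · nlinarith
    refine hκ.geo ray _ _ _ _ _ (Real.exp_pos _) he1 ?_ ?_ ?_ ?_ ?_ ?_
    · exact fun s hs0 => volume_fam_ne_zero hs hT (fun r => hL.mem ray x hq r) Tq hs0
    · exact fun s hs0 => volume_fam_ne_zero hs hT (fun r => hL.mem ray x hmt r) Tqt hs0
    · intro j
      refine Bx_mono key1 (low _ _ t ht0 hmt (hmu (ray j)) (Tu _) j ?_)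
      rw [Function.update_self]
      push_cast
      rw [hqt]
      linarith
    · intro j
      refine Bx_mono key2 (low _ _ t ht0 hmt hq Tq j ?_)
      push_cast
      rw [hqt]
      linarith
    · intro j
      refine Bx_mono ?_ (low _ _ q (Nat.cast_nonneg _) hmQ hq Tq j ?_)
      · have h6 : Real.exp (-(q * μ₁)) ≤ Real.exp (-(t * μ₁)) * Real.exp (-a) := by
          rw [← Real.exp_add]
          exact expd _ _ (by linarith)
        have h7 := mul_le_mul_of_nonneg_left h6 (by linarith : 0 ≤ P)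
        have := mul_le_mul_of_nonneg_right key2 (Real.exp_pos (-a)).le
        linarith
      · push_cast
        linarith
    · intro n hn
      have hG : 1 ≤ P * Real.exp (t * μ₂) := by
        have : 1 ≤ Real.exp (t * μ₂) := Real.one_le_exp (by positivity)
        nlinarith
      refine Bx_mono ?_ (hbig (F ray x fun r => m r + (q - t)) (F ray x fun r => m r + q)
        (M.nilC.nil _) (P * Real.exp (t * μ₂)) hG (fun i => up _ _ t ht0 hq hmt Tqt i (by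
          push_cast
          rw [hqt]
          linarith)) _ (Real.exp_pos _).le hn)
      rw [mul_pow, ← Real.exp_nat_mul, mul_assoc (P ^ (M.c + 1)), ← Real.exp_add]
      refine le_trans ?_ key
      rw [← mul_assoc]
      have h8 : Real.exp (((M.c + 1 : ℕ) : ℝ) * (t * μ₂) + -a) ≤
          Real.exp (-(t * μ₁)) := expd _ _ (by push_cast; linarith)
      have h9 : Ab * P ^ (M.c + 1) ≤ (As + Ab) * P ^ (M.c + 1) := by
        gcongr
        linarith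
      exact mul_le_mul h9 h8 (Real.exp_pos _).le (by positivity)
  refine ⟨?_, ?_, ?_, ?_⟩
  · exact one q₁ a₁ hmQ1 htq1 h1 h1' T1 T3 T5
  · refine one q₂ a₂ hQ (by omega) (le_trans ?_ h2) h2' T2 T4 T6
    have : (M.c + 1) * (t:ℝ) * μ₂ ≤ (M.c + 1) * ((q₂ : ℝ) - q₁ + t) * μ₂ := by
      gcongr
      linarith
    linarith
  · intro n hn
    have hT' : P * Real.exp (-(((q₂:ℝ) - q₁) * μ₁)) ≤ 1 := by
      refine le_trans (mul_le_mul_of_nonneg_left (expd _ (-(t * μ₁)) ?_) (by linarith)) key2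
      nlinarith
    refine Bx_mono ?_ (hsmall (F ray x fun r => m r + q₂) (F ray x fun r => m r + q₁)
      (M.nilC.nil _) (P * Real.exp (-(((q₂:ℝ) - q₁) * μ₁))) (by positivity) hT'
      (fun i => low _ _ ((q₂:ℝ) - q₁) (by linarith) hmQ1 hQ T2 i (by push_cast; linarith)) _
      (Real.exp_pos _).le hn)
    have h5 : P * Real.exp (-(((q₂:ℝ) - q₁) * μ₁)) * Real.exp (-a₁) ≤
        P * Real.exp (-(t * μ₁)) * Real.exp (-a₂) := by
      rw [mul_assoc P, ← Real.exp_add, mul_assoc P, ← Real.exp_add]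
      exact mul_le_mul_of_nonneg_left (expd _ _ (by linarith)) (by linarith)
    calc As * (P * Real.exp (-(((q₂:ℝ) - q₁) * μ₁)) * Real.exp (-a₁))
        ≤ As * (P * Real.exp (-(t * μ₁)) * Real.exp (-a₂)) := by gcongr
      _ = As * (P * Real.exp (-(t * μ₁))) * Real.exp (-a₂) := by ring
      _ ≤ κ.c1 * Real.exp (-a₂) :=
        mul_le_mul_of_nonneg_right (key1'.trans he0') (Real.exp_pos _).le
  · intro n hn
    have hG : 1 ≤ P * Real.exp (((q₂:ℝ) - q₁ + t) * μ₂) := by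
      have : 1 ≤ Real.exp (((q₂:ℝ) - q₁ + t) * μ₂) :=
        Real.one_le_exp (mul_nonneg (by linarith) hμ2.le)
      nlinarith
    have hqt : ((q₁ - t : ℕ) : ℝ) = q₁ - t := Nat.cast_sub (by omega)
    refine Bx_mono ?_ (hbig (F ray x fun r => m r + (q₁ - t)) (F ray x fun r => m r + q₂)
      (M.nilC.nil _) (P * Real.exp (((q₂:ℝ) - q₁ + t) * μ₂)) hG
      (fun i => up _ _ ((q₂:ℝ) - q₁ + t) (by linarith) hQ hmQ3 T3 i (by
        push_cast
        rw [hqt]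
        linarith)) _ (by positivity) hn)
    rw [mul_pow, ← Real.exp_nat_mul]
    have h8 : Real.exp (((M.c + 1 : ℕ) : ℝ) * (((q₂:ℝ) - q₁ + t) * μ₂)) *
        Real.exp (-a₂) ≤ Real.exp (-(t * μ₁)) := by
      rw [← Real.exp_add]
      exact expd _ _ (by push_cast; linarith)
    have h9 : Ab * P ^ (M.c + 1) ≤ (As + Ab) * P ^ (M.c + 1) := by
      gcongr
      linarith
    have h10 : Ab * P ^ (M.c + 1) * (Real.exp (((M.c + 1 : ℕ) : ℝ) * (((q₂:ℝ) - q₁ + t) * μ₂)) *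
        Real.exp (-a₂)) ≤ 1 :=
      (mul_le_mul h9 h8 (by positivity) (by positivity)).trans (key.trans he01)
    calc Ab * (P ^ (M.c + 1) * Real.exp (((M.c + 1 : ℕ) : ℝ) * (((q₂:ℝ) - q₁ + t) * μ₂)) *
        (κ.c1 * Real.exp (-a₂)))
        = κ.c1 * (Ab * P ^ (M.c + 1) * (Real.exp (((M.c + 1 : ℕ) : ℝ) *
          (((q₂:ℝ) - q₁ + t) * μ₂)) * Real.exp (-a₂))) := by ring
      _ ≤ κ.c1 * 1 := by gcongr
      _ = κ.c1 := mul_one _


end legs

end Crest.Agent.R182.HoleGeo
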