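/-
R182, modules BOX / EL / HOLE (helper860): the raw box law in powers of unit legs (the interface
between the box theorem and EL / HOLE) and the profile form of it.
-/
import Mathlib
import Crest.Agent.R182.HoleEnd
import Crest.Agent.R182.HoleGeo
import Crest.Agent.R182.ElBase

set_option autoImplicit false
set_option linter.unusedSectionVars false

open MeasureTheory Set
open scoped ENNReal Pointwise RealInnerProductSpace

namespace Crest.Agent.R182.HoleOne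

open Crest.GroupTheory Crest.Geometry Crest.Agent.R182.QI Crest.Agent.R182.Core
  Crest.Agent.R182.Core.BModel Crest.Agent.R182.Nb Crest.Agent.R182.HoleNil
  Crest.Agent.R182.OneScale Crest.Agent.R182.ElI

variable {Γ : Type*} [Group Γ] {k : ℕ} {S : Set Γ} {π : Γ →* Multiplicative (Fin k → ℤ)}
  {M : BModel S π}

/-- word in powers of the unit legs -/
def uw {ρ : Type*} (u : ρ → M.G) (w : List (ρ × ℕ)) : M.G := (w.map fun p => u p.1 ^ p.2).prod


section

variable {E : Type*} [NormedAddCommGroup E] [InnerProductSpace ℝ E]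

/-- its height in units of the scale -/
noncomputable def hw (G : Geo M E) (τ : ℝ) (w : List (G.R × ℕ)) : E :=
  (w.map fun p => ((p.2 : ℝ) * τ) • (p.1 : E)).sum

theorem hw_nil (G : Geo M E) (τ : ℝ) : hw G τ [] = 0 := by simp [hw]

theorem hw_cons (G : Geo M E) (τ : ℝ) (p : G.R × ℕ) (w : List (G.R × ℕ)) :
    hw G τ (p :: w) = ((p.2 : ℝ) * τ) • (p.1 : E) + hw G τ w := by simp [hw]

/-- **the raw box law** at the base point `y` -/
def RawLaw (G : Geo M E) (Ψ : Γ → Γ) (Sc τ : ℝ) (u : G.R → M.G) (η : ℝ) (Z : G.R → ℝ) (y : M.G)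
    (L : E →ₗ[ℝ] E) (θ : E) : Prop :=
  volume {n : M.NN | n ∈ M.NB (fm G u τ Z) 1 ∧ ¬ ∀ w : List (G.R × ℕ), w.length ≤ 2 →
    (∀ w', w' <+: w → ∀ e : G.R, ⟪(e : E), hw G τ w'⟫ ≤ Z e) →
    ‖Sc⁻¹ • G.T (fh M Ψ (y * M.toG n * uw u w)) - θ - L (hw G τ w)‖ ≤ η} ≤
  ENNReal.ofReal η * volume (M.NB (fm G u τ Z) 1)

theorem norm_hw_le (G : Geo M E) {τ a : ℝ} (hτ : 0 ≤ τ) (w : List (G.R × ℕ))
    (hw' : ∀ p ∈ w, (p.2 : ℝ) * τ ≤ a) : ‖hw G τ w‖ ≤ w.length * a := by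
  induction w with
  | nil => simp [hw_nil]
  | cons p w ih =>
    rw [hw_cons]
    refine (norm_add_le _ _).trans ?_
    rw [norm_smul, G.norm_ray, mul_one, Real.norm_of_nonneg (by positivity), List.length_cons]
    push_cast
    have h1 := hw' p List.mem_cons_self
    have h2 := ih fun q hq => hw' q (List.mem_cons_of_mem _ hq)
    linarith

/-- the height of a word -/
theorem h_uw (G : Geo M E) {RC Cb ε₁ τ Sc : ℝ} (un : ElI.Unit G RC Cb ε₁ τ Sc) {a : ℝ}
    (hε : 0 ≤ ε₁ * Sc) (w : List (G.R × ℕ)) (hw' : ∀ p ∈ w, (p.2 : ℝ) * τ ≤ a) :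
    ‖G.T (M.h (uw un.u w)) - Sc • hw G τ w‖ ≤ w.length * (ε₁ * Sc * a) := by
  induction w with
  | nil => simp [hw_nil, uw, M.h_one]
  | cons p w ih =>
    have h1 := hw' p List.mem_cons_self
    have h2 := ih fun q hq => hw' q (List.mem_cons_of_mem _ hq)
    have e1 : uw un.u (p :: w) = un.u p.1 ^ p.2 * uw un.u w := by simp [uw]
    rw [hw_cons, e1, M.h_mul, ElI.h_pow, map_add, map_smul]
    have e2 : (p.2 : ℝ) • G.T (M.h (un.u p.1)) + G.T (M.h (uw un.u w)) -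
        Sc • (((p.2 : ℝ) * τ) • (p.1 : E) + hw G τ w) =
        (p.2 : ℝ) • (G.T (M.h (un.u p.1)) - (τ * Sc) • (p.1 : E)) +
        (G.T (M.h (uw un.u w)) - Sc • hw G τ w) := by
      rw [smul_add, smul_smul, smul_sub, smul_smul]
      have : Sc * ((p.2 : ℝ) * τ) = p.2 * (τ * Sc) := by ring
      rw [this]; abel
    rw [e2]
    refine (norm_add_le _ _).trans ?_
    rw [norm_smul, Real.norm_of_nonneg (Nat.cast_nonneg _), List.length_cons]
    push_cast
    have h3 : (p.2 : ℝ) * ‖G.T (M.h (un.u p.1)) - (τ * Sc) • (p.1 : E)‖ ≤ ε₁ * Sc * a := by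
      calc (p.2 : ℝ) * ‖G.T (M.h (un.u p.1)) - (τ * Sc) • (p.1 : E)‖
          ≤ p.2 * (ε₁ * (τ * Sc)) := mul_le_mul_of_nonneg_left (un.acc p.1) (Nat.cast_nonneg _)
        _ = ε₁ * Sc * (p.2 * τ) := by ring
        _ ≤ ε₁ * Sc * a := mul_le_mul_of_nonneg_left h1 hε
    linarith

/-- the word of an index of the profile -/
def wd (G : Geo M E) (J : ℕ) (p : Option (G.R × Fin (J + 1)) × Option G.R) : List (G.R × ℕ) :=
  (match p.1 with
    | none => []
    | some q => [(q.1, (q.2 : ℕ))]) ++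
  (match p.2 with
    | none => []
    | some e => [(e, J)])

theorem uw_wd (G : Geo M E) (u : G.R → M.G) (J : ℕ)
    (p : Option (G.R × Fin (J + 1)) × Option G.R) : uw u (wd G J p) = ww' G u J p := by
  obtain ⟨a, b⟩ := p
  cases a <;> cases b <;> simp [wd, uw, ww', w1, ww]

theorem length_wd (G : Geo M E) (J : ℕ) (p : Option (G.R × Fin (J + 1)) × Option G.R) :
    (wd G J p).length ≤ 2 := by
  obtain ⟨a, b⟩ := p
  cases a <;> cases b <;> simp [wd]

theorem mem_wd (G : Geo M E) (J : ℕ) (p : Option (G.R × Fin (J + 1)) × Option G.R) :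
    ∀ q ∈ wd G J p, q.2 ≤ J := by
  obtain ⟨a, b⟩ := p
  cases a <;> cases b <;> simp [wd] <;> omega

section

variable [FiniteDimensional ℝ E]

/-- the profile form of the raw law -/
theorem rawLaw_law (G : Geo M E) : ∃ CR : ℝ, 1 ≤ CR ∧ ∀ {Ψ : Γ → Γ} {RC Cb ε₁ τ Sc : ℝ}
    (un : ElI.Unit G RC Cb ε₁ τ Sc), 0 < Sc → 0 < τ → 0 ≤ ε₁ → ∀ {J : ℕ}, J * τ ≤ 1 / 4 →
    ∀ {Z : G.R → ℝ}, (∀ r, 1 / 2 ≤ Z r) → ∀ {η : ℝ}, 0 ≤ η → ∀ {y : M.G} {L : E →ₗ[ℝ] E} {θ : E},
    L ∈ LLE G → RawLaw G Ψ Sc τ un.u η Z y L θ → ∀ {c1 : ℝ} {δ' : ℝ≥0∞}, 0 < c1 →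
    ENNReal.ofReal η ≤ δ' * ENNReal.ofReal (c1 ^ M.r) →
    Law volume (prof M Ψ y (ww' G un.u J)) (M.NB (fm G un.u τ Z) 1) (CR * (η + ε₁) * Sc)
      (δ' * volume (M.NB (fm G un.u τ Z) c1)) 1
      (pr M (ww' G un.u J) (toV G L) (Sc • G.T.symm θ)) := by
  obtain ⟨B, hB, hBL⟩ := exists_bound G
  obtain ⟨D, hD, hDb⟩ : ∃ D : ℝ, 1 ≤ D ∧ ∀ v : E, ‖G.T.symm v‖ ≤ D * ‖v‖ := by
    let f : E →L[ℝ] (Fin k → ℝ) :=
      LinearMap.toContinuousLinearMap (G.T.symm : E →ₗ[ℝ] (Fin k → ℝ))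
    refine ⟨‖f‖ + 1, by linarith [norm_nonneg f], fun v => ?_⟩
    have h1 : ‖f v‖ ≤ ‖f‖ * ‖v‖ := f.le_opNorm v
    have h2 : f v = G.T.symm v := rfl
    rw [h2] at h1
    have := norm_nonneg v
    nlinarith
  refine ⟨D * B, by nlinarith, ?_⟩
  intro Ψ RC Cb ε₁ τ Sc un hSc hτ hε J hJ Z hZ η hη y L θ hL hraw c1 δ' hc1 hδ'
  have hvol : ENNReal.ofReal η * volume (M.NB (fm G un.u τ Z) 1) ≤
      δ' * volume (M.NB (fm G un.u τ Z) c1) := by
    have h1 : volume (M.NB (fm G un.u τ Z) c1) =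
        ENNReal.ofReal (c1 ^ M.r) * volume (M.NB (fm G un.u τ Z) 1) := by
      have := volume_NB_smul (M := M) (fam := fm G un.u τ Z) (s := 1) hc1
      rwa [mul_one] at this
    rw [h1, ← mul_assoc]
    gcongr
  refine le_trans (measure_mono ?_) (hraw.trans hvol)
  rintro n ⟨hn, hd⟩
  refine ⟨hn, fun hall => ?_⟩
  refine absurd hd (not_lt.2 ?_)
  rw [one_mul, dist_pi_le_iff (by positivity)]
  intro p
  rw [dist_eq_norm]
  have hmem : ∀ q ∈ wd G J p, (q.2 : ℝ) * τ ≤ 1 / 4 := by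
    intro q hq
    have h1 : (q.2 : ℝ) ≤ J := by exact_mod_cast mem_wd G J p q hq
    exact (mul_le_mul_of_nonneg_right h1 hτ.le).trans hJ
  have hlen : ((wd G J p).length : ℝ) ≤ 2 := by exact_mod_cast length_wd G J p
  have h1 := hall (wd G J p) (length_wd G J p) (by
    intro w' hw' e
    have h2 := norm_hw_le G hτ.le w' fun q hq => hmem q (hw'.subset hq)
    have h3 : (w'.length : ℝ) ≤ 2 := by
      exact_mod_cast hw'.length_le.trans (length_wd G J p)
    have h4 := real_inner_le_norm (e : E) (hw G τ w')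
    rw [G.norm_ray, one_mul] at h4
    have h5 := hZ e
    linarith)
  rw [uw_wd] at h1
  have h2 := h_uw G un (by positivity) (wd G J p) hmem
  rw [uw_wd] at h2
  have h3 : prof M Ψ y (ww' G un.u J) n p - pr M (ww' G un.u J) (toV G L) (Sc • G.T.symm θ) p =
      G.T.symm (Sc • (Sc⁻¹ • G.T (fh M Ψ (y * M.toG n * ww' G un.u J p)) - θ -
        L (hw G τ (wd G J p))) - L (G.T (M.h (ww' G un.u J p)) - Sc • hw G τ (wd G J p))) := by
    simp only [prof, pr, toV_apply, map_sub, map_smul, smul_sub, smul_smul,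
      mul_inv_cancel₀ hSc.ne', one_smul, LinearEquiv.symm_apply_apply]
    abel
  rw [h3]
  refine (hDb _).trans ?_
  have h4 : ‖Sc • (Sc⁻¹ • G.T (fh M Ψ (y * M.toG n * ww' G un.u J p)) - θ -
        L (hw G τ (wd G J p))) - L (G.T (M.h (ww' G un.u J p)) - Sc • hw G τ (wd G J p))‖ ≤
      Sc * η + B * (2 * (ε₁ * Sc * (1 / 4))) := by
    refine (norm_sub_le _ _).trans (add_le_add ?_ ?_)
    · rw [norm_smul, Real.norm_of_nonneg hSc.le]
      exact mul_le_mul_of_nonneg_left h1 hSc.le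
    · refine (hBL L hL _).trans (mul_le_mul_of_nonneg_left ?_ (by linarith))
      refine h2.trans ?_
      exact mul_le_mul_of_nonneg_right hlen (by positivity)
  have h5 : D * (Sc * η + B * (2 * (ε₁ * Sc * (1 / 4)))) ≤ D * B * (η + ε₁) * Sc := by
    have h6 : Sc * η + B * (2 * (ε₁ * Sc * (1 / 4))) ≤ B * (η + ε₁) * Sc := by
      have h7 : 0 ≤ Sc * η := by positivity
      have h8 : 0 ≤ ε₁ * Sc := by positivity
      nlinarith
    calc D * (Sc * η + B * (2 * (ε₁ * Sc * (1 / 4)))) ≤ D * (B * (η + ε₁) * Sc) :=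
          mul_le_mul_of_nonneg_left h6 (by linarith)
      _ = _ := by ring
  exact (mul_le_mul_of_nonneg_left h4 (by linarith)).trans h5

end

end

end Crest.Agent.R182.HoleOne
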