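import Mathlib
import Crest.Agent.R182.ElBase

-- ▼ part R182/ElCmp
section

set_option autoImplicit false
set_option linter.unusedSectionVars false

open MeasureTheory Set
open scoped Pointwise RealInnerProductSpace ENNReal

namespace Crest.Agent.R182.ElI

open Crest.GroupTheory Crest.Geometry Crest.Agent.R182.QI Crest.Agent.R182.Core
  Crest.Agent.R182.Nb Crest.Agent.R182.Gen

variable {Γ : Type*} [Group Γ] {k : ℕ} {S : Set Γ} {π : Γ →* Multiplicative (Fin k → ℤ)}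
variable {M : BModel S π} {E : Type*} [NormedAddCommGroup E] [InnerProductSpace ℝ E]

/-- zero-weight elements of polynomial size lie in all boxes -/
theorem exists_zero_mem (M : BModel S π) : ∃ A : ℝ, 1 ≤ A ∧ ∀ (x : M.L) (B : ℝ), 0 ≤ B →
    ‖M.bas.equivFun x‖ ≤ B → (∀ i, M.wt i ≠ 0 → M.bas.repr x i = 0) →
    ∀ (Z : GI M → ℝ) (u : Fin k → ℝ), (∀ j : GI M, wg M j u ≤ Z j) →
      x ∈ Bx M.c (gZ (eg M) Z) (A * B) := by
  obtain ⟨A₀, hA₀, h0⟩ := M.bas_mem
  refine ⟨(M.r : ℝ) * A₀ + 1, by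
    have : 0 ≤ (M.r : ℝ) * A₀ := by positivity
    linarith, fun x B hB hx hz Z u hZ => ?_⟩
  have hx1 : x = ∑ i, M.bas.repr x i • M.bas i := (M.bas.sum_repr x).symm
  have h1 : ∀ i ∈ (Finset.univ : Finset (Fin M.r)),
      M.bas.repr x i • M.bas i ∈ Bx M.c (gZ (eg M) Z) (B * A₀) := by
    intro i _
    by_cases hi : M.wt i = 0
    · have h2 := h0 i Z u hZ
      rw [hi, LinearMap.zero_apply, Real.exp_zero, one_smul] at h2
      refine Bx_mono ?_ (Bx_smul h2 _)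
      have h3 : |M.bas.repr x i| ≤ B := by
        have := norm_le_pi_norm (M.bas.equivFun x) i
        rw [Real.norm_eq_abs] at this
        exact this.trans hx
      gcongr
    · rw [hz i hi, zero_smul]
      exact Bx_zero_mem (by positivity)
  rw [hx1]
  refine Bx_mono ?_ (Bx_sum _ _ _ h1)
  rw [Finset.sum_const, Finset.card_univ, Fintype.card_fin, nsmul_eq_mul]
  nlinarith

/-- **comparison of the unipotent parts along a path** -/
theorem exists_cmp (hD : CDist M) (R : ℝ) (hR : 0 ≤ R) : ∃ (A : ℝ) (D : ℕ), 1 ≤ A ∧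
    ∀ (Z : GI M → ℝ) (p : ℕ → M.G) (m : ℕ) (L : ℝ), 1 ≤ L → M.len (p 0) ≤ L → (m : ℝ) ≤ L →
      (∀ j < m, M.len ((p j)⁻¹ * p (j + 1)) ≤ R) →
      (∀ j ≤ m, ∀ i : GI M, wg M i (M.h (p j)) ≤ Z i) →
      (up M (p 0))⁻¹ * up M (p m) ∈ M.NB (gZ (eg M) Z) (A * L ^ D) := by
  obtain ⟨A₁, D₁, hA₁, h1⟩ := M.reach_mem R (RU M)
  obtain ⟨A₂, h2⟩ := hD (max (RU M) A₁)
  obtain ⟨A₃, hA₃, h3⟩ := exists_zero_mem M
  obtain ⟨A₄, hA₄, h4⟩ := M.star.exists_prod_poly (GI M) M.c M.nilC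
  -- a common bound for the two factors
  set B : ℝ := A₁ * 4 ^ D₁ + A₃ * (A₂ * (6 + R) ^ A₂) with hB
  have hB1 : 1 ≤ B := by
    have e1 : (1:ℝ) ≤ 4 ^ D₁ := one_le_pow₀ (by norm_num)
    have e2 : 0 ≤ A₃ * (A₂ * (6 + R) ^ A₂) := by positivity
    nlinarith
  refine ⟨A₄ * (3 * B) ^ M.c, (D₁ + A₂) * M.c, ?_, ?_⟩
  · have e1 : 1 ≤ (3 * B) ^ M.c := one_le_pow₀ (by linarith)
    nlinarith
  intro Z p m L hL hp0 hm hstep hhgt
  obtain ⟨l₀, hl₀, hl₀C, hl₀len⟩ := up_spec M (p 0)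
  obtain ⟨l', hl', hl'C, hl'len⟩ := up_spec M (p m)
  obtain ⟨y, l, hlm, hlC, hpm, hy⟩ := h1 Z p m (M.E (up M (p 0))) l₀ hl₀C
    (by rw [hl₀, ← hl₀]; exact hl₀) hstep hhgt
  -- length of the end point
  have hlenm : ∀ j ≤ m, M.len (p j) ≤ M.len (p 0) + R * j := by
    intro j
    induction j with
    | zero => intro _; simp
    | succ j ih =>
      intro hj
      have e1 : p (j + 1) = p j * ((p j)⁻¹ * p (j + 1)) := by group
      rw [e1]
      have e2 := M.isLen.mul (p j) ((p j)⁻¹ * p (j + 1))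
      have e3 := ih (by omega)
      have e4 := hstep j (by omega)
      push_cast
      linarith
  have hl₀2 : (l₀.length : ℝ) ≤ 2 * L := by linarith
  have hl'2 : (l'.length : ℝ) ≤ (2 + R) * L := by
    have e1 := hlenm m le_rfl
    have e2 : R * m ≤ R * L := mul_le_mul_of_nonneg_left hm hR
    nlinarith
  -- the ambiguity
  set z : M.L := M.star.op (-y) (M.E ((up M (p 0))⁻¹ * up M (p m))) with hz
  have hzex : M.ex z = (l₀ ++ l ++ (l'.reverse.map (·⁻¹))).prod := by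
    rw [hz, M.ex_op]
    have e1 : M.ex (-y) = (M.ex y)⁻¹ := by
      have h := M.ex_op (-y) y
      rw [M.op_neg', M.ex_zero] at h
      exact eq_inv_of_mul_eq_one_left h.symm
    have e2 : M.ex (M.E ((up M (p 0))⁻¹ * up M (p m))) =
        (M.toG (up M (p 0)))⁻¹ * M.toG (up M (p m)) := by
      rw [← M.toG_apply, map_mul, map_inv]
    have e3 : M.toG (up M (p 0)) * M.ex y * (l₀.prod * l.prod) =
        M.toG (up M (p m)) * l'.prod := by
      rw [M.toG_apply, ← M.ex_op, ← hpm]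
      exact hl'
    rw [e1, e2, List.prod_append, List.prod_append, BModel.prod_word_inv]
    have e4 : M.toG (up M (p m)) =
        M.toG (up M (p 0)) * M.ex y * (l₀.prod * l.prod) * (l'.prod)⁻¹ := by
      rw [e3]; group
    rw [e4]; group
  have hzlet : ∀ s ∈ l₀ ++ l ++ (l'.reverse.map (·⁻¹)), s ∈ M.C ∧ M.len s ≤ max (RU M) A₁ := by
    intro s hs
    rcases List.mem_append.1 hs with hs | hs
    · rcases List.mem_append.1 hs with hs | hs
      · exact ⟨(hl₀C s hs).1, (hl₀C s hs).2.trans (le_max_left _ _)⟩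
      · exact ⟨(hlC s hs).1, (hlC s hs).2.trans (le_max_right _ _)⟩
    · have := M.word_inv hl'C s hs
      exact ⟨this.1, this.2.trans (le_max_left _ _)⟩
  have hzlen : (1:ℝ) + ((l₀ ++ l ++ (l'.reverse.map (·⁻¹))).length : ℝ) ≤ (6 + R) * L := by
    rw [List.length_append, List.length_append, List.length_map, List.length_reverse, hlm]
    push_cast
    nlinarith
  have hznorm := h2 _ hzlet z hzex
  have hzB : ‖M.bas.equivFun z‖ ≤ A₂ * ((6 + R) * L) ^ A₂ := by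
    refine hznorm.trans ?_
    gcongr
  have hzC : M.ex z ∈ M.C := by
    rw [hzex]
    exact Subgroup.list_prod_mem _ fun s hs => (hzlet s hs).1
  have hzbox := h3 z _ (by positivity) hzB ((M.ex_mem_C z).1 hzC) Z (M.h (p 0))
    (hhgt 0 (Nat.zero_le _))
  -- the two factors in a common box
  have hpow : ∀ a b : ℕ, L ^ a ≤ L ^ (a + b) := fun a b => pow_le_pow_right₀ hL (by omega)
  have hT : 1 ≤ B * L ^ (D₁ + A₂) := by
    have := one_le_pow₀ (n := D₁ + A₂) hL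
    nlinarith
  have hA₃0 : 0 ≤ A₃ := by linarith
  have hy' : y ∈ Bx M.c (gZ (eg M) Z) (B * L ^ (D₁ + A₂)) := by
    refine Bx_mono ?_ hy
    have e1 : (1:ℝ) + l₀.length + m ≤ 4 * L := by linarith
    have e2 : (0:ℝ) ≤ 1 + l₀.length + m := by positivity
    calc A₁ * (1 + (l₀.length : ℝ) + m) ^ D₁ ≤ A₁ * (4 * L) ^ D₁ := by gcongr
      _ = (A₁ * 4 ^ D₁) * L ^ D₁ := by rw [mul_pow]; ring
      _ ≤ B * L ^ (D₁ + A₂) := by
          have e3 : A₁ * 4 ^ D₁ ≤ B := by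
            rw [hB]
            have : 0 ≤ A₃ * (A₂ * (6 + R) ^ A₂) := by positivity
            linarith
          have e4 := hpow D₁ A₂
          gcongr
  have hz' : z ∈ Bx M.c (gZ (eg M) Z) (B * L ^ (D₁ + A₂)) := by
    refine Bx_mono ?_ hzbox
    calc A₃ * (A₂ * ((6 + R) * L) ^ A₂) = (A₃ * (A₂ * (6 + R) ^ A₂)) * L ^ A₂ := by
          rw [mul_pow]; ring
      _ ≤ B * L ^ (D₁ + A₂) := by
          have e3 : A₃ * (A₂ * (6 + R) ^ A₂) ≤ B := by
            rw [hB]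
            have : 0 ≤ A₁ * 4 ^ D₁ := by positivity
            linarith
          have e4 := hpow A₂ D₁
          rw [add_comm A₂ D₁] at e4
          gcongr
  have hfin : M.E ((up M (p 0))⁻¹ * up M (p m)) = M.star.prod [y, z] := by
    rw [Nb.Star.prod_cons, Nb.Star.prod_cons, Nb.Star.prod_nil, M.star.op_zero, hz,
      ← M.star.assoc]
    have e1 : M.star.op y (-y) = 0 := by
      have := M.op_neg' (-y)
      rwa [neg_neg] at this
    rw [e1, M.star.zero_op]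
  rw [BModel.mem_NB, hfin]
  refine Bx_mono ?_ (h4 _ _ hT [y, z] ?_)
  · have e1 : (1 + (([y, z] : List M.L).length : ℝ)) = 3 := by
      simp; norm_num
    rw [e1, pow_mul, ← mul_assoc, mul_pow (3 * B), mul_assoc A₄]
  · intro w hw
    simp only [List.mem_cons, List.not_mem_nil, or_false] at hw
    rcases hw with rfl | rfl
    · exact hy'
    · exact hz'

/-- heights are Lipschitz -/
theorem exists_T_le (G : Geo M E) : ∃ C : ℝ, 1 ≤ C ∧ ∀ g : M.G, ‖G.T (M.h g)‖ ≤ C * M.len g := by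
  have hfd : FiniteDimensional ℝ E := G.T.finiteDimensional
  set t1 : ℝ := ‖LinearMap.toContinuousLinearMap (G.T : (Fin k → ℝ) →ₗ[ℝ] E)‖ with ht1
  have ht10 : 0 ≤ t1 := norm_nonneg _
  have ha := M.a0
  refine ⟨t1 * M.a + 1, by nlinarith, fun g => ?_⟩
  have h1 : ‖G.T (M.h g)‖ ≤ t1 * ‖M.h g‖ :=
    (LinearMap.toContinuousLinearMap (G.T : (Fin k → ℝ) →ₗ[ℝ] E)).le_opNorm _
  have h2 : ‖M.h g‖ ≤ M.a * M.len g := by
    refine (pi_norm_le_iff_of_nonneg (mul_nonneg ha (M.len_nonneg g))).2 fun i => ?_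
    rw [Real.norm_eq_abs]
    exact M.h_le g i
  have h3 := M.len_nonneg g
  calc ‖G.T (M.h g)‖ ≤ t1 * (M.a * M.len g) := h1.trans (by gcongr)
    _ ≤ (t1 * M.a + 1) * M.len g := by nlinarith

/-- difference of the heights of two points -/
theorem T_h_sub (G : Geo M E) (g g' : M.G) :
    G.T (M.h g') - G.T (M.h g) = G.T (M.h (g⁻¹ * g')) := by
  rw [M.h_mul, M.h_inv, ← map_sub]; congr 1; abel


end Crest.Agent.R182.ElI
end

-- ▼ part R182/ElLine
section

set_option autoImplicit false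
set_option linter.unusedSectionVars false

open MeasureTheory Set
open scoped Pointwise RealInnerProductSpace ENNReal

namespace Crest.Agent.R182.ElI

open Crest.GroupTheory Crest.Geometry Crest.Agent.R182.QI Crest.Agent.R182.Core
  Crest.Agent.R182.Nb Crest.Agent.R182.Gen

/-- enlarging the logarithmic sizes absorbs constants -/
theorem gZ_absorb {L σ : Type*} [LieRing L] [LieAlgebra ℝ L] [Fintype σ] {c : ℕ} {g : σ → L}
    {Z Z' : σ → ℝ} {a t : ℝ} (ha : 0 ≤ a) (ht : 0 ≤ t) (h : ∀ i, Z i + a ≤ Z' i) {x : L}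
    (hx : x ∈ Bx c (gZ g Z) t) : x ∈ Bx c (gZ g Z') (Real.exp (-a) * t) := by
  classical
  obtain ⟨b, hb, rfl⟩ := hx
  have hsum : ∀ κ : List σ, κ ≠ [] → (κ.map Z).sum + a ≤ (κ.map Z').sum := by
    intro κ hκ
    induction κ with
    | nil => exact absurd rfl hκ
    | cons i κ ih =>
      rw [List.map_cons, List.map_cons, List.sum_cons, List.sum_cons]
      by_cases h0 : κ = []
      · subst h0; simpa using h i
      · have := ih h0
        linarith [h i]
  refine ⟨fun κ => if κ = [] then 0 else b κ * Real.exp ((κ.map Z).sum - (κ.map Z').sum),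
    fun κ => ?_, ?_⟩
  · beta_reduce
    split_ifs with h0
    · rw [abs_zero]; positivity
    · rw [abs_mul, abs_of_pos (Real.exp_pos _), mul_comm]
      have h1 := hsum κ h0
      have h2 := hb κ
      gcongr
      linarith
  · refine Finset.sum_congr rfl fun κ _ => ?_
    beta_reduce
    split_ifs with h0
    · subst h0; simp
    · rw [mon_gZ, mon_gZ, smul_smul, smul_smul, mul_assoc, ← Real.exp_add]
      congr 3
      ring

variable {Γ : Type*} [Group Γ] {k : ℕ} {S : Set Γ} {π : Γ →* Multiplicative (Fin k → ℤ)}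
variable {M : BModel S π} {E : Type*} [NormedAddCommGroup E] [InnerProductSpace ℝ E]

/-- polynomial factors are absorbed by the target boxes -/
theorem exists_absorb_tBx (G : Geo M E) (A B : ℝ) (D : ℕ) {ε : ℝ} (hε : 0 < ε) :
    ∃ S0 : ℝ, 1 ≤ S0 ∧ ∀ Sc, S0 ≤ Sc → ∀ (X : G.R → ℝ) (Z : GI M → ℝ),
      (∀ i, Z i + Sc * (G.RS.lam i * ε) ≤ Sc * (G.RS.lam i * X (G.ray i))) →
      M.NB (gZ (eg M) Z) (A * (1 + B * Sc) ^ D) ⊆ tBx G Sc X := by
  obtain ⟨l0, l1, hl0, -, -, hl⟩ := exists_lam G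
  obtain ⟨S0, h1, h2⟩ := exists_poly_le |A| |B| D (δ := l0 * ε) (by positivity)
  refine ⟨S0, h1, fun Sc hSc X Z hZ n hn => ?_⟩
  have hSc0 : 0 ≤ Sc := by linarith
  rw [BModel.mem_NB] at hn
  have h3 : M.E n ∈ Bx M.c (gZ (eg M) Z) (|A| * (1 + |B| * Sc) ^ D) := by
    refine Bx_mono ?_ hn
    refine (le_abs_self _).trans ?_
    rw [abs_mul, abs_pow]
    have : |1 + B * Sc| ≤ 1 + |B| * Sc := by
      refine (abs_add_le _ _).trans ?_
      rw [abs_one, abs_mul, abs_of_nonneg hSc0]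
    gcongr
  have h4 := gZ_absorb (a := Sc * (l0 * ε)) (by positivity) (by positivity)
    (Z' := fun i => Sc * (G.RS.lam i * X (G.ray i))) (fun i => by
      refine le_trans ?_ (hZ i)
      have := (hl i).1
      gcongr) h3
  rw [tBx, BModel.mem_NB]
  refine Bx_mono ?_ h4
  have h5 := h2 Sc hSc
  calc Real.exp (-(Sc * (l0 * ε))) * (|A| * (1 + |B| * Sc) ^ D)
      ≤ Real.exp (-(Sc * (l0 * ε))) * Real.exp (l0 * ε * Sc) := by gcongr
    _ = 1 := by rw [← Real.exp_add, mul_comm Sc]; simp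

/-- the unipotent parts of the images of two points at distance `len b` -/
theorem exists_move (hD : CDist M) (K : ℕ) : ∃ (A : ℝ) (D : ℕ), 1 ≤ A ∧
    ∀ Ψ : Γ → Γ, QIMap S S Ψ K → ∀ (x a b : M.G) (Z : GI M → ℝ) (L : ℝ), 1 ≤ L →
      M.len ((M.ext Ψ x)⁻¹ * M.ext Ψ a) ≤ L → M.len b + 1 ≤ L →
      (∀ i, wg M i (M.h ((M.ext Ψ x)⁻¹ * M.ext Ψ a)) + A * (1 + M.len b) ≤ Z i) →
      (up M ((M.ext Ψ x)⁻¹ * M.ext Ψ a))⁻¹ * up M ((M.ext Ψ x)⁻¹ * M.ext Ψ (a * b)) ∈
        M.NB (gZ (eg M) Z) (A * L ^ D) := by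
  obtain ⟨Cw, hCw, hwt⟩ := BModel.exists_wt_le M
  have ha := M.one_le_a
  have hKQ : 0 ≤ M.KQ K := by unfold BModel.KQ; positivity
  obtain ⟨A₁, D₁, hA₁, h1⟩ := exists_cmp hD (M.KQ K * M.a + M.KQ K) (by positivity)
  set C₂ : ℝ := Cw * (M.a * (M.KQ K * M.a + M.KQ K)) with hC₂
  have hC₂0 : 0 ≤ C₂ := by positivity
  refine ⟨A₁ + C₂, D₁, by linarith, ?_⟩
  intro Ψ hΨ x a b Z L hL hlen hb hZ
  obtain ⟨l, hl, hllen, hla⟩ := M.letters b
  have hlb : M.len b ≥ 0 := M.len_nonneg b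
  set p : ℕ → M.G := fun j => (M.ext Ψ x)⁻¹ * M.ext Ψ (a * (l.take j).prod) with hp
  have hp0 : p 0 = (M.ext Ψ x)⁻¹ * M.ext Ψ a := by rw [hp]; simp
  have hpm : p l.length = (M.ext Ψ x)⁻¹ * M.ext Ψ (a * b) := by
    rw [hp]; beta_reduce; rw [List.take_length, ← hl]
  have h2 := h1 Z p l.length L hL (by rw [hp0]; exact hlen) (by linarith) ?_ ?_
  · rw [hp0, hpm] at h2
    refine BModel.NB_mono ?_ h2
    have : (1:ℝ) ≤ L ^ D₁ := one_le_pow₀ hL
    gcongr
    linarith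
  · intro j hj
    have e1 : (p j)⁻¹ * p (j + 1) = (M.ext Ψ (a * (l.take j).prod))⁻¹ *
        M.ext Ψ (a * (l.take j).prod * l[j]) := by
      rw [hp]; beta_reduce
      rw [List.prod_take_succ l j hj, mul_assoc a]; group
    rw [e1]
    refine (M.ext_lip hΨ _ _).trans ?_
    have := hla _ (List.getElem_mem hj)
    gcongr
  · intro j hj i
    have e1 : (p 0)⁻¹ * p j = (M.ext Ψ a)⁻¹ * M.ext Ψ (a * (l.take j).prod) := by
      rw [hp0, hp]; beta_reduce; group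
    have e2 : M.h (p j) = M.h (p 0) + M.h ((p 0)⁻¹ * p j) := by
      rw [← M.h_mul]; congr 1; group
    have e3 : M.len ((p 0)⁻¹ * p j) ≤ (M.KQ K * M.a + M.KQ K) * (1 + M.len b) := by
      rw [e1]
      refine (M.ext_lip hΨ _ _).trans ?_
      have h3 := M.len_list_le (l.take j) (R := M.a) fun s hs => hla s (List.mem_of_mem_take hs)
      have h4 : ((l.take j).length : ℝ) ≤ M.len b + 1 := by
        refine le_trans ?_ hllen
        exact_mod_cast (List.length_take_le j l).trans le_rfl |>.trans (by simpa using hj)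
      have h5 : M.len (l.take j).prod ≤ (M.len b + 1) * M.a := h3.trans (by gcongr)
      calc M.KQ K * M.len (l.take j).prod + M.KQ K
          ≤ M.KQ K * ((M.len b + 1) * M.a) + M.KQ K := by gcongr
        _ ≤ (M.KQ K * M.a + M.KQ K) * (1 + M.len b) := by nlinarith [mul_nonneg hKQ hlb]
    have e4 : |wg M i (M.h ((p 0)⁻¹ * p j))| ≤ C₂ * (1 + M.len b) := by
      refine (hwt i _).trans ?_
      have h6 : ‖M.h ((p 0)⁻¹ * p j)‖ ≤ M.a * M.len ((p 0)⁻¹ * p j) := by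
        refine (pi_norm_le_iff_of_nonneg (mul_nonneg M.a0 (M.len_nonneg _))).2 fun i => ?_
        rw [Real.norm_eq_abs]
        exact M.h_le _ i
      calc Cw * ‖M.h ((p 0)⁻¹ * p j)‖
          ≤ Cw * (M.a * ((M.KQ K * M.a + M.KQ K) * (1 + M.len b))) := by
            have := M.a0
            gcongr
            exact h6.trans (by gcongr)
        _ = C₂ * (1 + M.len b) := by rw [hC₂]; ring
    rw [e2, map_add]
    have h7 := hZ i
    rw [← hp0] at h7
    have h8 := le_abs_self (wg M i (M.h ((p 0)⁻¹ * p j)))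
    nlinarith

/-- length of the moves of `U`, seen from a shorter leg -/
theorem exists_len_U (G : Geo M E) (RC Cb TU : ℝ) (hTU : 0 ≤ TU) : ∃ κ1 : ℝ, 1 ≤ κ1 ∧
    ∀ ε : ℝ, 0 < ε → Ev G RC Cb fun Sc τ u => ∀ (w : G.R) (s t : ℝ), 0 ≤ s → s ≤ t → t ≤ 2 →
      ∀ v ∈ M.NB (fw G u τ w t) TU,
        M.len ((leg u τ w s)⁻¹ * M.toG v * leg u τ w s) ≤ (κ1 * (t - s) + ε) * Sc := by
  classical
  obtain ⟨A, hA, h1⟩ := M.exists_len_conj RC TU hTU
  obtain ⟨cm, hcm, hc⟩ := exists_ge fun p : G.R × Fin M.r =>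
    if h : OnRay G p.1 p.2 then h.choose else 0
  refine ⟨A * cm, by nlinarith, fun ε hε => ?_⟩
  have hAc : 0 < A * cm := by positivity
  set e0 : ℝ := ε / (16 * (A * cm)) with he0
  have he0' : 0 < e0 := by positivity
  refine ⟨ε / (8 * (A * cm)), by positivity, fun τ hτ hτ0 => ⟨e0, he0', ?_⟩⟩
  obtain ⟨S1, hS1, h2⟩ := exists_log_le A (4 * Cb) (δ := ε / 4) (by positivity)
  refine ⟨S1, fun Sc hSc un w s t hs hst ht v hv => ?_⟩
  have hSc0 : 0 < Sc := by linarith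
  have hCb : 0 ≤ Cb := un.Cb_nonneg w (mul_pos hτ hSc0)
  have ht0 : 0 ≤ t := hs.trans hst
  set Zc : ℝ := cm * (((t - s) + 4 * e0 + 2 * τ) * Sc) with hZc
  have hZ0 : 0 ≤ Zc := by
    have : 0 ≤ t - s := by linarith
    positivity
  have hcond : ∀ i, OnRay G w i →
      M.wt i (M.h (un.wl w (num τ t)).prod) ≤ M.wt i (M.h (un.wl w (num τ s)).prod) + Zc := by
    intro i hi
    have hc' := hc (w, i)
    beta_reduce at hc'
    rw [dif_pos hi] at hc'
    obtain ⟨hc0, hci⟩ := hi.choose_spec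
    rw [un.wl_prod_leg, un.wl_prod_leg, hci, hci]
    have h3 := un.height_leg w hτ hSc0 he0'.le ht0
    have h4 := un.height_leg w hτ hSc0 he0'.le hs
    have h5 : ⟪(w : E), G.T (M.h (leg un.u τ w t))⟫ - ⟪(w : E), G.T (M.h (leg un.u τ w s))⟫ ≤
        ((t - s) + 4 * e0 + 2 * τ) * Sc := by
      have e1 : ⟪(w : E), G.T (M.h (leg un.u τ w t))⟫ - ⟪(w : E), G.T (M.h (leg un.u τ w s))⟫ =
          ⟪(w : E), G.T (M.h (leg un.u τ w t)) - (t * Sc) • (w : E)⟫ -
          ⟪(w : E), G.T (M.h (leg un.u τ w s)) - (s * Sc) • (w : E)⟫ + (t - s) * Sc := by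
        rw [inner_sub_right, inner_sub_right, inner_smul_right, inner_smul_right,
          real_inner_self_eq_norm_sq, G.norm_ray]
        ring
      rw [e1]
      have e2 := (abs_le.1 ((abs_real_inner_le_norm (w : E)
        (G.T (M.h (leg un.u τ w t)) - (t * Sc) • (w : E))))).2
      have e3 := (abs_le.1 ((abs_real_inner_le_norm (w : E)
        (G.T (M.h (leg un.u τ w s)) - (s * Sc) • (w : E))))).1
      rw [G.norm_ray, one_mul] at e2 e3
      have e4 : (e0 * t + τ) * Sc ≤ (2 * e0 + τ) * Sc := by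
        have : e0 * t ≤ 2 * e0 := by nlinarith
        gcongr
      have e5 : (e0 * s + τ) * Sc ≤ (2 * e0 + τ) * Sc := by
        have : e0 * s ≤ 2 * e0 := by nlinarith
        gcongr
      nlinarith
    have h6 : 0 ≤ ((t - s) + 4 * e0 + 2 * τ) * Sc := by
      have : 0 ≤ t - s := by linarith
      positivity
    have h7 : hi.choose * (⟪(w : E), G.T (M.h (leg un.u τ w t))⟫ -
        ⟪(w : E), G.T (M.h (leg un.u τ w s))⟫) ≤ cm * (((t - s) + 4 * e0 + 2 * τ) * Sc) :=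
      (mul_le_mul_of_nonneg_left h5 hc0.le).trans (mul_le_mul_of_nonneg_right hc' h6)
    rw [hZc]
    nlinarith
  have h3 := h1 (un.wl w (num τ t)) (un.wl w (num τ s)) (un.wl_mem w _) (un.wl_mem w _)
    (OnRay G w) Zc hZ0 hcond (M.E v) (by
      rw [BModel.mem_NB] at hv
      unfold fw at hv
      rw [un.wl_prod_leg]
      convert hv)
  rw [un.wl_prod_leg, ← M.toG_apply] at h3
  refine h3.trans ?_
  have hl1 := un.wl_len_leg w hτ hSc0 ht0
  have hl2 := un.wl_len_leg w hτ hSc0 hs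
  have h4 := h2 Sc hSc (1 + ((un.wl w (num τ t)).length : ℝ) + ((un.wl w (num τ s)).length : ℝ))
    (by positivity) (by
      rw [abs_of_nonneg (by positivity : 0 ≤ 4 * Cb)]
      have e1 : Cb * t * Sc ≤ Cb * 2 * Sc := by gcongr
      have e2 : Cb * s * Sc ≤ Cb * 2 * Sc := by
        have : s ≤ 2 := hst.trans ht
        gcongr
      nlinarith)
  rw [abs_of_nonneg (by linarith : 0 ≤ A)] at h4
  have h5 : A * Zc ≤ (A * cm * (t - s) + ε / 2) * Sc := by
    have e1 : A * Zc = (A * cm * (t - s) + (A * cm * (4 * e0) + A * cm * (2 * τ))) * Sc := by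
      rw [hZc]; ring
    rw [e1]
    have e2 : A * cm * (4 * e0) = ε / 4 := by
      rw [he0]
      have : A * cm ≠ 0 := hAc.ne'
      field_simp
      norm_num
    have e3 : A * cm * (2 * τ) ≤ ε / 4 := by
      have := mul_le_mul_of_nonneg_left hτ0 hAc.le
      have e4 : A * cm * (ε / (8 * (A * cm))) = ε / 8 := by field_simp
      nlinarith
    gcongr
    linarith
  have e6 : A * (1 + Zc + Real.log (1 + ((un.wl w (num τ t)).length : ℝ) +
      ((un.wl w (num τ s)).length : ℝ))) = A * Zc + A * (1 + Real.log (1 +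
      ((un.wl w (num τ t)).length : ℝ) + ((un.wl w (num τ s)).length : ℝ))) := by ring
  rw [e6]
  have e7 : (A * cm * (t - s) + ε) * Sc = (A * cm * (t - s) + ε / 2) * Sc + ε / 2 * Sc := by ring
  rw [e7]
  have e8 : ε / 4 * Sc ≤ ε / 2 * Sc := by nlinarith
  linarith

/-- the point `x n v leg = (x n leg) (leg⁻¹ v leg)` -/
theorem pnt_mul {G : Geo M E} (Ψ : Γ → Γ) (x : M.G) (u : G.R → M.G) (τ : ℝ) (n v : M.NN) (r : G.R)
    (s : ℝ) : pnt Ψ x u τ (n * v) r s = (M.ext Ψ x)⁻¹ * M.ext Ψ (x * M.toG n * leg u τ r s *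
      ((leg u τ r s)⁻¹ * M.toG v * leg u τ r s)) := by
  unfold pnt
  rw [map_mul]
  congr 2
  group

/-- heights of the image of a move -/
theorem exists_lip_aux (G : Geo M E) (K : ℕ) : ∃ C : ℝ, 1 ≤ C ∧ ∀ Ψ : Γ → Γ, QIMap S S Ψ K →
    ∀ (x : M.G) (u : G.R → M.G) (τ : ℝ) (n v : M.NN) (r : G.R) (s : ℝ),
      ‖G.T (M.h (pnt Ψ x u τ (n * v) r s)) - G.T (M.h (pnt Ψ x u τ n r s))‖ ≤
        C * (M.len ((leg u τ r s)⁻¹ * M.toG v * leg u τ r s) + 1) := by
  obtain ⟨CT, hCT, h1⟩ := exists_T_le G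
  have hKQ : 0 ≤ M.KQ K := by unfold BModel.KQ; have := M.a0; positivity
  refine ⟨CT * M.KQ K + 1, by nlinarith, fun Ψ hΨ x u τ n v r s => ?_⟩
  rw [T_h_sub]
  refine (h1 _).trans ?_
  have e1 : (pnt Ψ x u τ n r s)⁻¹ * pnt Ψ x u τ (n * v) r s =
      (M.ext Ψ (x * M.toG n * leg u τ r s))⁻¹ * M.ext Ψ (x * M.toG n * leg u τ r s *
      ((leg u τ r s)⁻¹ * M.toG v * leg u τ r s)) := by
    rw [pnt_mul]; unfold pnt; group
  rw [e1]
  have h2 := M.ext_lip hΨ (x * M.toG n * leg u τ r s) ((leg u τ r s)⁻¹ * M.toG v * leg u τ r s)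
  have h3 := M.len_nonneg ((leg u τ r s)⁻¹ * M.toG v * leg u τ r s)
  calc CT * M.len _ ≤ CT * (M.KQ K * M.len ((leg u τ r s)⁻¹ * M.toG v * leg u τ r s) + M.KQ K) := by
        gcongr
    _ = CT * M.KQ K * (M.len ((leg u τ r s)⁻¹ * M.toG v * leg u τ r s) + 1) := by ring
    _ ≤ _ := by
        gcongr
        linarith

/-- **field `lip`** -/
theorem exists_lip (G : Geo M E) (cs : Cst G) (hTU : 0 ≤ cs.TU) (K : ℕ) (RC Cb : ℝ) :
    ∃ κ1 : ℝ, 1 ≤ κ1 ∧ ∀ κ, κ1 ≤ κ → ∀ ε : ℝ, 0 < ε → Ev G RC Cb fun Sc τ u =>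
      ∀ Ψ : Γ → Γ, QIMap S S Ψ K → ∀ x : M.G, ∀ (n : M.NN) (w : G.R) (t s : ℝ), 0 ≤ s → s ≤ t →
        t ≤ 2 → ∀ v ∈ (data G cs Ψ x Sc τ u).U w t,
          ‖(data G cs Ψ x Sc τ u).f (n * v) w s - (data G cs Ψ x Sc τ u).f n w s‖ ≤
            κ * (t - s) + ε := by
  obtain ⟨κ1, hκ1, h1⟩ := exists_len_U G RC Cb cs.TU hTU
  obtain ⟨C, hC, h2⟩ := exists_lip_aux G K
  refine ⟨C * κ1, by nlinarith, fun κ hκ ε hε => ?_⟩
  refine ((h1 (ε / (2 * C)) (by positivity)).and (Ev.scale (2 * C / ε))).mono ?_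
  rintro Sc τ u hτ hSc ⟨h3, h4⟩ Ψ hΨ x n w t s hs hst ht v hv
  have h5 := h3 w s t hs hst ht v hv
  have h6 := h2 Ψ hΨ x u τ n v w s
  change ‖Sc⁻¹ • G.T (M.h (pnt Ψ x u τ (n * v) w s)) - Sc⁻¹ • G.T (M.h (pnt Ψ x u τ n w s))‖ ≤ _
  rw [← smul_sub, norm_smul, norm_inv, Real.norm_of_nonneg hSc.le, inv_mul_le_iff₀ hSc]
  refine h6.trans ?_
  have h7 : C * 1 ≤ Sc * (ε / 2) := by
    rw [div_le_iff₀ hε] at h4
    linarith
  have hts : 0 ≤ t - s := by linarith
  calc C * (M.len ((leg u τ w s)⁻¹ * M.toG v * leg u τ w s) + 1)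
      ≤ C * ((κ1 * (t - s) + ε / (2 * C)) * Sc + 1) := by gcongr
    _ = Sc * (C * κ1 * (t - s) + C * (ε / (2 * C))) + C * 1 := by ring
    _ = Sc * (C * κ1 * (t - s) + ε / 2) + C * 1 := by
        congr 3
        field_simp
    _ ≤ Sc * (C * κ1 * (t - s) + ε / 2) + Sc * (ε / 2) := by gcongr
    _ = Sc * (C * κ1 * (t - s) + ε) := by ring
    _ ≤ Sc * (κ * (t - s) + ε) := by gcongr

end Crest.Agent.R182.ElI
end

-- ▼ part R182/ElHop

set_option autoImplicit false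
set_option linter.unusedSectionVars false

open MeasureTheory Set
open scoped Pointwise RealInnerProductSpace ENNReal

namespace Crest.Agent.R182.ElI

open Crest.GroupTheory Crest.Geometry Crest.Agent.R182.QI Crest.Agent.R182.Core
  Crest.Agent.R182.Nb Crest.Agent.R182.Gen

variable {Γ : Type*} [Group Γ] {k : ℕ} {S : Set Γ} {π : Γ →* Multiplicative (Fin k → ℤ)}
variable {M : BModel S π} {E : Type*} [NormedAddCommGroup E] [InnerProductSpace ℝ E]

/-- length of the image points over the domain -/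
theorem exists_len_pnt (G : Geo M E) (K : ℕ) {κD : ℝ} (hκD : 0 ≤ κD) (RC Cb : ℝ) :
    ∃ B : ℝ, 1 ≤ B ∧ ∀ (Sc τ e0 : ℝ), 1 ≤ Sc → 0 < τ → ∀ un : Unit G RC Cb e0 τ Sc,
      ∀ Ψ : Γ → Γ, QIMap S S Ψ K → ∀ (x : M.G) (n : M.NN), ‖n‖ ≤ Real.exp (κD * Sc) →
        ∀ (r : G.R) (s : ℝ), 0 ≤ s → s ≤ 2 → M.len (pnt Ψ x un.u τ n r s) ≤ B * Sc := by
  have ha := M.a0
  have hKQ : 0 ≤ M.KQ K := by unfold BModel.KQ; positivity
  have hlog3 : 0 ≤ Real.log 3 := Real.log_nonneg (by norm_num)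
  refine ⟨M.KQ K * (M.a * (Real.log 3 + κD) + 2 * |Cb| * |RC|) + M.KQ K + 1, ?_, ?_⟩
  · have : 0 ≤ M.KQ K * (M.a * (Real.log 3 + κD) + 2 * |Cb| * |RC|) := by positivity
    linarith
  intro Sc τ e0 hSc hτ un Ψ hΨ x n hn r s hs hs2
  have hSc0 : 0 < Sc := by linarith
  have h1 := M.ext_lip hΨ x (M.toG n * leg un.u τ r s)
  have e1 : pnt Ψ x un.u τ n r s = (M.ext Ψ x)⁻¹ * M.ext Ψ (x * (M.toG n * leg un.u τ r s)) := by
    unfold pnt; rw [mul_assoc]
  rw [e1]
  refine h1.trans ?_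
  have h2 := M.isLen.mul (M.toG n) (leg un.u τ r s)
  have h3 : M.len (M.toG n) ≤ M.a * (Real.log 3 + κD * Sc) := by
    refine (M.len_toG_le n).trans ?_
    have h4 : 2 + ‖n‖ ≤ 3 * Real.exp (κD * Sc) := by
      have : 1 ≤ Real.exp (κD * Sc) := Real.one_le_exp (by positivity)
      linarith
    have h5 : Real.log (2 + ‖n‖) ≤ Real.log 3 + κD * Sc := by
      refine (Real.log_le_log (by positivity) h4).trans (le_of_eq ?_)
      rw [Real.log_mul (by norm_num) (Real.exp_pos _).ne', Real.log_exp]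
    gcongr
  have h4 : M.len (leg un.u τ r s) ≤ 2 * |Cb| * |RC| * Sc := by
    rw [← un.wl_prod_leg]
    have h5 := M.len_list_le (un.wl r (num τ s)) (R := |RC|) fun a ha =>
      ((un.wl_mem r _ a ha).2).trans (le_abs_self _)
    refine h5.trans ?_
    have h6 := un.wl_len_leg r hτ hSc0 hs
    have h7 : Cb * s * Sc ≤ |Cb| * 2 * Sc := by
      have := le_abs_self Cb
      gcongr
    calc ((un.wl r (num τ s)).length : ℝ) * |RC| ≤ (|Cb| * 2 * Sc) * |RC| := by
          gcongr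
          exact h6.trans h7
      _ = _ := by ring
  have h5 : M.len (M.toG n * leg un.u τ r s) ≤
      (M.a * (Real.log 3 + κD) + 2 * |Cb| * |RC|) * Sc := by
    have h6 : M.a * (Real.log 3 + κD * Sc) ≤ M.a * (Real.log 3 + κD) * Sc := by
      rw [mul_assoc]
      gcongr
      nlinarith
    calc _ ≤ _ := h2
      _ ≤ M.a * (Real.log 3 + κD) * Sc + 2 * |Cb| * |RC| * Sc := add_le_add (h3.trans h6) h4
      _ = _ := by ring
  calc M.KQ K * M.len (M.toG n * leg un.u τ r s) + M.KQ K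
      ≤ M.KQ K * ((M.a * (Real.log 3 + κD) + 2 * |Cb| * |RC|) * Sc) + M.KQ K * Sc := by
        gcongr
        nlinarith
    _ ≤ _ := by nlinarith

/-- moves at the end of a leg -/
theorem exists_move' (G : Geo M E) (cs : Cst G) (hκD : 0 ≤ cs.κD) (hD : CDist M) (K : ℕ)
    (RC Cb : ℝ) : ∃ A₀ : ℝ, 1 ≤ A₀ ∧ ∀ B₁ : ℝ, 0 ≤ B₁ → ∀ ε : ℝ, 0 < ε →
      Ev G RC Cb fun Sc τ u => ∀ Ψ : Γ → Γ, QIMap S S Ψ K → ∀ (x : M.G),
        ∀ n ∈ (data G cs Ψ x Sc τ u).Dom, ∀ (r : G.R) (s : ℝ), 0 ≤ s → s ≤ 2 → ∀ v : M.NN,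
          M.len ((leg u τ r s)⁻¹ * M.toG v * leg u τ r s) ≤ B₁ * Sc → ∀ (X : G.R → ℝ),
          (∀ r' : G.R, Sc * ⟪(r' : E), (data G cs Ψ x Sc τ u).f n r s⟫ +
            A₀ * M.len ((leg u τ r s)⁻¹ * M.toG v * leg u τ r s) + ε * Sc ≤ Sc * X r') →
          ((data G cs Ψ x Sc τ u).g n r s)⁻¹ * (data G cs Ψ x Sc τ u).g (n * v) r s ∈
            tBx G Sc X := by
  obtain ⟨l0, l1, hl0, hl01, -, hl⟩ := exists_lam G
  obtain ⟨A, D, hA, h1⟩ := exists_move hD K
  obtain ⟨B, hB, h2⟩ := exists_len_pnt G K hκD RC Cb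
  refine ⟨A / l0, by rw [le_div_iff₀ hl0]; linarith, fun B₁ hB₁ ε hε => ?_⟩
  obtain ⟨S1, hS1, h3⟩ := exists_absorb_tBx G A (B + B₁ + 1) D (ε := ε / 2) (by positivity)
  refine ⟨1, one_pos, fun τ hτ _ => ⟨1, one_pos, max S1 (2 * A / (l0 * ε)), ?_⟩⟩
  intro Sc hSc un Ψ hΨ x n hn r s hs hs2 v hv X hX
  have hScS : S1 ≤ Sc := (le_max_left _ _).trans hSc
  have hSc1 : 1 ≤ Sc := hS1.trans hScS
  have hSc0 : 0 < Sc := by linarith
  have hScA : 2 * A ≤ l0 * ε * Sc := by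
    have := (le_max_right _ _).trans hSc
    rw [div_le_iff₀ (by positivity)] at this
    linarith
  change ‖n‖ ≤ Real.exp (cs.κD * Sc) at hn
  set b : M.G := (leg un.u τ r s)⁻¹ * M.toG v * leg un.u τ r s with hb
  have hlb := M.len_nonneg b
  change (up M (pnt Ψ x un.u τ n r s))⁻¹ * up M (pnt Ψ x un.u τ (n * v) r s) ∈ _
  rw [pnt_mul, ← hb]
  have hlen := h2 Sc τ 1 hSc1 hτ un Ψ hΨ x n hn r s hs hs2
  set Z : GI M → ℝ := fun i => Sc * (G.RS.lam i * (X (G.ray i) - ε / 2)) with hZ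
  have hB0 : 0 ≤ B := by linarith
  have key := h1 Ψ hΨ x (x * M.toG n * leg un.u τ r s) b Z ((B + B₁ + 1) * Sc) (by nlinarith)
    (by
      refine le_trans hlen ?_
      nlinarith) (by nlinarith) (fun i => by
      have e1 := G.wg_ray i (M.h (pnt Ψ x un.u τ n r s))
      have e2 : ⟪(G.ray i : E), G.T (M.h (pnt Ψ x un.u τ n r s))⟫ =
          Sc * ⟪(G.ray i : E), (data G cs Ψ x Sc τ un.u).f n r s⟫ := by
        change _ = Sc * ⟪(G.ray i : E), Sc⁻¹ • G.T (M.h (pnt Ψ x un.u τ n r s))⟫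
        rw [inner_smul_right, ← mul_assoc, mul_inv_cancel₀ hSc0.ne', one_mul]
      change wg M i (M.h (pnt Ψ x un.u τ n r s)) + A * (1 + M.len b) ≤ Z i
      rw [e1, e2, hZ]
      beta_reduce
      have h4 := hX (G.ray i)
      have h5 := mul_le_mul_of_nonneg_left h4 (G.lam_pos i).le
      have h6 := (hl i).1
      have h7 : A * M.len b ≤ G.RS.lam i * (A / l0 * M.len b) := by
        have : l0 * (A / l0 * M.len b) = A * M.len b := by field_simp
        rw [← this]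
        have : 0 ≤ A / l0 * M.len b := by positivity
        gcongr
      have h8 : l0 * ε * Sc ≤ G.RS.lam i * (ε * Sc) := by
        rw [mul_assoc]
        gcongr
      nlinarith)
  refine h3 Sc hScS X Z (fun i => ?_) (BModel.NB_mono ?_ key)
  · rw [hZ]
    beta_reduce
    apply le_of_eq
    ring
  · have : (B + B₁ + 1) * Sc ≤ 1 + (B + B₁ + 1) * Sc := by linarith
    gcongr

/-- **field `hop`** -/
theorem exists_hop (G : Geo M E) (cs : Cst G) (hTU : 0 ≤ cs.TU) (hκD : 0 ≤ cs.κD)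
    (hD : CDist M) (K : ℕ) (RC Cb : ℝ) :
    ∃ κ1 : ℝ, 1 ≤ κ1 ∧ ∀ κ, κ1 ≤ κ → ∀ ε : ℝ, 0 < ε → Ev G RC Cb fun Sc τ u =>
      ∀ Ψ : Γ → Γ, QIMap S S Ψ K → ∀ x : M.G, ∀ n ∈ (data G cs Ψ x Sc τ u).Dom,
        ∀ (w : G.R) (t s : ℝ), 0 ≤ s → s ≤ t → t ≤ 2 → ∀ v ∈ (data G cs Ψ x Sc τ u).U w t,
          ∀ (z : ℝ) (X : G.R → ℝ),
          (∀ r : G.R, ⟪(r : E), (data G cs Ψ x Sc τ u).f n w s⟫ + κ * (t - s) + ε ≤ X r) →
          ((data G cs Ψ x Sc τ u).g n w s)⁻¹ * (data G cs Ψ x Sc τ u).g (n * v) w s ∈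
            (data G cs Ψ x Sc τ u).Bx z X := by
  obtain ⟨κ1, hκ1, h1⟩ := exists_len_U G RC Cb cs.TU hTU
  obtain ⟨A₀, hA₀, h2⟩ := exists_move' G cs hκD hD K RC Cb
  refine ⟨A₀ * κ1, by nlinarith, fun κ hκ ε hε => ?_⟩
  have hA₀0 : 0 < A₀ := by linarith
  refine ((h1 (ε / (2 * A₀)) (by positivity)).and
    (h2 (κ1 * 2 + ε / (2 * A₀)) (by positivity) (ε / 2) (by positivity))).mono ?_
  rintro Sc τ u hτ hSc ⟨h3, h4⟩ Ψ hΨ x n hn w t s hs hst ht v hv z X hX
  have h5 := h3 w s t hs hst ht v hv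
  have hts : 0 ≤ t - s := by linarith
  refine h4 Ψ hΨ x n hn w s hs (hst.trans ht) v (h5.trans ?_) X fun r' => ?_
  · have : κ1 * (t - s) ≤ κ1 * 2 := by
      have : t - s ≤ 2 := by linarith
      gcongr
    gcongr
  · have h6 := mul_le_mul_of_nonneg_left (hX r') hSc.le
    have h7 : A₀ * M.len ((leg u τ w s)⁻¹ * M.toG v * leg u τ w s) ≤
        (κ * (t - s) + ε / 2) * Sc := by
      calc _ ≤ A₀ * ((κ1 * (t - s) + ε / (2 * A₀)) * Sc) := by gcongr
        _ = (A₀ * κ1 * (t - s) + ε / 2) * Sc := by field_simp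
        _ ≤ _ := by gcongr
    nlinarith


/-- prefixes of a power of a word -/
theorem take_flatten_replicate {α : Type*} (w : List α) : ∀ (m j : ℕ),
    ∃ q ≤ m, ∃ j' : ℕ, ((List.replicate m w).flatten).take j =
      (List.replicate q w).flatten ++ w.take j' := by
  intro m
  induction m with
  | zero => intro j; exact ⟨0, le_rfl, 0, by simp⟩
  | succ m ih =>
    intro j
    rw [List.replicate_succ, List.flatten_cons]
    by_cases hj : j ≤ w.length
    · refine ⟨0, Nat.zero_le _, j, ?_⟩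
      rw [List.take_append_of_le_length hj]
      simp
    · push Not at hj
      obtain ⟨q, hq, j', h⟩ := ih (j - w.length)
      refine ⟨q + 1, by omega, j', ?_⟩
      rw [List.take_append, List.take_of_length_le hj.le, h, List.replicate_succ,
        List.flatten_cons, List.append_assoc]

/-- **field `line`** -/
theorem exists_line (G : Geo M E) (cs : Cst G) (hκD : 0 ≤ cs.κD)
    (hD : CDist M) (K : ℕ) (RC Cb : ℝ) (ε : ℝ) (hε : 0 < ε) :
    Ev G RC Cb fun Sc τ u =>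
      ∀ Ψ : Γ → Γ, QIMap S S Ψ K → ∀ x : M.G, ∀ n ∈ (data G cs Ψ x Sc τ u).Dom,
        ∀ (r : G.R) (s : ℝ), 0 ≤ s → s ≤ 2 → ∀ (z : ℝ) (X : G.R → ℝ),
          (∀ s', 0 ≤ s' → s' ≤ s → ∀ r' : G.R,
            ⟪(r' : E), (data G cs Ψ x Sc τ u).f n r s'⟫ + ε ≤ X r') →
          ((data G cs Ψ x Sc τ u).g n r 0)⁻¹ * (data G cs Ψ x Sc τ u).g n r s ∈
            (data G cs Ψ x Sc τ u).Bx z X := by
  have ha := M.a0
  have hKQ : 0 ≤ M.KQ K := by unfold BModel.KQ; positivity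
  obtain ⟨CT, hCT, hT⟩ := exists_T_le G
  obtain ⟨A, D, hA, h1⟩ := exists_cmp hD (M.KQ K * |RC| + M.KQ K) (by positivity)
  obtain ⟨B, hB, h2⟩ := exists_len_pnt G K hκD RC Cb
  set C₃ : ℝ := CT * (M.KQ K * (|Cb| * |RC|)) + 1 with hC₃
  have hC₃0 : 0 < C₃ := by positivity
  set C₄ : ℝ := CT * M.KQ K with hC₄
  have hC₄0 : 0 ≤ C₄ := by positivity
  obtain ⟨S1, hS1, h3⟩ := exists_absorb_tBx G A (B + 2 * |Cb| + 1) D (ε := ε / 2) (by positivity)
  refine ⟨ε / (8 * C₃), by positivity, fun τ hτ hτ0 => ⟨1, one_pos, max S1 (8 * C₄ / ε), ?_⟩⟩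
  intro Sc hSc un Ψ hΨ x n hn r s hs hs2 z X hX
  have hScS : S1 ≤ Sc := (le_max_left _ _).trans hSc
  have hSc1 : 1 ≤ Sc := hS1.trans hScS
  have hSc0 : 0 < Sc := by linarith
  have hScA : 8 * C₄ ≤ ε * Sc := by
    have := (le_max_right _ _).trans hSc
    rw [div_le_iff₀ hε] at this
    linarith
  change ‖n‖ ≤ Real.exp (cs.κD * Sc) at hn
  set l : List M.G := un.wl r (num τ s) with hl
  set p : ℕ → M.G := fun j => (M.ext Ψ x)⁻¹ * M.ext Ψ (x * M.toG n * (l.take j).prod) with hp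
  have hp0 : p 0 = pnt Ψ x un.u τ n r 0 := by
    rw [hp]; unfold pnt; beta_reduce; rw [leg_zero, List.take_zero, List.prod_nil]
  have hpm : p l.length = pnt Ψ x un.u τ n r s := by
    rw [hp]; unfold pnt; beta_reduce; rw [List.take_length, hl, un.wl_prod_leg]
  set Z : GI M → ℝ := fun i => Sc * (G.RS.lam i * (X (G.ray i) - ε / 2)) with hZ
  have hlen0 := h2 Sc τ 1 hSc1 hτ un Ψ hΨ x n hn r 0 le_rfl (by norm_num)
  have hB0 : 0 ≤ B := by linarith
  have hll : (l.length : ℝ) ≤ 2 * |Cb| * Sc := by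
    have h6 := un.wl_len_leg r hτ hSc0 hs
    have h7 : Cb * s * Sc ≤ |Cb| * 2 * Sc := by
      have := le_abs_self Cb
      gcongr
    rw [hl]
    linarith
  have key := h1 Z p l.length ((B + 2 * |Cb| + 1) * Sc) (by nlinarith [abs_nonneg Cb])
    (by rw [hp0]; refine hlen0.trans ?_; nlinarith [abs_nonneg Cb])
    (by nlinarith) ?_ ?_
  · change (up M (pnt Ψ x un.u τ n r 0))⁻¹ * up M (pnt Ψ x un.u τ n r s) ∈ tBx G Sc X
    rw [← hp0, ← hpm]
    refine h3 Sc hScS X Z (fun i => ?_) (BModel.NB_mono ?_ key)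
    · rw [hZ]
      beta_reduce
      apply le_of_eq
      ring
    · have : (B + 2 * |Cb| + 1) * Sc ≤ 1 + (B + 2 * |Cb| + 1) * Sc := by linarith
      gcongr
  · intro j hj
    have e1 : (p j)⁻¹ * p (j + 1) = (M.ext Ψ (x * M.toG n * (l.take j).prod))⁻¹ *
        M.ext Ψ (x * M.toG n * (l.take j).prod * l[j]) := by
      rw [hp]; beta_reduce
      rw [List.prod_take_succ l j hj, mul_assoc (x * M.toG n)]; group
    rw [e1]
    refine (M.ext_lip hΨ _ _).trans ?_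
    have h4 := (un.wl_mem r _ _ (List.getElem_mem hj)).2
    have h5 := h4.trans (le_abs_self RC)
    gcongr
  · intro j hj i
    obtain ⟨q, hq, j', hqj⟩ := take_flatten_replicate (un.w r) (num τ s) j
    have e0 : (l.take j).prod = leg un.u τ r (q * τ) * ((un.w r).take j').prod := by
      have e1 : l.take j = (List.replicate q (un.w r)).flatten ++ (un.w r).take j' := by
        rw [hl]; exact hqj
      have e2 : ((List.replicate q (un.w r)).flatten).prod = un.u r ^ q := un.wl_prod r q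
      rw [e1, List.prod_append, e2]
      unfold leg
      rw [num_mul hτ]
    have hqs : (q : ℝ) * τ ≤ s := by
      refine le_trans ?_ (num_le hτ hs)
      gcongr
    have h4 := hX (q * τ) (by positivity) hqs (G.ray i)
    have e2 : ⟪(G.ray i : E), (data G cs Ψ x Sc τ un.u).f n r (q * τ)⟫ =
        Sc⁻¹ * ⟪(G.ray i : E), G.T (M.h (pnt Ψ x un.u τ n r (q * τ)))⟫ := by
      change ⟪(G.ray i : E), Sc⁻¹ • G.T (M.h (pnt Ψ x un.u τ n r (q * τ)))⟫ = _
      rw [inner_smul_right]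
    rw [e2] at h4
    -- the distance
    have e3 : (pnt Ψ x un.u τ n r (q * τ))⁻¹ * p j =
        (M.ext Ψ (x * M.toG n * leg un.u τ r (q * τ)))⁻¹ *
          M.ext Ψ (x * M.toG n * leg un.u τ r (q * τ) * ((un.w r).take j').prod) := by
      rw [hp]; unfold pnt; beta_reduce
      rw [e0, mul_assoc (x * M.toG n)]; group
    have h5 : ‖G.T (M.h (p j)) - G.T (M.h (pnt Ψ x un.u τ n r (q * τ)))‖ ≤ ε / 4 * Sc := by
      rw [T_h_sub]
      refine (hT _).trans ?_
      rw [e3]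
      have h6 := M.ext_lip hΨ (x * M.toG n * leg un.u τ r (q * τ)) ((un.w r).take j').prod
      have h7 := M.len_list_le ((un.w r).take j') (R := |RC|) fun a ha =>
        ((un.w_mem r a (List.mem_of_mem_take ha)).2).trans (le_abs_self _)
      have h8 : (((un.w r).take j').length : ℝ) ≤ |Cb| * (τ * Sc) := by
        have e4 : ((un.w r).take j').length ≤ (un.w r).length := by
          rw [List.length_take]; exact min_le_right _ _
        have e5 : (((un.w r).take j').length : ℝ) ≤ ((un.w r).length : ℝ) := by exact_mod_cast e4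
        refine e5.trans ((un.w_len r).trans ?_)
        have := le_abs_self Cb
        gcongr
      have h9 : M.len ((un.w r).take j').prod ≤ |Cb| * (τ * Sc) * |RC| := h7.trans (by gcongr)
      calc CT * M.len _ ≤ CT * (M.KQ K * (|Cb| * (τ * Sc) * |RC|) + M.KQ K) := by
            gcongr
            exact h6.trans (by gcongr)
        _ = (CT * (M.KQ K * (|Cb| * |RC|))) * τ * Sc + C₄ := by rw [hC₄]; ring
        _ ≤ C₃ * τ * Sc + ε / 8 * Sc := by
            have : CT * (M.KQ K * (|Cb| * |RC|)) ≤ C₃ := by rw [hC₃]; linarith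
            gcongr
            linarith
        _ ≤ ε / 8 * Sc + ε / 8 * Sc := by
            have : C₃ * τ ≤ ε / 8 := by
              have := mul_le_mul_of_nonneg_left hτ0 hC₃0.le
              refine this.trans (le_of_eq ?_)
              field_simp
            gcongr
        _ = ε / 4 * Sc := by ring
    have h6 : ⟪(G.ray i : E), G.T (M.h (p j))⟫ ≤
        ⟪(G.ray i : E), G.T (M.h (pnt Ψ x un.u τ n r (q * τ)))⟫ + ε / 4 * Sc := by
      have e4 := real_inner_le_norm (G.ray i : E)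
        (G.T (M.h (p j)) - G.T (M.h (pnt Ψ x un.u τ n r (q * τ))))
      rw [G.norm_ray, one_mul, inner_sub_right] at e4
      linarith
    have h7 : ⟪(G.ray i : E), G.T (M.h (pnt Ψ x un.u τ n r (q * τ)))⟫ ≤
        Sc * (X (G.ray i) - ε) := by
      have h8 : Sc⁻¹ * ⟪(G.ray i : E), G.T (M.h (pnt Ψ x un.u τ n r (q * τ)))⟫ ≤
          X (G.ray i) - ε := by linarith
      rwa [inv_mul_le_iff₀ hSc0] at h8
    rw [G.wg_ray, hZ]
    beta_reduce
    have h8 : ⟪(G.ray i : E), G.T (M.h (p j))⟫ ≤ Sc * (X (G.ray i) - ε / 2) := by nlinarith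
    calc G.RS.lam i * ⟪(G.ray i : E), G.T (M.h (p j))⟫
        ≤ G.RS.lam i * (Sc * (X (G.ray i) - ε / 2)) :=
          mul_le_mul_of_nonneg_left h8 (G.lam_pos i).le
      _ = _ := by ring

end Crest.Agent.R182.ElI
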