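/-
R182, module BOXVOL (helper88), part 5: near-round shapes: the pure relations of a ray lie in the
box; final volume statements (`lam_vol`, `mul_V`, `stick`, slabs).
-/
import Mathlib
import Crest.Agent.R182.BoxRay

set_option autoImplicit false
set_option linter.unusedSectionVars false

open MeasureTheory Set
open scoped Pointwise ENNReal

namespace Crest.Agent.R182.BoxVol

open Crest.Agent.R182.Nb Crest.Agent.R182.Core

/-- a linear choice of coefficients -/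
theorem exists_coeff {L : Type*} [AddCommGroup L] [Module ℝ L] {ι : Type*} [Fintype ι]
    (v : ι → L) : ∃ a : L →ₗ[ℝ] (ι → ℝ), ∀ y ∈ Submodule.span ℝ (Set.range v),
      ∑ i, a y i • v i = y := by
  set A : (ι → ℝ) →ₗ[ℝ] L := Fintype.linearCombination ℝ v with hA
  obtain ⟨g, hg⟩ := A.rangeRestrict.exists_rightInverse_of_surjective
    (LinearMap.range_eq_top.2 A.surjective_rangeRestrict)
  obtain ⟨a, ha⟩ := LinearMap.exists_extend g
  refine ⟨a, fun y hy => ?_⟩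
  have hy' : y ∈ LinearMap.range A := by
    rw [hA, Fintype.range_linearCombination]; exact hy
  have h1 : a y = g ⟨y, hy'⟩ := by
    have := LinearMap.congr_fun ha ⟨y, hy'⟩
    simpa using this
  have h2 := LinearMap.congr_fun hg ⟨y, hy'⟩
  have h3 : A (g ⟨y, hy'⟩) = y := by
    have := congrArg Subtype.val h2
    simpa using this
  rw [h1, ← Fintype.linearCombination_apply ℝ v, ← hA]
  exact h3

variable {Γ : Type*} [Group Γ] {k : ℕ} {S : Set Γ} {π : Γ →* Multiplicative (Fin k → ℤ)}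

/-- `T` preserves the weight spaces and stretches `L_ν` by at most `Λ e^{ν v}` -/
def Grow (M : BModel S π) (T : M.L →ₗ[ℝ] M.L) (Λ : ℝ) (v : Fin k → ℝ) : Prop :=
  ∀ i j, |M.bas.repr (T (M.bas j)) i| ≤ Λ * Real.exp (M.wt i v) ∧
    (M.bas.repr (T (M.bas j)) i ≠ 0 → M.wt i = M.wt j)

theorem grow_dil (M : BModel S π) (v : Fin k → ℝ) : Grow M (dil M v) 1 v := by
  intro i j
  rw [dil_bas, map_smul, Finsupp.smul_apply, M.bas.repr_self, Finsupp.single_apply, smul_eq_mul]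
  constructor
  · split_ifs with h
    · rw [h, mul_one, one_mul, abs_of_pos (Real.exp_pos _)]
    · rw [mul_zero, abs_zero]; positivity
  · intro h
    have : j = i := by
      by_contra hne
      simp [hne] at h
    rw [this]

theorem exists_grow_Ad (M : BModel S π) (Rr : ℝ) : ∃ A : ℝ, 1 ≤ A ∧ ∀ l : List M.G,
    (∀ s ∈ l, s ∈ M.C ∧ M.len s ≤ Rr) →
      Grow M (M.Ad l.prod : M.L →ₗ[ℝ] M.L) (A * (1 + l.length) ^ M.d) (M.h l.prod) := by
  obtain ⟨A, h⟩ := M.Ad_C_le Rr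
  refine ⟨|A| + 1, by linarith [abs_nonneg A], fun l hl i j => ⟨?_, fun h' => ?_⟩⟩
  · refine (h l hl i j).trans ?_
    have : A ≤ |A| + 1 := by linarith [le_abs_self A]
    gcongr
  · exact M.Ad_C _ (M.C.list_prod_mem fun s hs => (hl s hs).1) i j h'

/-- growth on a weight vector -/
theorem Grow.le {M : BModel S π} {T : M.L →ₗ[ℝ] M.L} {Λ : ℝ} {v : Fin k → ℝ} (hT : Grow M T Λ v)
    (hΛ : 0 ≤ Λ) (ν : (Fin k → ℝ) →ₗ[ℝ] ℝ) (x : M.L) (hx : ∀ i, M.bas.repr x i ≠ 0 → M.wt i = ν)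
    (i : Fin M.r) :
    |M.bas.repr (T x) i| ≤ (∑ j, |M.bas.repr x j|) * (Λ * Real.exp (ν v)) := by
  have e1 : M.bas.repr (T x) i = ∑ j, M.bas.repr x j * M.bas.repr (T (M.bas j)) i := by
    conv_lhs => rw [← M.bas.sum_repr x]
    rw [map_sum, map_sum, Finsupp.finsetSum_apply]
    exact Finset.sum_congr rfl fun j _ => by rw [map_smul, map_smul]; rfl
  rw [e1, Finset.sum_mul]
  refine (Finset.abs_sum_le_sum_abs _ _).trans (Finset.sum_le_sum fun j _ => ?_)
  rw [abs_mul]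
  by_cases h0 : M.bas.repr x j = 0
  · rw [h0, abs_zero, zero_mul, zero_mul]
  · by_cases h1 : M.bas.repr (T (M.bas j)) i = 0
    · rw [h1, abs_zero, mul_zero]; positivity
    · have h2 := (hT i j).1
      rw [(hT i j).2 h1, hx j h0] at h2
      gcongr

variable {M : BModel S π} {w : GI M → Prop} [DecidablePred w]

theorem wpr_mem_Mw (ν : (Fin k → ℝ) →ₗ[ℝ] ℝ) {x : M.L} (hx : x ∈ Mw M w) :
    M.wpr ν x ∈ Submodule.span ℝ (Set.range fun κ : {κ : KL (GI M) M.c //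
      (¬ ∀ i ∈ (κ : List (GI M)), w i) ∧ ((κ : List (GI M)).map (wg M)).sum = ν} =>
        mon (eg M) (κ : List (GI M))) := by
  unfold Mw at hx
  induction hx using Submodule.span_induction with
  | mem x hx =>
    obtain ⟨κ, hκ, rfl⟩ := hx
    by_cases h1 : (κ.map (wg M)).sum = ν
    · rw [M.wpr_mon ν κ h1]
      by_cases h2 : κ.length ≤ M.c
      · exact Submodule.subset_span ⟨⟨⟨κ, mem_KL.2 h2⟩, hκ, h1⟩, rfl⟩
      · have : mon (eg M) κ = 0 := M.nilC.nil _ κ (by omega)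
        rw [this]; exact Submodule.zero_mem _
    · rw [M.wpr_mon_ne ν κ h1]; exact Submodule.zero_mem _
  | zero => rw [map_zero]; exact Submodule.zero_mem _
  | add a b _ _ h h' => rw [map_add]; exact Submodule.add_mem _ h h'
  | smul r a _ h => rw [map_smul]; exact Submodule.smul_mem _ _ h

theorem abs_apply_le {ι : Type*} (a : M.L →ₗ[ℝ] (ι → ℝ)) (x : M.L) {B : ℝ}
    (hB : ∀ i, |M.bas.repr x i| ≤ B) (j : ι) : |a x j| ≤ (∑ i, |a (M.bas i) j|) * B := by
  conv_lhs => rw [← M.bas.sum_repr x]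
  rw [map_sum, Finset.sum_apply, Finset.sum_mul]
  refine (Finset.abs_sum_le_sum_abs _ _).trans (Finset.sum_le_sum fun i _ => ?_)
  rw [map_smul, Pi.smul_apply, smul_eq_mul, abs_mul, mul_comm]
  gcongr
  exact hB i

theorem repr_mon_wt (κ : List (GI M)) (i : Fin M.r) (h : M.bas.repr (mon (eg M) κ) i ≠ 0) :
    M.wt i = (κ.map (wg M)).sum := mon_wt M (fun i : GI M => (i : Fin M.r)) κ i h

/-- the sides of the mixed monomials dominate those of the pure ones -/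
def NearRound (M : BModel S π) (w : GI M → Prop) (Y : GI M → ℝ) (v : Fin k → ℝ) (m : ℝ) : Prop :=
  ∀ κ κ' : List (GI M), κ ≠ [] → (∀ i ∈ κ, w i) → κ.length ≤ M.c → κ'.length ≤ M.c →
    (¬ ∀ i ∈ κ', w i) → (κ.map (wg M)).sum = (κ'.map (wg M)).sum →
      (κ.map (wg M)).sum v + m ≤ (κ'.map Y).sum

/-- **pure relations lie in the box** for near-round shapes. -/
theorem exists_nearRound (M : BModel S π) (w : GI M → Prop) [DecidablePred w] (A₁ : ℝ)
    (hA₁ : 0 ≤ A₁) :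
    ∃ C : ℝ, 1 ≤ C ∧ ∀ (fam : GI M → M.L) (Y : GI M → ℝ) (Λ : ℝ), 1 ≤ Λ →
      (∀ i, Real.exp (Y i) • eg M i ∈ Bx M.c fam Λ) →
      ∀ (T : M.L →ₗ[ℝ] M.L) (Λ' : ℝ) (v : Fin k → ℝ), IsLie T → 1 ≤ Λ' → Grow M T Λ' v →
      NearRound M w Y v (Real.log (C * Λ ^ M.c * Λ')) →
      ∀ x ∈ Mw M w, x ∈ Bx M.c (rst (fun i => T (eg M i)) w) A₁ → x ∈ Bx M.c fam 1 := by
  classical
  -- the weights of the pure monomials
  set K := KL (GI M) M.c with hK
  set Φ : Finset ((Fin k → ℝ) →ₗ[ℝ] ℝ) :=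
    (K.filter fun κ => κ ≠ [] ∧ ∀ i ∈ κ, w i).image fun κ => (κ.map (wg M)).sum with hΦ
  let I := fun ν : (Fin k → ℝ) →ₗ[ℝ] ℝ => {κ : KL (GI M) M.c //
      (¬ ∀ i ∈ (κ : List (GI M)), w i) ∧ ((κ : List (GI M)).map (wg M)).sum = ν}
  have hex : ∀ ν, ∃ a : M.L →ₗ[ℝ] (I ν → ℝ), ∀ y ∈ Submodule.span ℝ (Set.range fun κ : I ν =>
      mon (eg M) (κ : List (GI M))), ∑ i, a y i • mon (eg M) (i : List (GI M)) = y := fun ν =>
    exists_coeff _
  choose a ha using hex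
  set B : ℝ := ∑ κ ∈ K, ∑ j, |M.bas.repr (mon (eg M) κ) j| with hB
  have hB0 : 0 ≤ B := by positivity
  set Q : ℝ := ∑ ν ∈ Φ, ∑ κ : I ν, ∑ i, |a ν (M.bas i) κ| with hQ
  have hQ0 : 0 ≤ Q := by positivity
  have hbr := brC_pos (GI M) M.c
  set b := brC (GI M) M.c ^ M.c with hb
  have hb0 : 0 ≤ b := by positivity
  refine ⟨Q * (A₁ * B) * b + 1, by nlinarith [mul_nonneg (mul_nonneg hQ0 (mul_nonneg hA₁ hB0)) hb0],
    ?_⟩
  intro fam Y Λ hΛ hfam T Λ' v hT hΛ' hG hNR x hxM hx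
  set C : ℝ := Q * (A₁ * B) * b + 1 with hC
  have hC0 : 0 < C := by
    nlinarith [mul_nonneg (mul_nonneg hQ0 (mul_nonneg hA₁ hB0)) hb0]
  have hNil : Nil M.c fam := M.nilC.nil fam
  obtain ⟨s, hs, hxs⟩ := hx
  -- rewrite `x` with pure monomials
  set K₁ := K.filter fun κ => κ ≠ [] ∧ ∀ i ∈ κ, w i with hK₁
  have hx1 : x = ∑ κ ∈ K₁, s κ • T (mon (eg M) κ) := by
    rw [hxs, hK₁, Finset.sum_filter]
    refine Finset.sum_congr rfl fun κ _ => ?_
    by_cases hne : κ = []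
    · subst hne; simp
    · by_cases h : ∀ i ∈ κ, w i
      · rw [if_pos ⟨hne, h⟩, mon_rst_of w h, hT.mon]
      · rw [if_neg fun hh => h hh.2, mon_rst_not w h, smul_zero]
  -- coordinates of `T (mon κ)`
  have hTm : ∀ κ i, M.bas.repr (T (mon (eg M) κ)) i ≠ 0 → M.wt i = (κ.map (wg M)).sum := by
    intro κ i h
    have e1 : M.bas.repr (T (mon (eg M) κ)) i =
        ∑ j, M.bas.repr (mon (eg M) κ) j * M.bas.repr (T (M.bas j)) i := by
      conv_lhs => rw [← M.bas.sum_repr (mon (eg M) κ)]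
      rw [map_sum, map_sum, Finsupp.finsetSum_apply]
      exact Finset.sum_congr rfl fun j _ => by rw [map_smul, map_smul]; rfl
    rw [e1] at h
    obtain ⟨j, _, hj⟩ := Finset.exists_ne_zero_of_sum_ne_zero h
    rw [(hG i j).2 (right_ne_zero_of_mul hj), repr_mon_wt κ j (left_ne_zero_of_mul hj)]
  have hwprT : ∀ ν κ, M.wpr ν (T (mon (eg M) κ)) =
      if (κ.map (wg M)).sum = ν then T (mon (eg M) κ) else 0 := by
    intro ν κ
    rw [M.wpr_apply]
    split_ifs with h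
    · conv_rhs => rw [← M.bas.sum_repr (T (mon (eg M) κ))]
      refine Finset.sum_congr rfl fun i _ => ?_
      by_cases h0 : M.bas.repr (T (mon (eg M) κ)) i = 0
      · rw [h0, zero_smul, zero_smul]
      · rw [if_pos ((hTm κ i h0).trans h)]
    · refine Finset.sum_eq_zero fun i _ => ?_
      by_cases h0 : M.bas.repr (T (mon (eg M) κ)) i = 0
      · rw [h0, zero_smul]
      · have : ¬ M.wt i = ν := fun h' => h ((hTm κ i h0).symm.trans h')
        rw [if_neg this, smul_zero]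
  have hwprx : ∀ ν, M.wpr ν x =
      ∑ κ ∈ K₁.filter (fun κ => (κ.map (wg M)).sum = ν), s κ • T (mon (eg M) κ) := by
    intro ν
    conv_lhs => rw [hx1]
    rw [map_sum]
    refine Eq.trans ?_ (Finset.sum_filter (s := K₁) (fun κ => (κ.map (wg M)).sum = ν)
      (fun κ => s κ • T (mon (eg M) κ))).symm
    refine Finset.sum_congr rfl fun κ _ => ?_
    rw [map_smul, hwprT]
    split_ifs
    · rfl
    · rw [smul_zero]
  have hxsum : x = ∑ ν ∈ Φ, M.wpr ν x := by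
    conv_lhs => rw [hx1]
    rw [Finset.sum_congr rfl fun ν _ => hwprx ν]
    exact (Finset.sum_fiberwise_of_maps_to (s := K₁) (t := Φ)
      (g := fun κ => (κ.map (wg M)).sum) (fun κ hκ => Finset.mem_image_of_mem _ hκ) _).symm
  -- each component
  have hcomp : ∀ ν ∈ Φ, M.wpr ν x ∈ Bx M.c fam
      ((∑ κ : I ν, ∑ i, |a ν (M.bas i) κ|) * ((A₁ * B) * b / C)) := by
    intro ν hν
    obtain ⟨κ₀, hκ₀, hκ₀ν⟩ := Finset.mem_image.1 hν
    rw [Finset.mem_filter] at hκ₀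
    obtain ⟨hκ₀K, hκ₀ne, hκ₀w⟩ := hκ₀
    have hy := ha ν _ (wpr_mem_Mw (w := w) ν hxM)
    -- size of the component
    have hsize : ∀ i, |M.bas.repr (M.wpr ν x) i| ≤ (A₁ * B) * (Λ' * Real.exp (ν v)) := by
      intro i
      rw [hwprx ν, map_sum, Finsupp.finsetSum_apply]
      refine (Finset.abs_sum_le_sum_abs _ _).trans ?_
      have h1 : ∀ κ ∈ K₁.filter (fun κ => (κ.map (wg M)).sum = ν),
          |M.bas.repr (s κ • T (mon (eg M) κ)) i| ≤
            A₁ * ((∑ j, |M.bas.repr (mon (eg M) κ) j|) * (Λ' * Real.exp (ν v))) := by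
        intro κ hκ
        rw [Finset.mem_filter] at hκ
        rw [map_smul, Finsupp.smul_apply, smul_eq_mul, abs_mul]
        have h2 := hG.le (by linarith) ν (mon (eg M) κ)
          (fun i hi => (repr_mon_wt κ i hi).trans hκ.2) i
        exact mul_le_mul (hs κ) h2 (abs_nonneg _) hA₁
      refine (Finset.sum_le_sum h1).trans ?_
      rw [← Finset.mul_sum, ← Finset.sum_mul, mul_assoc]
      refine mul_le_mul_of_nonneg_left ?_ hA₁
      refine mul_le_mul_of_nonneg_right ?_ (by positivity)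
      refine Finset.sum_le_sum_of_subset_of_nonneg ?_ fun κ _ _ =>
        Finset.sum_nonneg fun j _ => abs_nonneg _
      exact (Finset.filter_subset _ _).trans (Finset.filter_subset _ _)
    rw [← hy, Finset.sum_mul]
    refine Bx_sum _ _ _ fun κ _ => ?_
    obtain ⟨⟨κ, hκK⟩, hκw, hκν⟩ := κ
    rw [mem_KL] at hκK
    have h1 : |a ν (M.wpr ν x) ⟨⟨κ, mem_KL.2 hκK⟩, hκw, hκν⟩| ≤
        (∑ i, |a ν (M.bas i) ⟨⟨κ, mem_KL.2 hκK⟩, hκw, hκν⟩|) *
          ((A₁ * B) * (Λ' * Real.exp (ν v))) := abs_apply_le (a ν) _ hsize _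
    have h2 : mon (eg M) κ = Real.exp (-(κ.map Y).sum) • mon (gZ (eg M) Y) κ := by
      rw [mon_gZ, smul_smul, ← Real.exp_add, neg_add_cancel, Real.exp_zero, one_smul]
    have h3 : mon (gZ (eg M) Y) κ ∈ Bx M.c fam (b * Λ ^ M.c) := by
      refine Bx_mono ?_ (mon_comp_mem hNil (v := gZ (eg M) Y) (t := fun _ => Λ)
        (fun _ => by linarith) hfam κ)
      rw [List.map_const', List.prod_replicate]
      exact mul_le_mul (pow_le_pow_right₀ hbr hκK) (pow_le_pow_right₀ hΛ hκK) (by positivity) hb0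
    have h4 := hNR κ₀ κ hκ₀ne hκ₀w (mem_KL.1 hκ₀K) hκK hκw (hκ₀ν.trans hκν.symm)
    rw [hκ₀ν] at h4
    have hCL : 0 < C * Λ ^ M.c * Λ' := by positivity
    have h5 : Real.exp (ν v) * (C * Λ ^ M.c * Λ') ≤ Real.exp ((κ.map Y).sum) := by
      rw [← Real.exp_log hCL, ← Real.exp_add]
      exact Real.exp_le_exp.2 h4
    change a ν (M.wpr ν x) ⟨⟨κ, mem_KL.2 hκK⟩, hκw, hκν⟩ • mon (eg M) κ ∈ _
    rw [h2]
    refine Bx_mono ?_ (Bx_smul (Bx_smul h3 _) _)
    rw [abs_of_pos (Real.exp_pos _)]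
    set q := ∑ i, |a ν (M.bas i) ⟨⟨κ, mem_KL.2 hκK⟩, hκw, hκν⟩| with hq
    have hq0 : 0 ≤ q := by positivity
    have hAB : 0 ≤ A₁ * B := by positivity
    calc |a ν (M.wpr ν x) ⟨⟨κ, mem_KL.2 hκK⟩, hκw, hκν⟩| *
          (Real.exp (-(κ.map Y).sum) * (b * Λ ^ M.c))
        ≤ (q * ((A₁ * B) * (Λ' * Real.exp (ν v)))) *
          (Real.exp (-(κ.map Y).sum) * (b * Λ ^ M.c)) := by gcongr
      _ = q * ((A₁ * B) * b / C) *
          (Real.exp (ν v) * (C * Λ ^ M.c * Λ') * Real.exp (-(κ.map Y).sum)) := by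
          field_simp
      _ ≤ q * ((A₁ * B) * b / C) * 1 := by
          refine mul_le_mul_of_nonneg_left ?_ (by positivity)
          rw [Real.exp_neg, ← div_eq_mul_inv, div_le_one (Real.exp_pos _)]
          exact h5
      _ = q * ((A₁ * B) * b / C) := mul_one _
  rw [hxsum]
  refine Bx_mono ?_ (Bx_sum _ _ _ hcomp)
  rw [← Finset.sum_mul]
  have h6 : (∑ ν ∈ Φ, ∑ κ : I ν, ∑ i, |a ν (M.bas i) κ|) * (A₁ * B * b / C) =
      (Q * (A₁ * B) * b) / C := by rw [← hQ]; ring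
  rw [h6, div_le_one hC0, hC]
  linarith

/-! ### The final volume statements -/

theorem prN_image_smul {J : Type} [Fintype J] (D : QData M.star J) {σ : Type*} [Fintype σ]
    {g : σ → M.L} {a s : ℝ} (ha : 0 < a) {q : J → ℝ} (hq : (q : D.QN) ∈ prN D '' M.NB g (a * s)) :
    (a⁻¹ • q : J → ℝ) ∈ (prN D '' M.NB g s : Set (J → ℝ)) := by
  obtain ⟨n, hn, rfl⟩ := hq
  rw [BModel.NB_smul ha] at hn
  obtain ⟨n', hn', rfl⟩ := hn
  refine ⟨n', hn', ?_⟩
  change D.P (M.E n') = a⁻¹ • D.P (M.E (a • n'))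
  rw [map_smul, map_smul, smul_smul, inv_mul_cancel₀ ha.ne', one_smul]

theorem volume_le_of_subset_smul {n : ℕ} {a : ℝ} (ha : 0 < a) {A B : Set (Fin n → ℝ)}
    (h : A ⊆ a • B) : (volume : Measure (Fin n → ℝ)) A ≤
      ENNReal.ofReal (a ^ n) * (volume : Measure (Fin n → ℝ)) B := by
  refine (measure_mono h).trans (le_of_eq ?_)
  rw [Measure.addHaar_smul, abs_of_pos (pow_pos (by positivity) _)]
  simp


end Crest.Agent.R182.BoxVol
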