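import Mathlib
import Crest.Agent.R182.BoxNR
import Crest.Agent.R182.ElBase

-- ▼ part R182/BoxStick
section

set_option autoImplicit false
set_option linter.unusedSectionVars false

open MeasureTheory Set
open scoped Pointwise ENNReal

namespace Crest.Agent.R182.BoxVol

open Crest.Agent.R182.Nb Crest.Agent.R182.Core

variable {Γ : Type*} [Group Γ] {k : ℕ} {S : Set Γ} {π : Γ →* Multiplicative (Fin k → ℤ)}


theorem sum_map_le_mem {σ : Type*} {κ : List σ} {Y Y' : σ → ℝ} (h : ∀ i ∈ κ, Y i ≤ Y' i) :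
    (κ.map Y).sum ≤ (κ.map Y').sum := by
  induction κ with
  | nil => simp
  | cons i κ ih =>
    simp only [List.map_cons, List.sum_cons]
    linarith [h i List.mem_cons_self, ih fun j hj => h j (List.mem_cons_of_mem _ hj)]


/-- **the volume of a box times a stick**, unit scale -/
theorem exists_stick (M : BModel S π) (w : GI M → Prop) [DecidablePred w] (R : RayQ M w) :
    ∃ C : ℝ, 1 ≤ C ∧ ∀ (Y Y' : GI M → ℝ) (v₀ v : Fin k → ℝ) (b : ℝ), 0 ≤ b →
      (∀ i, w i → Y i = wg M i v₀) → (∀ i, w i → 0 ≤ wg M i v) → (∀ i, w i → wg M i v ≤ b) →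
      (∀ i, w i → Y' i ≤ wg M i (v₀ + v)) → (∀ i, ¬ w i → Y' i + M.c * b ≤ Y i) →
      NearRound M w Y (v₀ + v) C →
      volume (M.NB (gZ (eg M) Y) 1 * (M.NB (gZ (eg M) Y') 1 * M.NB (gZ (eg M) Y') 1)) ≤
        ENNReal.ofReal (C * Real.exp (R.τ v)) * volume (M.NB (gZ (eg M) Y) 1) := by
  obtain ⟨a, H⟩ := M.star.exists_boxConst M.c (GI M)
  have ha := H.nonneg
  obtain ⟨A₁, H₁⟩ := M.star.exists_famConst M.c (GI M) 1 le_rfl
  have hA₁ := H₁.one_le
  set α : ℝ := Real.log A₁ with hα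
  have hα0 : 0 ≤ α := Real.log_nonneg hA₁
  have hexpα : Real.exp α = A₁ := Real.exp_log (by linarith)
  set β : ℝ := a + M.c * α with hβ
  have hβ0 : 0 ≤ β := by positivity
  set T₂ : ℝ := Real.exp β with hT₂
  have hT₂1 : 1 ≤ T₂ := Real.one_le_exp hβ0
  obtain ⟨A₂, H₂⟩ := M.star.exists_famConst M.c (GI M) T₂ hT₂1
  have hA₂ := H₂.one_le
  set A₃ : ℝ := A₂ * T₂ with hA₃
  have hA₃1 : 1 ≤ A₃ := by nlinarith
  obtain ⟨A₄, hA₄, h₄⟩ := exists_mul_upper M (GI M) A₃ hA₃1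
  obtain ⟨C₄, hC₄, h₄⟩ := h₄ 1 le_rfl
  obtain ⟨C₅, hC₅, h₅⟩ := exists_nearRound M w A₄ (by linarith)
  set V₁ : ℝ := (vQ R.D w (eg M) A₄).toReal with hV₁
  set V₀ : ℝ := (vQ R.D w (eg M) 1).toReal with hV₀
  have hV₀0 : 0 < V₀ := ENNReal.toReal_pos (R.vQ_pos one_pos).ne' (R.vQ_lt_top 1).ne
  have hV₁0 : 0 ≤ V₁ := ENNReal.toReal_nonneg
  set W : ℝ := V₁ * C₄ / V₀ with hW
  have hW0 : 0 ≤ W := by positivity
  have hlog : 0 ≤ Real.log C₅ := Real.log_nonneg hC₅
  refine ⟨W + Real.log C₅ + 1, by linarith, ?_⟩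
  intro Y Y' v₀ v b hb hY hv0 hvb hY'w hY' hNR
  set g := gZ (eg M) Y with hg
  have hNg : Nil M.c g := M.nilC.nil g
  set T := dil M (v₀ + v) with hT
  set f : GI M → M.L := rst (fun i => T (eg M i)) w with hf
  have hNf : Nil M.c f := M.nilC.nil f
  -- the product of the two sticks
  have hprod : ∀ x ∈ M.NB (gZ (eg M) Y') 1 * M.NB (gZ (eg M) Y') 1,
      ∃ kk ∈ M.NB g T₂, ∃ u ∈ M.NB f T₂, x = kk * u := by
    rintro _ ⟨x, hx, y, hy, rfl⟩
    have h1 : M.E (x * y) ∈ BZ M.c (eg M) Y' (0 + α) := by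
      rw [BModel.E_mul]
      have h2 := H₁.op_mem (gZ (eg M) Y') (M.nilC.nil _) 1 1 zero_le_one le_rfl zero_le_one le_rfl
        _ hx _ hy
      rw [max_self, mul_one] at h2
      rw [zero_add]
      change _ ∈ Bx _ _ _
      rw [hexpα]; exact h2
    have h2 : M.E (x * y) ∈ BZ M.c (eg M) (fun i => Y' i + α) 0 :=
      BZ_shift hα0 (fun i => le_rfl) h1
    set Z : GI M → ℝ := fun i => if w i then wg M i (v₀ + v) + α else Y i + α with hZ
    have hZw : ∀ i, w i → Z i = wg M i (v₀ + v) + α := fun i hi => if_pos hi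
    have hZn : ∀ i, ¬ w i → Z i = Y i + α := fun i hi => if_neg hi
    have hle : ∀ i, Y' i + α ≤ Z i := by
      intro i
      by_cases hi : w i
      · rw [hZw i hi]; linarith [hY'w i hi]
      · rw [hZn i hi]
        have : (0:ℝ) ≤ M.c * b := by positivity
        linarith [hY' i hi]
    have hq : -(M.c * b) ≤ 0 := by
      have : (0:ℝ) ≤ M.c * b := by positivity
      linarith
    obtain ⟨kk, hk, u, hu, hku⟩ := H.factor (w := w) (q := -(M.c * b)) (Z₁ := Z) (Z₂ := Z)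
      (Z₃ := fun i => Y' i + α) (M.nilC.nil _) hq (fun i _ => hle i) (fun i _ => le_rfl)
      (fun κ _ _ _ h => by
        push Not at h
        obtain ⟨i, hi, hwi⟩ := h
        obtain ⟨κ₁, κ₂, rfl⟩ := List.append_of_mem hi
        rw [List.map_append, List.sum_append, List.map_cons, List.sum_cons, List.map_append,
          List.sum_append, List.map_cons, List.sum_cons]
        have h3 : (κ₁.map fun i => Y' i + α).sum ≤ (κ₁.map Z).sum := sum_map_le hle
        have h4 : (κ₂.map fun i => Y' i + α).sum ≤ (κ₂.map Z).sum := sum_map_le hle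
        have h5 := hZn i hwi
        have h6 := hY' i hwi
        linarith) h2
    refine ⟨M.E.symm kk, ?_, M.E.symm u, ?_, ?_⟩
    · rw [BModel.mem_NB, LinearEquiv.apply_symm_apply]
      refine BZ_le (fun κ hκ hκc _ => ?_) hk
      have h3 : (κ.map Z).sum ≤ (κ.map fun i => Y i + (b + α)).sum := by
        refine sum_map_le fun i => ?_
        by_cases hi : w i
        · rw [hZw i hi, map_add, hY i hi]; linarith [hvb i hi]
        · rw [hZn i hi]; linarith
      rw [sum_map_add, sum_map_const] at h3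
      have h4 : (κ.length : ℝ) ≤ M.c := by exact_mod_cast hκc
      have h5 : (κ.length : ℝ) * (b + α) ≤ M.c * (b + α) := by gcongr
      rw [hβ]; nlinarith
    · rw [BModel.mem_NB, LinearEquiv.apply_symm_apply]
      have h3 : f = gZ (rst (eg M) w) (fun i => wg M i (v₀ + v)) := by
        funext i
        rw [hf, hT]
        unfold Nb.rst gZ
        beta_reduce
        by_cases hi : w i
        · simp only [if_pos hi]; exact dil_eg M _ i
        · simp only [if_neg hi, smul_zero]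
      rw [h3]
      refine BZ_le (fun κ hκ hκc hne => ?_) hu
      have h4 : ∀ i ∈ κ, w i := by
        by_contra h5; exact hne (mon_rst_not w h5)
      have h5 : (κ.map Z).sum ≤ (κ.map fun i => wg M i (v₀ + v) + α).sum :=
        sum_map_le_mem fun i hi => (hZw i (h4 i hi)).le
      rw [sum_map_add κ (fun i => wg M i (v₀ + v)), sum_map_const] at h5
      have h6 : (κ.length : ℝ) ≤ M.c := by exact_mod_cast hκc
      have h7 : (κ.length : ℝ) * α ≤ M.c * α := by gcongr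
      rw [hβ]; linarith
    · rw [BModel.mul_def, LinearEquiv.apply_symm_apply, LinearEquiv.apply_symm_apply, ← hku,
        LinearEquiv.symm_apply_apply]
  -- the product
  have hsub : M.NB g 1 * (M.NB (gZ (eg M) Y') 1 * M.NB (gZ (eg M) Y') 1) ⊆
      M.NB g (A₃ * 1) * M.NB f A₃ := by
    rintro _ ⟨n, hn, z, hz, rfl⟩
    obtain ⟨kk, hk, u, hu, rfl⟩ := hprod z hz
    refine ⟨n * kk, ?_, u, BModel.NB_mono (by nlinarith) hu, mul_assoc _ _ _⟩
    rw [BModel.mem_NB, BModel.E_mul]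
    have h3 := H₂.op_mem g hNg 1 T₂ zero_le_one hT₂1 (by positivity) le_rfl _ hn _ hk
    rw [max_eq_right hT₂1] at h3
    refine Bx_mono ?_ h3
    rw [hA₃, mul_one]
  have key := h₄ R.D w (eg M) g (dil M v₀) T (isLie_dil M _) (isLie_dil M _) (R.pres_dil _)
    (R.pres_dil _) (fun i hi => by rw [dil_eg, ← hY i hi]; rfl)
    (fun i hi => by rw [hg]; unfold gZ; rw [map_smul, R.P_eg hi, smul_zero])
    (fun i hi => by
      have h3 : g i = (Real.exp (Y i - wg M i (v₀ + v))) • f i := by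
        rw [hg, hf, hT]
        unfold Nb.rst gZ
        rw [if_pos hi]
        beta_reduce
        rw [dil_eg, smul_smul, ← Real.exp_add, sub_add_cancel]
      rw [h3]
      have h5 : f i ∈ Bx M.c f 1 := gen_mem_Bx hNf i
      refine Bx_mono ?_ (Bx_smul h5 _)
      rw [abs_of_pos (Real.exp_pos _), mul_one]
      refine le_trans ?_ hA₃1
      rw [Real.exp_le_one_iff, map_add, hY i hi]
      linarith [hv0 i hi]) 1 one_pos le_rfl
    (fun x hx hxB => by
      have h3 := h₅ g Y 1 le_rfl (fun i => gen_mem_Bx hNg i) T 1 (v₀ + v) (isLie_dil M _) le_rfl (grow_dil M _)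
        (fun κ κ' h1 h2 h3 h4 h5 h6 => by
          have h7 := hNR κ κ' h1 h2 h3 h4 h5 h6
          rw [one_pow, mul_one, mul_one]
          linarith) x ((R.ker x).1 hx) hxB
      exact Bx_mono (by norm_num) h3)
    (M.NB f A₃) Subset.rfl
  rw [R.qdet_dil, R.qdet_dil, map_add, Real.exp_add] at key
  have hV₀' : vQ R.D w (eg M) 1 = ENNReal.ofReal V₀ := by
    rw [hV₀, ENNReal.ofReal_toReal (R.vQ_lt_top 1).ne]
  have hV₁' : vQ R.D w (eg M) A₄ = ENNReal.ofReal V₁ := by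
    rw [hV₁, ENNReal.ofReal_toReal (R.vQ_lt_top A₄).ne]
  rw [hV₀', hV₁'] at key
  set e₀ := Real.exp (R.τ v₀) with he₀
  set e₁ := Real.exp (R.τ v) with he₁
  have he₀0 : 0 < e₀ := Real.exp_pos _
  have he₁0 : 0 < e₁ := Real.exp_pos _
  have hx0 : ENNReal.ofReal e₀ * ENNReal.ofReal V₀ ≠ 0 :=
    mul_ne_zero (ENNReal.ofReal_pos.2 he₀0).ne' (ENNReal.ofReal_pos.2 hV₀0).ne'
  have hx1 : ENNReal.ofReal e₀ * ENNReal.ofReal V₀ ≠ ⊤ :=
    ENNReal.mul_ne_top ENNReal.ofReal_ne_top ENNReal.ofReal_ne_top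
  refine (measure_mono hsub).trans ?_
  rw [← ENNReal.mul_le_mul_iff_left hx0 hx1]
  refine key.trans ?_
  have h6 : ENNReal.ofReal (e₀ * e₁) * ENNReal.ofReal V₁ * (ENNReal.ofReal C₄ *
      volume (M.NB g 1)) = ENNReal.ofReal (W * e₁) * volume (M.NB g 1) *
      (ENNReal.ofReal e₀ * ENNReal.ofReal V₀) := by
    have h7 : W * e₁ * (e₀ * V₀) = e₀ * e₁ * V₁ * C₄ := by
      rw [hW]; field_simp
    calc _ = (ENNReal.ofReal (e₀ * e₁) * ENNReal.ofReal V₁ * ENNReal.ofReal C₄) *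
          volume (M.NB g 1) := by ring
      _ = ENNReal.ofReal (e₀ * e₁ * V₁ * C₄) * volume (M.NB g 1) := by
          rw [← ENNReal.ofReal_mul (by positivity), ← ENNReal.ofReal_mul (by positivity)]
      _ = ENNReal.ofReal (W * e₁ * (e₀ * V₀)) * volume (M.NB g 1) := by rw [h7]
      _ = _ := by
          rw [ENNReal.ofReal_mul (by positivity), ENNReal.ofReal_mul he₀0.le]; ring
  rw [h6]
  gcongr
  linarith

/-- upper bound for the volume of a box -/
theorem exists_vol_le (M : BModel S π) : ∃ C : ℝ, 0 ≤ C ∧ ∀ (Y : GI M → ℝ) (a : ℝ), 0 ≤ a →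
    volume (M.NB (gZ (eg M) Y) (Real.exp a)) ≤
      ENNReal.ofReal (Real.exp ((gsys M).Gt Y + C * a + C)) := by
  obtain ⟨C, hC, h⟩ := MD_scaled_le M
  obtain ⟨C', hC', h'⟩ := le_MD_scaled M
  set B : ℝ := (2 * (KL (GI M) M.c).card) ^ M.r * C with hB
  refine ⟨M.r + |Real.log B|, by positivity, fun Y a ha => ?_⟩
  have h1 := h 1 Y le_rfl
  rw [one_pow, mul_one] at h1
  have e1 : (fun i => (1 * Real.exp (Y i)) • eg M i) = gZ (eg M) Y := by
    funext i; rw [one_mul]; rfl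
  rw [e1] at h1
  have h2 : 0 < MD M.bas M.c (gZ (eg M) Y) :=
    lt_of_lt_of_le (by positivity) (h' Y)
  have h3 := vb_Bx_le (b := M.bas) (c := M.c) (g := gZ (eg M) Y) h2 (Real.exp_pos a).le
  refine h3.trans (ENNReal.ofReal_le_ofReal ?_)
  have hcard : (0:ℝ) < (KL (GI M) M.c).card := by
    have : (KL (GI M) M.c).Nonempty := ⟨[], mem_KL.mpr (Nat.zero_le _)⟩
    exact_mod_cast this.card_pos
  have hB0 : 0 < B := by positivity
  have h4 : B ≤ Real.exp |Real.log B| := by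
    conv_lhs => rw [← Real.exp_log hB0]
    exact Real.exp_le_exp.2 (le_abs_self _)
  calc (2 * ((KL (GI M) M.c).card : ℝ) * Real.exp a) ^ M.r * MD M.bas M.c (gZ (eg M) Y)
      ≤ (2 * ((KL (GI M) M.c).card : ℝ) * Real.exp a) ^ M.r *
        (C * Real.exp ((gsys M).Gt Y)) := by gcongr
    _ = B * (Real.exp (M.r * a) * Real.exp ((gsys M).Gt Y)) := by
        rw [mul_pow, ← Real.exp_nat_mul, hB]; ring
    _ ≤ Real.exp |Real.log B| * (Real.exp (M.r * a) * Real.exp ((gsys M).Gt Y)) := by gcongr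
    _ = Real.exp (|Real.log B| + (M.r * a + (gsys M).Gt Y)) := by
        rw [Real.exp_add, Real.exp_add]
    _ ≤ _ := by
        refine Real.exp_le_exp.2 ?_
        have h5 : 0 ≤ |Real.log B| * a := by positivity
        have h6 : (0:ℝ) ≤ M.r := Nat.cast_nonneg _
        nlinarith

end Crest.Agent.R182.BoxVol
end

-- ▼ part R182/ElV

set_option autoImplicit false
set_option linter.unusedSectionVars false

open MeasureTheory Set
open scoped Pointwise RealInnerProductSpace ENNReal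

namespace Crest.Agent.R182.ElI

open Crest.GroupTheory Crest.Geometry Crest.Agent.R182.QI Crest.Agent.R182.Core
  Crest.Agent.R182.Nb Crest.Agent.R182.Gen

variable {Γ : Type*} [Group Γ] {k : ℕ} {S : Set Γ} {π : Γ →* Multiplicative (Fin k → ℤ)}
variable {M : BModel S π} {E : Type*} [NormedAddCommGroup E] [InnerProductSpace ℝ E]

/-- the functional of a ray -/
noncomputable def rhoL (G : Geo M E) (w : G.R) : (Fin k → ℝ) →ₗ[ℝ] ℝ :=
  (innerₛₗ ℝ (w : E)) ∘ₗ (G.T : (Fin k → ℝ) →ₗ[ℝ] E)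

theorem rhoL_apply (G : Geo M E) (w : G.R) (v : Fin k → ℝ) : rhoL G w v = ⟪(w : E), G.T v⟫ := rfl

theorem isRay (G : Geo M E) (w : G.R) : BoxVol.IsRay M (fun i => G.ray i = w) (rhoL G w) where
  pos := by
    rintro i rfl
    refine ⟨G.RS.lam i, G.lam_pos i, ?_⟩
    ext v
    simp only [LinearMap.comp_apply, LinearMap.smul_apply, smul_eq_mul]
    rw [rhoL_apply, G.wg_ray]
  off := by
    rintro i ⟨c, hc, h⟩
    apply Subtype.ext
    have h1 : G.RS.lam i • (G.ray i : E) = c • (w : E) := by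
      refine ext_inner_right ℝ fun v => ?_
      rw [inner_smul_left, inner_smul_left]
      have h2 := LinearMap.congr_fun h (G.T.symm v)
      rw [G.wg_ray, LinearMap.smul_apply, rhoL_apply, LinearEquiv.apply_symm_apply] at h2
      simpa using h2
    have h3 : G.RS.lam i = c := by
      have := congrArg norm h1
      rw [norm_smul, norm_smul, G.norm_ray, G.norm_ray, Real.norm_of_nonneg (G.lam_pos i).le,
        Real.norm_of_nonneg hc.le, mul_one, mul_one] at this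
      exact this
    rw [h3] at h1
    exact smul_right_injective _ hc.ne' h1

section

variable {G : Geo M E} (cs : Cst G) {RC Cb e0 τ Sc : ℝ} (un : Unit G RC Cb e0 τ Sc)

theorem qdet_leg (w r : G.R) (s : ℝ) :
    (cs.RQ w).D.qdet (M.Ad (leg un.u τ r s) : M.L →ₗ[ℝ] M.L) =
      Real.exp (Dw cs w * ⟪(w : E), G.T (M.h (leg un.u τ r s))⟫) := by
  classical
  rw [BoxVol.RayQ.qdet_Ad (cs.RQ w) (isRay G w) (un.leg_mem_C r s), τ_eq]

theorem pres_leg (w r : G.R) (s : ℝ) :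
    (cs.RQ w).D.Pres (M.Ad (leg un.u τ r s) : M.L →ₗ[ℝ] M.L) := by
  classical
  exact BoxVol.RayQ.pres_Ad (cs.RQ w) (isRay G w) (un.leg_mem_C r s)

theorem fm_w (u : G.R → M.G) (Z : G.R → ℝ) (w : G.R) (i : GI M) (hi : G.ray i = w) :
    fm G u τ Z i = (M.Ad (leg u τ w (Z w)) : M.L →ₗ[ℝ] M.L) (eg M i) := by
  subst hi; rfl

theorem P_fm (Z : G.R → ℝ) (w : G.R) (i : GI M) (hi : ¬ G.ray i = w) :
    (cs.RQ w).D.P (fm G un.u τ Z i) = 0 := by
  classical
  exact pres_leg cs un w (G.ray i) (Z (G.ray i)) (eg M i)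
    (BoxVol.RayQ.P_eg (cs.RQ w) hi)

theorem volume_prN_fm (Z : G.R → ℝ) (w : G.R) [DecidablePred fun i : GI M => G.ray i = w] {s : ℝ}
    (hs : 0 ≤ s) :
    (volume : Measure (cs.RQ w).D.QN) (BoxVol.prN (cs.RQ w).D '' M.NB (fm G un.u τ Z) s) =
      ENNReal.ofReal (Real.exp (Dw cs w * ⟪(w : E), G.T (M.h (leg un.u τ w (Z w)))⟫)) *
        BoxVol.vQ (cs.RQ w).D (fun i => G.ray i = w) (eg M) s := by
  rw [BoxVol.volume_prN_NB (w := fun i => G.ray i = w) (cs.RQ w).D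
    (BoxVol.RayQ.isLie_Ad (leg un.u τ w (Z w))) (pres_leg cs un w w (Z w))
    (fun i hi => fm_w un.u Z w i hi) (fun i hi => P_fm cs un Z w i hi) hs, qdet_leg]

theorem one_le_rho' {ω : ℝ} {Z : G.R → ℝ} (hω : ω ≤ 1 / 16) (hZ : adm τ ω Z) : 1 ≤ rho G Z := by
  unfold rho
  have h1 : 0 ≤ ∑ r, Z r := Finset.sum_nonneg fun r _ => by linarith [(hZ.bd hω r).1]
  have h2 : 0 ≤ (∑ r, Z r) / (4 * (1 + (Fintype.card G.R : ℝ))) := by positivity
  linarith

theorem rho_le_two' {ω : ℝ} {Z : G.R → ℝ} (hω : ω ≤ 1 / 16) (hZ : adm τ ω Z) : rho G Z ≤ 2 := by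
  unfold rho
  have h1 : ∑ r, Z r ≤ ∑ _r : G.R, (2 : ℝ) := Finset.sum_le_sum fun r _ => by
    linarith [(hZ.bd hω r).2]
  rw [Finset.sum_const, Finset.card_univ, nsmul_eq_mul] at h1
  have h2 : (∑ r, Z r) / (4 * (1 + (Fintype.card G.R : ℝ))) ≤ 1 := by
    rw [div_le_one (by positivity)]
    have : (0:ℝ) ≤ Fintype.card G.R := Nat.cast_nonneg _
    linarith
  linarith

end

/-- the height of a leg along its ray -/
theorem inner_leg {G : Geo M E} {RC Cb e0 τ Sc : ℝ} (un : Unit G RC Cb e0 τ Sc) (hτ : 0 < τ)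
    (w : G.R) {t : ℝ} (ht : ∃ m : ℕ, t = m * τ) :
    |⟪(w : E), G.T (M.h (leg un.u τ w t))⟫ - t * Sc| ≤ e0 * t * Sc := by
  obtain ⟨m, rfl⟩ := ht
  have h1 := un.height_leg' w hτ m
  have h2 : ⟪(w : E), G.T (M.h (leg un.u τ w (m * τ)))⟫ - m * τ * Sc =
      ⟪(w : E), G.T (M.h (leg un.u τ w (m * τ))) - (m * τ * Sc) • (w : E)⟫ := by
    rw [inner_sub_right, inner_smul_right, real_inner_self_eq_norm_sq, G.norm_ray]; ring
  rw [h2]
  refine (abs_real_inner_le_norm _ _).trans ?_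
  rw [G.norm_ray, one_mul]
  exact h1

/-- **field `lam_vol`** -/
theorem lam_vol_ev (G : Geo M E) [DecidableEq G.R] (cs : Cst G) (hc1 : 0 < cs.c1)
    (hρ : 0 < cs.ρV) {ω ε : ℝ} (hω : ω ≤ 1 / 16) (hε : 0 < ε) (RC Cb : ℝ) :
    Ev G RC Cb fun Sc τ u => ∀ Z, adm τ ω Z → ∀ w b, 0 ≤ b →
      adm τ ω (Function.update Z w (Z w + b)) → ∃ m : ℝ≥0∞, m ≠ 0 ∧
      (∀ y : M.NN, BoxVol.lamV (cs.RQ w).D cs.ρV
        (M.Ad (leg u τ w (Z w + b)) : M.L →ₗ[ℝ] M.L)
        {v | y * v⁻¹ ∈ M.NB (fm G u τ Z) (cs.c1 * rho G Z)} ≤ m) ∧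
      m * ENNReal.ofReal (Real.exp (Sc * (Dw cs w * b - ε))) ≤
        BoxVol.lamV (cs.RQ w).D cs.ρV (M.Ad (leg u τ w (Z w + b)) : M.L →ₗ[ℝ] M.L) univ := by
  classical
  obtain ⟨γ, hγ1, hγ⟩ := exists_ge (fun w : G.R => Dw cs w)
  set V : G.R → ℝ := fun w =>
    (BoxVol.vQ (cs.RQ w).D (fun i => G.ray i = w) (eg M) (cs.c1 * 2)).toReal with hV
  have hV0 : ∀ w, 0 ≤ V w := fun w => ENNReal.toReal_nonneg
  obtain ⟨β, hβ1, hβ⟩ := exists_ge (fun w : G.R =>
    Real.log (V w / (2 * cs.ρV) ^ (cs.RQ w).n + 1))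
  refine ⟨1, one_pos, fun τ hτ _ => ⟨ε / (8 * γ), by positivity, 2 * β / ε, fun Sc hSc un => ?_⟩⟩
  have hSc0 : 0 < Sc := lt_of_lt_of_le (by positivity) hSc
  intro Z hZ w b hb hZ'
  set t : ℝ := Z w + b with ht
  have hγw := hγ w
  have hD := Dw_pos cs w
  -- the heights
  have hZw := hZ.bd hω w
  have htw := hZ'.bd hω w
  rw [Function.update_self] at htw
  have h1 := inner_leg un hτ w (t := Z w) (by obtain ⟨m, hm⟩ := hZ.1; exact ⟨m w, hm w⟩)
  have h2 := inner_leg un hτ w (t := t) (by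
    obtain ⟨m, hm⟩ := hZ'.1
    have := hm w
    rw [Function.update_self] at this
    exact ⟨m w, this⟩)
  set T : M.L →ₗ[ℝ] M.L := (M.Ad (leg un.u τ w t) : M.L →ₗ[ℝ] M.L) with hT
  have hq : (cs.RQ w).D.qdet T = Real.exp (Dw cs w * ⟪(w : E), G.T (M.h (leg un.u τ w t))⟫) :=
    qdet_leg cs un w w t
  have hs0 : 0 < cs.c1 * rho G Z := by
    have := one_le_rho' (τ := τ) hω hZ
    positivity
  set m : ℝ≥0∞ := ENNReal.ofReal ((cs.RQ w).D.qdet T)⁻¹ *
    (volume : Measure (cs.RQ w).D.QN) (BoxVol.prN (cs.RQ w).D ''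
      M.NB (fm G un.u τ Z) (cs.c1 * rho G Z)) with hm
  have hdet0 : 0 < (cs.RQ w).D.qdet T := by rw [hq]; exact Real.exp_pos _
  refine ⟨m, ?_, fun y => ?_, ?_⟩
  · rw [hm]
    refine mul_ne_zero (ENNReal.ofReal_pos.2 (inv_pos.2 hdet0)).ne' ?_
    rw [volume_prN_fm cs un Z w hs0.le]
    exact mul_ne_zero (ENNReal.ofReal_pos.2 (Real.exp_pos _)).ne'
      (BoxVol.RayQ.vQ_pos (cs.RQ w) hs0).ne'
  · exact BoxVol.lamV_le (cs.RQ w).D hdet0.ne' _ (BModel.measurableSet_NB M _ _) y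
  · rw [BoxVol.lamV_univ _ hρ.le, hm, volume_prN_fm cs un Z w hs0.le, hq, Fintype.card_fin]
    have h3 : BoxVol.vQ (cs.RQ w).D (fun i => G.ray i = w) (eg M) (cs.c1 * rho G Z) ≤
        ENNReal.ofReal (V w) := by
      rw [hV, ENNReal.ofReal_toReal (BoxVol.RayQ.vQ_lt_top (cs.RQ w) _).ne]
      refine BoxVol.vQ_mono _ _ ?_
      have := rho_le_two' (τ := τ) hω hZ
      gcongr
    set A := Dw cs w * ⟪(w : E), G.T (M.h (leg un.u τ w (Z w)))⟫ with hA
    set B := Dw cs w * ⟪(w : E), G.T (M.h (leg un.u τ w t))⟫ with hB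
    have h4 : A - B ≤ -(Dw cs w * b * Sc) + ε / 2 * Sc := by
      have h5 := (abs_le.1 h1).2
      have h6 := (abs_le.1 h2).1
      have h7 : ⟪(w : E), G.T (M.h (leg un.u τ w (Z w)))⟫ -
          ⟪(w : E), G.T (M.h (leg un.u τ w t))⟫ ≤ -(b * Sc) + ε / (8 * γ) * (Z w + t) * Sc := by
        rw [ht] at h6 ⊢
        nlinarith
      have h8 : ε / (8 * γ) * (Z w + t) * Sc ≤ ε / (8 * γ) * 4 * Sc := by
        gcongr
        linarith
      have h9 : Dw cs w * (ε / (8 * γ) * 4 * Sc) ≤ ε / 2 * Sc := by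
        have e1 : Dw cs w * (ε / (8 * γ) * 4 * Sc) = (Dw cs w / γ) * (ε / 2 * Sc) := by
          field_simp; ring
        rw [e1]
        have h10 : Dw cs w / γ ≤ 1 := (div_le_one (by linarith)).2 hγw
        have h11 : 0 ≤ ε / 2 * Sc := by positivity
        nlinarith
      have h10 := mul_le_mul_of_nonneg_left (h7.trans (add_le_add le_rfl h8)) hD.le
      rw [hA, hB]
      nlinarith
    have hVq : V w / (2 * cs.ρV) ^ (cs.RQ w).n ≤ Real.exp β := by
      have h5 : 0 ≤ V w / (2 * cs.ρV) ^ (cs.RQ w).n := div_nonneg (hV0 w) (by positivity)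
      have h6 := Real.exp_le_exp.2 (hβ w)
      beta_reduce at h6
      rw [Real.exp_log (by linarith)] at h6
      linarith
    have hβS : β ≤ ε / 2 * Sc := by
      rw [div_le_iff₀ hε] at hSc
      nlinarith
    have hρn : 0 < (2 * cs.ρV) ^ (cs.RQ w).n := by positivity
    calc ENNReal.ofReal (Real.exp B)⁻¹ * (ENNReal.ofReal (Real.exp A) *
          BoxVol.vQ (cs.RQ w).D (fun i => G.ray i = w) (eg M) (cs.c1 * rho G Z)) *
          ENNReal.ofReal (Real.exp (Sc * (Dw cs w * b - ε)))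
        ≤ ENNReal.ofReal (Real.exp B)⁻¹ * (ENNReal.ofReal (Real.exp A) *
          ENNReal.ofReal (V w)) * ENNReal.ofReal (Real.exp (Sc * (Dw cs w * b - ε))) := by gcongr
      _ = ENNReal.ofReal ((Real.exp B)⁻¹ * (Real.exp A * V w) *
          Real.exp (Sc * (Dw cs w * b - ε))) := by
          rw [ENNReal.ofReal_mul (by have := hV0 w; positivity),
            ENNReal.ofReal_mul (by positivity), ENNReal.ofReal_mul (Real.exp_pos _).le]
      _ ≤ ENNReal.ofReal ((2 * cs.ρV) ^ (cs.RQ w).n) := by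
          refine ENNReal.ofReal_le_ofReal ?_
          have e1 : (Real.exp B)⁻¹ * (Real.exp A * V w) * Real.exp (Sc * (Dw cs w * b - ε)) =
              V w * Real.exp (A - B + Sc * (Dw cs w * b - ε)) := by
            rw [Real.exp_add, Real.exp_sub]; field_simp
          rw [e1]
          have h5 : A - B + Sc * (Dw cs w * b - ε) ≤ -β := by nlinarith
          have h6 := Real.exp_le_exp.2 h5
          calc V w * Real.exp (A - B + Sc * (Dw cs w * b - ε)) ≤ V w * Real.exp (-β) := by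
                have := hV0 w
                gcongr
            _ = (V w / (2 * cs.ρV) ^ (cs.RQ w).n) * Real.exp (-β) * (2 * cs.ρV) ^ (cs.RQ w).n := by
                field_simp
            _ ≤ Real.exp β * Real.exp (-β) * (2 * cs.ρV) ^ (cs.RQ w).n := by gcongr
            _ = _ := by rw [← Real.exp_add, add_neg_cancel, Real.exp_zero, one_mul]
      _ = ENNReal.ofReal ((2 * cs.ρV) ^ (cs.RQ w).n) := rfl

/-! ### The moves -/

/-- all coordinates of `x` are on the ray -/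
def OnR (G : Geo M E) (w : G.R) (x : M.L) : Prop := ∀ i, M.bas.repr x i ≠ 0 → OnRay G w i

theorem OnR.Ad {G : Geo M E} {w : G.R} {x : M.L} (hx : OnR G w x) {g : M.G} (hg : g ∈ M.C) :
    OnR G w (M.Ad g x) := by
  intro i hi
  have e1 : M.bas.repr (M.Ad g x) i = ∑ j, M.bas.repr x j * M.bas.repr (M.Ad g (M.bas j)) i := by
    conv_lhs => rw [← M.bas.sum_repr x]
    rw [map_sum, map_sum, Finsupp.finsetSum_apply]
    exact Finset.sum_congr rfl fun j _ => by rw [map_smul, map_smul]; rfl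
  rw [e1] at hi
  obtain ⟨j, _, hj⟩ := Finset.exists_ne_zero_of_sum_ne_zero hi
  have h1 := hx j (left_ne_zero_of_mul hj)
  have h2 := M.Ad_C g hg i j (right_ne_zero_of_mul hj)
  unfold OnRay at h1 ⊢
  rw [h2]; exact h1

theorem exists_Ad_le (M : BModel S π) (RC : ℝ) : ∃ A : ℝ, 1 ≤ A ∧ ∀ (P : ℝ) (g : M.G), 1 ≤ P →
    CW M RC P g → ∀ (x : M.L) (s : ℝ), (∀ i, |M.bas.repr x i| ≤ s) → ∀ i,
      |M.bas.repr (M.Ad g x) i| ≤ A * P ^ M.d * Real.exp (M.wt i (M.h g)) * s := by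
  obtain ⟨A, h⟩ := M.Ad_C_le RC
  refine ⟨M.r * |A| + 1, by have : 0 ≤ (M.r : ℝ) * |A| := by positivity
                            linarith, ?_⟩
  rintro P g hP ⟨l, rfl, hl, hlen⟩ x s hs i
  have hs0 : 0 ≤ s := (abs_nonneg _).trans (hs i)
  have e1 : M.bas.repr (M.Ad l.prod x) i =
      ∑ j, M.bas.repr x j * M.bas.repr (M.Ad l.prod (M.bas j)) i := by
    conv_lhs => rw [← M.bas.sum_repr x]
    rw [map_sum, map_sum, Finsupp.finsetSum_apply]
    exact Finset.sum_congr rfl fun j _ => by rw [map_smul, map_smul]; rfl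
  rw [e1]
  refine (Finset.abs_sum_le_sum_abs _ _).trans ?_
  have h1 : ∀ j ∈ (Finset.univ : Finset (Fin M.r)),
      |M.bas.repr x j * M.bas.repr (M.Ad l.prod (M.bas j)) i| ≤
        s * (|A| * P ^ M.d * Real.exp (M.wt i (M.h l.prod))) := by
    intro j _
    rw [abs_mul]
    have h2 : |M.bas.repr (M.Ad l.prod (M.bas j)) i| ≤
        |A| * P ^ M.d * Real.exp (M.wt i (M.h l.prod)) := by
      refine (h l hl i j).trans ?_
      have h3 : (1 + (l.length : ℝ)) ^ M.d ≤ P ^ M.d := by gcongr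
      have h4 : A * (1 + (l.length : ℝ)) ^ M.d ≤ |A| * P ^ M.d :=
        mul_le_mul (le_abs_self _) h3 (by positivity) (abs_nonneg _)
      gcongr
    exact mul_le_mul (hs j) h2 (abs_nonneg _) hs0
  refine (Finset.sum_le_sum h1).trans ?_
  rw [Finset.sum_const, Finset.card_univ, Fintype.card_fin, nsmul_eq_mul]
  have h5 : 0 ≤ P ^ M.d * Real.exp (M.wt i (M.h l.prod)) * s := by positivity
  nlinarith

/-- elements on the ray, moved by a leg -/
theorem mem_fw {G : Geo M E} (u : G.R → M.G) (τ : ℝ) (w : G.R) (t : ℝ) {x : M.L} {s : ℝ}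
    (hx : OnR G w x) (hs : ∀ i, |M.bas.repr x i| ≤ s) :
    M.Ad (leg u τ w t) x ∈ Bx M.c (fw G u τ w t) (M.r * s) := by
  classical
  have e1 : M.Ad (leg u τ w t) x = ∑ i, M.bas.repr x i • fw G u τ w t i := by
    conv_lhs => rw [← M.bas.sum_repr x]
    rw [map_sum]
    refine Finset.sum_congr rfl fun i _ => ?_
    rw [map_smul]
    by_cases h : M.bas.repr x i = 0
    · rw [h, zero_smul, zero_smul]
    · congr 1
      unfold fw Nb.rst
      rw [if_pos (hx i h)]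
  rw [e1]
  refine Bx_mono ?_ (Bx_sum _ (fun i => M.bas.repr x i • fw G u τ w t i) (fun _ => s)
    fun i _ => Bx_mono ?_ (Bx_smul (gen_mem_Bx (M.nilC.nil _) i) _))
  · simp
  · rw [mul_one]; exact hs i

theorem wt_onRay (G : Geo M E) : ∃ c0 : ℝ, 0 < c0 ∧ ∀ w i, OnRay G w i →
    ∀ v μ, 0 ≤ μ → ⟪(w : E), G.T v⟫ ≤ -μ → M.wt i v ≤ -(c0 * μ) := by
  classical
  obtain ⟨c0, h0, -, h⟩ := exists_pos_le (fun p : G.R × Fin M.r =>
    if h : OnRay G p.1 p.2 then h.choose else 1) (fun p => by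
      split_ifs with h
      · exact h.choose_spec.1
      · exact one_pos)
  refine ⟨c0, h0, fun w i hi v μ hμ hv => ?_⟩
  have h1 := h (w, i)
  beta_reduce at h1
  rw [dif_pos hi] at h1
  rw [hi.choose_spec.2 v]
  nlinarith [hi.choose_spec.1]

set_option maxHeartbeats 1000000 in
/-- **fields `V_U` and `V_VU`** -/
theorem exists_V_U (G : Geo M E) (RQ : ∀ w : G.R, BoxVol.RayQ M (fun i => G.ray i = w)) :
    ∃ C : ℝ, 1 ≤ C ∧ ∀ cs : Cst G, cs.RQ = RQ → 0 ≤ cs.ρV → C * cs.ρV ≤ 1 → C * cs.ρV ≤ cs.TU →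
      ∀ ω : ℝ, ω ≤ 1 / 16 → ∀ RC Cb : ℝ, Ev G RC Cb fun Sc τ u =>
      (∀ w t, (∃ Z, adm τ ω Z ∧ Z w = t) →
        ∀ n ∈ BoxVol.mvs (cs.RQ w).D cs.ρV (M.Ad (leg u τ w t) : M.L →ₗ[ℝ] M.L),
          n ∈ M.NB (fw G u τ w t) cs.TU) ∧
      (∀ w t t', (∃ Z, adm τ ω Z ∧ Z w = t) → (∃ Z, adm τ ω Z ∧ Z w = t') → t ≤ t' →
        ∀ n ∈ BoxVol.mvs (cs.RQ w).D cs.ρV (M.Ad (leg u τ w t) : M.L →ₗ[ℝ] M.L),
        ∀ n' ∈ BoxVol.mvs (cs.RQ w).D cs.ρV (M.Ad (leg u τ w t') : M.L →ₗ[ℝ] M.L),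
          n⁻¹ * n' ∈ M.NB (fw G u τ w t') cs.TU) := by
  classical
  obtain ⟨A₂, H₂⟩ := M.star.exists_famConst M.c (Fin M.r) 1 le_rfl
  have hA₂ := H₂.one_le
  set B : ℝ := 1 + ∑ w : G.R, ∑ j, ∑ i, |M.bas.repr (mon (eg M) ((RQ w).κ j)) i| with hB
  have hB1 : 1 ≤ B := by
    have : 0 ≤ ∑ w : G.R, ∑ j, ∑ i, |M.bas.repr (mon (eg M) ((RQ w).κ j)) i| := by positivity
    linarith
  set C : ℝ := A₂ * (M.r * B) + 1 with hC
  have hrB : 0 ≤ (M.r : ℝ) * B := by positivity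
  have hC1 : 1 ≤ C := by nlinarith [mul_nonneg (by linarith : (0:ℝ) ≤ A₂) hrB]
  obtain ⟨c0, hc0, hwt⟩ := wt_onRay G
  refine ⟨C, hC1, ?_⟩
  rintro ⟨c1, ρV, TU, κD, RQ'⟩ rfl hρ hC1' hCT ω hω RC Cb
  dsimp only at hρ hC1' hCT ⊢
  have hrρ : M.r * (ρV * B) ≤ 1 := by
    have : (M.r : ℝ) * (ρV * B) ≤ A₂ * (M.r * B) * ρV := by
      have h0 : 0 ≤ (M.r : ℝ) * B * ρV := by positivity
      nlinarith
    nlinarith
  have hrρ0 : 0 ≤ M.r * (ρV * B) := by positivity
  have hrT : A₂ * (M.r * (ρV * B)) ≤ TU := by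
    have : A₂ * (M.r * (ρV * B)) ≤ C * ρV := by rw [hC]; nlinarith
    linarith
  -- the coordinates of the moves
  have key : ∀ (w : G.R) (q : Fin (RQ' w).n → ℝ), (∀ j, |q j| ≤ ρV) →
      OnR G w ((RQ' w).D.s q) ∧ ∀ i, |M.bas.repr ((RQ' w).D.s q) i| ≤ ρV * B := by
    intro w q hq
    have e1 : ∀ i, M.bas.repr ((RQ' w).D.s q) i =
        ∑ j, q j * M.bas.repr (mon (eg M) ((RQ' w).κ j)) i := by
      intro i
      rw [(RQ' w).s_eq, map_sum, Finsupp.finsetSum_apply]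
      exact Finset.sum_congr rfl fun j _ => by rw [map_smul]; rfl
    constructor
    · intro i hi
      rw [e1] at hi
      obtain ⟨j, _, hj⟩ := Finset.exists_ne_zero_of_sum_ne_zero hi
      have h1 := BoxVol.repr_mon_wt _ i (right_ne_zero_of_mul hj)
      obtain ⟨c, hc, h2⟩ := (isRay G w).sum_pos ((RQ' w).κ_w j) ((RQ' w).κ_ne j)
      refine ⟨c, hc, fun v => ?_⟩
      rw [h1, h2]; rfl
    · intro i
      rw [e1]
      refine (Finset.abs_sum_le_sum_abs _ _).trans ?_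
      have h1 : ∀ j ∈ (Finset.univ : Finset (Fin (RQ' w).n)),
          |q j * M.bas.repr (mon (eg M) ((RQ' w).κ j)) i| ≤
            ρV * |M.bas.repr (mon (eg M) ((RQ' w).κ j)) i| := fun j _ => by
        rw [abs_mul]
        exact mul_le_mul_of_nonneg_right (hq j) (abs_nonneg _)
      refine (Finset.sum_le_sum h1).trans ?_
      rw [← Finset.mul_sum]
      refine mul_le_mul_of_nonneg_left ?_ hρ
      have h2 : ∑ j, |M.bas.repr (mon (eg M) ((RQ' w).κ j)) i| ≤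
          ∑ j, ∑ i, |M.bas.repr (mon (eg M) ((RQ' w).κ j)) i| :=
        Finset.sum_le_sum fun j _ => Finset.single_le_sum
          (f := fun i => |M.bas.repr (mon (eg M) ((RQ' w).κ j)) i|)
          (fun _ _ => abs_nonneg _) (Finset.mem_univ i)
      have h3 : ∑ j, ∑ i, |M.bas.repr (mon (eg M) ((RQ' w).κ j)) i| ≤
          ∑ w : G.R, ∑ j, ∑ i, |M.bas.repr (mon (eg M) ((RQ' w).κ j)) i| :=
        Finset.single_le_sum (f := fun w : G.R =>
          ∑ j, ∑ i, |M.bas.repr (mon (eg M) ((RQ' w).κ j)) i|)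
          (fun _ _ => by positivity) (Finset.mem_univ w)
      linarith
  -- the moves in the box of the ray
  have key2 : ∀ (u : G.R → M.G) (τ : ℝ) (w : G.R) (t : ℝ),
      ∀ n ∈ BoxVol.mvs (RQ' w).D ρV (M.Ad (leg u τ w t) : M.L →ₗ[ℝ] M.L),
        M.E n ∈ Bx M.c (fw G u τ w t) (M.r * (ρV * B)) := by
    rintro u τ w t n ⟨q, hq, hn⟩
    rw [hn]
    exact mem_fw u τ w t (key w q hq).1 (key w q hq).2
  obtain ⟨A, hA, hAd⟩ := exists_Ad_le M RC
  refine ⟨1, one_pos, fun τ hτ _ => ⟨1 / 2, by norm_num, ?_⟩⟩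
  obtain ⟨S1, hS1, hpoly⟩ := exists_poly_le A |Cb| M.d (δ := c0 * (τ / 2)) (by positivity)
  refine ⟨S1, fun Sc hSc un => ?_⟩
  have hSc0 : 0 < Sc := by linarith
  refine ⟨fun w t _ n hn => ?_, fun w t t' ⟨Z, hZ, hZt⟩ ⟨Z', hZ', hZt'⟩ htt n hn n' hn' => ?_⟩
  · rw [BModel.mem_NB]
    refine Bx_mono ?_ (key2 un.u τ w t n hn)
    nlinarith
  · -- `n` seen from the end of the longer leg
    have hn1 : M.E n ∈ Bx M.c (fw G un.u τ w t') (M.r * (ρV * B)) := by
      obtain ⟨m, hm⟩ := hZ.1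
      obtain ⟨m', hm'⟩ := hZ'.1
      have ht : t = m w * τ := by rw [← hZt, hm]
      have ht' : t' = m' w * τ := by rw [← hZt', hm']
      have hmm : m w ≤ m' w := by
        have : (m w : ℝ) * τ ≤ m' w * τ := by rw [← ht, ← ht']; exact htt
        exact_mod_cast le_of_mul_le_mul_right this hτ
      rcases hmm.eq_or_lt with heq | hlt
      · have : t = t' := by rw [ht, ht', heq]
        subst this
        exact key2 un.u τ w t n hn
      · obtain ⟨q, hq, hnq⟩ := hn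
        set s : ℝ := ((m' w - m w : ℕ) : ℝ) * τ with hs
        have hsτ : τ ≤ s := by
          have : (1:ℝ) ≤ ((m' w - m w : ℕ) : ℝ) := by
            have : 1 ≤ m' w - m w := by omega
            exact_mod_cast this
          rw [hs]; nlinarith
        have hs1 : s ≤ 1 := by
          have h1 := (hZ.bd hω w).1
          have h2 := (hZ'.bd hω w).2
          have h3 : s = t' - t := by
            rw [hs, Nat.cast_sub hmm, ht, ht']; ring
          rw [hZt] at h1; rw [hZt'] at h2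
          linarith
        have hleg : leg un.u τ w t = leg un.u τ w t' * (leg un.u τ w s)⁻¹ := by
          unfold leg
          rw [ht, ht', hs, num_mul hτ, num_mul hτ, num_mul hτ, eq_mul_inv_iff_mul_eq, ← pow_add]
          congr 1; omega
        set x := (RQ' w).D.s q with hx
        obtain ⟨hx1, hx2⟩ := key w q hq
        have hCW : CW M RC (1 + Cb * s * Sc) (leg un.u τ w s)⁻¹ :=
          (un.cw_leg w hτ hSc0 (by linarith)).inv
        have hP1 : 1 ≤ 1 + Cb * s * Sc := by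
          obtain ⟨l, -, -, hl⟩ := hCW
          have : (0:ℝ) ≤ l.length := Nat.cast_nonneg _
          linarith
        have h1 := hAd _ _ hP1 hCW x (ρV * B) hx2
        have h2 := inner_leg un hτ w (t := s) ⟨_, rfl⟩
        have hwle : ∀ i, OnRay G w i → M.wt i (M.h (leg un.u τ w s)⁻¹) ≤ -(c0 * (τ / 2 * Sc)) := by
          intro i hi
          refine hwt w i hi _ _ (by positivity) ?_
          rw [M.h_inv, map_neg, inner_neg_right]
          have h3 := (abs_le.1 h2).1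
          have : τ * Sc ≤ s * Sc := by gcongr
          nlinarith
        have hx1' := hx1.Ad (g := (leg un.u τ w s)⁻¹) (M.C.inv_mem (un.leg_mem_C w s))
        have hP2 : A * (1 + Cb * s * Sc) ^ M.d ≤ Real.exp (c0 * (τ / 2) * Sc) := by
          refine le_trans ?_ (hpoly Sc hSc)
          have : Cb * s * Sc ≤ |Cb| * Sc := by
            have h3 : Cb * s ≤ |Cb| * 1 := mul_le_mul (le_abs_self _) hs1 (by linarith) (abs_nonneg _)
            nlinarith
          gcongr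
        have hx2' : ∀ i, |M.bas.repr (M.Ad (leg un.u τ w s)⁻¹ x) i| ≤ ρV * B := by
          intro i
          by_cases h0 : M.bas.repr (M.Ad (leg un.u τ w s)⁻¹ x) i = 0
          · rw [h0, abs_zero]; positivity
          · refine (h1 i).trans ?_
            have h3 := Real.exp_le_exp.2 (hwle i (hx1' i h0))
            have h4 : A * (1 + Cb * s * Sc) ^ M.d *
                Real.exp (M.wt i (M.h (leg un.u τ w s)⁻¹)) ≤ 1 := by
              calc _ ≤ Real.exp (c0 * (τ / 2) * Sc) * Real.exp (-(c0 * (τ / 2 * Sc))) := by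
                    gcongr
                _ = 1 := by rw [← Real.exp_add]; ring_nf; exact Real.exp_zero
            have h5 : 0 ≤ ρV * B := by positivity
            have h6 := mul_le_mul_of_nonneg_right h4 h5
            rwa [one_mul] at h6
        rw [hnq]
        have e1 : (M.Ad (leg un.u τ w t) : M.L →ₗ[ℝ] M.L) x =
            M.Ad (leg un.u τ w t') (M.Ad (leg un.u τ w s)⁻¹ x) := by
          rw [hleg, map_mul]; rfl
        change (M.Ad (leg un.u τ w t) : M.L →ₗ[ℝ] M.L) x ∈ _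
        rw [e1]
        exact mem_fw un.u τ w t' hx1' hx2'
    have hn2 := key2 un.u τ w t' n' hn'
    rw [BModel.mem_NB, BModel.E_mul, BModel.E_inv]
    have h3 := H₂.op_mem _ (M.nilC.nil _) _ _ hrρ0 hrρ hrρ0 hrρ _ (Bx_neg hn1) _ hn2
    rw [max_self] at h3
    exact Bx_mono hrT h3

/-- **field `V_sub`** -/
theorem V_sub (G : Geo M E) (cs : Cst G) (hρ : 0 ≤ cs.ρV) (hρc : cs.ρV ≤ cs.c1) {τ ω : ℝ}
    (hω : ω ≤ 1 / 16) (u : G.R → M.G) (Z : G.R → ℝ) (hZ : adm τ ω Z) (w : G.R) :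
    BoxVol.mvs (cs.RQ w).D cs.ρV (M.Ad (leg u τ w (Z w)) : M.L →ₗ[ℝ] M.L) ⊆
      M.NB (fm G u τ Z) (cs.c1 * rho G Z) := by
  classical
  have h1 := one_le_rho' hω hZ
  refine (BoxVol.RayQ.mvs_subset (cs.RQ w) (BoxVol.RayQ.isLie_Ad (leg u τ w (Z w))) hρ).trans ?_
  intro n hn
  rw [BModel.mem_NB] at hn ⊢
  have e1 : rst (fun i => (M.Ad (leg u τ w (Z w)) : M.L →ₗ[ℝ] M.L) (eg M i)) (fun i => G.ray i = w) =
      rst (fm G u τ Z) (fun i => G.ray i = w) :=
    BoxVol.rst_congr _ fun i hi => (fm_w u Z w i hi).symm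
  rw [e1] at hn
  refine Bx_mono ?_ (BoxVol.Bx_rst_subset _ _ hρ hn)
  nlinarith

/-- **field `lam_compl`** -/
theorem lam_compl (G : Geo M E) (cs : Cst G) (u : G.R → M.G) (τ : ℝ) (w : G.R) (t : ℝ) :
    BoxVol.lamV (cs.RQ w).D cs.ρV (M.Ad (leg u τ w t) : M.L →ₗ[ℝ] M.L)
      (BoxVol.mvs (cs.RQ w).D cs.ρV (M.Ad (leg u τ w t) : M.L →ₗ[ℝ] M.L))ᶜ = 0 :=
  BoxVol.lamV_compl _ _ _

/-- **field `lam_ne`** -/
theorem lam_ne_zero (G : Geo M E) (cs : Cst G) (hρ : 0 < cs.ρV) (u : G.R → M.G) (τ : ℝ) (w : G.R)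
    (t : ℝ) :
    BoxVol.lamV (cs.RQ w).D cs.ρV (M.Ad (leg u τ w t) : M.L →ₗ[ℝ] M.L) univ ≠ 0 := by
  rw [BoxVol.lamV_univ _ hρ.le]
  exact (ENNReal.ofReal_pos.2 (by positivity)).ne'

/-- **field `lam_fin`** -/
theorem lam_ne_top (G : Geo M E) (cs : Cst G) (hρ : 0 ≤ cs.ρV) (u : G.R → M.G) (τ : ℝ) (w : G.R)
    (t : ℝ) :
    BoxVol.lamV (cs.RQ w).D cs.ρV (M.Ad (leg u τ w t) : M.L →ₗ[ℝ] M.L) univ ≠ ⊤ := by
  rw [BoxVol.lamV_univ _ hρ]
  exact ENNReal.ofReal_ne_top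

end Crest.Agent.R182.ElI
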