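import Mathlib
import Crest.Agent.R182.ElBase
import Crest.Agent.R182.NbEntF
import Crest.Agent.R182.ElTgt
import Crest.Agent.R182.ElA
import Crest.Agent.R182.ElHop
import Crest.Agent.R182.ElV

-- ▼ part R182/ElAvol
section

set_option autoImplicit false
set_option linter.unusedSectionVars false

open MeasureTheory Set
open scoped Pointwise RealInnerProductSpace ENNReal

namespace Crest.Agent.R182.ElI

open Crest.GroupTheory Crest.Geometry Crest.Agent.R182.QI Crest.Agent.R182.Core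
  Crest.Agent.R182.Nb Crest.Agent.R182.Gen

/-- a box contains a parallelepiped of maximal volume -/
theorem le_vb_Bx {L : Type*} [LieRing L] [LieAlgebra ℝ L] {d : ℕ} {b : Module.Basis (Fin d) ℝ L}
    {σ : Type*} [Fintype σ] {c : ℕ} {g : σ → L} (hpos : 0 < MD b c g) {t : ℝ} (ht : 0 ≤ t) :
    ENNReal.ofReal ((2 * t) ^ d * MD b c g) ≤ vb b (Bx c g (d * t)) := by
  classical
  obtain ⟨κ, hκ⟩ := exists_MD (b := b) (c := c) (g := g)
  have hdt : |dt b g κ| ≠ 0 := by rw [← hκ]; exact hpos.ne'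
  have hm : b.det (fun k => mon g (κ k : List σ)) ≠ 0 := abs_ne_zero.mp hdt
  rw [vb_eq b hm]
  have h1 : ENNReal.ofReal ((2 * t) ^ d) ≤
      volume {y : Fin d → ℝ | ∑ k, y k • mon g (κ k : List σ) ∈ Bx c g (d * t)} := by
    have h2 := Real.volume_pi_closedBall (0 : Fin d → ℝ) (r := t) ht
    rw [Fintype.card_fin] at h2
    rw [← h2]
    refine measure_mono fun y hy => ?_
    rw [mem_closedBall_zero_iff, pi_norm_le_iff_of_nonneg ht] at hy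
    refine ⟨fun κ' => ∑ k, if (κ k : List σ) = κ' then y k else 0, fun κ' => ?_, ?_⟩
    · refine (Finset.abs_sum_le_sum_abs _ _).trans ?_
      calc ∑ k, |if (κ k : List σ) = κ' then y k else 0| ≤ ∑ _k : Fin d, t := by
            refine Finset.sum_le_sum fun k _ => ?_
            split_ifs
            · exact hy k
            · simpa using ht
        _ = d * t := by simp
    · simp only [Finset.sum_smul]
      rw [Finset.sum_comm]
      refine Finset.sum_congr rfl fun k _ => ?_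
      rw [Finset.sum_eq_single (κ k : List σ)]
      · rw [if_pos rfl]
      · intro κ' _ hne
        rw [if_neg (fun h => hne h.symm), zero_smul]
      · intro h
        exact absurd (κ k).2 h
  refine le_trans ?_ (mul_le_mul_right h1 _)
  rw [← ENNReal.ofReal_mul (abs_nonneg _)]
  refine ENNReal.ofReal_le_ofReal ?_
  change _ ≤ |dt b g κ| * _
  rw [← hκ, mul_comm]

variable {Γ : Type*} [Group Γ] {k : ℕ} {S : Set Γ} {π : Γ →* Multiplicative (Fin k → ℤ)}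
variable {M : BModel S π} {E : Type*} [NormedAddCommGroup E] [InnerProductSpace ℝ E]


theorem Bx_le_Pm {σ : Type*} [Fintype σ] {v : σ → M.L} {t : ℝ} {x : M.L} (hx : x ∈ Bx M.c v t) :
    x ∈ Pm v := by
  obtain ⟨s, _, rfl⟩ := hx
  exact Submodule.sum_mem _ fun κ _ => Submodule.smul_mem _ _ (Submodule.subset_span ⟨κ, rfl⟩)

/-- a family whose boxes contain scaled generators has positive volume -/
theorem MD_pos_of_mem {v : GI M → M.L} {Z : GI M → ℝ} {P : ℝ}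
    (h : ∀ i, gZ (eg M) Z i ∈ Bx M.c v P) : 0 < MD M.bas M.c v := by
  have h1 : Pm v = ⊤ := by
    refine top_le_iff.mp ?_
    rw [← span_mon M]
    refine Submodule.span_le.mpr ?_
    rintro _ ⟨κ, rfl⟩
    have h2 : ∀ κ : List (GI M), mon (gZ (eg M) Z) κ ∈ Pm v := by
      intro κ
      induction κ with
      | nil => simp
      | cons i κ ih =>
        by_cases hκ : κ = []
        · subst hκ
          exact Bx_le_Pm (h i)
        · rw [mon_cons _ i hκ]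
          exact lie_mem_Pm v (Bx_le_Pm (h i)) ih
    have h3 := h2 κ
    rw [mon_gZ] at h3
    have h4 := Submodule.smul_mem _ (Real.exp (κ.map Z).sum)⁻¹ h3
    rwa [smul_smul, inv_mul_cancel₀ (Real.exp_pos _).ne', one_smul] at h4
  obtain ⟨κ, hκ⟩ := exists_tup M.nilC M.bas v h1
  exact MD_pos_of hκ

/-- lower bound for the volume of a box -/
theorem exists_le_volume (M : BModel S π) : ∃ C : ℝ, 0 < C ∧ ∀ (v : GI M → M.L) (Z : GI M → ℝ)
    (P t : ℝ), 1 ≤ P → 0 ≤ t → (∀ i, gZ (eg M) Z i ∈ Bx M.c v P) →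
    ENNReal.ofReal (C * t ^ M.r * (P ^ (M.c * M.r))⁻¹ * Real.exp ((gsys M).Gt Z)) ≤
      volume (M.NB v t) := by
  obtain ⟨C₁, hC₁, h1⟩ := exists_MD_le (b := M.bas) M.nilC (GI M) (GI M)
  obtain ⟨C₂, hC₂, h2⟩ := le_MD_scaled M
  -- if `M.r = 0` the division by `M.r` is harmless
  set q : ℝ := (M.r : ℝ) + 1 with hq
  have hq0 : 0 < q := by positivity
  refine ⟨(2 / q) ^ M.r * C₁⁻¹ * C₂, by positivity, fun v Z P t hP ht h => ?_⟩
  have hpos := MD_pos_of_mem h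
  have h3 := h1 v (gZ (eg M) Z) P hP hpos h
  have h4 := h2 Z
  have h5 : C₂ * Real.exp ((gsys M).Gt Z) ≤ C₁ * P ^ (M.c * M.r) * MD M.bas M.c v := h4.trans h3
  have hP0 : 0 < P ^ (M.c * M.r) := by positivity
  have h6 : C₁⁻¹ * (P ^ (M.c * M.r))⁻¹ * (C₂ * Real.exp ((gsys M).Gt Z)) ≤ MD M.bas M.c v := by
    calc _ ≤ C₁⁻¹ * (P ^ (M.c * M.r))⁻¹ * (C₁ * P ^ (M.c * M.r) * MD M.bas M.c v) := by gcongr
      _ = MD M.bas M.c v := by field_simp
  have h7 := le_vb_Bx hpos (t := t / q) (by positivity)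
  have h8 : M.NB v (M.r * (t / q)) ⊆ M.NB v t := BModel.NB_mono (by
    rw [← mul_div_assoc, div_le_iff₀ hq0, hq]
    nlinarith)
  refine le_trans ?_ (measure_mono h8)
  refine le_trans (ENNReal.ofReal_le_ofReal ?_) h7
  calc (2 / q) ^ M.r * C₁⁻¹ * C₂ * t ^ M.r * (P ^ (M.c * M.r))⁻¹ * Real.exp ((gsys M).Gt Z)
      = (2 * (t / q)) ^ M.r * (C₁⁻¹ * (P ^ (M.c * M.r))⁻¹ * (C₂ * Real.exp ((gsys M).Gt Z))) := by
        rw [show 2 * (t / q) = 2 / q * t by ring, mul_pow]; ring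
    _ ≤ _ := by gcongr

theorem GG_eq (G : Geo M E) {Sc : ℝ} (hSc : 0 ≤ Sc) (Z : G.R → ℝ) :
    (gsys M).Gt (fun i => Sc * (G.RS.lam i * Z (G.ray i))) = Sc * GG G Z := by
  have h1 : (gsys M).Gt (fun i => Sc * (G.RS.lam i * Z (G.ray i))) =
      Sc * (gsys M).Gt (fun i => G.RS.lam i * Z (G.ray i)) := (gsys M).Gt_smul hSc _
  rw [h1]
  congr 1
  unfold GG
  have e : G.RS.Gt = (M.gsysT G.T).Gt := by rw [← G.hRS]
  rw [e]
  rfl

/-- `A_vol` from the comparison of the family of the legs with the scaled family -/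
theorem exists_A_vol (G : Geo M E) (cs : Cst G) (hc1 : 0 < cs.c1) {ε : ℝ} (hε : 0 < ε) :
    ∃ δ : ℝ, 0 < δ ∧ ∃ S0 : ℝ, ∀ Sc, S0 ≤ Sc → ∀ (u : G.R → M.G) (τ : ℝ) (Z : G.R → ℝ),
      (∀ r, 0 ≤ Z r) →
      (∀ i, gZ (eg M) (fun i => Sc * (G.RS.lam i * Z (G.ray i))) i ∈
        Bx M.c (fm G u τ Z) (Real.exp (δ * Sc))) →
      ENNReal.ofReal (Real.exp (Sc * (GG G Z - ε))) ≤
        volume (M.NB (fm G u τ Z) (cs.c1 * rho G Z)) := by
  obtain ⟨C, hC, h⟩ := exists_le_volume M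
  set q : ℝ := (M.c * M.r : ℕ) + 1 with hq
  have hq0 : 0 < q := by positivity
  obtain ⟨S0, hS0, h0⟩ := exists_poly_le ((C * cs.c1 ^ M.r)⁻¹) 0 0 (δ := ε / 2) (by positivity)
  refine ⟨ε / (2 * q), by positivity, S0, fun Sc hSc u τ Z hZ hmem => ?_⟩
  have hSc0 : 0 < Sc := by linarith
  have h1 := h (fm G u τ Z) _ (Real.exp (ε / (2 * q) * Sc)) cs.c1
    (Real.one_le_exp (by positivity)) hc1.le hmem
  have hρ : 1 ≤ rho G Z := by
    unfold rho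
    have : 0 ≤ ∑ r, Z r := Finset.sum_nonneg fun r _ => hZ r
    have : 0 ≤ (∑ r, Z r) / (4 * (1 + Fintype.card G.R)) := by positivity
    linarith
  refine le_trans ?_ (h1.trans (measure_mono (BModel.NB_mono (le_mul_of_one_le_right hc1.le hρ))))
  refine ENNReal.ofReal_le_ofReal ?_
  rw [GG_eq G hSc0.le, ← Real.exp_nat_mul, ← Real.exp_neg]
  have h2 := h0 Sc hSc
  rw [pow_zero, mul_one, inv_le_iff_one_le_mul₀ (by positivity)] at h2
  have h3 : ((M.c * M.r : ℕ) : ℝ) * (ε / (2 * q) * Sc) ≤ ε / 2 * Sc := by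
    have : ((M.c * M.r : ℕ) : ℝ) ≤ q := by rw [hq]; linarith
    calc ((M.c * M.r : ℕ) : ℝ) * (ε / (2 * q) * Sc) ≤ q * (ε / (2 * q) * Sc) := by gcongr
      _ = ε / 2 * Sc := by field_simp
  calc Real.exp (Sc * (GG G Z - ε)) = 1 * (Real.exp (-(ε / 2 * Sc)) * Real.exp (-(ε / 2 * Sc)) *
        Real.exp (Sc * GG G Z)) := by rw [one_mul, ← Real.exp_add, ← Real.exp_add]; congr 1; ring
    _ ≤ (Real.exp (ε / 2 * Sc) * (C * cs.c1 ^ M.r)) * (Real.exp (-(ε / 2 * Sc)) *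
        Real.exp (-(((M.c * M.r : ℕ) : ℝ) * (ε / (2 * q) * Sc))) * Real.exp (Sc * GG G Z)) := by
        gcongr
    _ = (Real.exp (ε / 2 * Sc) * Real.exp (-(ε / 2 * Sc))) * (C * cs.c1 ^ M.r *
        Real.exp (-(((M.c * M.r : ℕ) : ℝ) * (ε / (2 * q) * Sc))) * Real.exp (Sc * GG G Z)) := by
        ring
    _ = _ := by rw [← Real.exp_add, add_neg_cancel, Real.exp_zero, one_mul]

end Crest.Agent.R182.ElI
end

-- ▼ part R182/ElTgtEv
section

set_option autoImplicit false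
set_option linter.unusedSectionVars false

open MeasureTheory Set
open scoped Pointwise RealInnerProductSpace ENNReal

namespace Crest.Agent.R182.ElI

open Crest.GroupTheory Crest.Geometry Crest.Agent.R182.QI Crest.Agent.R182.Core
  Crest.Agent.R182.Nb Crest.Agent.R182.Gen

/-- the fields of `El.Facts` which concern the target boxes and the measurability of `g`,
literally. -/
structure TgtFields {R E N Q : Type*} [Fintype R] [NormedAddCommGroup E] [InnerProductSpace ℝ E]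
    [Group N] [MeasurableSpace N] [Group Q] [MeasurableSpace Q] (d : El.Data R E N Q)
    (p : El.Par R) : Prop where
  Bx_meas : ∀ z X, MeasurableSet (d.Bx z X)
  Bx_inv : ∀ z X, ∀ x ∈ d.Bx z X, x⁻¹ ∈ d.Bx z X
  Bx_mono : ∀ z z' X X', z ≤ z' → X ≤ X' → d.Bx z X ⊆ d.Bx z' X'
  Bx_prod : ∀ z X, p.ε ≤ z → ∀ l : List Q, l.length ≤ p.q → (∀ x ∈ l, x ∈ d.Bx z X) →
    l.prod ∈ d.Bx (z + p.ε) (fun r => X r + p.ε)
  Ds_meas : ∀ r t, MeasurableSet (d.Ds r t)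
  Ds_inv : ∀ r t, ∀ x ∈ d.Ds r t, x⁻¹ ∈ d.Ds r t
  Ds_mono : ∀ r t t', t ≤ t' → d.Ds r t ⊆ d.Ds r t'
  Ds_mul : ∀ r t, ∀ x ∈ d.Ds r t, ∀ y ∈ d.Ds r t, x * y ∈ d.Ds r (t + p.ε)
  Bx_Ds : ∀ z X r, z ≤ 1 → d.Bx z X ⊆ d.Ds r (X r + p.ε)
  g_meas : ∀ r s, Measurable (fun n => d.g n r s)
  g_zero : ∀ n r r', d.g n r 0 = d.g n r' 0

variable {Γ : Type*} [Group Γ] {k : ℕ} {S : Set Γ} {π : Γ →* Multiplicative (Fin k → ℤ)}
variable {M : BModel S π} {E : Type*} [NormedAddCommGroup E] [InnerProductSpace ℝ E]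

/-- the target fields hold for all maps and all base points at all large scales (all `τ`, all
unit legs). -/
theorem exists_tgt [Countable Γ] (G : Geo M E) (cs : Cst G) (q : ℕ) {ε : ℝ} (hε : 0 < ε) :
    ∃ S0 : ℝ, 1 ≤ S0 ∧ ∀ Sc, S0 ≤ Sc → ∀ (Ψ : Γ → Γ) (x : M.G) (τ : ℝ) (u : G.R → M.G)
      (δ ω : ℝ), TgtFields (data G cs Ψ x Sc τ u) (par Sc ε δ ω q τ) := by
  obtain ⟨S1, h1, h2⟩ := exists_tBx_prod G q ε hε
  obtain ⟨S2, h3, h4⟩ := exists_tDs_mul G ε hε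
  refine ⟨max S1 S2, le_max_of_le_left h1, fun Sc hSc Ψ x τ u δ ω => ?_⟩
  have hS1 : S1 ≤ Sc := (le_max_left _ _).trans hSc
  have hS2 : S2 ≤ Sc := (le_max_right _ _).trans hSc
  have hSc0 : 0 ≤ Sc := by linarith
  exact
    { Bx_meas := fun z X => tBx_meas G Sc X
      Bx_inv := fun z X y hy => tBx_inv hy
      Bx_mono := fun z z' X X' _ h => tBx_mono hSc0 h
      Bx_prod := fun z X _ l hl hx => h2 Sc hS1 X l hl hx
      Ds_meas := fun r t => tDs_meas G Sc r t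
      Ds_inv := fun r t y hy => tDs_inv hy
      Ds_mono := fun r t t' h => tDs_mono hSc0 h
      Ds_mul := fun r t y hy z hz => h4 Sc hS2 r t y z hy hz
      Bx_Ds := fun z X r _ y hy => tDs_mono hSc0 (by change X r ≤ X r + ε; linarith)
        (tBx_subset_tDs G Sc X r hy)
      g_meas := fun r s => measurable_g Ψ x u τ r s
      g_zero := fun n r r' => by
        change up M (pnt Ψ x u τ n r 0) = up M (pnt Ψ x u τ n r' 0)
        rw [g_zero Ψ x u τ n r r'] }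

/-- the target fields, `Ev` form -/
theorem ev_tgt [Countable Γ] (G : Geo M E) (cs : Cst G) (q : ℕ) {ε : ℝ} (hε : 0 < ε) (δ ω : ℝ)
    (RC Cb : ℝ) : Ev G RC Cb fun Sc τ u => ∀ (Ψ : Γ → Γ) (x : M.G),
      TgtFields (data G cs Ψ x Sc τ u) (par Sc ε δ ω q τ) := by
  obtain ⟨S0, h1, h2⟩ := exists_tgt G cs q hε
  exact (Ev.scale S0).mono fun Sc τ u _ _ h Ψ x => h2 Sc h Ψ x τ u δ ω

end Crest.Agent.R182.ElI
end

-- ▼ part R182/ElFacts

set_option autoImplicit false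
set_option linter.unusedSectionVars false

open MeasureTheory Set
open scoped Pointwise RealInnerProductSpace ENNReal

namespace Crest.Agent.R182.ElI

open Crest.GroupTheory Crest.Geometry Crest.Agent.R182.QI Crest.Agent.R182.Core
  Crest.Agent.R182.Nb Crest.Agent.R182.Gen

variable {Γ : Type*} [Group Γ] {k : ℕ} {S : Set Γ} {π : Γ →* Multiplicative (Fin k → ℤ)}
variable {M : BModel S π} {E : Type} [NormedAddCommGroup E] [InnerProductSpace ℝ E]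

/-- good constants of the boxes -/
structure CstOk {G : Geo M E} (cs : Cst G) (J : ℕ) (CV : ℝ) : Prop where
  c1 : C1ok M J cs.c1
  ρV : 0 < cs.ρV
  ρc : cs.ρV ≤ cs.c1
  ρ1 : CV * cs.ρV ≤ 1
  ρT : CV * cs.ρV ≤ cs.TU
  TU : 1 ≤ cs.TU
  κD : 0 ≤ cs.κD

/-- the field `slab` for the data of a model, `Ev` form -/
def SlabEv (G : Geo M E) (cs : Cst G) (K : ℕ) (RC Cb κ c0 ω ε : ℝ) : Prop :=
  Ev G RC Cb fun Sc τ u => ∀ Ψ : Γ → Γ, QIMap S S Ψ K → ∀ x : M.G,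
    ∀ (r : G.R) (s : ℝ), 0 ≤ s → s ≤ 2 → ∀ z : ℝ, 0 ≤ z → z ≤ 1 →
    ∀ (X : G.R → ℝ) (y y' : M.NN) (θ : E) (r' : G.R) (t : ℝ),
    (∀ r : G.R, |X r - ⟪(r : E), θ⟫ - 1| ≤ 2 * ω) → 0 ≤ t → t ≤ 1 →
    volume {n : M.NN | n ∈ (data G cs Ψ x Sc τ u).Dom ∧
        (data G cs Ψ x Sc τ u).g n r s ∈ y • (data G cs Ψ x Sc τ u).Bx z X ∧
        (data G cs Ψ x Sc τ u).g n r s ∈ y' • (data G cs Ψ x Sc τ u).Ds r' (X r' - t) ∧
        (∀ r' : G.R, ⟪(r' : E), (data G cs Ψ x Sc τ u).f n r s⟫ ≤ X r') ∧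
        ⟪(r' : E), (data G cs Ψ x Sc τ u).f n r s⟫ + t ≤ X r'}
      ≤ ENNReal.ofReal (Real.exp (Sc * (GG G X - c0 * t + κ * z + ε)))

/-- the field `stick` for the data of a model, `Ev` form -/
def StickEv (G : Geo M E) (cs : Cst G) (K : ℕ) (RC Cb κ ω ε : ℝ) : Prop :=
  Ev G RC Cb fun Sc τ u => ∀ Ψ : Γ → Γ, QIMap S S Ψ K → ∀ x : M.G,
    ∀ (r : G.R) (s : ℝ), 0 ≤ s → s ≤ 2 → ∀ z : ℝ, 0 ≤ z → z ≤ 1 →
    ∀ (X X' : G.R → ℝ) (y : M.NN) (θ : E) (w : G.R) (b : ℝ),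
    (∀ r' : G.R, |X r' - ⟪(r' : E), θ⟫ - 1| ≤ 2 * ω) → 0 ≤ b → b ≤ ω →
    (∀ r, r ≠ w → X' r + κ * b ≤ X r) → X' w ≤ X w + b →
    volume {n : M.NN | n ∈ (data G cs Ψ x Sc τ u).Dom ∧
        (data G cs Ψ x Sc τ u).g n r s ∈ y • ((data G cs Ψ x Sc τ u).Bx z X *
          (data G cs Ψ x Sc τ u).Bx z X') ∧
        (∀ r' : G.R, ⟪(r' : E), (data G cs Ψ x Sc τ u).f n r s⟫ ≤ X r') ∧
        (∀ r' : G.R, r' ≠ w → ⟪(r' : E), (data G cs Ψ x Sc τ u).f n r s⟫ + κ * b ≤ X r')}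
      ≤ ENNReal.ofReal (Real.exp (Sc * (GG G X + Dw cs w * b + κ * z + ε)))

/-- the law of the box of sides `Z` at the point `n₀` -/
def LawAt (G : Geo M E) (cs : Cst G) (Ψ : Γ → Γ) (x : M.G) (Sc τ : ℝ) (u : G.R → M.G)
    (ε δ : ℝ) (Z : G.R → ℝ) (n₀ : M.NN) (σ : Equiv.Perm G.R) (θ : E) : Prop :=
  volume {n : M.NN | n ∈ (data G cs Ψ x Sc τ u).Ah Z ∧
      ¬ (∀ (r : G.R) (s : ℝ), 0 ≤ s → s ≤ Z r →
        ‖(data G cs Ψ x Sc τ u).f (n₀ * n) r s - θ - s • (σ r : E)‖ ≤ ε)} ≤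
      ENNReal.ofReal δ * volume ((data G cs Ψ x Sc τ u).A Z)

/-- the field `box` for the data of a model, at one scale -/
def BoxAt (G : Geo M E) (cs : Cst G) (Ψ : Γ → Γ) (x : M.G) (Sc τ : ℝ) (u : G.R → M.G)
    (ω ε δ : ℝ) : Prop :=
  ∀ Z, adm τ ω Z → ∀ n₀ : M.NN, ∃ (σ : Equiv.Perm G.R) (θ : E),
    LawAt G cs Ψ x Sc τ u ε δ Z n₀ σ θ

/-- **all facts** -/
theorem exists_facts [Countable Γ] [FiniteDimensional ℝ E] (G : Geo M E) [DecidableEq G.R]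
    (RQ : ∀ w : G.R, BoxVol.RayQ M (fun i => G.ray i = w)) (hD : CDist M) (K : ℕ) (RC Cb : ℝ) :
    ∃ CV : ℝ, 1 ≤ CV ∧ ∀ (cs : Cst G) (J : ℕ), cs.RQ = RQ → CstOk cs J CV →
    ∃ κ1 : ℝ, 1 ≤ κ1 ∧ G.RS.Gt G.RS.lam ≤ κ1 ∧ ∀ (κ C c0 : ℝ) (J' : ℕ) (_hκ1 : κ1 ≤ κ) (hκ : 1 ≤ κ)
      (hκ' : G.RS.Gt G.RS.lam ≤ κ) (hC : 1 ≤ C) (_hC' : CA M cs.c1 ≤ C) (hc0 : 0 < c0)
      (_hJ : J ≤ J') (γ : ℝ), Gap G γ → ∀ ω : ℝ, 0 < ω → ω ≤ γ / 16 → ∀ ε : ℝ, 0 < ε → ∀ δ : ℝ,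
      0 < δ → ∀ q : ℕ, SlabEv G cs K RC Cb κ c0 ω ε → StickEv G cs K RC Cb κ ω ε →
      Ev G RC Cb fun Sc τ u => ∀ Ψ : Γ → Γ, QIMap S S Ψ K → ∀ x : M.G,
        BoxAt G cs Ψ x Sc τ u ω ε δ →
        El.Facts (mdl cs κ C c0 J' hκ hκ' hC hc0) (data G cs Ψ x Sc τ u) (par Sc ε δ ω q τ) := by
  obtain ⟨CV, hCV1, hV⟩ := exists_V_U G RQ
  refine ⟨CV, hCV1, fun cs J hRQ hcs => ?_⟩
  have hTU0 : 0 ≤ cs.TU := by linarith [hcs.TU]
  obtain ⟨κ1, hκ1, hlip⟩ := exists_lip G cs hTU0 K RC Cb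
  obtain ⟨κ2, hκ2, hhop⟩ := exists_hop G cs hTU0 hcs.κD hD K RC Cb
  refine ⟨max (max κ1 κ2) (max 1 (G.RS.Gt G.RS.lam)), le_max_of_le_right (le_max_left _ _),
    (le_max_right _ _).trans (le_max_right _ _), ?_⟩
  intro κ C c0 J' hκm hκ hκ' hC hC' hc0 hJ γ hγ ω hω hωγ ε hε δ hδ q hslab hstick
  have hκ1' : κ1 ≤ κ := ((le_max_left _ _).trans (le_max_left _ _)).trans hκm
  have hκ2' : κ2 ≤ κ := ((le_max_right _ _).trans (le_max_left _ _)).trans hκm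
  have hω1 : ω ≤ 1 / 16 := by linarith [hγ.2.1]
  have hc1 := hcs.c1.1
  obtain ⟨δ', hδ', S1, hAvol⟩ := exists_A_vol G cs hc1 hε
  refine (((((((((Ev.scale (max S1 (max 1 (4 / ε)))).and (ev_A_ne G cs hc1 hω1 hγ hωγ RC Cb)).and
    (ev_A_mono G cs hc1 hω1 hγ hωγ hε RC Cb)).and
    (hV cs hRQ hcs.ρV.le hcs.ρ1 hcs.ρT ω hω1 RC Cb)).and
    (lam_vol_ev G cs hc1 hcs.ρV hω1 hε RC Cb)).and
    (ev_tgt G cs q hε δ ω RC Cb)).and
    ((hlip κ hκ1' ε hε).and (hhop κ hκ2' ε hε))).and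
    ((exists_line G cs hcs.κD hD K RC Cb ε hε).and (ev_geo G hγ hδ' 0 RC Cb))).and
    (hslab.and hstick)).mono ?_
  rintro Sc τ u hτ hSc ⟨⟨⟨⟨⟨⟨⟨⟨hS, hne⟩, hmono⟩, hVU⟩, hlamvol⟩, htgt⟩, hl, hh⟩, hline, hgeo⟩,
    hsl, hst⟩ Ψ hΨ x hbox
  have hS1 : S1 ≤ Sc := (le_max_left _ _).trans hS
  have hSε : 4 ≤ Sc * ε := by
    have := ((le_max_right _ _).trans (le_max_right _ _)).trans hS
    rw [div_le_iff₀ hε] at this
    exact this
  have htg := htgt Ψ x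
  have hT : ∀ {w t}, (par Sc ε δ ω q τ : El.Par G.R).AdmT w t → 0 ≤ t ∧ t ≤ 2 := by
    rintro w t ⟨Z, hZ, rfl⟩
    have := adm.bd hZ hω1 w
    constructor <;> linarith [this.1, this.2]
  refine
    { S_pos := hSc
      ε_pos := hε
      S_large := hSε
      δ_pos := hδ
      adm := fun Z hZ => hZ.2
      μ_left := ?_
      μ_right := ?_
      μ_sf := ?_
      A_meas := fun Z _ n _ => A_meas G cs Ψ x Sc τ u Z n
      A_one := fun Z hZ => A_one G cs Ψ x Sc τ u hc1 (adm.nonneg hZ hω1)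
      A_inv := fun Z _ => A_inv G cs Ψ x Sc τ u Z
      A_pow := fun Z hZ => A_pow G cs Ψ x Sc τ u hcs.c1 hω1 hZ
      A_mono := fun Z Z' hZ hZ' h => hmono Ψ x Z Z' hZ hZ' h
      A_gen := fun Z hZ => (hne Ψ x Z hZ).2
      A_ne := fun Z hZ => (hne Ψ x Z hZ).1
      A_fin := fun Z _ => A_fin G cs Ψ x Sc τ u Z
      Ah_le := fun Z hZ => Ah_le G cs Ψ x Sc τ u hc1 (adm.nonneg hZ hω1) hC'
      gen := fun Z hZ => gen_of_hop G cs Ψ x Sc τ u hcs.c1 hcs.TU hJ hκ hκ' hC hc0 hω1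
        (fun n hn w t s h0 h1 h2 v hv z X hX => hh Ψ hΨ x n hn w t s h0 h1 h2 v hv z X hX) hZ
      V_sub := fun Z hZ w => V_sub G cs hcs.ρV.le hcs.ρc hω1 u Z hZ w
      V_U := fun w t ht n hn => hVU.1 w t ht n hn
      V_VU := fun w t t' ht ht' htt n hn n' hn' => hVU.2 w t t' ht ht' htt n hn n' hn'
      lam_compl := fun w t _ => lam_compl G cs u τ w t
      lam_ne := fun w t _ => lam_ne_zero G cs hcs.ρV u τ w t
      lam_fin := fun w t _ => lam_ne_top G cs hcs.ρV.le u τ w t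
      lam_vol := fun Z hZ w b hb hZb => hlamvol Z hZ w b hb hZb
      Bx_meas := htg.Bx_meas
      Bx_inv := htg.Bx_inv
      Bx_mono := htg.Bx_mono
      Bx_prod := htg.Bx_prod
      Ds_meas := htg.Ds_meas
      Ds_inv := htg.Ds_inv
      Ds_mono := htg.Ds_mono
      Ds_mul := htg.Ds_mul
      Bx_Ds := htg.Bx_Ds
      g_meas := htg.g_meas
      g_zero := htg.g_zero
      lip := fun n w t s ht hs hst v hv =>
        hl Ψ hΨ x n w t s (hT hs).1 hst (hT ht).2 v hv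
      hop := fun n hn w t s ht hs hst v hv _ z _ X hX =>
        hh Ψ hΨ x n hn w t s (hT hs).1 hst (hT ht).2 v hv z X hX
      line := fun n hn r s h0 h1 z _ X hX => hline Ψ hΨ x n hn r s h0 h1 z X hX
      A_vol := fun Z hZ => hAvol Sc hS1 u τ Z (adm.nonneg hZ hω1) (hgeo ω hωγ Z hZ).2.1
      slab := fun r s h0 h1 z hz0 hz1 X y y' θ r' t hX ht0 ht1 =>
        hsl Ψ hΨ x r s h0 h1 z hz0 hz1 X y y' θ r' t hX ht0 ht1
      stick := fun r s h0 h1 z hz0 hz1 X X' y θ w b hX hb0 hb1 h2 h3 =>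
        hst Ψ hΨ x r s h0 h1 z hz0 hz1 X X' y θ w b hX hb0 hb1 h2 h3
      box := fun Z hZ n₀ => hbox Z hZ n₀ }
  · change (volume : Measure M.NN).IsMulLeftInvariant
    infer_instance
  · change (volume : Measure M.NN).IsMulRightInvariant
    infer_instance
  · change SigmaFinite (volume : Measure M.NN)
    infer_instance

end Crest.Agent.R182.ElI
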