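/-
R182, module HOLE / EL_K (helper656): Euclidean geometry of a frame of unit directions.
-/
import Mathlib
import Crest.Agent.R182.ElDefs

set_option autoImplicit false

open Set
open scoped RealInnerProductSpace

namespace Crest.Agent.R182.El

variable {R E : Type*} [Fintype R] [NormedAddCommGroup E] [InnerProductSpace ℝ E]

namespace Frame

variable (F : Frame R E)

theorem inner_self (r : R) : ⟪F.e r, F.e r⟫ = 1 := by
  rw [real_inner_self_eq_norm_sq, F.norm_e]; norm_num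

theorem inner_lt {r w : R} (h : r ≠ w) : ⟪F.e r, F.e w⟫ < 1 :=
  (inner_lt_one_iff_real_of_norm_eq_one (F.norm_e r) (F.norm_e w)).2 fun h' => h (F.inj h')

theorem inner_le_norm (r : R) (v : E) : ⟪F.e r, v⟫ ≤ ‖v‖ := by
  have := real_inner_le_norm (F.e r) v
  rwa [F.norm_e, one_mul] at this


/-- different directions are uniformly separated -/
theorem exists_sep : ∃ m : ℝ, 0 < m ∧ m ≤ 1 ∧ ∀ r w, r ≠ w → ⟪F.e r, F.e w⟫ ≤ 1 - m := by
  classical
  let s : Finset ℝ := ((Finset.univ : Finset (R × R)).filter fun x => x.1 ≠ x.2).image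
    fun x => 1 - ⟪F.e x.1, F.e x.2⟫
  obtain ⟨m, hm, hs⟩ : ∃ m : ℝ, 0 < m ∧ ∀ x ∈ s, m ≤ x := by
    rcases s.eq_empty_or_nonempty with h | h
    · exact ⟨1, one_pos, by simp [h]⟩
    · refine ⟨s.min' h, ?_, fun x hx => s.min'_le x hx⟩
      have := s.min'_mem h
      obtain ⟨x, hx, hx'⟩ := Finset.mem_image.1 this
      rw [← hx']
      have := F.inner_lt (Finset.mem_filter.1 hx).2
      linarith
  refine ⟨min m 1, lt_min hm one_pos, min_le_right _ _, fun r w h => ?_⟩
  have := hs (1 - ⟪F.e r, F.e w⟫) (Finset.mem_image.2 ⟨(r, w), by simp [h], rfl⟩)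
  linarith [min_le_left m 1]

theorem sum_inner_eq (v : E) : ∑ r, F.c r * ⟪F.e r, v⟫ = 0 := by
  have : ⟪∑ r, F.c r • F.e r, v⟫ = 0 := by rw [F.sum_e, inner_zero_left]
  rw [_root_.sum_inner] at this
  simpa [real_inner_smul_left] using this


/-- the sum rule bounds one coordinate from above by the others from below -/
theorem exists_sum_bound : ∃ B : ℝ, 1 ≤ B ∧ ∀ (w : R) (θ : E) (t : ℝ), 0 ≤ t →
    (∀ r, r ≠ w → -t ≤ ⟪F.e r, θ⟫) → ⟪F.e w, θ⟫ ≤ B * t := by
  classical
  rcases isEmpty_or_nonempty R with hR | hR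
  · exact ⟨1, le_rfl, fun w => (hR.false w).elim⟩
  obtain ⟨w0, -, hw0⟩ := Finset.exists_min_image Finset.univ F.c Finset.univ_nonempty
  set Sc := ∑ r, F.c r with hSc
  have hS0 : 0 < Sc := Finset.sum_pos (fun r _ => F.c_pos r) Finset.univ_nonempty
  have hw0' : F.c w0 ≤ Sc := Finset.single_le_sum (fun r _ => (F.c_pos r).le) (Finset.mem_univ _)
  refine ⟨Sc / F.c w0, (one_le_div (F.c_pos w0)).2 hw0', fun w θ t ht h => ?_⟩
  have h1 := F.sum_inner_eq θ
  rw [← Finset.add_sum_erase _ _ (Finset.mem_univ w)] at h1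
  have h2 : ∑ r ∈ Finset.univ.erase w, F.c r * (-t) ≤
      ∑ r ∈ Finset.univ.erase w, F.c r * ⟪F.e r, θ⟫ :=
    Finset.sum_le_sum fun r hr => mul_le_mul_of_nonneg_left (h r (Finset.ne_of_mem_erase hr))
      (F.c_pos r).le
  rw [← Finset.sum_mul] at h2
  have h3 : ∑ r ∈ Finset.univ.erase w, F.c r ≤ Sc :=
    Finset.sum_le_sum_of_subset_of_nonneg (Finset.erase_subset _ _) fun r _ _ => (F.c_pos r).le
  have h4 : F.c w * ⟪F.e w, θ⟫ ≤ Sc * t := by nlinarith
  have h5 : 0 < F.c w := F.c_pos w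
  have h6 : ⟪F.e w, θ⟫ ≤ Sc * t / F.c w := by rw [le_div_iff₀ h5]; linarith
  refine h6.trans ?_
  rw [div_mul_eq_mul_div]
  exact div_le_div_of_nonneg_left (by positivity) (F.c_pos w0) (hw0 w (Finset.mem_univ _))

include F in
theorem finiteDimensional : FiniteDimensional ℝ E := by
  refine ⟨⟨(Set.finite_range F.e).toFinset, ?_⟩⟩
  rw [Set.Finite.coe_toFinset, F.span]

theorem exists_norm_bound : ∃ B : ℝ, 0 ≤ B ∧ ∀ (θ : E) (t : ℝ), 0 ≤ t →
    (∀ r, |⟪F.e r, θ⟫| ≤ t) → ‖θ‖ ≤ B * t := by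
  classical
  have := F.finiteDimensional
  let T : E →ₗ[ℝ] (R → ℝ) :=
    { toFun := fun v r => ⟪F.e r, v⟫
      map_add' := fun x y => by ext r; simp [inner_add_right]
      map_smul' := fun a x => by ext r; simp [inner_smul_right] }
  have hT : LinearMap.ker T = ⊥ := by
    rw [LinearMap.ker_eq_bot']
    intro v hv
    have h1 : ∀ x ∈ Submodule.span ℝ (Set.range F.e), ⟪x, v⟫ = 0 := by
      intro x hx
      induction hx using Submodule.span_induction with
      | mem x hx => obtain ⟨r, rfl⟩ := hx; exact congrFun hv r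
      | zero => exact inner_zero_left _
      | add x y _ _ hx hy => rw [inner_add_left, hx, hy, add_zero]
      | smul a x _ hx => rw [real_inner_smul_left, hx, mul_zero]
    have h2 := h1 v (by rw [F.span]; trivial)
    exact inner_self_eq_zero.1 h2
  obtain ⟨K, _, hK⟩ := T.exists_antilipschitzWith hT
  refine ⟨K, K.coe_nonneg, fun θ t ht h => ?_⟩
  have h1 := hK.le_mul_dist θ 0
  rw [dist_zero_right, map_zero, dist_zero_right] at h1
  refine h1.trans (mul_le_mul_of_nonneg_left ?_ K.coe_nonneg)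
  exact (pi_norm_le_iff_of_nonneg ht).2 h

theorem exists_norm_bound' : ∃ B : ℝ, 0 ≤ B ∧ ∀ (θ : E) (t : ℝ), 0 ≤ t →
    (∀ r, ⟪F.e r, θ⟫ ≤ t) → ‖θ‖ ≤ B * t := by
  obtain ⟨B1, hB1, h1⟩ := F.exists_sum_bound
  obtain ⟨B2, hB2, h2⟩ := F.exists_norm_bound
  refine ⟨B2 * B1, by positivity, fun θ t ht h => ?_⟩
  rw [mul_assoc]
  refine h2 θ (B1 * t) (by positivity) fun r => abs_le.2 ⟨?_, ?_⟩
  · have := h1 r (-θ) t ht (fun r' _ => by rw [inner_neg_right]; linarith [h r'])
    rw [inner_neg_right] at this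
    linarith
  · have := h r
    nlinarith

/-- the isometries permuting the directions -/
def LL : Set (E ≃ₗᵢ[ℝ] E) := {L | ∀ r, L (F.e r) ∈ Set.range F.e}




end Frame


end Crest.Agent.R182.El
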