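/-
R182, module ERGCOC (helper278): cocycles over extreme invariant means have constant drift.
Elementary (no Hilbert space completion, no ergodic theorem).
-/
import Mathlib

set_option autoImplicit false
set_option linter.unusedSectionVars false

namespace Crest.Agent.R182.Erg

open Filter Topology

variable {G X : Type*} [Group G]

/-- a shift-invariant algebra of bounded functions on a right `G`-space -/
structure Alg (ρ : X → G → X) (𝓐 : Subalgebra ℝ (X → ℝ)) : Prop where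
  one : ∀ x, ρ x 1 = x
  mul : ∀ x g h, ρ x (g * h) = ρ (ρ x g) h
  bdd : ∀ φ ∈ 𝓐, ∃ C, ∀ x, |φ x| ≤ C
  shift : ∀ g, ∀ φ ∈ 𝓐, (fun x => φ (ρ x g)) ∈ 𝓐

/-- positive invariant functional on `𝓐` -/
structure PInv (ρ : X → G → X) (𝓐 : Subalgebra ℝ (X → ℝ)) (m : (X → ℝ) → ℝ) : Prop where
  add : ∀ φ ∈ 𝓐, ∀ χ ∈ 𝓐, m (φ + χ) = m φ + m χ
  smul : ∀ c : ℝ, ∀ φ ∈ 𝓐, m (c • φ) = c * m φ
  nonneg : ∀ φ ∈ 𝓐, (∀ x, 0 ≤ φ x) → 0 ≤ m φ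
  inv : ∀ g, ∀ φ ∈ 𝓐, m (fun x => φ (ρ x g)) = m φ

/-- invariant mean on `𝓐` -/
structure IMean (ρ : X → G → X) (𝓐 : Subalgebra ℝ (X → ℝ)) (m : (X → ℝ) → ℝ) : Prop extends
    PInv ρ 𝓐 m where
  one : m 1 = 1

/-- extremality (ergodicity) of an invariant mean. -/
def Ext (ρ : X → G → X) (𝓐 : Subalgebra ℝ (X → ℝ)) (m : (X → ℝ) → ℝ) : Prop :=
  ∀ m' : (X → ℝ) → ℝ, PInv ρ 𝓐 m' → (∀ φ ∈ 𝓐, (∀ x, 0 ≤ φ x) → m' φ ≤ m φ) →
    ∃ c : ℝ, ∀ φ ∈ 𝓐, m' φ = c * m φ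

section Basic

variable {ρ : X → G → X} {𝓐 : Subalgebra ℝ (X → ℝ)} {m : (X → ℝ) → ℝ}

theorem const_mem (𝓐 : Subalgebra ℝ (X → ℝ)) (c : ℝ) : (fun _ : X => c) ∈ 𝓐 :=
  𝓐.algebraMap_mem c

theorem PInv.neg (h : PInv ρ 𝓐 m) {φ : X → ℝ} (hφ : φ ∈ 𝓐) : m (-φ) = - m φ := by
  have := h.smul (-1) φ hφ
  rwa [neg_one_smul, neg_one_mul] at this

theorem PInv.sub (h : PInv ρ 𝓐 m) {φ χ : X → ℝ} (hφ : φ ∈ 𝓐) (hχ : χ ∈ 𝓐) :
    m (φ - χ) = m φ - m χ := by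
  rw [sub_eq_add_neg, h.add φ hφ (-χ) (neg_mem hχ), h.neg hχ, sub_eq_add_neg]

theorem PInv.mono (h : PInv ρ 𝓐 m) {φ χ : X → ℝ} (hφ : φ ∈ 𝓐) (hχ : χ ∈ 𝓐)
    (hle : ∀ x, φ x ≤ χ x) : m φ ≤ m χ := by
  have := h.nonneg (χ - φ) (sub_mem hχ hφ) (fun x => sub_nonneg.2 (hle x))
  rw [h.sub hχ hφ] at this
  linarith

theorem IMean.const (h : IMean ρ 𝓐 m) (c : ℝ) : m (fun _ => c) = c := by
  have h1 := h.smul c 1 (one_mem 𝓐)
  rw [h.one, mul_one] at h1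
  have h2 : (fun _ : X => c) = c • (1 : X → ℝ) := by ext x; simp
  rw [h2, h1]

theorem PInv.sum (h : PInv ρ 𝓐 m) {ι : Type*} (s : Finset ι) (φ : ι → X → ℝ)
    (hφ : ∀ i ∈ s, φ i ∈ 𝓐) : m (∑ i ∈ s, φ i) = ∑ i ∈ s, m (φ i) := by
  classical
  induction s using Finset.induction_on with
  | empty =>
    have := h.smul 0 0 (zero_mem 𝓐)
    simpa using this
  | insert a s ha ih =>
    rw [Finset.sum_insert ha, Finset.sum_insert ha, h.add _ (hφ a (Finset.mem_insert_self _ _)) _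
      (sum_mem fun i hi => hφ i (Finset.mem_insert_of_mem hi)),
      ih fun i hi => hφ i (Finset.mem_insert_of_mem hi)]

/-- Cauchy–Schwarz -/
theorem PInv.cs (h : PInv ρ 𝓐 m) {φ χ : X → ℝ} (hφ : φ ∈ 𝓐) (hχ : χ ∈ 𝓐) :
    (m (φ * χ)) ^ 2 ≤ m (φ * φ) * m (χ * χ) := by
  have key : ∀ t : ℝ, 0 ≤ m (χ * χ) * (t * t) + (2 * m (φ * χ)) * t + m (φ * φ) := by
    intro t
    have h1 := h.nonneg ((φ + t • χ) * (φ + t • χ))
      (mul_mem (add_mem hφ (𝓐.smul_mem hχ t)) (add_mem hφ (𝓐.smul_mem hχ t)))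
      (fun x => mul_self_nonneg _)
    have h2 : (φ + t • χ) * (φ + t • χ) = φ * φ + ((2 * t) • (φ * χ) + (t * t) • (χ * χ)) := by
      ext x
      simp only [Pi.mul_apply, Pi.add_apply, Pi.smul_apply, smul_eq_mul]
      ring
    rw [h2, h.add _ (mul_mem hφ hφ) _ (add_mem (𝓐.smul_mem (mul_mem hφ hχ) _)
      (𝓐.smul_mem (mul_mem hχ hχ) _)), h.add _ (𝓐.smul_mem (mul_mem hφ hχ) _) _
      (𝓐.smul_mem (mul_mem hχ hχ) _), h.smul _ _ (mul_mem hφ hχ), h.smul _ _ (mul_mem hχ hχ)]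
      at h1
    linarith
  have h3 := discrim_le_zero key
  rw [discrim] at h3
  linarith

/-- the `L²` seminorm -/
noncomputable def nrm (m : (X → ℝ) → ℝ) (φ : X → ℝ) : ℝ := Real.sqrt (m (φ * φ))

theorem PInv.sq_nonneg (h : PInv ρ 𝓐 m) {φ : X → ℝ} (hφ : φ ∈ 𝓐) : 0 ≤ m (φ * φ) :=
  h.nonneg _ (mul_mem hφ hφ) fun _ => mul_self_nonneg _

theorem PInv.nrm_sq (h : PInv ρ 𝓐 m) {φ : X → ℝ} (hφ : φ ∈ 𝓐) : nrm m φ ^ 2 = m (φ * φ) :=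
  Real.sq_sqrt (h.sq_nonneg hφ)

theorem PInv.nrm_nonneg (m : (X → ℝ) → ℝ) (φ : X → ℝ) : 0 ≤ nrm m φ := Real.sqrt_nonneg _

theorem PInv.abs_le (h : PInv ρ 𝓐 m) {φ χ : X → ℝ} (hφ : φ ∈ 𝓐) (hχ : χ ∈ 𝓐) :
    |m (φ * χ)| ≤ nrm m φ * nrm m χ := by
  refine abs_le_of_sq_le_sq ?_ (mul_nonneg (PInv.nrm_nonneg _ _) (PInv.nrm_nonneg _ _))
  rw [mul_pow, h.nrm_sq hφ, h.nrm_sq hχ]
  exact h.cs hφ hχ

theorem PInv.nrm_add (h : PInv ρ 𝓐 m) {φ χ : X → ℝ} (hφ : φ ∈ 𝓐) (hχ : χ ∈ 𝓐) :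
    nrm m (φ + χ) ≤ nrm m φ + nrm m χ := by
  refine le_of_sq_le_sq ?_ (add_nonneg (PInv.nrm_nonneg _ _) (PInv.nrm_nonneg _ _))
  rw [h.nrm_sq (add_mem hφ hχ)]
  have h2 : (φ + χ) * (φ + χ) = φ * φ + ((2 : ℝ) • (φ * χ) + χ * χ) := by
    ext x
    simp only [Pi.mul_apply, Pi.add_apply, Pi.smul_apply, smul_eq_mul]
    ring
  rw [h2, h.add _ (mul_mem hφ hφ) _ (add_mem (𝓐.smul_mem (mul_mem hφ hχ) _) (mul_mem hχ hχ)),
    h.add _ (𝓐.smul_mem (mul_mem hφ hχ) _) _ (mul_mem hχ hχ), h.smul _ _ (mul_mem hφ hχ),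
    add_sq, h.nrm_sq hφ, h.nrm_sq hχ]
  have h3 := (le_abs_self _).trans (h.abs_le hφ hχ)
  linarith

theorem PInv.nrm_smul (h : PInv ρ 𝓐 m) {φ : X → ℝ} (hφ : φ ∈ 𝓐) (c : ℝ) :
    nrm m (c • φ) = |c| * nrm m φ := by
  unfold nrm
  have h1 : (c • φ) * (c • φ) = (c * c) • (φ * φ) := by
    ext x
    simp only [Pi.mul_apply, Pi.smul_apply, smul_eq_mul]
    ring
  rw [h1, h.smul _ _ (mul_mem hφ hφ), Real.sqrt_mul (mul_self_nonneg c), Real.sqrt_mul_self_eq_abs]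

theorem PInv.nrm_shift (h : PInv ρ 𝓐 m) {φ : X → ℝ} (hφ : φ ∈ 𝓐) (g : G) :
    nrm m (fun x => φ (ρ x g)) = nrm m φ := by
  unfold nrm
  have h1 : (fun x => φ (ρ x g)) * (fun x => φ (ρ x g)) = fun x => (φ * φ) (ρ x g) := rfl
  rw [h1, h.inv g _ (mul_mem hφ hφ)]


end Basic

/-! ### Cocycles -/

/-- a real cocycle with values in `𝓐`. -/
structure Coc (ρ : X → G → X) (𝓐 : Subalgebra ℝ (X → ℝ)) (A : G → X → ℝ) : Prop where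
  mem : ∀ g, A g ∈ 𝓐
  coc : ∀ g h x, A (g * h) x = A g x + A h (ρ x g)


section Cocycle

variable {ρ : X → G → X} {𝓐 : Subalgebra ℝ (X → ℝ)} {m : (X → ℝ) → ℝ} {A : G → X → ℝ}

theorem Coc.one (hA : Coc ρ 𝓐 A) (ha : Alg ρ 𝓐) (x : X) : A 1 x = 0 := by
  have := hA.coc 1 1 x
  rw [one_mul, ha.one] at this
  linarith

theorem Coc.inv (hA : Coc ρ 𝓐 A) (ha : Alg ρ 𝓐) (g : G) (x : X) :
    A g⁻¹ x = - A g (ρ x g⁻¹) := by
  have := hA.coc g⁻¹ g x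
  rw [inv_mul_cancel, hA.one ha] at this
  linarith







/-- asymptotic invariance of the increments. -/
def AInv (ρ : X → G → X) (m : (X → ℝ) → ℝ) (A : G → X → ℝ) (z g : G) : Prop :=
  Tendsto (fun n : ℕ => nrm m ((fun x => A (z ^ n) (ρ x g)) - A (z ^ n)) / n) atTop (𝓝 0)



theorem AInv.mul (hA : Coc ρ 𝓐 A) (ha : Alg ρ 𝓐) (hm : PInv ρ 𝓐 m) {z g h : G}
    (hg : AInv ρ m A z g) (hh : AInv ρ m A z h) : AInv ρ m A z (g * h) := by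
  have h3 := hg.add hh
  rw [add_zero] at h3
  refine squeeze_zero (fun n => div_nonneg (PInv.nrm_nonneg _ _) (Nat.cast_nonneg _)) ?_ h3
  intro n
  have hs := hA.mem (z ^ n)
  have e1 : (fun x => A (z ^ n) (ρ x (g * h))) - A (z ^ n) =
      ((fun x => A (z ^ n) (ρ x g)) - A (z ^ n)) +
      (fun x => ((fun y => A (z ^ n) (ρ y h)) - A (z ^ n)) (ρ x g)) := by
    ext x
    simp only [Pi.add_apply, Pi.sub_apply, ha.mul]
    ring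
  have k1 : nrm m ((fun x => A (z ^ n) (ρ x (g * h))) - A (z ^ n)) ≤
      nrm m ((fun x => A (z ^ n) (ρ x g)) - A (z ^ n)) +
      nrm m ((fun x => A (z ^ n) (ρ x h)) - A (z ^ n)) := by
    rw [e1]
    refine (hm.nrm_add (sub_mem (ha.shift _ _ hs) hs)
      (ha.shift _ _ (sub_mem (ha.shift _ _ hs) hs))).trans ?_
    rw [hm.nrm_shift (sub_mem (ha.shift _ _ hs) hs)]
  calc _ ≤ _ := div_le_div_of_nonneg_right k1 (Nat.cast_nonneg n)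
    _ = _ := by ring

theorem AInv.inv (hA : Coc ρ 𝓐 A) (ha : Alg ρ 𝓐) (hm : PInv ρ 𝓐 m) {z g : G}
    (hg : AInv ρ m A z g) : AInv ρ m A z g⁻¹ := by
  refine hg.congr fun n => ?_
  have hs := hA.mem (z ^ n)
  have e1 : (fun x => A (z ^ n) (ρ x g⁻¹)) - A (z ^ n) =
      (-1 : ℝ) • (fun x => ((fun y => A (z ^ n) (ρ y g)) - A (z ^ n)) (ρ x g⁻¹)) := by
    ext x
    simp only [Pi.sub_apply, Pi.smul_apply, smul_eq_mul, ← ha.mul, inv_mul_cancel, ha.one]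
    ring
  rw [e1, hm.nrm_smul (ha.shift _ _ (sub_mem (ha.shift _ _ hs) hs)),
    hm.nrm_shift (sub_mem (ha.shift _ _ hs) hs)]
  simp


end Cocycle

/-! ### Weak and strong convergence for extreme means -/

section Weak

variable {ρ : X → G → X} {𝓐 : Subalgebra ℝ (X → ℝ)} {m : (X → ℝ) → ℝ} {A : G → X → ℝ}












end Weak

end Crest.Agent.R182.Erg
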