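/-
R182, module ERGUNIF (helper278): uniformity over all invariant means (compactness, Krein–Milman,
Dini) and passage to almost invariant functionals (Følner averages).
-/
import Mathlib
import Crest.Agent.R182.ErgCoc

set_option autoImplicit false
set_option linter.unusedSectionVars false

namespace Crest.Agent.R182.Erg

open Filter Topology

variable {G X : Type*} [Group G]

/-- the compact convex set of invariant means, as functions on `𝓐`. -/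
def MSet (ρ : X → G → X) (𝓐 : Subalgebra ℝ (X → ℝ)) : Set (𝓐 → ℝ) :=
  {μ | (∀ φ χ : 𝓐, μ (φ + χ) = μ φ + μ χ) ∧ (∀ (c : ℝ) (φ : 𝓐), μ (c • φ) = c * μ φ) ∧
    (∀ φ : 𝓐, (∀ x, 0 ≤ (φ : X → ℝ) x) → 0 ≤ μ φ) ∧
    (∀ (g : G) (φ χ : 𝓐), (∀ x, (χ : X → ℝ) x = (φ : X → ℝ) (ρ x g)) → μ χ = μ φ) ∧ μ 1 = 1}

open Classical in
/-- extension by zero. -/
noncomputable def ext' {𝓐 : Subalgebra ℝ (X → ℝ)} (μ : 𝓐 → ℝ) : (X → ℝ) → ℝ :=
  fun φ => if h : φ ∈ 𝓐 then μ ⟨φ, h⟩ else 0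

theorem ext'_of_mem {𝓐 : Subalgebra ℝ (X → ℝ)} (μ : 𝓐 → ℝ) {φ : X → ℝ} (h : φ ∈ 𝓐) :
    ext' μ φ = μ ⟨φ, h⟩ := by
  unfold ext'; rw [dif_pos h]

section

variable {ρ : X → G → X} {𝓐 : Subalgebra ℝ (X → ℝ)}

theorem IMean.of_mem (ha : Alg ρ 𝓐) {μ : 𝓐 → ℝ} (hμ : μ ∈ MSet ρ 𝓐) : IMean ρ 𝓐 (ext' μ) := by
  obtain ⟨h1, h2, h3, h4, h5⟩ := hμ
  refine ⟨⟨?_, ?_, ?_, ?_⟩, ?_⟩
  · intro φ hφ χ hχ
    rw [ext'_of_mem μ hφ, ext'_of_mem μ hχ, ext'_of_mem μ (add_mem hφ hχ)]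
    exact h1 ⟨φ, hφ⟩ ⟨χ, hχ⟩
  · intro c φ hφ
    rw [ext'_of_mem μ hφ, ext'_of_mem μ (𝓐.smul_mem hφ c)]
    exact h2 c ⟨φ, hφ⟩
  · intro φ hφ h0
    rw [ext'_of_mem μ hφ]
    exact h3 ⟨φ, hφ⟩ h0
  · intro g φ hφ
    rw [ext'_of_mem μ hφ, ext'_of_mem μ (ha.shift g φ hφ)]
    exact h4 g ⟨φ, hφ⟩ ⟨_, ha.shift g φ hφ⟩ fun x => rfl
  · rw [ext'_of_mem μ (one_mem 𝓐)]
    exact h5

theorem IMean.restrict_mem {m : (X → ℝ) → ℝ} (hm : IMean ρ 𝓐 m) :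
    (fun φ : 𝓐 => m φ) ∈ MSet ρ 𝓐 := by
  refine ⟨fun φ χ => hm.add _ φ.2 _ χ.2, fun c φ => hm.smul c _ φ.2, fun φ h => hm.nonneg _ φ.2 h,
    fun g φ χ h => ?_, hm.one⟩
  have h1 : (χ : X → ℝ) = fun x => (φ : X → ℝ) (ρ x g) := funext h
  show m χ = m φ
  rw [h1, hm.inv g _ φ.2]

theorem isClosed_MSet : IsClosed (MSet ρ 𝓐) := by
  have h1 : MSet ρ 𝓐 = (⋂ (φ : 𝓐) (χ : 𝓐), {μ | μ (φ + χ) = μ φ + μ χ}) ∩
      ((⋂ (c : ℝ) (φ : 𝓐), {μ | μ (c • φ) = c * μ φ}) ∩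
      ((⋂ (φ : 𝓐) (_ : ∀ x, 0 ≤ (φ : X → ℝ) x), {μ | 0 ≤ μ φ}) ∩
      ((⋂ (g : G) (φ : 𝓐) (χ : 𝓐) (_ : ∀ x, (χ : X → ℝ) x = (φ : X → ℝ) (ρ x g)),
        {μ | μ χ = μ φ}) ∩ {μ | μ 1 = 1}))) := by
    ext μ
    simp only [MSet, Set.mem_ofPred_eq, Set.mem_inter_iff, Set.mem_iInter]
  rw [h1]
  refine IsClosed.inter ?_ (IsClosed.inter ?_ (IsClosed.inter ?_ (IsClosed.inter ?_ ?_)))
  · exact isClosed_iInter fun φ => isClosed_iInter fun χ =>
      isClosed_eq (continuous_apply _) (by fun_prop)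
  · exact isClosed_iInter fun c => isClosed_iInter fun φ =>
      isClosed_eq (continuous_apply _) (continuous_const.mul (continuous_apply _))
  · exact isClosed_iInter fun φ => isClosed_iInter fun _ =>
      isClosed_le continuous_const (continuous_apply _)
  · exact isClosed_iInter fun g => isClosed_iInter fun φ => isClosed_iInter fun χ =>
      isClosed_iInter fun _ => isClosed_eq (continuous_apply _) (continuous_apply _)
  · exact isClosed_eq (continuous_apply _) continuous_const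

theorem isCompact_MSet (ha : Alg ρ 𝓐) : IsCompact (MSet ρ 𝓐) := by
  choose C hC using ha.bdd
  refine (isCompact_univ_pi (s := fun φ : 𝓐 => Set.Icc (-(C φ.1 φ.2)) (C φ.1 φ.2))
    fun φ => isCompact_Icc).of_isClosed_subset isClosed_MSet ?_
  intro μ hμ φ _
  have hm := IMean.of_mem ha hμ
  have h2 : μ φ = ext' μ φ := by rw [ext'_of_mem μ φ.2]
  rw [h2]
  constructor
  · rw [← hm.const (-(C φ.1 φ.2))]
    exact hm.toPInv.mono (const_mem 𝓐 _) φ.2 fun x => (abs_le.1 (hC φ.1 φ.2 x)).1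
  · rw [← hm.const (C φ.1 φ.2)]
    exact hm.toPInv.mono φ.2 (const_mem 𝓐 _) fun x => (abs_le.1 (hC φ.1 φ.2 x)).2

/-- Extreme points of the set of invariant means are ergodic in the sense of `Ext`. -/
theorem Ext.of_extreme (ha : Alg ρ 𝓐) {μ : 𝓐 → ℝ} (hμ : μ ∈ (MSet ρ 𝓐).extremePoints ℝ) :
    Ext ρ 𝓐 (ext' μ) := by
  rw [mem_extremePoints_iff_left] at hμ
  obtain ⟨hμM, hμE⟩ := hμ
  have hm := IMean.of_mem ha hμM
  intro m' hm' hle
  set t : ℝ := m' 1 with ht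
  have ht0 : 0 ≤ t := hm'.nonneg 1 (one_mem 𝓐) fun _ => zero_le_one
  have ht1 : t ≤ 1 := by
    rw [← hm.one]
    exact hle 1 (one_mem 𝓐) fun _ => zero_le_one
  -- a positive functional with total mass `0` vanishes
  have hzero : ∀ m₀ : (X → ℝ) → ℝ, PInv ρ 𝓐 m₀ → m₀ 1 = 0 → ∀ φ ∈ 𝓐, m₀ φ = 0 := by
    intro m₀ h0 h1 φ hφ
    obtain ⟨C, hC⟩ := ha.bdd φ hφ
    have hc : ∀ c : ℝ, m₀ (fun _ => c) = 0 := by
      intro c
      have h2 : (fun _ : X => c) = c • (1 : X → ℝ) := by ext x; simp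
      rw [h2, h0.smul c 1 (one_mem 𝓐), h1, mul_zero]
    apply le_antisymm
    · rw [← hc C]
      exact h0.mono hφ (const_mem 𝓐 _) fun x => (abs_le.1 (hC x)).2
    · rw [← hc (-C)]
      exact h0.mono (const_mem 𝓐 _) hφ fun x => (abs_le.1 (hC x)).1
  rcases eq_or_lt_of_le ht0 with h0 | h0
  · exact ⟨0, fun φ hφ => by rw [hzero m' hm' h0.symm φ hφ, zero_mul]⟩
  rcases eq_or_lt_of_le ht1 with h1 | h1
  · refine ⟨1, fun φ hφ => ?_⟩
    have hd : PInv ρ 𝓐 (fun φ => ext' μ φ - m' φ) := by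
      refine ⟨?_, ?_, ?_, ?_⟩
      · intro φ hφ χ hχ
        show ext' μ (φ + χ) - m' (φ + χ) = _
        rw [hm.add φ hφ χ hχ, hm'.add φ hφ χ hχ]; ring
      · intro c φ hφ
        show ext' μ (c • φ) - m' (c • φ) = _
        rw [hm.smul c φ hφ, hm'.smul c φ hφ]; ring
      · intro φ hφ h
        exact sub_nonneg.2 (hle φ hφ h)
      · intro g φ hφ
        show ext' μ (fun x => φ (ρ x g)) - m' (fun x => φ (ρ x g)) = _
        rw [hm.inv g φ hφ, hm'.inv g φ hφ]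
    have h2 := hzero _ hd (by show ext' μ 1 - m' 1 = 0; rw [hm.one, ← ht, h1, sub_self]) φ hφ
    have h3 : ext' μ φ - m' φ = 0 := h2
    linarith
  · -- the generic case
    have h1t : 0 < 1 - t := by linarith
    let μ₁ : 𝓐 → ℝ := fun φ => m' φ / t
    let μ₂ : 𝓐 → ℝ := fun φ => (ext' μ φ - m' φ) / (1 - t)
    have hμ₁ : μ₁ ∈ MSet ρ 𝓐 := by
      refine ⟨?_, ?_, ?_, ?_, ?_⟩
      · intro φ χ
        show m' (φ + χ) / t = m' φ / t + m' χ / t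
        rw [hm'.add _ φ.2 _ χ.2]; ring
      · intro c φ
        show m' (c • (φ : X → ℝ)) / t = c * (m' φ / t)
        rw [hm'.smul c _ φ.2]; ring
      · intro φ h
        exact div_nonneg (hm'.nonneg _ φ.2 h) ht0
      · intro g φ χ h
        have e : (χ : X → ℝ) = fun x => (φ : X → ℝ) (ρ x g) := funext h
        show m' χ / t = m' φ / t
        rw [e, hm'.inv g _ φ.2]
      · show m' 1 / t = 1
        rw [← ht, div_self h0.ne']
    have hμ₂ : μ₂ ∈ MSet ρ 𝓐 := by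
      refine ⟨?_, ?_, ?_, ?_, ?_⟩
      · intro φ χ
        show (ext' μ (φ + χ) - m' (φ + χ)) / (1 - t) = (ext' μ φ - m' φ) / (1 - t) +
          (ext' μ χ - m' χ) / (1 - t)
        rw [hm'.add _ φ.2 _ χ.2, hm.add _ φ.2 _ χ.2]; ring
      · intro c φ
        show (ext' μ (c • (φ : X → ℝ)) - m' (c • (φ : X → ℝ))) / (1 - t) =
          c * ((ext' μ φ - m' φ) / (1 - t))
        rw [hm'.smul c _ φ.2, hm.smul c _ φ.2]; ring
      · intro φ h
        exact div_nonneg (sub_nonneg.2 (hle _ φ.2 h)) h1t.le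
      · intro g φ χ h
        have e : (χ : X → ℝ) = fun x => (φ : X → ℝ) (ρ x g) := funext h
        show (ext' μ χ - m' χ) / (1 - t) = (ext' μ φ - m' φ) / (1 - t)
        rw [e, hm'.inv g _ φ.2, hm.inv g _ φ.2]
      · show (ext' μ 1 - m' 1) / (1 - t) = 1
        rw [hm.one, ← ht, div_self h1t.ne']
    have hseg : μ ∈ openSegment ℝ μ₁ μ₂ := by
      refine ⟨t, 1 - t, h0, h1t, by ring, ?_⟩
      ext φ
      show t * (m' φ / t) + (1 - t) * ((ext' μ φ - m' φ) / (1 - t)) = μ φ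
      rw [mul_div_cancel₀ _ h0.ne', mul_div_cancel₀ _ h1t.ne', ext'_of_mem μ φ.2]
      ring
    have h2 := hμE μ₁ hμ₁ μ₂ hμ₂ hseg
    refine ⟨t, fun φ hφ => ?_⟩
    have h3 := congrFun h2 ⟨φ, hφ⟩
    have h4 : m' φ / t = μ ⟨φ, hφ⟩ := h3
    rw [ext'_of_mem μ hφ, ← h4, mul_div_cancel₀ _ h0.ne']


end

section Folner

variable {ρ : X → G → X} {𝓐 : Subalgebra ℝ (X → ℝ)}

/-- normalised positive linear functional on `𝓐`. -/
structure PMean (𝓐 : Subalgebra ℝ (X → ℝ)) (m : (X → ℝ) → ℝ) : Prop where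
  add : ∀ φ ∈ 𝓐, ∀ χ ∈ 𝓐, m (φ + χ) = m φ + m χ
  smul : ∀ c : ℝ, ∀ φ ∈ 𝓐, m (c • φ) = c * m φ
  nonneg : ∀ φ ∈ 𝓐, (∀ x, 0 ≤ φ x) → 0 ≤ m φ
  one : m 1 = 1

theorem PMean.abs_le {m : (X → ℝ) → ℝ} (hm : PMean 𝓐 m) {φ : X → ℝ} (hφ : φ ∈ 𝓐) {C : ℝ}
    (hC : ∀ x, |φ x| ≤ C) : |m φ| ≤ C := by
  have h1 : ∀ c : ℝ, m (c • (1 : X → ℝ)) = c := by
    intro c
    rw [hm.smul c 1 (one_mem 𝓐), hm.one, mul_one]
  have h2 : 0 ≤ m (C • (1 : X → ℝ) + (-1 : ℝ) • φ) :=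
    hm.nonneg _ (add_mem (𝓐.smul_mem (one_mem 𝓐) _) (𝓐.smul_mem hφ _)) fun x => by
      have := (_root_.abs_le.1 (hC x)).2
      simp only [Pi.add_apply, Pi.smul_apply, Pi.one_apply, smul_eq_mul, mul_one]
      linarith
  have h3 : 0 ≤ m (C • (1 : X → ℝ) + φ) :=
    hm.nonneg _ (add_mem (𝓐.smul_mem (one_mem 𝓐) _) hφ) fun x => by
      have := (_root_.abs_le.1 (hC x)).1
      simp only [Pi.add_apply, Pi.smul_apply, Pi.one_apply, smul_eq_mul, mul_one]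
      linarith
  rw [hm.add _ (𝓐.smul_mem (one_mem 𝓐) _) _ (𝓐.smul_mem hφ _), h1, hm.smul _ _ hφ] at h2
  rw [hm.add _ (𝓐.smul_mem (one_mem 𝓐) _) _ hφ, h1] at h3
  rw [_root_.abs_le]
  constructor <;> linarith

/-- **Transfer to almost invariant functionals**: if `f` has small mean for all invariant means then
its mean is small for all sufficiently invariant functionals. -/
theorem eventually_le (ha : Alg ρ 𝓐) {ι : Type*} (l : Filter ι) (μ : ι → (X → ℝ) → ℝ)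
    (hμ : ∀ i, PMean 𝓐 (μ i))
    (hinv : ∀ g, ∀ φ ∈ 𝓐, Tendsto (fun i => μ i (fun x => φ (ρ x g)) - μ i φ) l (𝓝 0))
    {f : X → ℝ} (hf : f ∈ 𝓐) {ε ε' : ℝ} (hεε : ε < ε') (h : ∀ m, IMean ρ 𝓐 m → m f ≤ ε) :
    ∀ᶠ i in l, μ i f ≤ ε' := by
  by_contra hcon
  have hfreq : ∃ᶠ i in l, ε' < μ i f := by
    rw [Filter.Frequently]
    intro h'
    exact hcon (h'.mono fun i hi => not_lt.1 hi)
  -- an ultrafilter
  have hne : (l ⊓ 𝓟 {i | ε' < μ i f}).NeBot := by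
    rw [← Filter.frequently_mem_iff_neBot]
    exact hfreq
  let U : Ultrafilter ι := @Ultrafilter.of ι (l ⊓ 𝓟 {i | ε' < μ i f}) hne
  have hU : (U : Filter ι) ≤ l ⊓ 𝓟 {i | ε' < μ i f} := @Ultrafilter.of_le ι _ hne
  have hUl : (U : Filter ι) ≤ l := hU.trans inf_le_left
  have hUf : ∀ᶠ i in (U : Filter ι), ε' < μ i f :=
    hU.trans inf_le_right (mem_principal_self _)
  have hlim : ∀ φ ∈ 𝓐, ∃ r, Tendsto (fun i => μ i φ) U (𝓝 r) := by
    intro φ hφ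
    obtain ⟨C, hC⟩ := ha.bdd φ hφ
    obtain ⟨r, -, hr⟩ := (isCompact_Icc (a := -C) (b := C)).ultrafilter_le_nhds
      (U.map fun i => μ i φ) (by
        rw [le_principal_iff]
        exact Filter.mem_map.2 (Filter.Eventually.of_forall fun i =>
          _root_.abs_le.1 ((hμ i).abs_le hφ hC)))
    exact ⟨r, hr⟩
  choose! L hL using hlim
  have hIM : IMean ρ 𝓐 L := by
    refine ⟨⟨?_, ?_, ?_, ?_⟩, ?_⟩
    · intro φ hφ χ hχ
      refine tendsto_nhds_unique (hL _ (add_mem hφ hχ)) ?_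
      exact ((hL _ hφ).add (hL _ hχ)).congr fun i => ((hμ i).add φ hφ χ hχ).symm
    · intro c φ hφ
      refine tendsto_nhds_unique (hL _ (𝓐.smul_mem hφ c)) ?_
      exact ((hL _ hφ).const_mul c).congr fun i => ((hμ i).smul c φ hφ).symm
    · intro φ hφ h0
      exact ge_of_tendsto (hL _ hφ) (Filter.Eventually.of_forall fun i => (hμ i).nonneg φ hφ h0)
    · intro g φ hφ
      have h1 := (hL _ (ha.shift g φ hφ)).sub (hL _ hφ)
      have h2 := tendsto_nhds_unique h1 ((hinv g φ hφ).mono_left hUl)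
      linarith
    · refine tendsto_nhds_unique (hL 1 (one_mem 𝓐)) ?_
      exact tendsto_const_nhds.congr fun i => ((hμ i).one).symm
  have h1 := h L hIM
  have h2 : ε' ≤ L f := ge_of_tendsto (hL f hf) (hUf.mono fun i hi => hi.le)
  linarith

end Folner

section Drift

variable {ρ : X → G → X} {𝓐 : Subalgebra ℝ (X → ℝ)} {k : ℕ}





end Drift

end Crest.Agent.R182.Erg
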