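import Mathlib
import Crest.Agent.R182.ErgUnif
import Crest.Agent.R189.Mean
import Crest.Agent.R182.MicDefs
import Crest.Agent.R182.FinRed

-- ▼ part R182/ErgDini
section

set_option autoImplicit false
set_option linter.unusedSectionVars false

namespace Crest.Agent.R182.Erg

open Filter Topology

variable {G X : Type*} [Group G] {ρ : X → G → X} {𝓐 : Subalgebra ℝ (X → ℝ)}

/-- **Dini + Krein–Milman for finite maxima.** -/
theorem dini_max (ha : Alg ρ 𝓐) {ι : Type*} (J : ℕ → Finset ι) (f : ℕ → ι → X → ℝ)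
    (hf : ∀ n i, f n i ∈ 𝓐)
    (hdec : ∀ m, IMean ρ 𝓐 m → ∀ n, ∀ i ∈ J (n + 1), ∃ j ∈ J n, m (f (n + 1) i) ≤ m (f n j))
    (hext : ∀ m, IMean ρ 𝓐 m → Ext ρ 𝓐 m → ∀ ε > 0, ∃ n, ∀ i ∈ J n, m (f n i) ≤ ε) :
    ∀ ε > 0, ∃ N, ∀ n ≥ N, ∀ m, IMean ρ 𝓐 m → ∀ i ∈ J n, m (f n i) ≤ ε := by
  intro ε hε
  by_contra hcon
  push Not at hcon
  let F : ℕ → ι → 𝓐 := fun n i => ⟨f n i, hf n i⟩
  have hcomp := isCompact_MSet (ρ := ρ) ha
  have hdecM1 : ∀ ν ∈ MSet ρ 𝓐, ∀ n, ∀ i ∈ J (n + 1), ∃ j ∈ J n, ν (F (n + 1) i) ≤ ν (F n j) := by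
    intro ν hν n i hi
    obtain ⟨j, hj, h⟩ := hdec _ (IMean.of_mem ha hν) n i hi
    rw [ext'_of_mem ν (hf _ _), ext'_of_mem ν (hf _ _)] at h
    exact ⟨j, hj, h⟩
  have hdecM : ∀ ν ∈ MSet ρ 𝓐, ∀ n d, ∀ i ∈ J (n + d), ∃ j ∈ J n, ν (F (n + d) i) ≤ ν (F n j) := by
    intro ν hν n d
    induction d with
    | zero => exact fun i hi => ⟨i, hi, le_rfl⟩
    | succ d ih =>
      intro i hi
      obtain ⟨j, hj, h⟩ := hdecM1 ν hν (n + d) i hi
      obtain ⟨l, hl, h'⟩ := ih j hj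
      exact ⟨l, hl, h.trans h'⟩
  have hne : (MSet ρ 𝓐).Nonempty := by
    obtain ⟨n, -, m, hm, -⟩ := hcon 0
    exact ⟨_, hm.restrict_mem⟩
  have hJne : ∀ n, (J n).Nonempty := by
    intro n
    obtain ⟨k, hk, m, hm, i, hi, -⟩ := hcon n
    obtain ⟨d, rfl⟩ := Nat.exists_eq_add_of_le hk
    obtain ⟨j, hj, -⟩ := hdecM _ hm.restrict_mem n d i hi
    exact ⟨j, hj⟩
  -- suprema
  have hmax0 : ∀ n i, ∃ μ ∈ MSet ρ 𝓐, ∀ ν ∈ MSet ρ 𝓐, ν (F n i) ≤ μ (F n i) := by
    intro n i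
    obtain ⟨μ, hμ, h⟩ := hcomp.exists_isMaxOn hne (continuous_apply (F n i)).continuousOn
    exact ⟨μ, hμ, fun ν hν => h hν⟩
  choose μ hμ hμmax using hmax0
  have hmax : ∀ n, ∃ i ∈ J n, ∀ i' ∈ J n, μ n i' (F n i') ≤ μ n i (F n i) := fun n =>
    (J n).exists_max_image (fun i => μ n i (F n i)) (hJne n)
  choose e he hemax using hmax
  set s : ℕ → ℝ := fun n => μ n (e n) (F n (e n)) with hs
  have hle : ∀ n, ∀ ν ∈ MSet ρ 𝓐, ∀ i ∈ J n, ν (F n i) ≤ s n := fun n ν hν i hi =>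
    (hμmax n i ν hν).trans (hemax n i hi)
  have hsanti : Antitone s := by
    refine antitone_nat_of_succ_le fun n => ?_
    obtain ⟨j, hj, h⟩ := hdecM1 _ (hμ (n + 1) (e (n + 1))) n (e (n + 1)) (he (n + 1))
    exact h.trans (hle n _ (hμ _ _) j hj)
  have hsε : ∀ n, ε ≤ s n := by
    intro n
    obtain ⟨k, hk, m, hm, i, hi, hlt⟩ := hcon n
    have h1 : m (f k i) ≤ s k := hle k _ hm.restrict_mem i hi
    exact (hlt.le.trans h1).trans (hsanti hk)
  have hbdd : BddBelow (Set.range s) := ⟨ε, by rintro _ ⟨n, rfl⟩; exact hsε n⟩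
  set s₀ : ℝ := ⨅ n, s n with hs₀
  have hs₀ε : ε ≤ s₀ := le_ciInf hsε
  have htend : Tendsto s atTop (𝓝 s₀) := tendsto_atTop_ciInf hsanti hbdd
  -- the face
  let K : ℕ → Set (𝓐 → ℝ) := fun n => MSet ρ 𝓐 ∩ {ν | ∃ i ∈ J n, s₀ ≤ ν (F n i)}
  have hKcl : ∀ n, IsClosed (K n) := by
    intro n
    refine isClosed_MSet.inter ?_
    have h1 : {ν : 𝓐 → ℝ | ∃ i ∈ J n, s₀ ≤ ν (F n i)} = ⋃ i ∈ J n, {ν | s₀ ≤ ν (F n i)} := by
      ext ν; simp
    rw [h1]
    exact isClosed_biUnion_finset fun i _ => isClosed_le continuous_const (continuous_apply _)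
  have hKne : ∀ n, (K n).Nonempty := fun n => ⟨μ n (e n), hμ n _, e n, he n, ciInf_le hbdd n⟩
  have hKdec : ∀ n, K (n + 1) ⊆ K n := by
    rintro n ν ⟨hν1, i, hi, h⟩
    obtain ⟨j, hj, h'⟩ := hdecM1 ν hν1 n i hi
    exact ⟨hν1, j, hj, h.trans h'⟩
  have hfne : (⋂ n, K n).Nonempty :=
    IsCompact.nonempty_iInter_of_sequence_nonempty_isCompact_isClosed K hKdec hKne
      (hcomp.of_isClosed_subset (hKcl 0) Set.inter_subset_left) hKcl
  have hfcomp : IsCompact (⋂ n, K n) :=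
    hcomp.of_isClosed_subset (isClosed_iInter hKcl)
      (Set.iInter_subset_of_subset 0 Set.inter_subset_left)
  have hface : IsExtreme ℝ (MSet ρ 𝓐) (⋂ n, K n) := by
    refine ⟨Set.iInter_subset_of_subset 0 Set.inter_subset_left, ?_⟩
    intro ν₁ hν₁ ν₂ hν₂ ν hν hseg
    obtain ⟨a, b, ha0, hb0, hab, rfl⟩ := hseg
    rw [Set.mem_iInter]
    intro i₀
    refine ⟨hν₁, ?_⟩
    by_contra hlt'
    have hlt : ¬ ∃ i ∈ J i₀, s₀ ≤ ν₁ (F i₀ i) := hlt'
    push Not at hlt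
    obtain ⟨j₀, hj₀, hj₀max⟩ := (J i₀).exists_max_image (fun i => ν₁ (F i₀ i)) (hJne i₀)
    set c : ℝ := ν₁ (F i₀ j₀) with hc
    have hcs : c < s₀ := hlt j₀ hj₀
    have h1 : ∀ n ≥ i₀, s₀ ≤ a * c + b * s n := by
      intro n hn
      obtain ⟨-, i, hi, h2⟩ := Set.mem_iInter.1 hν n
      have h3 : (a • ν₁ + b • ν₂) (F n i) = a * ν₁ (F n i) + b * ν₂ (F n i) := rfl
      rw [h3] at h2
      obtain ⟨d, rfl⟩ := Nat.exists_eq_add_of_le hn
      obtain ⟨j, hj, h4⟩ := hdecM ν₁ hν₁ i₀ d i hi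
      have h5 : ν₁ (F (i₀ + d) i) ≤ c := h4.trans (hj₀max j hj)
      have h6 : ν₂ (F (i₀ + d) i) ≤ s (i₀ + d) := hle _ ν₂ hν₂ i hi
      nlinarith [mul_le_mul_of_nonneg_left h5 ha0.le, mul_le_mul_of_nonneg_left h6 hb0.le]
    have h2 : s₀ ≤ a * c + b * s₀ :=
      ge_of_tendsto ((htend.const_mul b).const_add (a * c)) ((eventually_ge_atTop i₀).mono h1)
    have h3 : a * s₀ ≤ a * c := by
      have : s₀ = a * s₀ + b * s₀ := by rw [← add_mul, hab, one_mul]
      linarith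
    exact absurd (le_of_mul_le_mul_left h3 ha0) (not_le.2 hcs)
  obtain ⟨ν, hν⟩ := hfcomp.extremePoints_nonempty hfne
  have hνM := hface.extremePoints_subset_extremePoints hν
  have hν0 : ν ∈ ⋂ n, K n := extremePoints_subset hν
  obtain ⟨n, hn⟩ := hext _ (IMean.of_mem ha (extremePoints_subset hνM))
    (Ext.of_extreme ha hνM) (ε / 2) (by positivity)
  obtain ⟨-, i, hi, h1⟩ := Set.mem_iInter.1 hν0 n
  have h2 := hn i hi
  rw [ext'_of_mem ν (hf n i)] at h2
  have h3 : ν (F n i) ≤ ε / 2 := h2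
  linarith

/-- **Finitary transfer**: if `f` has small mean for all invariant means then its mean is small for
all positive functionals which are sufficiently invariant under a finite set. -/
theorem exists_finite_inv (ha : Alg ρ 𝓐) {f : X → ℝ} (hf : f ∈ 𝓐) {ε ε' : ℝ} (hεε : ε < ε')
    (h : ∀ m, IMean ρ 𝓐 m → m f ≤ ε) :
    ∃ (T : Finset G) (τ : ℝ), 0 < τ ∧ ∀ μ : (X → ℝ) → ℝ, PMean 𝓐 μ →
      (∀ g ∈ T, ∀ φ ∈ 𝓐, ∀ C : ℝ, (∀ x, |φ x| ≤ C) →
        |μ (fun x => φ (ρ x g)) - μ φ| ≤ τ * C) → μ f ≤ ε' := by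
  classical
  by_contra hcon
  push Not at hcon
  have hτ : ∀ n : ℕ, (0 : ℝ) < 1 / ((n : ℝ) + 1) := fun n => by positivity
  choose μ hμ hinv hgt using fun i : Finset G × ℕ => hcon i.1 (1 / ((i.2 : ℝ) + 1)) (hτ i.2)
  have h1 := eventually_le ha (atTop : Filter (Finset G × ℕ)) μ hμ (fun g φ hφ => by
    obtain ⟨C, hC⟩ := ha.bdd φ hφ
    have hC' : ∀ x, |φ x| ≤ |C| := fun x => (hC x).trans (le_abs_self C)
    rw [Metric.tendsto_nhds]
    intro δ hδ
    obtain ⟨n, hn⟩ := exists_nat_gt ((|C| + 1) / δ)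
    filter_upwards [eventually_ge_atTop (({g} : Finset G), n)] with i hi
    have hg : g ∈ i.1 := hi.1 (Finset.mem_singleton_self g)
    have hni : (n : ℝ) ≤ i.2 := by exact_mod_cast hi.2
    rw [Real.dist_eq, sub_zero]
    refine (hinv i g hg φ hφ |C| hC').trans_lt ?_
    rw [div_lt_iff₀ hδ] at hn
    rw [one_div, inv_mul_lt_iff₀ (by positivity)]
    have hpos : 0 ≤ |C| := abs_nonneg C
    nlinarith) hf hεε h
  obtain ⟨i, hi⟩ := h1.exists
  exact absurd hi (not_le.2 (hgt i))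

/-- a normalised positive functional extends to all bounded functions. -/
theorem exists_ext_mean (hbdd : ∀ φ ∈ 𝓐, ∃ C, ∀ x, |φ x| ≤ C) {m : (X → ℝ) → ℝ}
    (hm : PMean 𝓐 m) :
    ∃ M : (X → ℝ) → ℝ, R189.MeanF.IsMean M ∧ ∀ φ ∈ 𝓐, M φ = m φ := by
  classical
  let B : Submodule ℝ (X → ℝ) :=
    { carrier := {φ | ∃ C : ℝ, ∀ x, |φ x| ≤ C}
      add_mem' := by
        rintro a b ⟨C, hC⟩ ⟨D, hD⟩
        exact ⟨C + D, fun x => (abs_add_le _ _).trans (add_le_add (hC x) (hD x))⟩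
      zero_mem' := ⟨0, fun x => by simp⟩
      smul_mem' := by
        rintro c a ⟨C, hC⟩
        exact ⟨|c| * C, fun x => by
          simpa [abs_mul] using mul_le_mul_of_nonneg_left (hC x) (abs_nonneg c)⟩ }
  let s : PointedCone ℝ B := 
    { carrier := {φ | ∀ x, 0 ≤ (φ : X → ℝ) x}
      add_mem' := fun {a b} ha hb x => add_nonneg (ha x) (hb x)
      zero_mem' := fun x => le_rfl
      smul_mem' := fun c a ha x => mul_nonneg c.2 (ha x) }
  let D : Submodule ℝ B := (Subalgebra.toSubmodule 𝓐).comap B.subtype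
  let f : B →ₗ.[ℝ] ℝ :=
    { domain := D
      toFun :=
        { toFun := fun φ => m ((φ : B) : X → ℝ)
          map_add' := fun a b => hm.add _ a.2 _ b.2
          map_smul' := fun c a => hm.smul c _ a.2 } }
  obtain ⟨g, hg1, hg2⟩ := riesz_extension s f (fun x hx => hm.nonneg _ x.2 hx) (fun y => by
    obtain ⟨C, hC⟩ := y.2
    have hcB : (fun _ : X => C) ∈ B := ⟨|C|, fun _ => le_rfl⟩
    refine ⟨⟨⟨fun _ => C, hcB⟩, const_mem 𝓐 C⟩, fun x => ?_⟩
    have := (abs_le.1 (hC x)).1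
    show 0 ≤ C + (y : X → ℝ) x
    linarith)
  refine ⟨fun φ => if h : φ ∈ B then g ⟨φ, h⟩ else 0, ⟨?_, ?_, ?_, ?_⟩, ?_⟩
  · intro φ χ hφ hχ
    have h1 : φ ∈ B := hφ
    have h2 : χ ∈ B := hχ
    show dite _ _ _ = dite _ _ _ + dite _ _ _
    rw [dif_pos (B.add_mem h1 h2), dif_pos h1, dif_pos h2, ← map_add]
    rfl
  · intro c φ hφ
    have h1 : φ ∈ B := hφ
    show dite _ _ _ = c * dite _ _ _
    rw [dif_pos (B.smul_mem c h1), dif_pos h1, ← smul_eq_mul, ← map_smul]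
    rfl
  · intro φ hφ h0
    have h1 : φ ∈ B := hφ
    show 0 ≤ dite _ _ _
    rw [dif_pos h1]
    exact hg2 _ h0
  · have h1 : (fun _ : X => (1 : ℝ)) ∈ B := ⟨1, fun _ => by simp⟩
    show dite _ _ _ = _
    rw [dif_pos h1]
    have h2 := hg1 ⟨⟨fun _ => 1, h1⟩, const_mem 𝓐 1⟩
    rw [h2]
    exact hm.one
  · intro φ hφ
    have h1 : φ ∈ B := hbdd φ hφ
    show dite _ _ _ = _
    rw [dif_pos h1]
    exact hg1 ⟨⟨φ, h1⟩, hφ⟩

end Crest.Agent.R182.Erg
end

-- ▼ part R182/ErgLip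

set_option autoImplicit false
set_option linter.unusedSectionVars false

namespace Crest.Agent.R182.Erg

open Filter Topology Crest.GroupTheory Crest.Geometry Crest.Agent.R182.QI Crest.Agent.R182.Mic
  Crest.Agent.R182.FinRed Crest.Agent.R182.FinPath Crest.Agent.R189.MeanF

variable {Γ : Type*} [Group Γ]

section XFdef

variable {S : Set Γ} {K : ℕ}

/-- normalised self-quasi-isometries -/
@[ext] structure XF (S : Set Γ) (K : ℕ) where
  F : Γ → Γ
  F_one : F 1 = 1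
  qi : QIMap S S F K

/-- the right action -/
def XF.act (w : XF S K) (q : Γ) : XF S K where
  F x := (w.F q)⁻¹ * w.F (q * x)
  F_one := by simp
  qi := (w.qi.compMulLeft q).mulLeft _

@[simp] theorem XF.act_F (w : XF S K) (q x : Γ) : (w.act q).F x = (w.F q)⁻¹ * w.F (q * x) := rfl

theorem XF.act_one (w : XF S K) : w.act 1 = w := by
  ext x; simp [w.F_one]

theorem XF.act_mul (w : XF S K) (q r : Γ) : w.act (q * r) = (w.act q).act r := by
  ext x; simp [mul_assoc]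

/-- bounded functions of finitely many values -/
def cyl (S : Set Γ) (K : ℕ) : Subalgebra ℝ (XF S K → ℝ) where
  carrier := {φ | (∃ C : ℝ, ∀ x, |φ x| ≤ C) ∧
    ∃ J : Finset Γ, ∀ F F' : XF S K, (∀ j ∈ J, F.F j = F'.F j) → φ F = φ F'}
  mul_mem' := by
    classical
    rintro a b ⟨⟨C, hC⟩, J, hJ⟩ ⟨⟨D, hD⟩, J', hJ'⟩
    refine ⟨⟨C * D, fun x => ?_⟩, J ∪ J', fun F F' h => ?_⟩
    · rw [Pi.mul_apply, abs_mul]
      exact mul_le_mul (hC x) (hD x) (abs_nonneg _) ((abs_nonneg _).trans (hC x))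
    · rw [Pi.mul_apply, Pi.mul_apply, hJ F F' fun j hj => h j (Finset.mem_union_left _ hj),
        hJ' F F' fun j hj => h j (Finset.mem_union_right _ hj)]
  add_mem' := by
    classical
    rintro a b ⟨⟨C, hC⟩, J, hJ⟩ ⟨⟨D, hD⟩, J', hJ'⟩
    refine ⟨⟨C + D, fun x => (abs_add_le _ _).trans (add_le_add (hC x) (hD x))⟩,
      J ∪ J', fun F F' h => ?_⟩
    rw [Pi.add_apply, Pi.add_apply, hJ F F' fun j hj => h j (Finset.mem_union_left _ hj),
        hJ' F F' fun j hj => h j (Finset.mem_union_right _ hj)]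
  algebraMap_mem' := fun r => ⟨⟨|r|, fun x => le_of_eq (by simp)⟩, ∅, fun F F' _ => by simp⟩


theorem alg_cyl : Alg (XF.act (S := S) (K := K)) (cyl S K) where
  one := XF.act_one
  mul := XF.act_mul
  bdd φ hφ := hφ.1
  shift g φ hφ := by
    classical
    obtain ⟨⟨C, hC⟩, J, hJ⟩ := hφ
    refine ⟨⟨C, fun x => hC _⟩, insert g (J.image (g * ·)), fun F F' h => ?_⟩
    refine hJ _ _ fun j hj => ?_
    rw [XF.act_F, XF.act_F, h g (Finset.mem_insert_self _ _),
      h (g * j) (Finset.mem_insert_of_mem (Finset.mem_image_of_mem _ hj))]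

theorem cyl_eval (x : Γ) (u : Γ → ℝ) (hu : ∃ C : ℝ, ∀ F : XF S K, |u (F.F x)| ≤ C) :
    (fun F : XF S K => u (F.F x)) ∈ cyl S K :=
  ⟨hu, {x}, fun _ _ h => congrArg u (h x (Finset.mem_singleton_self x))⟩

theorem XF.F_len (w : XF S K) (x : Γ) : wordLength S (w.F x) ≤ K * wordLength S x + K := by
  have := w.qi.up 1 x
  simpa [w.F_one] using this

/-- a normalised quasi-isometry is part of a pair. -/
theorem XF.exists_om (hS : Subgroup.closure S = ⊤) (w : XF S K) :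
    ∃ v : Om S (2 * K * K + 2 * K), v.F = w.F := by
  have h := w.qi
  choose E hE using h.dense
  have hE' : ∀ p, nd S (w.F (E p)) p ≤ K := fun p => by rw [nd_comm hS]; exact hE p
  have hEF : ∀ x, nd S (E (w.F x)) x ≤ K * K + K := fun x =>
    (h.lo _ _).trans (by have := hE' (w.F x); gcongr)
  refine ⟨⟨w.F, E, w.F_one, fun x y => (h.up x y).trans ?_, fun p q => ?_, fun x => ?_,
    fun y => ?_⟩, rfl⟩
  · have : K * nd S x y ≤ (2 * K * K + 2 * K) * nd S x y := Nat.mul_le_mul_right _ (by nlinarith)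
    nlinarith
  · have h1 := h.lo (E p) (E q)
    have h2 : nd S (w.F (E p)) (w.F (E q)) ≤ nd S p q + 2 * K := by
      have a1 := nd_triangle hS (w.F (E p)) p (w.F (E q))
      have a2 := nd_triangle hS p q (w.F (E q))
      have a3 := hE q
      have a4 := hE' p
      omega
    calc nd S (E p) (E q) ≤ K * (nd S p q + 2 * K) + K := h1.trans (by gcongr)
      _ = K * nd S p q + (2 * K * K + K) := by ring
      _ ≤ (2 * K * K + 2 * K) * nd S p q + (2 * K * K + 2 * K) := by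
        have : K * nd S p q ≤ (2 * K * K + 2 * K) * nd S p q :=
          Nat.mul_le_mul_right _ (by nlinarith)
        nlinarith
  · exact (hEF x).trans (by nlinarith)
  · exact (hE' y).trans (by nlinarith)

/-- **Lifting of invariant means** from the cylinder algebra on quasi-isometries to all bounded
functions on pairs. -/
theorem exists_lift (hS : Subgroup.closure S = ⊤) (hΓ : Amen Γ) {m0 : (XF S K → ℝ) → ℝ}
    (hm0 : IMean XF.act (cyl S K) m0) :
    ∃ m : (Om S (2 * K * K + 2 * K) → ℝ) → ℝ, IMean Om.act (bddAlg _) m ∧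
      ∀ (x : Γ) (u : Γ → ℝ), (∃ C : ℝ, ∀ F : XF S K, |u (F.F x)| ≤ C) →
        m (fun w => u (w.F x)) = m0 (fun F => u (F.F x)) := by
  obtain ⟨M, hM, hMeq⟩ := exists_ext_mean (𝓐 := cyl S K) (fun φ hφ => hφ.1) (m := m0)
    ⟨hm0.add, hm0.smul, hm0.nonneg, hm0.one⟩
  obtain ⟨μ, hμ, -, hμR⟩ := hΓ.biinv
  choose σ hσ using fun w : XF S K => w.exists_om hS
  have hsh : ∀ γ : Γ, IsMean (fun φ : Om S (2 * K * K + 2 * K) → ℝ =>
      M (fun w => φ ((σ w).act γ))) := fun γ => hM.map fun w => (σ w).act γ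
  have hbind := hμ.bind (n := fun γ φ => M (fun w => φ ((σ w).act γ))) hsh
  refine ⟨fun φ => μ (fun γ => M (fun w => φ ((σ w).act γ))), ⟨⟨?_, ?_, ?_, ?_⟩, ?_⟩, ?_⟩
  · exact fun φ hφ χ hχ => hbind.add φ χ hφ hχ
  · exact fun c φ hφ => hbind.smul c φ hφ
  · exact fun φ hφ h => hbind.nonneg φ hφ h
  · intro g φ hφ
    have h1 : (fun γ : Γ => M (fun w => φ (((σ w).act γ).act g))) =
        fun γ => (fun γ' => M (fun w => φ ((σ w).act γ'))) (γ * g) := by
      funext γ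
      simp only [Om.act_mul]
    show μ (fun γ : Γ => M (fun w => φ (((σ w).act γ).act g))) = _
    rw [h1]
    exact hμR g _ (IsMean.bdd_bind hsh hφ)
  · exact hbind.one
  · intro x u hu
    have h1 : ∀ γ : Γ, M (fun w => u (((σ w).act γ).F x)) = m0 (fun F => u (F.F x)) := by
      intro γ
      have h2 : (fun w : XF S K => u (((σ w).act γ).F x)) = fun w => u ((w.act γ).F x) := by
        funext w
        rw [Om.act_F, XF.act_F, hσ w]
      rw [h2]
      have h3 := cyl_eval (K := K) x u hu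
      have h4 := alg_cyl.shift γ _ h3
      rw [hMeq _ h4]
      exact hm0.inv γ _ h3
    show μ (fun γ => M (fun w => u (((σ w).act γ).F x))) = _
    simp only [h1]
    exact hμ.const _

end XFdef

section Main

variable {S : Finset Γ} {k : ℕ} {π : Γ →* Multiplicative (Fin k → ℤ)}
  {N : Seminorm ℝ (Fin k → ℝ)}

/-- The law for extreme invariant means (output of the module MICRO). -/
def MicOut (S : Set Γ) (π : Γ →* Multiplicative (Fin k → ℤ)) (N : Seminorm ℝ (Fin k → ℝ)) :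
    Prop :=
  ∀ (K : ℕ) (m : (Om S K → ℝ) → ℝ), IMean Om.act (bddAlg (Om S K)) m →
    Ext Om.act (bddAlg (Om S K)) m →
    ∃ L : (Fin k → ℝ) →ₗ[ℝ] (Fin k → ℝ), (∀ v, N (L v) = N v) ∧ ∀ ε > 0, ∃ C : ℝ,
      ∀ (x : Γ) (i : Fin k), m (fun w => |hc π i x w - L (hgtR π x) i|) ≤
        ε * wordLength S x + C

theorem seminorm_le (N : Seminorm ℝ (Fin k → ℝ)) (u : Fin k → ℝ) :
    N u ≤ ∑ i, |u i| * N (Pi.single i 1) := by
  have h1 : u = ∑ i, u i • (Pi.single i (1 : ℝ) : Fin k → ℝ) := by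
    ext j
    simp [Finset.sum_apply, Pi.single_apply]
  calc N u = N (∑ i, u i • (Pi.single i (1 : ℝ) : Fin k → ℝ)) := by rw [← h1]
    _ ≤ ∑ i, N (u i • (Pi.single i (1 : ℝ) : Fin k → ℝ)) :=
        Finset.le_sum_of_subadditive N (map_zero N).le (map_add_le_add N) _ _
    _ = ∑ i, |u i| * N (Pi.single i 1) := by
        refine Finset.sum_congr rfl fun i _ => ?_
        rw [map_smul_eq_mul, Real.norm_eq_abs]

/-- excess of the height along the word `l` -/
noncomputable def exc (π : Γ →* Multiplicative (Fin k → ℤ)) (N : Seminorm ℝ (Fin k → ℝ)) (c : ℝ)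
    (x : Γ) : ℝ := max (N (hgtR π x) - c) 0

theorem exc_nonneg (c : ℝ) (x : Γ) : 0 ≤ exc π N c x := le_max_right _ _

theorem hgtR_mul' (g y : Γ) : hgtR π (g * y) = hgtR π g + hgtR π y := by
  funext i; simp [hgtR, hgt_mul]

theorem exc_mul (c d : ℝ) (x y : Γ) : exc π N (c + d) (x * y) ≤ exc π N c x + exc π N d y := by
  have h1 : N (hgtR π (x * y)) ≤ N (hgtR π x) + N (hgtR π y) := by
    rw [hgtR_mul']; exact map_add_le_add N _ _
  refine max_le ?_ (add_nonneg (exc_nonneg _ _) (exc_nonneg _ _))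
  have h2 : N (hgtR π x) - c ≤ exc π N c x := le_max_left _ _
  have h3 : N (hgtR π y) - d ≤ exc π N d y := le_max_left _ _
  linarith

theorem exists_N_bound (hS : Subgroup.closure (S : Set Γ) = ⊤)
    (π : Γ →* Multiplicative (Fin k → ℤ)) (N : Seminorm ℝ (Fin k → ℝ)) :
    ∃ D : ℝ, 0 ≤ D ∧ ∀ g : Γ, N (hgtR π g) ≤ D * wordLength (S : Set Γ) g := by
  obtain ⟨D, hD⟩ := exists_hom_bound hS π
  refine ⟨∑ i : Fin k, D * N (Pi.single i 1), Finset.sum_nonneg fun i _ =>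
    mul_nonneg (Nat.cast_nonneg _) (apply_nonneg _ _), fun g => ?_⟩
  refine (seminorm_le N _).trans ?_
  rw [Finset.sum_mul]
  refine Finset.sum_le_sum fun i _ => ?_
  have h1 : |hgtR π g i| ≤ D * wordLength (S : Set Γ) g := hD g i
  have h2 : 0 ≤ N (Pi.single i (1 : ℝ) : Fin k → ℝ) := apply_nonneg _ _
  nlinarith [mul_le_mul_of_nonneg_right h1 h2]

theorem exc_le (c : ℝ) (x : Γ) : exc π N c x ≤ N (hgtR π x) + |c| := by
  refine max_le ?_ (add_nonneg (apply_nonneg _ _) (abs_nonneg _))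
  have := neg_abs_le c
  linarith

theorem exists_exc_bound (hS : Subgroup.closure (S : Set Γ) = ⊤)
    (π : Γ →* Multiplicative (Fin k → ℤ)) (N : Seminorm ℝ (Fin k → ℝ)) (K : ℕ) (c : ℝ) (x : Γ) :
    ∃ C : ℝ, ∀ F : XF (S : Set Γ) K, |exc π N c (F.F x)| ≤ C := by
  obtain ⟨D, hD0, hD⟩ := exists_N_bound hS π N
  refine ⟨D * (K * wordLength (S : Set Γ) x + K) + |c|, fun F => ?_⟩
  rw [abs_of_nonneg (exc_nonneg c _)]
  refine (exc_le c _).trans (add_le_add_left ((hD _).trans ?_) _)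
  have h1 : (wordLength (S : Set Γ) (F.F x) : ℝ) ≤ K * wordLength (S : Set Γ) x + K := by
    exact_mod_cast F.F_len x
  exact mul_le_mul_of_nonneg_left h1 hD0

open Classical in
open scoped Pointwise in
/-- the law for the means on pairs -/
theorem lip_om (hS : Subgroup.closure (S : Set Γ) = ⊤) (hmic : MicOut (S : Set Γ) π N) (K : ℕ)
    (𝒮 : Finset Γ) (ℓ : ℝ) (h𝒮 : ∀ s ∈ 𝒮, N (hgtR π s) ≤ ℓ) {ε : ℝ} (hε : 0 < ε) :
    ∃ n0 : ℕ, ∀ n ≥ n0, ∀ m : (Om (S : Set Γ) K → ℝ) → ℝ, IMean Om.act (bddAlg _) m →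
      ∀ l : List Γ, l.length = n → (∀ s ∈ l, s ∈ 𝒮) →
        m (fun w => exc π N (n * ℓ) (w.F l.prod)) ≤ ε * n := by
  obtain ⟨D, hD0, hD⟩ := exists_N_bound hS π N
  have ha := alg_Om (S := (S : Set Γ)) (K := K)
  -- bounded functions
  have hbd : ∀ (c : ℝ) (x : Γ) (w : Om (S : Set Γ) K),
      exc π N c (w.F x) ≤ D * (K * wordLength (S : Set Γ) x + K) + |c| := by
    intro c x w
    refine (exc_le c _).trans (add_le_add_left ((hD _).trans ?_) _)
    have h1 : (wordLength (S : Set Γ) (w.F x) : ℝ) ≤ K * wordLength (S : Set Γ) x + K := by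
      exact_mod_cast w.F_len x
    exact mul_le_mul_of_nonneg_left h1 hD0
  have hmem : ∀ (c : ℝ) (x : Γ), (fun w : Om (S : Set Γ) K => exc π N c (w.F x)) ∈
      bddAlg (Om (S : Set Γ) K) := fun c x =>
    ⟨_, fun w => (abs_of_nonneg (exc_nonneg c _)).trans_le (hbd c x w)⟩
  -- subadditivity
  have hsub : ∀ m : (Om (S : Set Γ) K → ℝ) → ℝ, IMean Om.act (bddAlg _) m → ∀ (c d : ℝ)
      (x y : Γ), m (fun w => exc π N (c + d) (w.F (x * y))) ≤
        m (fun w => exc π N c (w.F x)) + m (fun w => exc π N d (w.F y)) := by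
    intro m hm c d x y
    rw [← hm.inv x _ (hmem d y), ← hm.add _ (hmem c x) _ (ha.shift x _ (hmem d y))]
    refine hm.toPInv.mono (hmem _ _) (add_mem (hmem c x) (ha.shift x _ (hmem d y))) fun w => ?_
    have h1 : w.F (x * y) = w.F x * (w.act x).F y := by rw [Om.act_F, mul_inv_cancel_left]
    rw [Pi.add_apply, h1]
    exact exc_mul _ _ _ _
  -- elements of powers of `𝒮`
  have hNpow : ∀ n : ℕ, ∀ x ∈ 𝒮 ^ n, N (hgtR π x) ≤ n * ℓ := by
    intro n
    induction n with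
    | zero =>
      intro x hx
      rw [pow_zero, Finset.mem_one] at hx
      subst hx
      have : hgtR π (1 : Γ) = 0 := by funext i; simp [hgtR, hgt_one]
      rw [this, map_zero]; simp
    | succ n ih =>
      intro x hx
      rw [pow_succ, Finset.mem_mul] at hx
      obtain ⟨y, hy, s, hs, rfl⟩ := hx
      rw [hgtR_mul']
      refine (map_add_le_add N _ _).trans ?_
      have h1 := ih y hy
      have h2 := h𝒮 s hs
      push_cast
      linarith
  obtain ⟨W, hW⟩ : ∃ W : ℕ, ∀ s ∈ 𝒮, wordLength (S : Set Γ) s ≤ W :=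
    ⟨𝒮.sup fun s => wordLength (S : Set Γ) s, fun s hs => Finset.le_sup (f := fun s =>
      wordLength (S : Set Γ) s) hs⟩
  have hLpow : ∀ n : ℕ, ∀ x ∈ 𝒮 ^ n, wordLength (S : Set Γ) x ≤ n * W := by
    intro n
    induction n with
    | zero =>
      intro x hx
      rw [pow_zero, Finset.mem_one] at hx
      subst hx
      simp
    | succ n ih =>
      intro x hx
      rw [pow_succ, Finset.mem_mul] at hx
      obtain ⟨y, hy, s, hs, rfl⟩ := hx
      refine (wordLength_mul_le hS _ _).trans ?_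
      have h1 := ih y hy
      have h2 := hW s hs
      nlinarith
  have hlist : ∀ l : List Γ, (∀ s ∈ l, s ∈ 𝒮) → l.prod ∈ 𝒮 ^ l.length := by
    intro l
    induction l with
    | nil => intro _; simp
    | cons a l ih =>
      intro h
      rw [List.prod_cons, List.length_cons, pow_succ']
      exact Finset.mul_mem_mul (h a List.mem_cons_self) (ih fun s hs => h s (List.mem_cons_of_mem a hs))
  -- Dini
  have hdini := dini_max ha (fun j => 𝒮 ^ (2 ^ j : ℕ))
    (fun j x => ((((2 : ℝ) ^ j)⁻¹ : ℝ) • fun w : Om (S : Set Γ) K =>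
      exc π N ((2 : ℝ) ^ j * ℓ) (w.F x)))
    (fun j x => (bddAlg _).smul_mem (hmem _ _) _) (by
      intro m hm j x hx
      have hx' : x ∈ 𝒮 ^ (2 ^ j : ℕ) * 𝒮 ^ (2 ^ j : ℕ) := by
        rw [← pow_add, ← two_mul, ← pow_succ']; exact hx
      obtain ⟨y, hy, z, hz, rfl⟩ := Finset.mem_mul.1 hx'
      have h1 := hsub m hm ((2 : ℝ) ^ j * ℓ) ((2 : ℝ) ^ j * ℓ) y z
      have h2 : (2 : ℝ) ^ j * ℓ + (2 : ℝ) ^ j * ℓ = (2 : ℝ) ^ (j + 1) * ℓ := by ring
      rw [h2] at h1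
      have hp : (0 : ℝ) < 2 ^ j := by positivity
      rcases le_total (m (fun w => exc π N ((2 : ℝ) ^ j * ℓ) (w.F y)))
        (m (fun w => exc π N ((2 : ℝ) ^ j * ℓ) (w.F z))) with h | h
      · refine ⟨z, hz, ?_⟩
        rw [hm.smul _ _ (hmem _ _), hm.smul _ _ (hmem _ _), pow_succ, mul_inv, mul_assoc]
        refine mul_le_mul_of_nonneg_left ?_ (by positivity)
        rw [pow_succ] at h1
        linarith
      · refine ⟨y, hy, ?_⟩
        rw [hm.smul _ _ (hmem _ _), hm.smul _ _ (hmem _ _), pow_succ, mul_inv, mul_assoc]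
        refine mul_le_mul_of_nonneg_left ?_ (by positivity)
        rw [pow_succ] at h1
        linarith) (by
      intro m hm hE δ hδ
      obtain ⟨L, hL, hlaw⟩ := hmic K m hm hE
      set c : ℝ := ∑ i : Fin k, N (Pi.single i 1) with hcd
      have hc0 : 0 ≤ c := Finset.sum_nonneg fun i _ => apply_nonneg _ _
      obtain ⟨C, hC⟩ := hlaw (δ / (2 * (c + 1) * (W + 1))) (by positivity)
      obtain ⟨j, hj⟩ := exists_nat_gt (2 * (c * |C|) / δ)
      refine ⟨j, fun x hx => ?_⟩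
      have hp : (0 : ℝ) < 2 ^ j := by positivity
      rw [hm.smul _ _ (hmem _ _), inv_mul_le_iff₀ hp]
      have hu : ∀ i : Fin k, (fun w : Om (S : Set Γ) K => |hc π i x w - L (hgtR π x) i|) ∈
          bddAlg (Om (S : Set Γ) K) := by
        intro i
        obtain ⟨A, hA⟩ := (coc_hc (K := K) hS π i).mem x
        refine ⟨A + |L (hgtR π x) i|, fun w => ?_⟩
        rw [abs_abs]
        exact (abs_sub _ _).trans (add_le_add_left (hA w) _)
      have hpt : ∀ w : Om (S : Set Γ) K, exc π N ((2 : ℝ) ^ j * ℓ) (w.F x) ≤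
          (∑ i, N (Pi.single i 1) • fun w : Om (S : Set Γ) K =>
            |hc π i x w - L (hgtR π x) i|) w := by
        intro w
        rw [Finset.sum_apply]
        simp only [Pi.smul_apply, smul_eq_mul]
        refine max_le ?_ (Finset.sum_nonneg fun i _ => mul_nonneg (apply_nonneg _ _) (abs_nonneg _))
        have h1 : N (hgtR π (w.F x)) ≤ N (L (hgtR π x)) + N (hgtR π (w.F x) - L (hgtR π x)) := by
          have := map_add_le_add N (L (hgtR π x)) (hgtR π (w.F x) - L (hgtR π x))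
          rwa [add_sub_cancel] at this
        have h2 : N (L (hgtR π x)) ≤ (2 : ℝ) ^ j * ℓ := by
          rw [hL]
          have := hNpow _ x hx
          push_cast at this
          exact this
        have h3 := seminorm_le N (hgtR π (w.F x) - L (hgtR π x))
        have h4 : ∑ i, |(hgtR π (w.F x) - L (hgtR π x)) i| * N (Pi.single i 1) =
            ∑ i, N (Pi.single i 1) * |hc π i x w - L (hgtR π x) i| :=
          Finset.sum_congr rfl fun i _ => mul_comm _ _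
        linarith
      have hlen : (wordLength (S : Set Γ) x : ℝ) ≤ 2 ^ j * W := by
        have := hLpow _ x hx
        exact_mod_cast this
      have h5 : m (fun w => exc π N ((2 : ℝ) ^ j * ℓ) (w.F x)) ≤
          ∑ i : Fin k, N (Pi.single i 1) * (δ / (2 * (c + 1) * (W + 1)) *
            wordLength (S : Set Γ) x + C) := by
        refine (hm.toPInv.mono (hmem _ _) (sum_mem fun i _ => (bddAlg _).smul_mem (hu i) _)
          hpt).trans ?_
        rw [hm.toPInv.sum _ _ (fun i _ => (bddAlg _).smul_mem (hu i) _)]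
        refine Finset.sum_le_sum fun i _ => ?_
        rw [hm.smul _ _ (hu i)]
        exact mul_le_mul_of_nonneg_left (hC x i) (apply_nonneg _ _)
      rw [← Finset.sum_mul, ← hcd] at h5
      refine h5.trans ?_
      have h6 : δ / (2 * (c + 1) * (W + 1)) * wordLength (S : Set Γ) x ≤
          δ / (2 * (c + 1) * (W + 1)) * (2 ^ j * W) :=
        mul_le_mul_of_nonneg_left hlen (by positivity)
      have h7 : c * (δ / (2 * (c + 1) * (W + 1)) * (2 ^ j * W)) ≤ 2 ^ j * (δ / 2) := by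
        have h8 : c * (δ / (2 * (c + 1) * (W + 1)) * (2 ^ j * W)) =
            (2 ^ j * (δ / 2)) * ((c / (c + 1)) * (W / (W + 1))) := by
          field_simp
        have h9 : c / (c + 1) ≤ 1 := by rw [div_le_one (by positivity)]; linarith
        have h10 : (W : ℝ) / (W + 1) ≤ 1 := by rw [div_le_one (by positivity)]; linarith
        have h11 : (c / (c + 1)) * ((W : ℝ) / (W + 1)) ≤ 1 := by
          have : 0 ≤ (W : ℝ) / (W + 1) := by positivity
          nlinarith [show 0 ≤ c / (c + 1) by positivity]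
        rw [h8]
        nlinarith [show 0 ≤ (2 : ℝ) ^ j * (δ / 2) by positivity]
      have h8 : c * |C| ≤ 2 ^ j * (δ / 2) := by
        rw [div_lt_iff₀ hδ] at hj
        have h9 : (j : ℝ) ≤ 2 ^ j := by exact_mod_cast (Nat.lt_two_pow_self (n := j)).le
        nlinarith [mul_le_mul_of_nonneg_right h9 hδ.le]
      have h9 : C ≤ |C| := le_abs_self C
      nlinarith [mul_le_mul_of_nonneg_left h6 hc0, mul_le_mul_of_nonneg_left h9 hc0]) (ε / 2)
      (by positivity)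
  obtain ⟨j₀, hj₀⟩ := hdini
  set B : ℕ := 2 ^ j₀ with hB
  have hB0 : 0 < B := by positivity
  have hblock : ∀ m : (Om (S : Set Γ) K → ℝ) → ℝ, IMean Om.act (bddAlg _) m → ∀ l : List Γ,
      l.length = B → (∀ s ∈ l, s ∈ 𝒮) →
      m (fun w => exc π N (B * ℓ) (w.F l.prod)) ≤ ε / 2 * B := by
    intro m hm l hl hs
    have h1 := hj₀ j₀ le_rfl m hm l.prod (by rw [← hB, ← hl]; exact hlist l hs)
    rw [hm.smul _ _ (hmem _ _), inv_mul_le_iff₀ (by positivity)] at h1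
    have h2 : (B : ℝ) = 2 ^ j₀ := by rw [hB]; push_cast; ring
    rw [h2]
    linarith
  have hblocks : ∀ m : (Om (S : Set Γ) K → ℝ) → ℝ, IMean Om.act (bddAlg _) m → ∀ q : ℕ,
      ∀ l : List Γ, l.length = q * B → (∀ s ∈ l, s ∈ 𝒮) →
      m (fun w => exc π N ((q * B : ℕ) * ℓ) (w.F l.prod)) ≤ ε / 2 * (q * B : ℕ) := by
    intro m hm q
    induction q with
    | zero =>
      intro l hl _
      have : l = [] := List.eq_nil_of_length_eq_zero (by rw [hl]; simp)
      subst this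
      have h1 : (fun w : Om (S : Set Γ) K => exc π N (((0 * B : ℕ) : ℝ) * ℓ) (w.F ([] : List Γ).prod)) =
          fun _ => (0 : ℝ) := by
        funext w
        have : hgtR π (1 : Γ) = 0 := by funext i; simp [hgtR, hgt_one]
        simp [exc, w.F_one, this]
      rw [h1, hm.const]
      simp
    | succ q ih =>
      intro l hl hs
      have h1 : (l.take B).length = B := by
        rw [List.length_take, hl]
        exact Nat.min_eq_left (by nlinarith)
      have h2 : (l.drop B).length = q * B := by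
        rw [List.length_drop, hl]
        rw [Nat.succ_mul]; omega
      have h3 := hblock m hm (l.take B) h1 fun s hs' => hs s (List.mem_of_mem_take hs')
      have h4 := ih (l.drop B) h2 fun s hs' => hs s (List.mem_of_mem_drop hs')
      have h5 := hsub m hm (B * ℓ) ((q * B : ℕ) * ℓ) (l.take B).prod (l.drop B).prod
      rw [← List.prod_append, List.take_append_drop] at h5
      have h6 : (B : ℝ) * ℓ + ((q * B : ℕ) : ℝ) * ℓ = (((q + 1) * B : ℕ) : ℝ) * ℓ := by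
        push_cast; ring
      rw [h6] at h5
      refine h5.trans ((add_le_add h3 h4).trans_eq ?_)
      push_cast; ring
  set CB : ℝ := D * (K * (B * W) + K) + B * |ℓ| with hCB
  obtain ⟨n0, hn0⟩ := exists_nat_ge (2 * CB / ε)
  refine ⟨n0, fun n hn m hm l hl hs => ?_⟩
  set q : ℕ := n / B with hq
  set r : ℕ := n % B with hr
  have hqr : n = q * B + r := by rw [hq, hr]; exact (Nat.div_add_mod' n B).symm
  have hrB : r < B := Nat.mod_lt _ hB0
  have h1 : (l.take (q * B)).length = q * B := by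
    rw [List.length_take, hl]; exact Nat.min_eq_left (by omega)
  have h2 : (l.drop (q * B)).length = r := by
    rw [List.length_drop, hl]; omega
  have h3 := hblocks m hm q (l.take (q * B)) h1 fun s hs' => hs s (List.mem_of_mem_take hs')
  have h5 := hsub m hm ((q * B : ℕ) * ℓ) (r * ℓ) (l.take (q * B)).prod (l.drop (q * B)).prod
  rw [← List.prod_append, List.take_append_drop] at h5
  have h6 : ((q * B : ℕ) : ℝ) * ℓ + (r : ℝ) * ℓ = (n : ℝ) * ℓ := by
    rw [← add_mul]; congr 1; rw [hqr]; push_cast; ring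
  rw [h6] at h5
  have h7 : m (fun w => exc π N (r * ℓ) (w.F (l.drop (q * B)).prod)) ≤ CB := by
    rw [← hm.const CB]
    refine hm.toPInv.mono (hmem _ _) (const_mem _ _) fun w => (hbd _ _ w).trans ?_
    have e1 : (wordLength (S : Set Γ) (l.drop (q * B)).prod : ℝ) ≤ B * W := by
      have e2 := hLpow _ _ (hlist (l.drop (q * B)) fun s hs' => hs s (List.mem_of_mem_drop hs'))
      rw [h2] at e2
      have e3 : r * W ≤ B * W := Nat.mul_le_mul_right _ hrB.le
      exact_mod_cast e2.trans e3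
    have e4 : |(r : ℝ) * ℓ| ≤ B * |ℓ| := by
      rw [abs_mul, Nat.abs_cast]
      have : (r : ℝ) ≤ B := by exact_mod_cast hrB.le
      exact mul_le_mul_of_nonneg_right this (abs_nonneg _)
    rw [hCB]
    have e5 : D * (K * wordLength (S : Set Γ) (l.drop (q * B)).prod + K) ≤
        D * (K * (B * W) + K) := by
      refine mul_le_mul_of_nonneg_left ?_ hD0
      have := mul_le_mul_of_nonneg_left e1 (Nat.cast_nonneg (α := ℝ) K)
      linarith
    linarith
  have h8 : CB ≤ ε / 2 * n := by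
    have h9 : 2 * CB / ε ≤ n := hn0.trans (by exact_mod_cast hn)
    rw [div_le_iff₀ hε] at h9
    linarith
  have h9 : ((q * B : ℕ) : ℝ) ≤ n := by exact_mod_cast (by omega : q * B ≤ n)
  have h10 : ε / 2 * ((q * B : ℕ) : ℝ) ≤ ε / 2 * n := mul_le_mul_of_nonneg_left h9 (by positivity)
  linarith

/-- the law for the means on quasi-isometries -/
theorem lip_XF (hS : Subgroup.closure (S : Set Γ) = ⊤) (hΓ : Amen Γ)
    (hmic : MicOut (S : Set Γ) π N) (K : ℕ) (𝒮 : Finset Γ) (ℓ : ℝ)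
    (h𝒮 : ∀ s ∈ 𝒮, N (hgtR π s) ≤ ℓ) {ε : ℝ} (hε : 0 < ε) :
    ∃ n0 : ℕ, ∀ n ≥ n0, ∀ m : (XF (S : Set Γ) K → ℝ) → ℝ, IMean XF.act (cyl (S : Set Γ) K) m →
      ∀ l : List Γ, l.length = n → (∀ s ∈ l, s ∈ 𝒮) →
        m (fun w => exc π N (n * ℓ) (w.F l.prod)) ≤ ε * n := by
  obtain ⟨n0, hn0⟩ := lip_om hS hmic (2 * K * K + 2 * K) 𝒮 ℓ h𝒮 hε
  refine ⟨n0, fun n hn m0 hm0 l hl hs => ?_⟩
  obtain ⟨m, hm, heq⟩ := exists_lift hS hΓ hm0
  rw [← heq l.prod (exc π N (n * ℓ)) (exists_exc_bound hS π N _ _ _)]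
  exact hn0 n hn m hm l hl hs

open Classical in
open scoped Pointwise in
/-- **Finitary one-sided Lipschitz law**: for every sufficiently invariant average. -/
theorem lip_finite (hS : Subgroup.closure (S : Set Γ) = ⊤) (hΓ : Amen Γ)
    (hmic : MicOut (S : Set Γ) π N) (K : ℕ) (𝒮 : Finset Γ) (ℓ : ℝ)
    (h𝒮 : ∀ s ∈ 𝒮, N (hgtR π s) ≤ ℓ) {ε : ℝ} (hε : 0 < ε) :
    ∃ n0 : ℕ, ∀ n ≥ n0, ∃ (T : Finset Γ) (τ : ℝ), 0 < τ ∧
      ∀ μ : (XF (S : Set Γ) K → ℝ) → ℝ, PMean (cyl (S : Set Γ) K) μ →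
        (∀ γ ∈ T, ∀ φ ∈ cyl (S : Set Γ) K, ∀ C : ℝ, (∀ F, |φ F| ≤ C) →
          |μ (fun F => φ (F.act γ)) - μ φ| ≤ τ * C) →
        ∀ l : List Γ, l.length = n → (∀ s ∈ l, s ∈ 𝒮) →
          μ (fun w => exc π N (n * ℓ) (w.F l.prod)) ≤ ε * n := by
  obtain ⟨n0, hn0⟩ := lip_XF hS hΓ hmic K 𝒮 ℓ h𝒮 (half_pos hε)
  refine ⟨max n0 1, fun n hn => ?_⟩
  have hn1 : n0 ≤ n := (le_max_left _ _).trans hn
  have hn2 : 1 ≤ n := (le_max_right _ _).trans hn
  have hnpos : (0 : ℝ) < n := by exact_mod_cast hn2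
  have hx : ∀ x ∈ 𝒮 ^ n, ∃ (T : Finset Γ) (τ : ℝ), 0 < τ ∧
      ∀ μ : (XF (S : Set Γ) K → ℝ) → ℝ, PMean (cyl (S : Set Γ) K) μ →
        (∀ γ ∈ T, ∀ φ ∈ cyl (S : Set Γ) K, ∀ C : ℝ, (∀ F, |φ F| ≤ C) →
          |μ (fun F => φ (F.act γ)) - μ φ| ≤ τ * C) →
          μ (fun w => exc π N (n * ℓ) (w.F x)) ≤ ε * n := by
    intro x hx
    obtain ⟨f, hf⟩ := Finset.mem_pow.1 hx
    have hl : (List.ofFn fun i => (f i : Γ)).length = n := List.length_ofFn
    have hs : ∀ s ∈ List.ofFn fun i => (f i : Γ), s ∈ 𝒮 := by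
      intro s hs
      obtain ⟨i, rfl⟩ := List.mem_ofFn.1 hs
      exact (f i).2
    have h1 := exists_finite_inv (ε := ε / 2 * n) (ε' := ε * n)
      (alg_cyl (S := (S : Set Γ)) (K := K))
      (cyl_eval x (exc π N (n * ℓ)) (exists_exc_bound hS π N _ _ _)) (by nlinarith)
      (fun m hm => by
        have := hn0 n hn1 m hm _ hl hs
        rwa [hf] at this)
    exact h1
  choose! T τ hτ hTτ using hx
  obtain ⟨τ₀, hτ₀, hτ₀le⟩ : ∃ τ₀ : ℝ, 0 < τ₀ ∧ ∀ x ∈ 𝒮 ^ n, τ₀ ≤ τ x := by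
    rcases (𝒮 ^ n).eq_empty_or_nonempty with h | h
    · exact ⟨1, one_pos, by rw [h]; simp⟩
    · obtain ⟨x0, hx0, hmin⟩ := (𝒮 ^ n).exists_min_image τ h
      exact ⟨τ x0, hτ x0 hx0, hmin⟩
  refine ⟨(𝒮 ^ n).biUnion T, τ₀, hτ₀, fun μ hμ hinv l hl hs => ?_⟩
  have hlp : l.prod ∈ 𝒮 ^ n := by
    rw [Finset.mem_pow]
    subst hl
    refine ⟨fun i => ⟨l.get i, hs _ (List.get_mem l i)⟩, ?_⟩
    rw [List.ofFn_get]
  refine hTτ _ hlp μ hμ fun γ hγ φ hφ C hC => ?_
  have h1 := hinv γ (Finset.mem_biUnion.2 ⟨_, hlp, hγ⟩) φ hφ C hC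
  have h2 : 0 ≤ C := by
    by_contra hneg
    push Not at hneg
    have h3 : τ₀ * C < 0 := mul_neg_of_pos_of_neg hτ₀ hneg
    exact absurd ((abs_nonneg _).trans h1) (not_le.2 h3)
  exact h1.trans (mul_le_mul_of_nonneg_right (hτ₀le _ hlp) h2)

end Main

end Crest.Agent.R182.Erg
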