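import Crest.Agent.R182.CapVol

-- ▼ part R182/CapWalk
section

set_option autoImplicit false
set_option linter.unusedSectionVars false

namespace Crest.Agent.R182.Cap

open MeasureTheory

variable {G H ι E : Type*} [Group G] [Group H] [MeasurableSpace H] [MeasurableMul₂ H]
    [MeasurableInv H] [Fintype ι] [NormedAddCommGroup E] [NormedSpace ℝ E]

namespace CapModel

section cj

variable (M : CapModel G H ι E)

theorem cj_mul (g g' : G) (n : H) : M.cj (g * g') n = M.cj g (M.cj g' n) := by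
  apply M.emb_inj
  rw [M.emb_cj, M.emb_cj, M.emb_cj]; group

theorem cj_one (n : H) : M.cj 1 n = n := by
  apply M.emb_inj
  rw [M.emb_cj]; group

theorem cj_inv_cj (g : G) (n : H) : M.cj g⁻¹ (M.cj g n) = n := by
  rw [← M.cj_mul, inv_mul_cancel, M.cj_one]

theorem cj_cj_inv (g : G) (n : H) : M.cj g (M.cj g⁻¹ n) = n := by
  rw [← M.cj_mul, mul_inv_cancel, M.cj_one]

/-- base change -/
theorem mul_emb_mul (x g : G) (n : H) : x * M.emb n * g = x * g * M.emb (M.cj g⁻¹ n) := by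
  rw [M.emb_cj]; group

instance : M.μ.IsMulRightInvariant := ⟨M.mul_right⟩

instance : M.μ.IsMulLeftInvariant := ⟨M.mul_left⟩

theorem μ_cj_image (g : G) (S : Set H) : M.μ (M.cj g ⁻¹' S) = M.μ S := by
  have h1 : ∀ g : G, ∀ S : Set H, M.μ (M.cj g ⁻¹' S) ≤ M.μ S := by
    intro g S
    calc M.μ (M.cj g ⁻¹' S) ≤ M.μ (M.cj g ⁻¹' (toMeasurable M.μ S)) :=
          measure_mono (Set.preimage_mono (subset_toMeasurable _ _))
      _ = (Measure.map (M.cj g) M.μ) (toMeasurable M.μ S) :=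
          (Measure.map_apply (M.cj_meas g) (measurableSet_toMeasurable _ _)).symm
      _ = M.μ S := by rw [M.cj_map, measure_toMeasurable]
  refine le_antisymm (h1 g S) ?_
  have h2 := h1 g⁻¹ (M.cj g ⁻¹' S)
  have e : M.cj g⁻¹ ⁻¹' (M.cj g ⁻¹' S) = S := by
    ext n
    simp only [Set.mem_preimage, M.cj_cj_inv]
  rwa [e] at h2

end cj

variable {M : CapModel G H ι E}

/-! ### walks -/

theorem wk_left (φ : ℕ → H → H) (q : H) (ω : ℕ → H × H) (j : ℕ) :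
    Star.wk φ q ω j = q * Star.wk φ 1 ω j := by
  induction j with
  | zero => simp [Star.wk]
  | succ j ih => simp only [Star.wk]; rw [ih]; group

theorem wk_conj (M : CapModel G H ι E) (g : G) (c : ℕ → G) (q : H) (ω : ℕ → H × H) (j : ℕ) :
    Star.wk (fun j => M.cj (g * c j)) q ω j =
      M.cj g (Star.wk (fun j => M.cj (c j)) (M.cj g⁻¹ q) ω j) := by
  induction j with
  | zero => simp only [Star.wk]; rw [M.cj_cj_inv]
  | succ j ih =>
    simp only [Star.wk]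
    rw [ih, map_mul, map_mul, map_inv, M.cj_mul, M.cj_mul]


/-- all increments lie in `V` almost surely. -/
theorem ae_pi_mem_V (M : CapModel G H ι E) (L : ℕ) :
    ∀ᵐ ω ∂(Measure.pi fun _ : Fin L => M.ν.prod M.ν), ∀ j : Fin L, (ω j).1 ∈ M.V ∧ (ω j).2 ∈ M.V := by
  rw [ae_all_iff]
  intro j
  have h1 : ∀ᵐ p ∂(M.ν.prod M.ν), p.1 ∈ M.V ∧ p.2 ∈ M.V := by
    have h2 : ∀ᵐ p ∂(M.ν.prod M.ν), p.1 ∈ M.V :=
      Measure.quasiMeasurePreserving_fst.ae M.ae_mem_V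
    have h3 : ∀ᵐ p ∂(M.ν.prod M.ν), p.2 ∈ M.V :=
      Measure.quasiMeasurePreserving_snd.ae M.ae_mem_V
    filter_upwards [h2, h3] with p hp hp' using ⟨hp, hp'⟩
  exact (Measure.quasiMeasurePreserving_eval (μ := fun _ : Fin L => M.ν.prod M.ν) j).ae h1

/-- the image of a walk is connected at bounded height. -/
theorem conn_walk {K : ℝ} {Ψ : G → G} (hΨ : QI M K Ψ) {x : G} {c : ℕ → G} {d : ℕ → ℕ → G} {r : ℕ}
    {s : ℝ} (hd0 : ∀ k, d k 0 = 1) (hdr : ∀ k, d k r = c k)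
    (hd : ∀ k, ∀ j < r, M.dst (d k j) (d k (j + 1)) ≤ s) (hs : 2 * M.C0 ≤ s)
    {m0 : ℕ} (hm0 : M.C0 * (K * s + K + 1) ≤ m0) {Z : ι → ℝ} {q : H} {ω : ℕ → H × H}
    (L : ℕ) (hω : ∀ j < L, (ω j).1 ∈ M.V ∧ (ω j).2 ∈ M.V)
    (hq : ∀ i, M.S.l i (M.hgt (Ψ (x * M.emb q))) ≤ Z i)
    (hZ : ∀ j < L, ∀ t ≤ r, ∀ i, M.S.l i (M.hgt (Ψ (x * M.emb
      (Star.wk (fun j => M.cj (c j)) q ω j) * d j t))) + M.C0 ^ 4 * (K * s + K + 1) ≤ Z i)
    (hZ' : ∀ j < L, ∀ t ≤ r, ∀ i, M.S.l i (M.hgt (Ψ (x * M.emb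
      (Star.wk (fun j => M.cj (c j)) q ω (j + 1)) * d j t))) + M.C0 ^ 4 * (K * s + K + 1) ≤ Z i) :
    M.Conn Z (L * ((2 * r + 1) * m0)) (Ψ (x * M.emb q))
      (Ψ (x * M.emb (Star.wk (fun j => M.cj (c j)) q ω L))) := by
  induction L with
  | zero =>
    rw [zero_mul]
    exact Conn.refl 0 hq
  | succ L ih =>
    have h1 := ih (fun j hj => hω j (by omega)) (fun j hj => hZ j (by omega))
      (fun j hj => hZ' j (by omega))
    rw [Nat.succ_mul]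
    refine h1.trans ?_
    set p := Star.wk (fun j => M.cj (c j)) q ω L with hp
    have e : Star.wk (fun j => M.cj (c j)) q ω (L + 1) =
        p * M.cj (d L r) ((ω L).1⁻¹ * (ω L).2) := by
      simp only [Star.wk]
      rw [← hp, map_mul, map_inv, hdr]; group
    have e2 : x * M.emb (Star.wk (fun j => M.cj (c j)) q ω (L + 1)) =
        x * M.emb p * M.emb (M.cj (d L r) ((ω L).1⁻¹ * (ω L).2)) := by
      rw [e, map_mul]; group
    have hu : M.len (M.emb ((ω L).1⁻¹ * (ω L).2)) ≤ s := by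
      rw [map_mul, map_inv]
      refine (M.len_mul _ _).trans ?_
      rw [M.len_inv]
      have h2 := hω L (Nat.lt_succ_self L)
      linarith [M.V_le _ h2.1, M.V_le _ h2.2]
    rw [e2]
    refine conn_move hΨ (hd0 L) (hd L) hu hm0 (hZ L (Nat.lt_succ_self L)) ?_
    have h3 := hZ' L (Nat.lt_succ_self L)
    rwa [e2] at h3

/-! ### lower bound -/

theorem ent_vol {κ C : ℝ} {D m : ℕ} (hκ : 0 < κ) (hC : 0 < C) (hm : 1 ≤ m) {T : ℝ} {S : Set H}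
    {c : ℝ} (hc : 0 < c)
    (h : ENNReal.ofReal c ≤ ENNReal.ofReal (C * (m : ℝ) ^ D) *
      (M.μ S * ENNReal.ofReal (Real.exp (- T))) ^ κ) :
    ENNReal.ofReal (Real.exp T * (c / (C * (m : ℝ) ^ D)) ^ κ⁻¹) ≤ M.μ S := by
  have hmR : (1 : ℝ) ≤ m := by exact_mod_cast hm
  have hB : 0 < C * (m : ℝ) ^ D := by positivity
  set X := M.μ S * ENNReal.ofReal (Real.exp (- T)) with hX
  have h1 : ENNReal.ofReal (c / (C * (m : ℝ) ^ D)) ≤ X ^ κ := by
    rw [ENNReal.ofReal_div_of_pos hB]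
    refine ENNReal.div_le_of_le_mul ?_
    rwa [mul_comm]
  have h2 : ENNReal.ofReal ((c / (C * (m : ℝ) ^ D)) ^ κ⁻¹) ≤ X := by
    rw [← ENNReal.ofReal_rpow_of_pos (by positivity)]
    have h3 := ENNReal.rpow_le_rpow h1 (inv_nonneg.2 hκ.le)
    rwa [← ENNReal.rpow_mul, mul_inv_cancel₀ hκ.ne', ENNReal.rpow_one] at h3
  rw [ENNReal.ofReal_mul (Real.exp_pos _).le]
  calc ENNReal.ofReal (Real.exp T) * ENNReal.ofReal ((c / (C * (m : ℝ) ^ D)) ^ κ⁻¹)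
      ≤ ENNReal.ofReal (Real.exp T) * X := by gcongr
    _ = M.μ S * (ENNReal.ofReal (Real.exp T) * ENNReal.ofReal (Real.exp (-T))) := by
        rw [hX]; ring
    _ = M.μ S := by
        rw [← ENNReal.ofReal_mul (Real.exp_pos _).le, ← Real.exp_add, add_neg_cancel,
          Real.exp_zero, ENNReal.ofReal_one, mul_one]

/-- from a power law and an upper bound for the volume to an inequality of exponents. -/
theorem exponent_le {κ C C' A : ℝ} {D D' m m' : ℕ} (hκ : 0 < κ) (hC : 0 < C) (hC' : 0 < C')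
    (hm : 1 ≤ m) (hm' : 1 ≤ m') {T T' : ℝ} {S : Set H} {c : ℝ} (hc : 0 < c)
    (hA : κ⁻¹ * (|Real.log C| + D * Real.log m) + |Real.log C'| + D' * Real.log m' ≤ A)
    (h : ENNReal.ofReal c ≤ ENNReal.ofReal (C * (m : ℝ) ^ D) *
      (M.μ S * ENNReal.ofReal (Real.exp (- T))) ^ κ)
    (h' : M.μ S ≤ ENNReal.ofReal (C' * (m' : ℝ) ^ D' * Real.exp T')) :
    T ≤ T' + A + κ⁻¹ * Real.log c⁻¹ := by
  have hmR : (1 : ℝ) ≤ m := by exact_mod_cast hm
  have hmR' : (1 : ℝ) ≤ m' := by exact_mod_cast hm'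
  have h1 := (ent_vol hκ hC hm hc h).trans h'
  have hB : 0 < C * (m : ℝ) ^ D := by positivity
  have hpos : 0 < (c / (C * (m : ℝ) ^ D)) ^ κ⁻¹ := Real.rpow_pos_of_pos (by positivity) _
  rw [ENNReal.ofReal_le_ofReal_iff (by positivity)] at h1
  have h2 := Real.log_le_log (by positivity) h1
  rw [Real.log_mul (Real.exp_pos _).ne' hpos.ne', Real.log_exp, Real.log_rpow (by positivity),
    Real.log_div hc.ne' hB.ne', Real.log_mul hC.ne' (by positivity), Real.log_pow,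
    Real.log_mul (by positivity) (Real.exp_pos _).ne', Real.log_exp,
    Real.log_mul hC'.ne' (by positivity), Real.log_pow] at h2
  rw [Real.log_inv]
  have h3 := le_abs_self (Real.log C)
  have h4 := le_abs_self (Real.log C')
  have h5 : 0 < κ⁻¹ := inv_pos.2 hκ
  have h6 : κ⁻¹ * (Real.log C + D * Real.log m) ≤ κ⁻¹ * (|Real.log C| + D * Real.log m) := by
    gcongr
  nlinarith

end CapModel

end Crest.Agent.R182.Cap
end

-- ▼ part R182/CapMain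

set_option autoImplicit false
set_option linter.unusedSectionVars false

namespace Crest.Agent.R182.Cap

open MeasureTheory

variable {G H ι E : Type*} [Group G] [Group H] [MeasurableSpace H] [MeasurableMul₂ H]
    [MeasurableInv H] [Fintype ι] [NormedAddCommGroup E] [NormedSpace ℝ E]

namespace CapModel

variable {M : CapModel G H ι E}

/-- the data of a star of vertical chains: `d k` is a chain of `r` steps of length `≤ s` from `1` to
`c k`, the `c k` (`k ≤ q`) are verticals of length `≤ m`, `c 0 = 1`. -/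
structure StarData (M : CapModel G H ι E) (q r m : ℕ) (s : ℝ) (c : ℕ → G) (d : ℕ → ℕ → G) :
    Prop where
  one_le : 1 ≤ m
  c_zero : c 0 = 1
  c_mem : ∀ k ≤ q, c k ∈ M.Cl m
  d_zero : ∀ k, d k 0 = 1
  d_end : ∀ k, d k r = c k
  step : ∀ k, ∀ j < r, M.dst (d k j) (d k (j + 1)) ≤ s
  le_s : 2 * M.C0 ≤ s
  r_le : r ≤ m
  s_le : s ≤ m

/-- the number of steps in the image of a walk -/
theorem steps_le {C0 K s : ℝ} {L r m : ℕ} (hC0 : 1 ≤ C0) (hK : 1 ≤ K) (hm : 1 ≤ m) (hr : r ≤ m)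
    (hs : s ≤ m) :
    L * ((2 * r + 1) * ⌈C0 * (K * s + K + 1)⌉₊) ≤ (3 * (L + 1) * ⌈4 * C0 * K⌉₊) * m ^ 2 := by
  have hmR : (1 : ℝ) ≤ m := by exact_mod_cast hm
  have h1 : ⌈C0 * (K * s + K + 1)⌉₊ ≤ ⌈4 * C0 * K⌉₊ * m := by
    apply Nat.ceil_le.2
    push_cast
    have h2 : C0 * (K * s + K + 1) ≤ C0 * (4 * K * m) := by
      have h3 : K * s ≤ K * m := by gcongr
      have h4 : K ≤ K * m := by nlinarith
      gcongr
      nlinarith
    calc C0 * (K * s + K + 1) ≤ C0 * (4 * K * m) := h2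
      _ = 4 * C0 * K * m := by ring
      _ ≤ ⌈4 * C0 * K⌉₊ * m := by gcongr; exact Nat.le_ceil _
  calc L * ((2 * r + 1) * ⌈C0 * (K * s + K + 1)⌉₊)
      ≤ (L + 1) * ((3 * m) * (⌈4 * C0 * K⌉₊ * m)) := by
        gcongr
        · omega
        · omega
    _ = (3 * (L + 1) * ⌈4 * C0 * K⌉₊) * m ^ 2 := by ring

/-- **connectedness along the walk**, at a general base vertex `g0`. -/
theorem conn_walk' {K : ℝ} {Ψ : G → G} (hΨ : QI M K Ψ) {q r m : ℕ} {s : ℝ} {c : ℕ → G}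
    {d : ℕ → ℕ → G} (hst : StarData M q r m s c d) {x : G} {ω : ℕ → H × H} (L : ℕ)
    (hω : ∀ j < L, (ω j).1 ∈ M.V ∧ (ω j).2 ∈ M.V) {Z : ι → ℝ}
    (hL : 1 ≤ L)
    (hZ : ∀ j < L, ∀ t ≤ r, ∀ i, M.S.l i (M.hgt (Ψ (x * M.emb
      (Star.wk (M.mv c q) 1 ω j) * d (j % (q + 1)) t))) + M.C0 ^ 4 * (K * s + K + 1) ≤ Z i)
    (hZ' : ∀ j < L, ∀ t ≤ r, ∀ i, M.S.l i (M.hgt (Ψ (x * M.emb
      (Star.wk (M.mv c q) 1 ω (j + 1)) * d (j % (q + 1)) t)))
        + M.C0 ^ 4 * (K * s + K + 1) ≤ Z i) :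
    M.Conn Z ((3 * (L + 1) * ⌈4 * M.C0 * K⌉₊) * m ^ 2) (Ψ x)
      (Ψ (x * M.emb (Star.wk (M.mv c q) 1 ω L))) := by
  have hs0 : 0 ≤ s := le_trans (by have := M.C0_pos; linarith) hst.le_s
  have h1 := conn_walk (M := M) hΨ (x := x) (c := fun j => c (j % (q + 1)))
    (d := fun j => d (j % (q + 1))) (r := r) (s := s) (fun k => hst.d_zero _)
    (fun k => hst.d_end _) (fun k => hst.step _) hst.le_s (Nat.le_ceil _) (Z := Z) (q := 1)
    (ω := ω) L hω (by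
      intro i
      have h2 := hZ 0 (by omega) 0 (Nat.zero_le _) i
      simp only [Star.wk, hst.d_zero, mul_one] at h2
      have : 0 ≤ M.C0 ^ 4 * (K * s + K + 1) := by
        have := M.C0_pos; have := hΨ.one_le
        positivity
      linarith) hZ hZ'
  rw [map_one, mul_one] at h1
  exact h1.extend (steps_le M.one_le_C0 hΨ.one_le hst.one_le hst.r_le hst.s_le)

/-- **CAP** at the base vertex `1` starting at `1`. -/
theorem cap_one (hR : M.Reach) (hE : M.Ent) {K : ℝ} (hK : 1 ≤ K) (q : ℕ) : ∃ L0 : ℕ, ∀ L ≥ L0,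
    ∃ A : ℝ, 0 ≤ A ∧ ∀ Ψ : G → G, QI M K Ψ → ∀ (r m : ℕ) (s : ℝ) (c : ℕ → G) (d : ℕ → ℕ → G),
    StarData M q r m s c d → ∀ Zs Zt : ι → ℝ, (∀ i, 0 ≤ Zs i) → (∀ i, 0 ≤ Zt i) →
    (∀ i, ∃ j ≤ q, Zs i ≤ max 0 (M.S.l i (M.hgt (c j)))) →
    ∀ (x : G) (Ω : Set (Fin L → H × H)) (η : ℝ), 0 < η →
    ENNReal.ofReal η ≤ (Measure.pi fun _ : Fin L => M.ν.prod M.ν) Ω →
    (∀ ω ∈ Ω, ∀ j < L, ∀ t ≤ r, ∀ i, M.S.l i (M.hgt (Ψ (x * M.emb
      (Star.wk (M.mv c q) 1 (Star.extω ω) j) * d (j % (q + 1)) t))) ≤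
        M.S.l i (M.hgt (Ψ x)) + Zt i) →
    (∀ ω ∈ Ω, ∀ j < L, ∀ t ≤ r, ∀ i, M.S.l i (M.hgt (Ψ (x * M.emb
      (Star.wk (M.mv c q) 1 (Star.extω ω) (j + 1)) * d (j % (q + 1)) t))) ≤
        M.S.l i (M.hgt (Ψ x)) + Zt i) →
    M.S.Gt Zs ≤ M.S.Gt Zt + A * (s + 1) + A * Real.log m + A * |Real.log η| := by
  obtain ⟨L0, hL0⟩ := hE q
  refine ⟨L0 + 1, fun L hL => ?_⟩
  obtain ⟨κ, C, D, hκ, hC, hent⟩ := hL0 L (by omega)
  obtain ⟨C', D', hC', hvol⟩ := vol_le_reach hR hK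
  set k1 : ℕ := 3 * (L + 1) * ⌈4 * M.C0 * K⌉₊ with hk1
  have hC0 := M.one_le_C0
  have hk1p : 1 ≤ k1 := by
    have : 1 ≤ ⌈4 * M.C0 * K⌉₊ := Nat.one_le_ceil_iff.2 (by positivity)
    rw [hk1]; nlinarith
  have hk1R : (1 : ℝ) ≤ k1 := by exact_mod_cast hk1p
  set A1 : ℝ := M.S.Lip * (M.C0 ^ 4 * (2 * K + 1)) with hA1
  set A2 : ℝ := κ⁻¹ * D + 2 * D' with hA2
  set A3 : ℝ := κ⁻¹ * |Real.log C| + |Real.log C'| + D' * Real.log k1 with hA3
  have hLip := M.S.Lip_nonneg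
  have hA1p : 0 ≤ A1 := by positivity
  have hA2p : 0 ≤ A2 := by positivity
  have hA3p : 0 ≤ A3 := by
    have : 0 ≤ Real.log k1 := Real.log_nonneg hk1R
    positivity
  refine ⟨A1 + A2 + A3 + κ⁻¹, by positivity, ?_⟩
  intro Ψ hΨ r m s c d hst Zs Zt hZs hZt hZc x Ω η hη hΩ h1 h2
  have hmR : (1 : ℝ) ≤ m := by exact_mod_cast hst.one_le
  have hs0 : 0 ≤ s := le_trans (by have := M.C0_pos; linarith) hst.le_s
  set C1 : ℝ := M.C0 ^ 4 * (K * s + K + 1) with hC1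
  have hC1p : 0 ≤ C1 := by positivity
  set m' : ℕ := k1 * m ^ 2 with hm'
  have hm'1 : 1 ≤ m' := by rw [hm']; exact Nat.mul_pos hk1p (pow_pos hst.one_le 2)
  set S : Set H := {n | M.Conn (fun i => M.S.l i (M.hgt (Ψ x)) + (Zt i + C1)) m' (Ψ x)
    (Ψ (x * M.emb n))} with hS
  have hSle : M.μ S ≤ ENNReal.ofReal (C' * (m' : ℝ) ^ D' *
      Real.exp (M.S.Gt fun i => Zt i + C1)) :=
    hvol Ψ hΨ x S (Ψ x) (fun i => Zt i + C1) m' (fun i => by linarith [hZt i]) hm'1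
      (fun n hn => hn)
  have hP : ENNReal.ofReal η ≤ (Measure.pi fun _ : Fin L => M.ν.prod M.ν)
      {ω | Star.wk (M.mv c q) 1 (Star.extω ω) L ∈ toMeasurable M.μ S} := by
    refine hΩ.trans (measure_mono_ae ?_)
    filter_upwards [ae_pi_mem_V M L] with ω hω hωΩ
    apply subset_toMeasurable
    refine conn_walk' hΨ hst L ?_ (by omega) ?_ ?_
    · intro j hj
      rw [Star.extω_of_lt ω hj]; exact hω ⟨j, hj⟩
    · intro j hj t ht i
      have := h1 ω hωΩ j hj t ht i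
      linarith
    · intro j hj t ht i
      have := h2 ω hωΩ j hj t ht i
      linarith
  have hE1 := hP.trans (hent m c hst.one_le hst.c_zero hst.c_mem Zs hZs hZc _
    (measurableSet_toMeasurable _ _))
  rw [measure_toMeasurable] at hE1
  have h3 := exponent_le (M := M) hκ hC hC' hst.one_le hm'1 hη le_rfl hE1 hSle
  have h4 : M.S.Gt (fun i => Zt i + C1) ≤ M.S.Gt Zt + M.S.Lip * C1 :=
    M.S.Gt_le_add hC1p fun i => le_rfl
  have h5 : M.S.Lip * C1 ≤ A1 * (s + 1) := by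
    rw [hA1, hC1]
    have h6 : K * s + K + 1 ≤ (2 * K + 1) * (s + 1) := by nlinarith
    calc M.S.Lip * (M.C0 ^ 4 * (K * s + K + 1)) ≤ M.S.Lip * (M.C0 ^ 4 * ((2 * K + 1) * (s + 1))) := by
          gcongr
      _ = _ := by ring
  have h6 : Real.log (m' : ℝ) = Real.log k1 + 2 * Real.log m := by
    rw [hm']
    push_cast
    rw [Real.log_mul (by positivity) (by positivity), Real.log_pow]
    push_cast; ring
  have hlm : 0 ≤ Real.log m := Real.log_nonneg hmR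
  have h7 : κ⁻¹ * (|Real.log C| + D * Real.log m) + |Real.log C'| + D' * Real.log m' =
      A3 + A2 * Real.log m := by
    rw [h6, hA2, hA3]; ring
  have h8 : κ⁻¹ * Real.log η⁻¹ ≤ κ⁻¹ * |Real.log η| := by
    rw [Real.log_inv]
    exact mul_le_mul_of_nonneg_left (neg_le_abs _) (inv_nonneg.2 hκ.le)
  have h9 := abs_nonneg (Real.log η)
  have hκ' : 0 < κ⁻¹ := inv_pos.2 hκ
  have h10 : A3 ≤ A3 * (s + 1) := by nlinarith
  rw [h7] at h3
  have e1 : (A1 + A2 + A3 + κ⁻¹) * (s + 1) = A1 * (s + 1) + A3 * (s + 1) + (A2 + κ⁻¹) * (s + 1) := by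
    ring
  have e2 : (A1 + A2 + A3 + κ⁻¹) * Real.log m = A2 * Real.log m + (A1 + A3 + κ⁻¹) * Real.log m := by
    ring
  have e3 : (A1 + A2 + A3 + κ⁻¹) * |Real.log η| = κ⁻¹ * |Real.log η| +
      (A1 + A2 + A3) * |Real.log η| := by ring
  have p1 : 0 ≤ (A2 + κ⁻¹) * (s + 1) := by positivity
  have p2 : 0 ≤ (A1 + A3 + κ⁻¹) * Real.log m := by positivity
  have p3 : 0 ≤ (A1 + A2 + A3) * |Real.log η| := by positivity
  linarith

/-- **CAP**, general form: base vertex `g0`, starting point `n0`. -/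
theorem cap (hR : M.Reach) (hE : M.Ent) {K : ℝ} (hK : 1 ≤ K) (q : ℕ) : ∃ L0 : ℕ, ∀ L ≥ L0,
    ∃ A : ℝ, 0 ≤ A ∧ ∀ Ψ : G → G, QI M K Ψ → ∀ (r m : ℕ) (s : ℝ) (c : ℕ → G) (d : ℕ → ℕ → G),
    StarData M q r m s c d → ∀ Zs Zt : ι → ℝ, (∀ i, 0 ≤ Zs i) → (∀ i, 0 ≤ Zt i) →
    (∀ i, ∃ j ≤ q, Zs i ≤ max 0 (M.S.l i (M.hgt (c j)))) →
    ∀ (x g0 : G) (n0 : H) (Ω : Set (Fin L → H × H)) (η : ℝ), 0 < η →
    ENNReal.ofReal η ≤ (Measure.pi fun _ : Fin L => M.ν.prod M.ν) Ω →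
    (∀ ω ∈ Ω, ∀ j < L, ∀ t ≤ r, ∀ i, M.S.l i (M.hgt (Ψ (x * M.emb
      (Star.wk (fun j => M.cj (g0 * c (j % (q + 1)))) n0 (Star.extω ω) j) * g0 *
        d (j % (q + 1)) t))) ≤ M.S.l i (M.hgt (Ψ (x * M.emb n0 * g0))) + Zt i) →
    (∀ ω ∈ Ω, ∀ j < L, ∀ t ≤ r, ∀ i, M.S.l i (M.hgt (Ψ (x * M.emb
      (Star.wk (fun j => M.cj (g0 * c (j % (q + 1)))) n0 (Star.extω ω) (j + 1)) * g0 *
        d (j % (q + 1)) t))) ≤ M.S.l i (M.hgt (Ψ (x * M.emb n0 * g0))) + Zt i) →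
    M.S.Gt Zs ≤ M.S.Gt Zt + A * (s + 1) + A * Real.log m + A * |Real.log η| := by
  obtain ⟨L0, hL0⟩ := cap_one hR hE hK q
  refine ⟨L0, fun L hL => ?_⟩
  obtain ⟨A, hA, hcap⟩ := hL0 L hL
  refine ⟨A, hA, ?_⟩
  intro Ψ hΨ r m s c d hst Zs Zt hZs hZt hZc x g0 n0 Ω η hη hΩ h1 h2
  have key : ∀ (ω : ℕ → H × H) (j : ℕ), x * M.emb
      (Star.wk (fun j => M.cj (g0 * c (j % (q + 1)))) n0 ω j) * g0 =
      (x * M.emb n0 * g0) * M.emb (Star.wk (M.mv c q) 1 ω j) := by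
    intro ω j
    rw [wk_conj M g0 (fun j => c (j % (q + 1))) n0 ω j, mul_emb_mul, cj_inv_cj,
      wk_left (fun j => M.cj (c (j % (q + 1)))) (M.cj g0⁻¹ n0) ω j, map_mul,
      M.mul_emb_mul x g0 n0]
    simp only [mul_assoc]
    rfl
  refine hcap Ψ hΨ r m s c d hst Zs Zt hZs hZt hZc (x * M.emb n0 * g0) Ω η hη hΩ ?_ ?_
  · intro ω hω j hj t ht i
    have := h1 ω hω j hj t ht i
    rwa [key] at this
  · intro ω hω j hj t ht i
    have := h2 ω hω j hj t ht i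
    rwa [key] at this

end CapModel

end Crest.Agent.R182.Cap
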