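import Mathlib
import Crest.Agent.R182.ErgLip
import Crest.Agent.R182.OneScale
import Crest.Agent.R182.CoreN
import Crest.Agent.R182.ConvG
import Crest.Agent.R182.CapFin
import Crest.Agent.R182.StarLeg
import Crest.Agent.R182.CoreX

-- ▼ part R182/LipFol
section

set_option autoImplicit false

namespace Crest.Agent.R182.Lip

open Pointwise

/-- finitely supported probability measures -/
structure FM (X : Type*) where
  ι : Type
  [fin : Fintype ι]
  w : ι → ℝ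
  p : ι → X
  w_nonneg : ∀ i, 0 ≤ w i
  w_sum : ∑ i, w i = 1

attribute [instance] FM.fin

namespace FM

variable {X Y : Type*}

/-- expectation -/
noncomputable def E (m : FM X) (f : X → ℝ) : ℝ := ∑ i, m.w i * f (m.p i)

theorem E_const (m : FM X) (c : ℝ) : m.E (fun _ => c) = c := by
  unfold E
  rw [← Finset.sum_mul, m.w_sum, one_mul]

theorem E_mono (m : FM X) {f g : X → ℝ} (h : ∀ i, f (m.p i) ≤ g (m.p i)) : m.E f ≤ m.E g :=
  Finset.sum_le_sum fun i _ => mul_le_mul_of_nonneg_left (h i) (m.w_nonneg i)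

theorem E_add (m : FM X) (f g : X → ℝ) : m.E (fun x => f x + g x) = m.E f + m.E g := by
  unfold E; rw [← Finset.sum_add_distrib]; exact Finset.sum_congr rfl fun i _ => by ring

theorem E_sub (m : FM X) (f g : X → ℝ) : m.E (fun x => f x - g x) = m.E f - m.E g := by
  unfold E; rw [← Finset.sum_sub_distrib]; exact Finset.sum_congr rfl fun i _ => by ring

theorem E_smul (m : FM X) (c : ℝ) (f : X → ℝ) : m.E (fun x => c * f x) = c * m.E f := by
  unfold E; rw [Finset.mul_sum]; exact Finset.sum_congr rfl fun i _ => by ring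

theorem E_sum {κ : Type*} (m : FM X) (s : Finset κ) (f : κ → X → ℝ) :
    m.E (fun x => ∑ j ∈ s, f j x) = ∑ j ∈ s, m.E (f j) := by
  unfold E
  rw [Finset.sum_comm]
  exact Finset.sum_congr rfl fun i _ => by rw [Finset.mul_sum]

theorem E_nonneg (m : FM X) {f : X → ℝ} (h : ∀ i, 0 ≤ f (m.p i)) : 0 ≤ m.E f :=
  Finset.sum_nonneg fun i _ => mul_nonneg (m.w_nonneg i) (h i)

theorem abs_E_le (m : FM X) {f : X → ℝ} {C : ℝ} (h : ∀ i, |f (m.p i)| ≤ C) : |m.E f| ≤ C := by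
  rw [abs_le]
  constructor
  · rw [← m.E_const (-C)]; exact m.E_mono fun i => (abs_le.1 (h i)).1
  · conv_rhs => rw [← m.E_const C]
    exact m.E_mono fun i => (abs_le.1 (h i)).2

/-- push forward -/
def map (m : FM X) (g : X → Y) : FM Y where
  ι := m.ι
  w := m.w
  p i := g (m.p i)
  w_nonneg := m.w_nonneg
  w_sum := m.w_sum

theorem E_map (m : FM X) (g : X → Y) (f : Y → ℝ) : (m.map g).E f = m.E (fun x => f (g x)) := rfl

/-- the law of `g x y`, `x, y` independent -/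
def bind {Z : Type*} (m : FM X) (m' : FM Y) (g : X → Y → Z) : FM Z where
  ι := m.ι × m'.ι
  w i := m.w i.1 * m'.w i.2
  p i := g (m.p i.1) (m'.p i.2)
  w_nonneg i := mul_nonneg (m.w_nonneg _) (m'.w_nonneg _)
  w_sum := by
    rw [Fintype.sum_prod_type]
    simp only [← Finset.mul_sum, m'.w_sum, mul_one, m.w_sum]

theorem E_bind {Z : Type*} (m : FM X) (m' : FM Y) (g : X → Y → Z) (f : Z → ℝ) :
    (m.bind m' g).E f = m.E (fun x => m'.E (fun y => f (g x y))) := by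
  unfold E bind
  rw [Fintype.sum_prod_type]
  refine Finset.sum_congr rfl fun i _ => ?_
  rw [Finset.mul_sum]
  exact Finset.sum_congr rfl fun j _ => by ring

/-- point mass -/
def dirac (x : X) : FM X where
  ι := Unit
  w _ := 1
  p _ := x
  w_nonneg _ := zero_le_one
  w_sum := by simp


/-- uniform law on `0, …, n` -/
noncomputable def unif (n : ℕ) : FM ℕ where
  ι := Fin (n + 1)
  w _ := 1 / (n + 1)
  p i := i
  w_nonneg _ := by positivity
  w_sum := by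
    simp only [Finset.sum_const, Finset.card_univ, Fintype.card_fin, nsmul_eq_mul]
    push_cast
    field_simp

theorem E_unif (n : ℕ) (f : ℕ → ℝ) :
    (unif n).E f = 1 / (n + 1) * ∑ i ∈ Finset.range (n + 1), f i := by
  unfold E unif
  rw [← Finset.mul_sum, Finset.sum_range]

end FM

/-- Reiter's condition (right translations), in dual form -/
def Reiter (H : Type*) [Group H] : Prop :=
  ∀ (T : Finset H) (ε : ℝ), 0 < ε → ∃ m : FM H, ∀ t ∈ T, ∀ (Φ : H → ℝ) (C : ℝ),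
    (∀ x, |Φ x| ≤ C) → |m.E (fun x => Φ (x * t)) - m.E Φ| ≤ ε * C

section Reiter

theorem reiter_of_subsingleton {H : Type*} [Group H] [Subsingleton H] : Reiter H := by
  intro T ε hε
  refine ⟨FM.dirac 1, fun t _ Φ C hC => ?_⟩
  have ht : t = 1 := Subsingleton.elim _ _
  subst ht
  simp only [mul_one, sub_self, abs_zero]
  exact mul_nonneg hε.le ((abs_nonneg _).trans (hC 1))

theorem reiter_of_comm {H : Type*} [Group H] (hc : ∀ x y : H, x * y = y * x) : Reiter H := by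
  classical
  intro T ε hε
  induction T using Finset.induction_on with
  | empty => exact ⟨FM.dirac 1, fun t ht => absurd ht (Finset.notMem_empty t)⟩
  | insert t T _ ih =>
    obtain ⟨m, hm⟩ := ih
    obtain ⟨n, hn⟩ := exists_nat_gt (2 / ε)
    refine ⟨(FM.unif n).bind m (fun j x => x * t ^ j), fun t' ht' Φ C hC => ?_⟩
    have hC0 : 0 ≤ C := (abs_nonneg _).trans (hC 1)
    rw [FM.E_bind, FM.E_bind]
    rcases Finset.mem_insert.1 ht' with rfl | ht'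
    · -- the new element
      rw [FM.E_unif, FM.E_unif, ← mul_sub, ← Finset.sum_sub_distrib]
      have h1 : ∑ i ∈ Finset.range (n + 1), (m.E (fun y => Φ (y * t' ^ i * t')) -
          m.E (fun y => Φ (y * t' ^ i))) =
          m.E (fun y => Φ (y * t' ^ (n + 1))) - m.E (fun y => Φ (y * t' ^ 0)) := by
        rw [← Finset.sum_range_sub (fun i => m.E (fun y => Φ (y * t' ^ i)))]
        refine Finset.sum_congr rfl fun i _ => ?_
        congr 2
        funext y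
        rw [pow_succ, mul_assoc]
      rw [h1, abs_mul]
      have h2 : |m.E (fun y => Φ (y * t' ^ (n + 1))) - m.E (fun y => Φ (y * t' ^ 0))| ≤ 2 * C := by
        have e1 := m.abs_E_le (f := fun y => Φ (y * t' ^ (n + 1))) fun i => hC _
        have e2 := m.abs_E_le (f := fun y => Φ (y * t' ^ 0)) fun i => hC _
        rw [abs_le] at e1 e2 ⊢
        constructor <;> linarith [e1.1, e1.2, e2.1, e2.2]
      have h3 : (0:ℝ) < n + 1 := by positivity
      rw [abs_of_pos (by positivity)]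
      calc 1 / (n + 1 : ℝ) * |m.E (fun y => Φ (y * t' ^ (n + 1))) - m.E (fun y => Φ (y * t' ^ 0))|
          ≤ 1 / (n + 1 : ℝ) * (2 * C) := by gcongr
        _ = (2 / (n + 1)) * C := by ring
        _ ≤ ε * C := by
          gcongr
          rw [div_le_iff₀ h3]
          rw [div_lt_iff₀ hε] at hn
          nlinarith
    · have h1 : ∀ j : ℕ, |m.E (fun y => Φ (y * t ^ j * t')) - m.E (fun y => Φ (y * t ^ j))| ≤
          ε * C := by
        intro j
        have := hm t' ht' (fun y => Φ (y * t ^ j)) C (fun x => hC _)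
        have e1 : (fun y => Φ (y * t' * t ^ j)) = fun y => Φ (y * t ^ j * t') := by
          funext y; rw [mul_assoc, mul_assoc, hc t']
        rwa [e1] at this
      rw [← FM.E_sub]
      exact FM.abs_E_le _ fun i => h1 _

theorem reiter_ext {H : Type*} [Group H] (A : Subgroup H) [A.Normal] (hA : Reiter A)
    (hB : Reiter (H ⧸ A)) : Reiter H := by
  classical
  intro T ε hε
  obtain ⟨mB, hmB⟩ := hB (T.image (QuotientGroup.mk' A)) (ε / 2) (half_pos hε)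
  let s : H ⧸ A → H := Quotient.out
  have hs : ∀ b, ((s b : H) : H ⧸ A) = b := fun b => QuotientGroup.out_eq' b
  have hmem : ∀ (b : H ⧸ A) (t : H), s b * t * (s (b * t))⁻¹ ∈ A := by
    intro b t
    rw [← QuotientGroup.eq_one_iff, QuotientGroup.mk_mul, QuotientGroup.mk_mul,
      QuotientGroup.mk_inv, hs, hs]
    group
  let a : H ⧸ A → H → A := fun b t => ⟨s b * t * (s (b * t))⁻¹, hmem b t⟩
  obtain ⟨mA, hmA⟩ := hA (Finset.univ.biUnion fun i => T.image fun t => a (mB.p i) t) (ε / 2)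
    (half_pos hε)
  refine ⟨mB.bind mA (fun b x => (x : H) * s b), fun t ht Φ C hC => ?_⟩
  rw [FM.E_bind, FM.E_bind]
  set Ψ : H ⧸ A → ℝ := fun b => mA.E (fun x => Φ ((x : H) * s b)) with hΨ
  have hΨC : ∀ b, |Ψ b| ≤ C := fun b => mA.abs_E_le fun i => hC _
  have h1 := hmB (t : H ⧸ A) (Finset.mem_image_of_mem _ ht) Ψ C hΨC
  have h2 : |mB.E (fun b => mA.E (fun x => Φ ((x : H) * s b * t))) -
      mB.E (fun b => Ψ (b * (t : H ⧸ A)))| ≤ ε / 2 * C := by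
    rw [← FM.E_sub]
    refine FM.abs_E_le _ fun i => ?_
    have h3 := hmA (a (mB.p i) t) (Finset.mem_biUnion.2 ⟨i, Finset.mem_univ _,
      Finset.mem_image_of_mem _ ht⟩) (fun x => Φ ((x : H) * s (mB.p i * (t : H ⧸ A)))) C
      (fun x => hC _)
    have e1 : (fun x : A => Φ (((x * a (mB.p i) t : A) : H) * s (mB.p i * (t : H ⧸ A)))) =
        fun x : A => Φ ((x : H) * s (mB.p i) * t) := by
      funext x
      congr 1
      simp only [a, Subgroup.coe_mul]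
      group
    rw [e1] at h3
    exact h3
  rw [abs_le] at h1 h2 ⊢
  constructor <;> linarith [h1.1, h1.2, h2.1, h2.2]

theorem reiter_of_derivedSeries (n : ℕ) : ∀ (H : Type*) [Group H], derivedSeries H n = ⊥ →
    Reiter H := by
  induction n with
  | zero =>
    intro H _ h
    rw [derivedSeries_zero] at h
    have : Subsingleton H := by
      rw [subsingleton_iff_forall_eq 1]
      intro y
      have : y ∈ (⊤ : Subgroup H) := Subgroup.mem_top y
      rw [h] at this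
      exact Subgroup.mem_bot.1 this
    exact reiter_of_subsingleton
  | succ n ih =>
    intro H _ h
    have hn : (derivedSeries H n).Normal := derivedSeries_normal H n
    refine reiter_ext (derivedSeries H n) (reiter_of_comm ?_) (ih _ ?_)
    · intro x y
      rw [derivedSeries_succ] at h
      have : (x : H) * y * (x : H)⁻¹ * (y : H)⁻¹ ∈ (⊥ : Subgroup H) := by
        rw [← h]
        exact Subgroup.commutator_mem_commutator x.2 y.2
      rw [Subgroup.mem_bot] at this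
      apply Subtype.ext
      rw [Subgroup.coe_mul, Subgroup.coe_mul]
      have h2 : (x : H) * y = y * x := by
        have := mul_inv_eq_one.1 this
        have := mul_inv_eq_iff_eq_mul.1 this
        exact this
      exact h2
    · have h1 := map_derivedSeries_eq (f := QuotientGroup.mk' (derivedSeries H n))
        (QuotientGroup.mk'_surjective _) n
      rw [← h1, eq_bot_iff, Subgroup.map_le_iff_le_comap]
      intro x hx
      rw [Subgroup.mem_comap, Subgroup.mem_bot]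
      exact (QuotientGroup.eq_one_iff x).2 hx

/-- Solvable groups satisfy Reiter's condition. -/
theorem reiter_of_isSolvable (H : Type*) [Group H] [h : Group.IsSolvable H] : Reiter H := by
  obtain ⟨n, hn⟩ := h.solvable
  exact reiter_of_derivedSeries n H hn

end Reiter

/-! ### separated sets and good scales -/

section Scale

variable {H : Type*} [Group H] (Λ : Set H)

/-- `r`-separated sets -/
def Sep (Y : Finset H) (r : ℕ) : Prop := ∀ x ∈ Y, ∀ y ∈ Y, x⁻¹ * y ∈ Λ ^ r → x = y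

/-- polynomial growth of `Λ`-separated sets -/
def PolyGr (A : ℕ) : Prop := ∀ (n : ℕ) (Y : Finset H), (∀ y ∈ Y, y ∈ Λ ^ n) → Sep Λ Y 2 →
  Y.card ≤ A * (1 + n) ^ A

/-- the cardinality of a largest separated set in the ball -/
noncomputable def qc (n : ℕ) : ℕ :=
  sSup {c | ∃ Y : Finset H, (∀ y ∈ Y, y ∈ Λ ^ n) ∧ Sep Λ Y 2 ∧ Y.card = c}

variable {Λ}

theorem pow_mono (h1 : (1 : H) ∈ Λ) {m n : ℕ} (h : m ≤ n) : Λ ^ m ⊆ Λ ^ n :=
  Set.pow_subset_pow_right h1 h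

theorem inv_mem_pow (hinv : Λ⁻¹ = Λ) {n : ℕ} {x : H} (hx : x ∈ Λ ^ n) : x⁻¹ ∈ Λ ^ n := by
  rw [← hinv, inv_pow, Set.mem_inv, inv_inv]
  exact hx

theorem mul_mem_pow {m n : ℕ} {x y : H} (hx : x ∈ Λ ^ m) (hy : y ∈ Λ ^ n) :
    x * y ∈ Λ ^ (m + n) := by
  rw [pow_add]; exact Set.mul_mem_mul hx hy

theorem Sep.mono (h1 : (1 : H) ∈ Λ) {Y : Finset H} {r r' : ℕ} (h : Sep Λ Y r') (hr : r ≤ r') :
    Sep Λ Y r := fun x hx y hy hxy => h x hx y hy (pow_mono h1 hr hxy)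

theorem qc_bdd {A : ℕ} (hA : PolyGr Λ A) (n : ℕ) :
    BddAbove {c | ∃ Y : Finset H, (∀ y ∈ Y, y ∈ Λ ^ n) ∧ Sep Λ Y 2 ∧ Y.card = c} := by
  refine ⟨A * (1 + n) ^ A, ?_⟩
  rintro c ⟨Y, hY, hs, rfl⟩
  exact hA n Y hY hs

theorem card_le_qc {A : ℕ} (hA : PolyGr Λ A) {n : ℕ} {Y : Finset H} (hY : ∀ y ∈ Y, y ∈ Λ ^ n)
    (hs : Sep Λ Y 2) : Y.card ≤ qc Λ n := le_csSup (qc_bdd hA n) ⟨Y, hY, hs, rfl⟩

theorem exists_qc (h1 : (1 : H) ∈ Λ) {A : ℕ} (hA : PolyGr Λ A) (n : ℕ) :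
    ∃ Y : Finset H, (∀ y ∈ Y, y ∈ Λ ^ n) ∧ Sep Λ Y 2 ∧ Y.card = qc Λ n := by
  have hne : {c | ∃ Y : Finset H, (∀ y ∈ Y, y ∈ Λ ^ n) ∧ Sep Λ Y 2 ∧ Y.card = c}.Nonempty := by
    refine ⟨1, {1}, fun y hy => ?_, fun x hx y hy _ => ?_, Finset.card_singleton _⟩
    · rw [Finset.mem_singleton] at hy; subst hy; exact Set.one_mem_pow h1
    · rw [Finset.mem_singleton] at hx hy; rw [hx, hy]
  exact Nat.sSup_mem hne (qc_bdd hA n)

theorem one_le_qc (h1 : (1 : H) ∈ Λ) {A : ℕ} (hA : PolyGr Λ A) (n : ℕ) : 1 ≤ qc Λ n := by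
  have := card_le_qc (Λ := Λ) (n := n) (Y := {1}) hA (fun y hy => by
    rw [Finset.mem_singleton] at hy; subst hy; exact Set.one_mem_pow h1)
    (fun x hx y hy _ => by rw [Finset.mem_singleton] at hx hy; rw [hx, hy])
  simpa using this

theorem qc_le (h1 : (1 : H) ∈ Λ) {A : ℕ} (hA : PolyGr Λ A) (n : ℕ) :
    qc Λ n ≤ A * (1 + n) ^ A := by
  obtain ⟨Y, hY, hs, hc⟩ := exists_qc h1 hA n
  rw [← hc]; exact hA n Y hY hs

theorem qc_mono (h1 : (1 : H) ∈ Λ) {A : ℕ} (hA : PolyGr Λ A) {m n : ℕ} (h : m ≤ n) :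
    qc Λ m ≤ qc Λ n := by
  obtain ⟨Y, hY, hs, hc⟩ := exists_qc h1 hA m
  rw [← hc]; exact card_le_qc hA (fun y hy => pow_mono h1 h (hY y hy)) hs

/-- packing -/
theorem packing (h1 : (1 : H) ∈ Λ) (hinv : Λ⁻¹ = Λ) {A : ℕ} (hA : PolyGr Λ A) {n r s : ℕ}
    (hr : 2 * s + 2 ≤ r) {P : Finset H} (g : H) (hP : ∀ y ∈ P, g⁻¹ * y ∈ Λ ^ n)
    (hs : Sep Λ P r) : P.card * qc Λ s ≤ qc Λ (n + s) := by
  classical
  obtain ⟨Y, hY, hYs, hc⟩ := exists_qc h1 hA s
  rw [← hc, ← Finset.card_product]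
  have hinj : Set.InjOn (fun z : H × H => g⁻¹ * z.1 * z.2) (P ×ˢ Y : Finset (H × H)) := by
    rintro ⟨p, y⟩ hp ⟨p', y'⟩ hp' he
    simp only [Finset.coe_product, Set.mem_prod, Finset.mem_coe] at hp hp'
    simp only at he
    have e0 : p * y = p' * y' := by
      have := congrArg (fun z => g * z) he
      simpa [mul_assoc] using this
    have e1 : p⁻¹ * p' = y * y'⁻¹ := by
      rw [inv_mul_eq_iff_eq_mul, ← mul_assoc, e0]; group
    have e2 : p⁻¹ * p' ∈ Λ ^ r := by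
      rw [e1]
      exact pow_mono h1 (by omega) (mul_mem_pow (hY y hp.2) (inv_mem_pow hinv (hY y' hp'.2)))
    have e3 := hs p hp.1 p' hp'.1 e2
    subst e3
    have e4 := mul_left_cancel e0
    subst e4
    rfl
  rw [← Finset.card_image_of_injOn hinj]
  refine card_le_qc hA ?_ ?_
  · intro z hz
    obtain ⟨⟨p, y⟩, hpy, rfl⟩ := Finset.mem_image.1 hz
    rw [Finset.mem_product] at hpy
    exact mul_mem_pow (hP p hpy.1) (hY y hpy.2)
  · intro z hz z' hz' hzz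
    obtain ⟨⟨p, y⟩, hpy, rfl⟩ := Finset.mem_image.1 hz
    obtain ⟨⟨p', y'⟩, hpy', rfl⟩ := Finset.mem_image.1 hz'
    rw [Finset.mem_product] at hpy hpy'
    simp only at hpy hpy' hzz ⊢
    have e1 : p⁻¹ * p' = y * ((g⁻¹ * p * y)⁻¹ * (g⁻¹ * p' * y')) * y'⁻¹ := by group
    have e2 : p⁻¹ * p' ∈ Λ ^ r := by
      rw [e1]
      have := mul_mem_pow (mul_mem_pow (hY y hpy.2) hzz) (inv_mem_pow hinv (hY y' hpy'.2))
      exact pow_mono h1 (by omega) this
    have e3 := hs p hpy.1 p' hpy'.1 e2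
    subst e3
    have e4 : (g⁻¹ * p * y)⁻¹ * (g⁻¹ * p * y') = y⁻¹ * y' := by group
    rw [e4] at hzz
    have e5 := hYs y hpy.2 y' hpy'.2 hzz
    subst e5
    rfl

/-- good scales -/
theorem exists_scale (q : ℕ → ℕ) (hq1 : ∀ n, 1 ≤ q n) {A : ℕ} (hq : ∀ n, q n ≤ A * (1 + n) ^ A)
    {l : ℕ} (hl : 2 ≤ l) (N1 : ℕ) : ∃ s, N1 ≤ s ∧ q (l * s) ≤ l ^ (A + 1) * q s := by
  by_contra hcon
  push Not at hcon
  set M0 := max N1 1 with hM0
  have hM1 : 1 ≤ M0 := le_max_right _ _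
  have key : ∀ k : ℕ, l ^ ((A + 1) * k) ≤ q (l ^ k * M0) := by
    intro k
    induction k with
    | zero => simpa using hq1 _
    | succ k ih =>
      have h1 := hcon (l ^ k * M0) ((le_max_left _ _).trans (Nat.le_mul_of_pos_left _ (by positivity)))
      have e1 : l * (l ^ k * M0) = l ^ (k + 1) * M0 := by ring
      rw [e1] at h1
      have e2 : l ^ ((A + 1) * (k + 1)) = l ^ (A + 1) * l ^ ((A + 1) * k) := by
        rw [← pow_add]; congr 1; ring
      rw [e2]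
      exact (Nat.mul_le_mul_left _ ih).trans h1.le
  have h2 : ∀ k : ℕ, l ^ k ≤ A * (2 * M0) ^ A := by
    intro k
    have h3 := (key k).trans (hq _)
    have h4 : 1 + l ^ k * M0 ≤ l ^ k * (2 * M0) := by
      have : 1 ≤ l ^ k * M0 := Nat.one_le_iff_ne_zero.2 (by positivity)
      nlinarith
    have h5 : A * (1 + l ^ k * M0) ^ A ≤ A * (l ^ k * (2 * M0)) ^ A := by gcongr
    have h6 : A * (l ^ k * (2 * M0)) ^ A = l ^ (A * k) * (A * (2 * M0) ^ A) := by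
      rw [mul_pow, ← pow_mul, mul_comm k A]; ring
    have h7 : l ^ ((A + 1) * k) = l ^ (A * k) * l ^ k := by rw [← pow_add]; congr 1; ring
    have h8 := h3.trans (h5.trans h6.le)
    rw [h7] at h8
    exact Nat.le_of_mul_le_mul_left h8 (by positivity)
  have h3 := h2 (A * (2 * M0) ^ A)
  have h4 : A * (2 * M0) ^ A < 2 ^ (A * (2 * M0) ^ A) := Nat.lt_two_pow_self
  have h5 : 2 ^ (A * (2 * M0) ^ A) ≤ l ^ (A * (2 * M0) ^ A) := Nat.pow_le_pow_left hl _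
  omega

/-- maximal separated subsets -/
theorem exists_maxSep (h1 : (1 : H) ∈ Λ) (hinv : Λ⁻¹ = Λ) (X : Finset H) (r : ℕ) :
    ∃ Y ⊆ X, Sep Λ Y r ∧ ∀ x ∈ X, ∃ y ∈ Y, y⁻¹ * x ∈ Λ ^ r := by
  classical
  induction X using Finset.induction_on with
  | empty => exact ⟨∅, le_rfl, fun x hx => absurd hx (Finset.notMem_empty x),
      fun x hx => absurd hx (Finset.notMem_empty x)⟩
  | insert a X _ ih =>
    obtain ⟨Y, hYX, hY, hcov⟩ := ih
    by_cases h : ∃ y ∈ Y, y⁻¹ * a ∈ Λ ^ r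
    · refine ⟨Y, hYX.trans (Finset.subset_insert _ _), hY, fun x hx => ?_⟩
      rcases Finset.mem_insert.1 hx with rfl | hx
      · exact h
      · exact hcov x hx
    · push Not at h
      refine ⟨insert a Y, Finset.insert_subset_insert _ hYX, ?_, ?_⟩
      · intro x hx y hy hxy
        rcases Finset.mem_insert.1 hx with rfl | hx' <;> rcases Finset.mem_insert.1 hy with rfl | hy'
        · rfl
        · exfalso
          have := inv_mem_pow hinv hxy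
          rw [mul_inv_rev, inv_inv] at this
          exact h y hy' this
        · exact absurd hxy (h x hx')
        · exact hY x hx' y hy' hxy
      · intro x hx
        rcases Finset.mem_insert.1 hx with rfl | hx
        · exact ⟨x, Finset.mem_insert_self _ _, by rw [inv_mul_cancel]; exact Set.one_mem_pow h1⟩
        · obtain ⟨y, hy, hxy⟩ := hcov x hx
          exact ⟨y, Finset.mem_insert_of_mem hy, hxy⟩

/-! ### the cut-off function -/

/-- truncated word length -/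
noncomputable def ell (Λ : Set H) (R : ℕ) (x : H) : ℕ := sInf {n | x ∈ Λ ^ n ∨ n = R}

theorem ell_le (R : ℕ) (x : H) : ell Λ R x ≤ R := Nat.sInf_le (Or.inr rfl)

theorem ell_le_of_mem {R n : ℕ} {x : H} (h : x ∈ Λ ^ n) : ell Λ R x ≤ n := Nat.sInf_le (Or.inl h)

theorem mem_of_ell_lt {R : ℕ} {x : H} (h : ell Λ R x < R) : x ∈ Λ ^ (ell Λ R x) := by
  have : (ell Λ R x) ∈ {n | x ∈ Λ ^ n ∨ n = R} := Nat.sInf_mem ⟨R, Or.inr rfl⟩
  rcases this with h' | h'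
  · exact h'
  · omega

theorem ell_mul_le {R w : ℕ} {x k : H} (hk : k ∈ Λ ^ w) : ell Λ R (x * k) ≤ ell Λ R x + w := by
  rcases (ell_le (Λ := Λ) R x).lt_or_eq with h | h
  · exact ell_le_of_mem (mul_mem_pow (mem_of_ell_lt h) hk)
  · rw [h]; exact (ell_le R _).trans (Nat.le_add_right _ _)

/-- cut-off function -/
noncomputable def psi (Λ : Set H) (R : ℕ) (x : H) : ℝ := 1 - ell Λ R x / R

theorem psi_nonneg (R : ℕ) (x : H) : 0 ≤ psi Λ R x := by
  unfold psi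
  rcases Nat.eq_zero_or_pos R with rfl | hR
  · simp
  have : (ell Λ R x : ℝ) ≤ R := by exact_mod_cast ell_le R x
  have hR' : (0:ℝ) < R := by exact_mod_cast hR
  rw [sub_nonneg, div_le_one hR']
  exact this

theorem psi_le_one (R : ℕ) (x : H) : psi Λ R x ≤ 1 := by
  unfold psi
  have : (0:ℝ) ≤ (ell Λ R x : ℝ) / R := by positivity
  linarith

theorem mem_of_psi_ne (h1 : (1 : H) ∈ Λ) {R : ℕ} (hR : 0 < R) {x : H} (h : psi Λ R x ≠ 0) :
    x ∈ Λ ^ R := by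
  have hlt : ell Λ R x < R := by
    refine lt_of_le_of_ne (ell_le R x) fun he => h ?_
    unfold psi
    rw [he, div_self (by exact_mod_cast hR.ne'), sub_self]
  exact pow_mono h1 hlt.le (mem_of_ell_lt hlt)

theorem half_le_psi {R r : ℕ} (hR : 0 < R) (hr : 2 * r ≤ R) {x : H} (h : x ∈ Λ ^ r) :
    1 / 2 ≤ psi Λ R x := by
  unfold psi
  have h1 : (ell Λ R x : ℝ) ≤ r := by exact_mod_cast ell_le_of_mem h
  have h2 : (2:ℝ) * r ≤ R := by exact_mod_cast hr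
  have hR' : (0:ℝ) < R := by exact_mod_cast hR
  have h3 : (ell Λ R x : ℝ) / R ≤ 1 / 2 := by
    rw [div_le_iff₀ hR']; linarith
  linarith

theorem psi_lip (hinv : Λ⁻¹ = Λ) {R w : ℕ} (hR : 0 < R) {x k : H} (hk : k ∈ Λ ^ w) :
    |psi Λ R x - psi Λ R (x * k)| ≤ w / R := by
  have hR' : (0:ℝ) < R := by exact_mod_cast hR
  have h1 : (ell Λ R (x * k) : ℝ) ≤ ell Λ R x + w := by exact_mod_cast ell_mul_le hk
  have h2 : (ell Λ R x : ℝ) ≤ ell Λ R (x * k) + w := by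
    have := ell_mul_le (Λ := Λ) (R := R) (x := x * k) (inv_mem_pow hinv hk)
    rw [mul_inv_cancel_right] at this
    exact_mod_cast this
  have e1 : psi Λ R x - psi Λ R (x * k) = ((ell Λ R (x * k) : ℝ) - ell Λ R x) / R := by
    unfold psi; ring
  rw [e1, abs_div, abs_of_pos hR']
  gcongr
  rw [abs_le]
  constructor <;> linarith

/-- **localised almost invariant measures at good scales.** -/
theorem exists_local (h1 : (1 : H) ∈ Λ) (hinv : Λ⁻¹ = Λ) (hRt : Reiter H) {A : ℕ}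
    (hA : PolyGr Λ A) (T : ℕ) :
    ∃ κ : ℝ, 0 < κ ∧ ∀ τ : ℝ, 0 < τ → ∃ ω : ℝ, 0 < ω ∧ ∀ N1 : ℕ, ∃ M : ℕ, N1 ≤ M ∧
      ∀ (𝒦 : Finset H) (w : ℕ), (w : ℝ) ≤ ω * M → (∀ k ∈ 𝒦, k ∈ Λ ^ w) → ∀ b ∈ Λ ^ (T * M),
        ∃ θ : FM H, (∀ i, θ.p i ∈ Λ ^ M) ∧
          (∀ k ∈ 𝒦, ∀ (Φ : H → ℝ) (C : ℝ), (∀ x, |Φ x| ≤ C) →
            |θ.E (fun x => Φ (x * k)) - θ.E Φ| ≤ τ * C) ∧
          κ ≤ θ.E (Set.indicator {c | b⁻¹ * c * b ∈ Λ ^ M} 1) := by
  classical
  set l : ℕ := 32 * T + 17 with hl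
  set B : ℕ := l ^ (A + 1) with hB
  have hB1 : 1 ≤ B := Nat.one_le_iff_ne_zero.2 (by positivity)
  have hBr : (1:ℝ) ≤ B := by exact_mod_cast hB1
  have hB0 : (0:ℝ) < B := by linarith
  refine ⟨1 / B, by positivity, fun τ hτ => ⟨min (1 / 2) (τ / (16 * B)), by positivity,
    fun N1 => ?_⟩⟩
  obtain ⟨s, hs, hqs⟩ := exists_scale (qc Λ) (one_le_qc h1 hA) (qc_le h1 hA) (l := l) (by omega)
    (max N1 1)
  have hs1 : 1 ≤ s := (le_max_right _ _).trans hs
  have hsN : N1 ≤ s := (le_max_left _ _).trans hs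
  set R : ℕ := 4 * s + 4 with hR
  set M : ℕ := 8 * s + 8 with hM
  have hR0 : 0 < R := by omega
  have hRM : (M : ℝ) = 2 * R := by rw [hM, hR]; push_cast; ring
  refine ⟨M, by omega, fun 𝒦 w hw h𝒦 b hb => ?_⟩
  have hRr : (0:ℝ) < R := by exact_mod_cast hR0
  have hM0 : (0:ℝ) < M := by rw [hRM]; positivity
  have hwR : w ≤ R := by
    have : (w : ℝ) ≤ R := by
      calc (w : ℝ) ≤ min (1 / 2) (τ / (16 * B)) * M := hw
        _ ≤ 1 / 2 * M := by gcongr; exact min_le_left _ _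
        _ = R := by rw [hRM]; ring
    exact_mod_cast this
  have hwτ : (w : ℝ) / R ≤ τ / (8 * B) := by
    rw [div_le_iff₀ hRr]
    calc (w : ℝ) ≤ min (1 / 2) (τ / (16 * B)) * M := hw
      _ ≤ (τ / (16 * B)) * M := by gcongr; exact min_le_right _ _
      _ = τ / (8 * B) * R := by rw [hRM]; field_simp; ring
  -- packing constants
  have hpack : ∀ (P : Finset H) (g : H) (n r : ℕ), 2 * s + 2 ≤ r → n + s ≤ l * s →
      (∀ y ∈ P, g⁻¹ * y ∈ Λ ^ n) → Sep Λ P r → P.card ≤ B := by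
    intro P g n r hr hn hP hsep
    have e1 := packing h1 hinv hA hr g hP hsep
    have e2 := e1.trans ((qc_mono h1 hA hn).trans hqs)
    exact Nat.le_of_mul_le_mul_right e2 (one_le_qc h1 hA s)
  set ε₀ : ℝ := τ / (8 * B * (𝒦.card + 1)) with hε₀
  have hε₀pos : 0 < ε₀ := by positivity
  obtain ⟨m, hm⟩ := hRt 𝒦 ε₀ hε₀pos
  obtain ⟨Y, hYX, hYsep, hcov⟩ := exists_maxSep h1 hinv (Finset.univ.image m.p) (2 * s + 2)
  have hmult : ∀ x : H, (Y.filter fun y => y⁻¹ * x ∈ Λ ^ (R + w)).card ≤ B := by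
    intro x
    refine hpack _ x (R + w) (2 * s + 2) le_rfl ?_ ?_ ?_
    · rw [hl]; nlinarith
    · intro y hy
      have := inv_mem_pow hinv (Finset.mem_filter.1 hy).2
      rwa [mul_inv_rev, inv_inv] at this
    · exact fun x hx y hy => hYsep x (Finset.mem_filter.1 hx).1 y (Finset.mem_filter.1 hy).1
  set ψ : H → H → ℝ := fun y x => psi Λ R (y⁻¹ * x) with hψ
  have hψ0 : ∀ y x, 0 ≤ ψ y x := fun y x => psi_nonneg R _
  have hψ1 : ∀ y x, ψ y x ≤ 1 := fun y x => psi_le_one R _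
  have hψR : ∀ y x, ψ y x ≠ 0 → y⁻¹ * x ∈ Λ ^ R := fun y x h => mem_of_psi_ne h1 hR0 h
  -- the total mass is at least one half
  set Y' := Y.filter fun y => 0 < m.E (ψ y) with hY'
  have hmass : 1 / 2 ≤ ∑ y ∈ Y', m.E (ψ y) := by
    have e1 : ∑ y ∈ Y', m.E (ψ y) = ∑ y ∈ Y, m.E (ψ y) := by
      rw [hY', Finset.sum_filter]
      refine Finset.sum_congr rfl fun y _ => ?_
      split_ifs with h
      · rfl
      · have := m.E_nonneg (f := ψ y) fun i => hψ0 _ _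
        linarith
    rw [e1, ← m.E_sum Y (fun y x => ψ y x), ← m.E_const (1 / 2)]
    refine m.E_mono fun i => ?_
    obtain ⟨y, hy, hyx⟩ := hcov (m.p i) (Finset.mem_image_of_mem _ (Finset.mem_univ i))
    refine (half_le_psi hR0 (by omega) hyx).trans ?_
    exact Finset.single_le_sum (f := fun y => ψ y (m.p i)) (fun y _ => hψ0 _ _) hy
  have hsumψ : ∀ x, ∑ y ∈ Y', ψ y x ≤ B := by
    intro x
    have e1 : ∑ y ∈ Y', ψ y x ≤ ∑ y ∈ Y, ψ y x :=
      Finset.sum_le_sum_of_subset_of_nonneg (Finset.filter_subset _ _) fun y _ _ => hψ0 _ _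
    have e2 : ∑ y ∈ Y, ψ y x ≤ ∑ y ∈ Y.filter (fun y => y⁻¹ * x ∈ Λ ^ (R + w)), (1:ℝ) := by
      rw [Finset.sum_filter]
      refine Finset.sum_le_sum fun y _ => ?_
      split_ifs with h
      · exact hψ1 _ _
      · by_contra hne
        have : ψ y x ≠ 0 := fun h0 => hne h0.le
        exact h (pow_mono h1 (Nat.le_add_right _ _) (hψR y x this))
    rw [Finset.sum_const, nsmul_eq_mul, mul_one] at e2
    exact e1.trans (e2.trans (by exact_mod_cast hmult x))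
  -- the good piece
  obtain ⟨y, hyY, hyinv⟩ : ∃ y ∈ Y', ∀ k ∈ 𝒦, ∀ Φ : H → ℝ, (∀ x, |Φ x| ≤ 1) →
      m.E (fun x => ψ y x * Φ (x * k)) - m.E (fun x => ψ y x * Φ x) ≤ τ * m.E (ψ y) := by
    by_contra hcon
    push Not at hcon
    choose! k hk Φ hΦ hlt using hcon
    have s1 : ∑ y ∈ Y', τ * m.E (ψ y) ≤ ∑ y ∈ Y',
        (m.E (fun x => ψ y x * Φ y (x * k y)) - m.E (fun x => ψ y x * Φ y x)) :=
      Finset.sum_le_sum fun y hy => (hlt y hy).le
    have s2 : ∑ y ∈ Y', (m.E (fun x => ψ y x * Φ y (x * k y)) - m.E (fun x => ψ y x * Φ y x)) =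
        m.E (fun x => ∑ y ∈ Y', (ψ y x - ψ y (x * k y)) * Φ y (x * k y)) +
        ∑ y ∈ Y', (m.E (fun x => ψ y (x * k y) * Φ y (x * k y)) -
          m.E (fun x => ψ y x * Φ y x)) := by
      rw [m.E_sum, ← Finset.sum_add_distrib]
      refine Finset.sum_congr rfl fun y _ => ?_
      have : (fun x => (ψ y x - ψ y (x * k y)) * Φ y (x * k y)) =
          fun x => ψ y x * Φ y (x * k y) - ψ y (x * k y) * Φ y (x * k y) := by
        funext x; ring
      rw [this, m.E_sub]; ring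
    have s3 : m.E (fun x => ∑ y ∈ Y', (ψ y x - ψ y (x * k y)) * Φ y (x * k y)) ≤
        w / R * B := by
      rw [← m.E_const (w / R * B)]
      refine m.E_mono fun i => ?_
      set x := m.p i
      have hterm : ∀ y ∈ Y', (ψ y x - ψ y (x * k y)) * Φ y (x * k y) ≤
          if y⁻¹ * x ∈ Λ ^ (R + w) then (w / R : ℝ) else 0 := by
        intro y hy
        have hkw := h𝒦 _ (hk y hy)
        split_ifs with h
        · have e1 : |ψ y x - ψ y (x * k y)| ≤ w / R := by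
            have := psi_lip hinv hR0 (x := y⁻¹ * x) hkw
            rwa [mul_assoc] at this
          calc (ψ y x - ψ y (x * k y)) * Φ y (x * k y)
              ≤ |(ψ y x - ψ y (x * k y)) * Φ y (x * k y)| := le_abs_self _
            _ = |ψ y x - ψ y (x * k y)| * |Φ y (x * k y)| := abs_mul _ _
            _ ≤ w / R * 1 := by
              gcongr
              exact hΦ y hy _
            _ = w / R := mul_one _
        · have e1 : ψ y x = 0 := by
            by_contra hne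
            exact h (pow_mono h1 (Nat.le_add_right _ _) (hψR y x hne))
          have e2 : ψ y (x * k y) = 0 := by
            by_contra hne
            refine h ?_
            have := mul_mem_pow (hψR y _ hne) (inv_mem_pow hinv hkw)
            rwa [← mul_assoc, mul_inv_cancel_right] at this
          rw [e1, e2, sub_zero, zero_mul]
      refine (Finset.sum_le_sum hterm).trans ?_
      rw [← Finset.sum_filter, Finset.sum_const, nsmul_eq_mul, mul_comm]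
      have hc : (Y'.filter fun y => y⁻¹ * x ∈ Λ ^ (R + w)).card ≤ B := by
        refine (Finset.card_le_card ?_).trans (hmult x)
        exact Finset.filter_subset_filter _ (Finset.filter_subset _ _)
      have hc' : ((Y'.filter fun y => y⁻¹ * x ∈ Λ ^ (R + w)).card : ℝ) ≤ B := by exact_mod_cast hc
      gcongr
    have s4 : ∑ y ∈ Y', (m.E (fun x => ψ y (x * k y) * Φ y (x * k y)) -
        m.E (fun x => ψ y x * Φ y x)) ≤ 𝒦.card * (ε₀ * B) := by
      rw [← Finset.sum_fiberwise_of_maps_to (t := 𝒦) (g := k) (fun y hy => hk y hy)]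
      rw [← nsmul_eq_mul, ← Finset.sum_const]
      refine Finset.sum_le_sum fun κ hκ => ?_
      have e1 : ∑ y ∈ Y' with k y = κ, (m.E (fun x => ψ y (x * k y) * Φ y (x * k y)) -
          m.E (fun x => ψ y x * Φ y x)) =
          m.E (fun x => (fun z => ∑ y ∈ Y' with k y = κ, ψ y z * Φ y z) (x * κ)) -
          m.E (fun z => ∑ y ∈ Y' with k y = κ, ψ y z * Φ y z) := by
        simp only
        rw [m.E_sum, m.E_sum, ← Finset.sum_sub_distrib]
        refine Finset.sum_congr rfl fun y hy => ?_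
        rw [(Finset.mem_filter.1 hy).2]
      rw [e1]
      refine (le_abs_self _).trans (hm κ hκ (fun z => ∑ y ∈ Y' with k y = κ, ψ y z * Φ y z) B
        fun z => ?_)
      refine (Finset.abs_sum_le_sum_abs _ _).trans ?_
      refine le_trans ?_ (hsumψ z)
      refine le_trans (Finset.sum_le_sum (g := fun y => ψ y z) fun y hy => ?_)
        (Finset.sum_le_sum_of_subset_of_nonneg (Finset.filter_subset _ _) fun y _ _ => hψ0 _ _)
      rw [abs_mul, abs_of_nonneg (hψ0 _ _)]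
      exact mul_le_of_le_one_right (hψ0 _ _) (hΦ y (Finset.mem_filter.1 hy).1 z)
    rw [← Finset.mul_sum, s2] at s1
    have s5 : w / R * B ≤ τ / 8 := by
      calc (w : ℝ) / R * B ≤ τ / (8 * B) * B := by gcongr
        _ = τ / 8 := by field_simp
    have s6 : 𝒦.card * (ε₀ * B) ≤ τ / 8 := by
      rw [hε₀]
      have : (𝒦.card : ℝ) * (τ / (8 * B * (𝒦.card + 1)) * B) =
          τ / 8 * (𝒦.card / (𝒦.card + 1)) := by field_simp
      rw [this]
      refine mul_le_of_le_one_right (by positivity) ?_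
      rw [div_le_one (by positivity)]
      linarith
    nlinarith
  have hZ : 0 < m.E (ψ y) := (Finset.mem_filter.1 hyY).2
  set Z := m.E (ψ y) with hZdef
  -- the localised measure
  let θ₀ : FM H :=
    { ι := m.ι
      w := fun i => m.w i * ψ y (m.p i) / Z
      p := fun i => if y⁻¹ * m.p i ∈ Λ ^ R then y⁻¹ * m.p i else 1
      w_nonneg := fun i => div_nonneg (mul_nonneg (m.w_nonneg i) (hψ0 _ _)) hZ.le
      w_sum := by
        rw [← Finset.sum_div]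
        exact div_self hZ.ne' }
  have hθ₀p : ∀ i, θ₀.p i ∈ Λ ^ R := by
    intro i
    change (if y⁻¹ * m.p i ∈ Λ ^ R then y⁻¹ * m.p i else 1) ∈ Λ ^ R
    split_ifs with h
    · exact h
    · exact Set.one_mem_pow h1
  have hθ₀E : ∀ f : H → ℝ, θ₀.E f = m.E (fun x => ψ y x * f (y⁻¹ * x)) / Z := by
    intro f
    unfold FM.E
    rw [Finset.sum_div]
    refine Finset.sum_congr rfl fun i _ => ?_
    change m.w i * ψ y (m.p i) / Z * f (if y⁻¹ * m.p i ∈ Λ ^ R then y⁻¹ * m.p i else 1) =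
      m.w i * (ψ y (m.p i) * f (y⁻¹ * m.p i)) / Z
    split_ifs with h
    · ring
    · have : ψ y (m.p i) = 0 := by
        by_contra hne
        exact h (hψR _ _ hne)
      rw [this]; ring
  have hθ₀inv : ∀ k ∈ 𝒦, ∀ (Φ : H → ℝ) (C : ℝ), (∀ x, |Φ x| ≤ C) →
      θ₀.E (fun x => Φ (x * k)) - θ₀.E Φ ≤ τ * C := by
    intro k hk Φ C hC
    have hC0 : 0 ≤ C := (abs_nonneg _).trans (hC 1)
    rcases hC0.eq_or_lt with h0 | hCpos
    · have hΦ0 : Φ = fun _ => 0 := by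
        funext x
        have := hC x
        rw [← h0] at this
        exact abs_eq_zero.1 (le_antisymm this (abs_nonneg _))
      rw [hΦ0, sub_self, ← h0, mul_zero]
    · have e1 := hyinv k hk (fun x => C⁻¹ * Φ (y⁻¹ * x)) (fun x => by
        rw [abs_mul, abs_of_pos (inv_pos.2 hCpos), inv_mul_le_iff₀ hCpos, mul_one]
        exact hC _)
      rw [hθ₀E, hθ₀E, ← sub_div, div_le_iff₀ hZ]
      have e2 : m.E (fun x => ψ y x * (C⁻¹ * Φ (y⁻¹ * (x * k)))) =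
          C⁻¹ * m.E (fun x => ψ y x * Φ (y⁻¹ * x * k)) := by
        rw [← m.E_smul]
        congr 1
        funext x
        rw [mul_assoc y⁻¹]; ring
      have e3 : m.E (fun x => ψ y x * (C⁻¹ * Φ (y⁻¹ * x))) =
          C⁻¹ * m.E (fun x => ψ y x * Φ (y⁻¹ * x)) := by
        rw [← m.E_smul]
        congr 1
        funext x
        ring
      rw [e2, e3, ← mul_sub, inv_mul_le_iff₀ hCpos] at e1
      linarith
  have hθ₀inv' : ∀ k ∈ 𝒦, ∀ (Φ : H → ℝ) (C : ℝ), (∀ x, |Φ x| ≤ C) →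
      |θ₀.E (fun x => Φ (x * k)) - θ₀.E Φ| ≤ τ * C := by
    intro k hk Φ C hC
    rw [abs_le]
    refine ⟨?_, hθ₀inv k hk Φ C hC⟩
    have e1 := hθ₀inv k hk (fun x => -1 * Φ x) C (fun x => by simpa using hC x)
    rw [θ₀.E_smul, θ₀.E_smul] at e1
    linarith
  -- the heavy cell
  obtain ⟨Z', hZ'X, hZ'sep, hZ'cov⟩ := exists_maxSep h1 hinv
    (Finset.univ.image fun i => b⁻¹ * θ₀.p i * b) M
  have hbinv : b⁻¹ ∈ Λ ^ (T * M) := inv_mem_pow hinv hb
  have hcard : Z'.card ≤ B := by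
    refine hpack Z' 1 (T * M + R + T * M) M (by omega) ?_ ?_ hZ'sep
    · have h2 : T * M = 8 * (T * s) + 8 * T := by rw [hM]; ring
      have h3 : l * s = 32 * (T * s) + 17 * s := by rw [hl]; ring
      have h4 : T ≤ T * s := Nat.le_mul_of_pos_right _ hs1
      rw [h2, h3]
      omega
    · intro z hz
      obtain ⟨i, -, rfl⟩ := Finset.mem_image.1 (hZ'X hz)
      rw [inv_one, one_mul]
      exact mul_mem_pow (mul_mem_pow hbinv (hθ₀p i)) hb
  obtain ⟨z, hz, hzmass⟩ : ∃ z ∈ Z', 1 / (B : ℝ) ≤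
      θ₀.E (Set.indicator {c | z⁻¹ * (b⁻¹ * c * b) ∈ Λ ^ M} 1) := by
    by_contra hcon
    push Not at hcon
    have e1 : (1 : ℝ) ≤ ∑ z ∈ Z', θ₀.E (Set.indicator {c | z⁻¹ * (b⁻¹ * c * b) ∈ Λ ^ M} 1) := by
      rw [← θ₀.E_sum, ← θ₀.E_const 1]
      refine θ₀.E_mono fun i => ?_
      obtain ⟨z, hz, hzi⟩ := hZ'cov _ (Finset.mem_image_of_mem
        (fun i => b⁻¹ * θ₀.p i * b) (Finset.mem_univ i))
      have e2 : (1 : ℝ) = Set.indicator {c | z⁻¹ * (b⁻¹ * c * b) ∈ Λ ^ M} 1 (θ₀.p i) := by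
        rw [Set.indicator_of_mem (show θ₀.p i ∈ _ from hzi)]; rfl
      rw [e2]
      exact Finset.single_le_sum (f := fun z => Set.indicator
        {c | z⁻¹ * (b⁻¹ * c * b) ∈ Λ ^ M} (1 : H → ℝ) (θ₀.p i))
        (fun z _ => Set.indicator_nonneg (fun _ _ => zero_le_one) _) hz
    have hne : Z'.Nonempty := by
      rw [Finset.nonempty_iff_ne_empty]
      rintro rfl
      rw [Finset.sum_empty] at e1
      linarith
    have e2 := Finset.sum_lt_sum_of_nonempty hne hcon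
    rw [Finset.sum_const, nsmul_eq_mul] at e2
    have e3 : (Z'.card : ℝ) * (1 / B) ≤ 1 := by
      rw [mul_one_div, div_le_one hB0]
      exact_mod_cast hcard
    linarith
  obtain ⟨i₀, -, hi₀⟩ := Finset.mem_image.1 (hZ'X hz)
  refine ⟨θ₀.map (fun c => (θ₀.p i₀)⁻¹ * c), fun i => ?_, fun k hk Φ C hC => ?_, ?_⟩
  · have := mul_mem_pow (inv_mem_pow hinv (hθ₀p i₀)) (hθ₀p i)
    have e : R + R = M := by omega
    rw [e] at this
    exact this
  · rw [FM.E_map, FM.E_map]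
    have := hθ₀inv' k hk (fun x => Φ ((θ₀.p i₀)⁻¹ * x)) C (fun x => hC _)
    simp only [← mul_assoc] at this
    exact this
  · rw [FM.E_map]
    refine hzmass.trans (le_of_eq ?_)
    congr 1
    funext c
    have e : z⁻¹ * (b⁻¹ * c * b) = b⁻¹ * ((θ₀.p i₀)⁻¹ * c) * b := by
      rw [← hi₀]; group
    simp only [Set.indicator, Set.mem_ofPred_eq, e, Pi.one_apply]

end Scale

end Crest.Agent.R182.Lip
end

-- ▼ part R182/LipPt
section

set_option autoImplicit false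
set_option linter.unusedSectionVars false

open MeasureTheory

namespace Crest.Agent.R182.Lip

open Crest.GroupTheory Crest.Geometry Crest.Agent.R182.QI Crest.Agent.R182.FinPath
  Crest.Agent.R182.FinRed Crest.Agent.R182.Bnd Crest.Agent.R182.Core Crest.Agent.R182.Erg
  Crest.Agent.R182.OneScale Crest.Agent.R189.MeanF

variable {Γ : Type*} [Group Γ] {k : ℕ} {π : Γ →* Multiplicative (Fin k → ℤ)}

section XP

variable {S : Set Γ} (M : BModel S π)

/-- constant of the orbit maps -/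
noncomputable def KO (M : BModel S π) : ℕ := ⌈2 * M.a ^ 2 + 4 * M.a ^ 2 + M.a⌉₊ + ⌈M.a ^ 2⌉₊

theorem qi_orbit (p : M.G) : QIMap S S (fun γ => M.rnd (p * M.ι γ)) (KO M) := by
  have ha := M.a0
  have ha1 := M.one_le_a
  have hK1 : 2 * M.a ^ 2 + 4 * M.a ^ 2 + M.a ≤ (KO M : ℝ) := by
    unfold KO; push_cast
    have := Nat.le_ceil (2 * M.a ^ 2 + 4 * M.a ^ 2 + M.a)
    have h2 : (0:ℝ) ≤ (⌈M.a ^ 2⌉₊ : ℝ) := Nat.cast_nonneg _
    linarith
  have hK2 : M.a ^ 2 ≤ (KO M : ℝ) := by nlinarith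
  refine ⟨fun x y => ?_, fun x y => ?_, fun g => ?_⟩
  · have h1 := near M (p * M.ι x) (M.ι (x⁻¹ * y))
    have e1 : p * M.ι x * M.ι (x⁻¹ * y) = p * M.ι y := by
      rw [mul_assoc, ← map_mul, mul_inv_cancel_left]
    rw [e1] at h1
    have h2 : M.len (M.ι (x⁻¹ * y)) ≤ M.a * nd S x y := M.len_ι _
    have h3 : (nd S (M.rnd (p * M.ι x)) (M.rnd (p * M.ι y)) : ℝ) ≤ KO M * nd S x y + KO M := by
      refine h1.trans ?_
      have h4 : (0:ℝ) ≤ nd S x y := Nat.cast_nonneg _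
      calc M.a * (M.len (M.ι (x⁻¹ * y)) + 2 * M.a) + M.a
          ≤ M.a * (M.a * nd S x y + 2 * M.a) + M.a := by gcongr
        _ = M.a ^ 2 * nd S x y + (2 * M.a ^ 2 + M.a) := by ring
        _ ≤ KO M * nd S x y + KO M := by
          gcongr
          nlinarith
    exact_mod_cast h3
  · have h1 : M.len (M.ι (x⁻¹ * y)) ≤ 2 * M.a +
        M.a * nd S (M.rnd (p * M.ι x)) (M.rnd (p * M.ι y)) := by
      have e1 : M.ι (x⁻¹ * y) = ((p * M.ι x)⁻¹ * M.ι (M.rnd (p * M.ι x))) *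
          M.ι ((M.rnd (p * M.ι x))⁻¹ * M.rnd (p * M.ι y)) *
          ((M.ι (M.rnd (p * M.ι y)))⁻¹ * (p * M.ι y)) := by
        rw [map_mul, map_inv, map_mul, map_inv]; group
      rw [e1]
      have a1 := M.isLen.mul (((p * M.ι x)⁻¹ * M.ι (M.rnd (p * M.ι x))) *
          M.ι ((M.rnd (p * M.ι x))⁻¹ * M.rnd (p * M.ι y)))
          ((M.ι (M.rnd (p * M.ι y)))⁻¹ * (p * M.ι y))
      have a2 := M.isLen.mul ((p * M.ι x)⁻¹ * M.ι (M.rnd (p * M.ι x)))
          (M.ι ((M.rnd (p * M.ι x))⁻¹ * M.rnd (p * M.ι y)))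
      have a3 := M.len_rnd' (p * M.ι x)
      have a4 := M.len_rnd (p * M.ι y)
      have a5 : M.len (M.ι ((M.rnd (p * M.ι x))⁻¹ * M.rnd (p * M.ι y))) ≤
          M.a * nd S (M.rnd (p * M.ι x)) (M.rnd (p * M.ι y)) := M.len_ι _
      linarith
    have h2 : (nd S x y : ℝ) ≤ M.a * M.len (M.ι (x⁻¹ * y)) + M.a := M.ι_len _
    have h3 : (nd S x y : ℝ) ≤ KO M * nd S (M.rnd (p * M.ι x)) (M.rnd (p * M.ι y)) + KO M := by
      have h4 : (0:ℝ) ≤ nd S (M.rnd (p * M.ι x)) (M.rnd (p * M.ι y)) := Nat.cast_nonneg _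
      calc (nd S x y : ℝ) ≤ M.a * (2 * M.a +
            M.a * nd S (M.rnd (p * M.ι x)) (M.rnd (p * M.ι y))) + M.a := by
            refine h2.trans ?_; gcongr
        _ = M.a ^ 2 * nd S (M.rnd (p * M.ι x)) (M.rnd (p * M.ι y)) + (2 * M.a ^ 2 + M.a) := by
            ring
        _ ≤ _ := by
          gcongr
          nlinarith
    exact_mod_cast h3
  · refine ⟨M.rnd (p⁻¹ * M.ι g), ?_⟩
    set y := M.rnd (p⁻¹ * M.ι g) with hy
    have h1 := M.len_rnd' (p * M.ι y)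
    have h2 := M.len_rnd' (p⁻¹ * M.ι g)
    rw [← hy] at h2
    have e1 : M.ι (g⁻¹ * M.rnd (p * M.ι y)) =
        ((p⁻¹ * M.ι g)⁻¹ * M.ι y) * ((p * M.ι y)⁻¹ * M.ι (M.rnd (p * M.ι y))) := by
      rw [map_mul, map_inv]; group
    have h3 : M.len (M.ι (g⁻¹ * M.rnd (p * M.ι y))) ≤ 2 * M.a := by
      rw [e1]
      have := M.isLen.mul ((p⁻¹ * M.ι g)⁻¹ * M.ι y) ((p * M.ι y)⁻¹ * M.ι (M.rnd (p * M.ι y)))
      linarith
    have h4 : (nd S g (M.rnd (p * M.ι y)) : ℝ) ≤ KO M := by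
      refine (M.ι_len _).trans (le_trans ?_ hK1)
      nlinarith
    exact_mod_cast h4

/-- constant for the normalised maps -/
noncomputable def KX (M : BModel S π) (K : ℕ) : ℕ := KO M * K + KO M + 2 * K

/-- the map seen from `p` -/
noncomputable def XP (hS : Subgroup.closure S = ⊤) {Ψ : Γ → Γ} {K : ℕ} (hΨ : QIMap S S Ψ K)
    (p : M.G) : XF S (KX M K) where
  F γ := (Ψ (M.rnd p))⁻¹ * Ψ (M.rnd (p * M.ι γ))
  F_one := by rw [map_one, mul_one, inv_mul_cancel]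
  qi := (QIMap.comp hS hΨ (qi_orbit M p)).mulLeft _

variable {M}

theorem XP_F (hS : Subgroup.closure S = ⊤) {Ψ : Γ → Γ} {K : ℕ} (hΨ : QIMap S S Ψ K)
    (p : M.G) (γ : Γ) : (XP M hS hΨ p).F γ = (Ψ (M.rnd p))⁻¹ * Ψ (M.rnd (p * M.ι γ)) := rfl

theorem XP_act (hS : Subgroup.closure S = ⊤) {Ψ : Γ → Γ} {K : ℕ} (hΨ : QIMap S S Ψ K)
    (p : M.G) (γ : Γ) : (XP M hS hΨ p).act γ = XP M hS hΨ (p * M.ι γ) := by
  ext x
  rw [XF.act_F, XP_F, XP_F, XP_F, map_mul, ← mul_assoc p]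
  group

theorem hgtR_XP (hS : Subgroup.closure S = ⊤) {Ψ : Γ → Γ} {K : ℕ} (hΨ : QIMap S S Ψ K)
    (p : M.G) (γ : Γ) : hgtR π ((XP M hS hΨ p).F γ) =
      fh M Ψ (p * M.ι γ) - fh M Ψ p := by
  rw [XP_F, ← M.h_ι, map_mul, map_inv, M.h_mul, OneScale.h_inv]
  unfold fh
  abel

end XP

section Block

/-- the sum of the values of the seminorm at the basis vectors -/
noncomputable def nN (N : Seminorm ℝ (Fin k → ℝ)) : ℝ := ∑ i, N (Pi.single i 1)

theorem nN_nonneg (N : Seminorm ℝ (Fin k → ℝ)) : 0 ≤ nN N :=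
  Finset.sum_nonneg fun i _ => apply_nonneg N _

theorem N_le (N : Seminorm ℝ (Fin k → ℝ)) {u : Fin k → ℝ} {c : ℝ} (hc : ∀ i, |u i| ≤ c) :
    N u ≤ c * nN N := by
  refine (seminorm_le N u).trans ?_
  rw [nN, Finset.mul_sum]
  exact Finset.sum_le_sum fun i _ => mul_le_mul_of_nonneg_right (hc i) (apply_nonneg N _)

theorem fh_N_lip {S : Set Γ} (M : BModel S π) (N : Seminorm ℝ (Fin k → ℝ)) (K : ℕ) :
    ∃ c : ℝ, 0 ≤ c ∧ ∀ Ψ : Γ → Γ, QIMap S S Ψ K → ∀ g u : M.G,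
      N (fh M Ψ (g * u) - fh M Ψ g) ≤ c * (M.len u + 1) := by
  obtain ⟨c, hc, h⟩ := fh_lip M K
  refine ⟨c * nN N, mul_nonneg hc (nN_nonneg N), fun Ψ hΨ g u => ?_⟩
  refine (N_le N fun i => h Ψ hΨ g u i).trans (le_of_eq ?_)
  ring

variable {S : Finset Γ} {M : BModel (S : Set Γ) π} {N : Seminorm ℝ (Fin k → ℝ)}

theorem h_N_le (g : M.G) : N (M.h g) ≤ M.a * M.len g * nN N := N_le N fun i => M.h_le g i

theorem prod_range_map {G : Type*} [Group G] (z : ℕ → G) (n : ℕ) :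
    ((List.range n).map fun j => (z j)⁻¹ * z (j + 1)).prod = (z 0)⁻¹ * z n := by
  induction n with
  | zero => simp
  | succ n ih => rw [List.range_succ, List.map_append, List.prod_append, ih]; simp [mul_assoc]

/-- **the one-block estimate** -/
theorem block (hS : Subgroup.closure (S : Set Γ) = ⊤) (hΓ : Amen Γ)
    (hmic : MicOut (S : Set Γ) π N) (K : ℕ) (b : M.G) {δ : ℝ} (hδ : 0 < δ) (J0 : ℕ) :
    ∃ J : ℕ, J0 ≤ J ∧ 1 ≤ J ∧ ∃ (T : Finset Γ) (τ : ℝ), 0 < τ ∧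
      ∀ μ : (XF (S : Set Γ) K → ℝ) → ℝ, PMean (cyl (S : Set Γ) K) μ →
        (∀ γ ∈ T, ∀ φ ∈ cyl (S : Set Γ) K, ∀ C : ℝ, (∀ F, |φ F| ≤ C) →
          |μ (fun F => φ (F.act γ)) - μ φ| ≤ τ * C) →
        μ (fun w => exc π N (J * (N (M.h b) + δ)) (w.F (M.rnd (b ^ J)))) ≤ δ * J := by
  classical
  have ha := M.a0
  have hnN := nN_nonneg N
  set C2 : ℝ := 2 * M.a ^ 2 * nN N with hC2
  obtain ⟨n1, hn1⟩ := exists_nat_gt (C2 / δ)
  have hC20 : 0 ≤ C2 := by positivity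
  have hn1pos : 0 < (n1 : ℝ) := lt_of_le_of_lt (by positivity) hn1
  have hn11 : 1 ≤ n1 := by exact_mod_cast hn1pos
  rw [div_lt_iff₀ hδ] at hn1
  set D1 : ℕ := ⌈M.a * (2 * M.a + M.len (b ^ n1)) + M.a⌉₊ with hD1
  set ℓ : ℝ := n1 * N (M.h b) + C2 with hℓ
  set 𝒮 : Finset Γ := (ball_finite hS D1).toFinset.filter fun x => N (hgtR π x) ≤ ℓ with h𝒮
  obtain ⟨n0, hn0⟩ := lip_finite (N := N) (π := π) hS hΓ hmic K 𝒮 ℓ
    (fun s hs => (Finset.mem_filter.1 hs).2) (ε := δ * n1) (by positivity)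
  set n : ℕ := max n0 (max J0 1) with hn
  have hnn0 : n0 ≤ n := le_max_left _ _
  have hnJ0 : J0 ≤ n := (le_max_left _ _).trans (le_max_right _ _)
  have hnn1 : 1 ≤ n := (le_max_right _ _).trans (le_max_right _ _)
  obtain ⟨T, τ, hτ, hT⟩ := hn0 n hnn0
  refine ⟨n1 * n, hnJ0.trans (Nat.le_mul_of_pos_left _ hn11), Nat.mul_pos hn11 hnn1, T, τ, hτ,
    fun μ hμ hinv => ?_⟩
  -- the word
  let z : ℕ → Γ := fun j => if j = 0 then 1 else M.rnd (b ^ (n1 * j))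
  have hz : ∀ j, M.len ((M.ι (z j))⁻¹ * b ^ (n1 * j)) ≤ M.a := by
    intro j
    by_cases hj : j = 0
    · subst hj
      simp only [z, if_true, map_one, mul_zero, pow_zero, inv_one, mul_one, M.isLen.one]
      exact ha
    · simp only [z, hj, if_false]
      exact M.len_rnd _
  have hstep : ∀ j, M.ι ((z j)⁻¹ * z (j + 1)) = ((M.ι (z j))⁻¹ * b ^ (n1 * j)) * b ^ n1 *
      ((M.ι (z (j + 1)))⁻¹ * b ^ (n1 * (j + 1)))⁻¹ := by
    intro j
    rw [map_mul, map_inv, mul_add, mul_one, pow_add]; group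
  have hmem : ∀ j, (z j)⁻¹ * z (j + 1) ∈ 𝒮 := by
    intro j
    have hz1 := hz j
    have hz2 := hz (j + 1)
    rw [h𝒮, Finset.mem_filter, Set.Finite.mem_toFinset]
    constructor
    · have h1 := M.ι_len ((z j)⁻¹ * z (j + 1))
      have h2 : M.len (M.ι ((z j)⁻¹ * z (j + 1))) ≤ 2 * M.a + M.len (b ^ n1) := by
        rw [hstep]
        have e1 := M.isLen.mul (((M.ι (z j))⁻¹ * b ^ (n1 * j)) * b ^ n1)
          ((M.ι (z (j + 1)))⁻¹ * b ^ (n1 * (j + 1)))⁻¹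
        have e2 := M.isLen.mul ((M.ι (z j))⁻¹ * b ^ (n1 * j)) (b ^ n1)
        rw [M.isLen.inv] at e1
        linarith
      have h3 : (wordLength (S : Set Γ) ((z j)⁻¹ * z (j + 1)) : ℝ) ≤ D1 := by
        refine h1.trans (le_trans ?_ (Nat.le_ceil _))
        gcongr
      exact_mod_cast h3
    · rw [← M.h_ι, hstep, M.h_mul, M.h_mul, OneScale.h_inv, OneScale.h_pow]
      have e1 := h_N_le (M := M) (N := N) ((M.ι (z j))⁻¹ * b ^ (n1 * j))
      have e2 := h_N_le (M := M) (N := N) ((M.ι (z (j + 1)))⁻¹ * b ^ (n1 * (j + 1)))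
      have e3 : M.a * M.len ((M.ι (z j))⁻¹ * b ^ (n1 * j)) * nN N ≤ M.a * M.a * nN N := by
        gcongr
      have e4 : M.a * M.len ((M.ι (z (j + 1)))⁻¹ * b ^ (n1 * (j + 1))) * nN N ≤
          M.a * M.a * nN N := by
        gcongr
      have e5 := map_add_le_add N (M.h ((M.ι (z j))⁻¹ * b ^ (n1 * j)) + (n1 : ℝ) • M.h b)
        (-M.h ((M.ι (z (j + 1)))⁻¹ * b ^ (n1 * (j + 1))))
      have e6 := map_add_le_add N (M.h ((M.ι (z j))⁻¹ * b ^ (n1 * j))) ((n1 : ℝ) • M.h b)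
      rw [map_smul_eq_mul, Real.norm_eq_abs, Nat.abs_cast] at e6
      rw [map_neg_eq_map] at e5
      rw [hℓ, hC2]
      nlinarith
  have hl := hT μ hμ hinv ((List.range n).map fun j => (z j)⁻¹ * z (j + 1)) (by simp)
    (by
      intro s hs
      obtain ⟨j, -, rfl⟩ := List.mem_map.1 hs
      exact hmem j)
  rw [prod_range_map] at hl
  have hz0 : z 0 = 1 := by simp [z]
  have hzn : z n = M.rnd (b ^ (n1 * n)) := by
    simp only [z]; rw [if_neg (by omega)]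
  rw [hz0, inv_one, one_mul, hzn] at hl
  -- monotonicity
  have hc1 := cyl_eval (K := K) (M.rnd (b ^ (n1 * n))) (exc π N (n * ℓ))
    (exists_exc_bound hS π N K (n * ℓ) (M.rnd (b ^ (n1 * n))))
  have hc2 := cyl_eval (K := K) (M.rnd (b ^ (n1 * n)))
    (exc π N ((n1 * n : ℕ) * (N (M.h b) + δ)))
    (exists_exc_bound hS π N K ((n1 * n : ℕ) * (N (M.h b) + δ)) (M.rnd (b ^ (n1 * n))))
  have hle : (n : ℝ) * ℓ ≤ (n1 * n : ℕ) * (N (M.h b) + δ) := by
    push_cast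
    rw [hℓ]
    have : (n : ℝ) * C2 ≤ n * (n1 * δ) := by gcongr
    linarith
  have hmono : μ (fun w => exc π N ((n1 * n : ℕ) * (N (M.h b) + δ))
      (w.F (M.rnd (b ^ (n1 * n))))) ≤
      μ (fun w => exc π N (n * ℓ) (w.F (M.rnd (b ^ (n1 * n))))) := by
    have h1 : 0 ≤ μ ((fun w => exc π N (n * ℓ) (w.F (M.rnd (b ^ (n1 * n))))) + (-1 : ℝ) •
        fun w => exc π N ((n1 * n : ℕ) * (N (M.h b) + δ)) (w.F (M.rnd (b ^ (n1 * n))))) := by
      refine hμ.nonneg _ (add_mem hc1 ((cyl (S : Set Γ) K).smul_mem hc2 _)) fun w => ?_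
      simp only [Pi.add_apply, Pi.smul_apply, smul_eq_mul, neg_mul, one_mul, ← sub_eq_add_neg]
      rw [sub_nonneg]
      exact max_le_max (by linarith) le_rfl
    rw [hμ.add _ hc1 _ ((cyl (S : Set Γ) K).smul_mem hc2 _), hμ.smul _ _ hc2] at h1
    linarith
  refine hmono.trans (hl.trans (le_of_eq ?_))
  push_cast; ring

end Block

end Crest.Agent.R182.Lip
end

-- ▼ part R182/LipAv
section

set_option autoImplicit false
set_option linter.unusedSectionVars false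

open MeasureTheory

namespace Crest.Agent.R182.Lip

theorem FM.exists_le {X : Type*} (m : FM X) (U : Set X) (f : X → ℝ) {κ c : ℝ} (hκ : 0 < κ)
    (hU : κ ≤ m.E (Set.indicator U 1)) (hf0 : ∀ x, 0 ≤ f x) (hf : m.E f ≤ c) :
    ∃ i, m.p i ∈ U ∧ f (m.p i) ≤ c / κ := by
  classical
  by_contra hcon
  push Not at hcon
  have hc : 0 ≤ c := (m.E_nonneg fun i => hf0 _).trans hf
  have h1 : m.E (fun x => Set.indicator U 1 x * (f x - c / κ)) ≤ 0 := by
    have e1 : m.E (fun x => Set.indicator U 1 x * (f x - c / κ)) =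
        m.E (fun x => Set.indicator U 1 x * f x) - c / κ * m.E (Set.indicator U 1) := by
      rw [← m.E_smul, ← m.E_sub]
      congr 1; funext x; ring
    have e2 : m.E (fun x => Set.indicator U 1 x * f x) ≤ m.E f := by
      refine m.E_mono fun i => ?_
      refine mul_le_of_le_one_left (hf0 _) ?_
      exact Set.indicator_le_self' (fun _ _ => zero_le_one) _
    have e3 : c ≤ c / κ * m.E (Set.indicator U 1) := by
      calc c = c / κ * κ := by field_simp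
        _ ≤ _ := by gcongr
    linarith
  have h2 : ∀ i ∈ Finset.univ, 0 ≤ m.w i * (Set.indicator U 1 (m.p i) * (f (m.p i) - c / κ)) := by
    intro i _
    refine mul_nonneg (m.w_nonneg i) ?_
    by_cases hi : m.p i ∈ U
    · rw [Set.indicator_of_mem hi, Pi.one_apply, one_mul]
      linarith [hcon i hi]
    · rw [Set.indicator_of_notMem hi, zero_mul]
  have h3 : m.E (fun x => Set.indicator U 1 x * (f x - c / κ)) = 0 :=
    le_antisymm h1 (Finset.sum_nonneg h2)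
  have h4 : ∀ i ∈ Finset.univ,
      m.w i * (Set.indicator U 1 (m.p i) * (f (m.p i) - c / κ)) = 0 :=
    (Finset.sum_eq_zero_iff_of_nonneg h2).1 h3
  have h5 : m.E (Set.indicator U 1) = 0 := by
    refine Finset.sum_eq_zero fun i hi => ?_
    have h6 := h4 i hi
    by_cases hiU : m.p i ∈ U
    · rw [Set.indicator_of_mem hiU, Pi.one_apply] at h6 ⊢
      have h7 : f (m.p i) - c / κ ≠ 0 := (sub_pos.2 (hcon i hiU)).ne'
      rcases mul_eq_zero.1 h6 with h8 | h8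
      · rw [h8, zero_mul]
      · rw [one_mul] at h8; exact absurd h8 h7
    · rw [Set.indicator_of_notMem hiU, mul_zero]
  linarith

section Av

variable {N : Type*} [MeasurableSpace N] (μ : Measure N) (Q : Set N)

/-- average over `Q` -/
noncomputable def av (f : N → ℝ) : ℝ := (∫ m in Q, f m ∂μ) / μ.real Q

variable {μ Q}

theorem integrableOn_bdd (hQ : μ Q ≠ ⊤) {f : N → ℝ} (hf : Measurable f) {C : ℝ}
    (hC : ∀ m, |f m| ≤ C) : IntegrableOn f Q μ :=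
  Measure.integrableOn_of_bounded (M := C) hQ hf.aestronglyMeasurable
    (Filter.Eventually.of_forall fun m => by rw [Real.norm_eq_abs]; exact hC m)

theorem av_add (hQ : μ Q ≠ ⊤) {f g : N → ℝ} (hf : Measurable f) {C : ℝ}
    (hC : ∀ m, |f m| ≤ C) (hg : Measurable g) {D : ℝ} (hD : ∀ m, |g m| ≤ D) :
    av μ Q (fun m => f m + g m) = av μ Q f + av μ Q g := by
  unfold av
  rw [integral_add (integrableOn_bdd hQ hf hC) (integrableOn_bdd hQ hg hD), add_div]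

theorem av_smul (c : ℝ) (f : N → ℝ) : av μ Q (fun m => c * f m) = c * av μ Q f := by
  unfold av
  rw [integral_const_mul, mul_div_assoc]

theorem av_const (hQ : μ Q ≠ ⊤) (hQ0 : μ Q ≠ 0) (c : ℝ) : av μ Q (fun _ => c) = c := by
  unfold av
  rw [setIntegral_const, smul_eq_mul, mul_comm, mul_div_assoc, div_self, mul_one]
  exact (ENNReal.toReal_pos hQ0 hQ).ne'

theorem av_nonneg {f : N → ℝ} (hf : ∀ m, 0 ≤ f m) : 0 ≤ av μ Q f :=
  div_nonneg (integral_nonneg hf) ENNReal.toReal_nonneg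

theorem av_mono (hQ : μ Q ≠ ⊤) {f g : N → ℝ} (hf : Measurable f) {C : ℝ}
    (hC : ∀ m, |f m| ≤ C) (hg : Measurable g) {D : ℝ} (hD : ∀ m, |g m| ≤ D)
    (h : ∀ m, f m ≤ g m) : av μ Q f ≤ av μ Q g := by
  unfold av
  refine div_le_div_of_nonneg_right ?_ ENNReal.toReal_nonneg
  exact integral_mono (integrableOn_bdd hQ hf hC) (integrableOn_bdd hQ hg hD) h

theorem abs_av_le (hQ : μ Q ≠ ⊤) (hQ0 : μ Q ≠ 0) {f : N → ℝ} {C : ℝ} (hC : ∀ m, |f m| ≤ C) :
    |av μ Q f| ≤ C := by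
  unfold av
  have hpos : 0 < μ.real Q := ENNReal.toReal_pos hQ0 hQ
  rw [abs_div, abs_of_pos hpos, div_le_iff₀ hpos, ← Real.norm_eq_abs]
  exact norm_setIntegral_le_of_norm_le_const hQ.lt_top fun m _ => by
    rw [Real.norm_eq_abs]; exact hC m

theorem av_sum {ι : Type*} (hQ : μ Q ≠ ⊤) (s : Finset ι) (f : ι → N → ℝ)
    (hf : ∀ i ∈ s, Measurable (f i)) {C : ι → ℝ} (hC : ∀ i ∈ s, ∀ m, |f i m| ≤ C i) :
    av μ Q (fun m => ∑ i ∈ s, f i m) = ∑ i ∈ s, av μ Q (f i) := by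
  unfold av
  rw [integral_finsetSum _ fun i hi => integrableOn_bdd hQ (hf i hi) (hC i hi), Finset.sum_div]

/-- Markov's inequality -/
theorem markov (hQm : MeasurableSet Q) (hQ : μ Q ≠ ⊤) (hQ0 : μ Q ≠ 0) {f : N → ℝ}
    (hf : Measurable f) {C : ℝ}
    (hC : ∀ m, |f m| ≤ C) (hf0 : ∀ m, 0 ≤ f m) {c δ : ℝ} (hc : 0 < c) (hδ : av μ Q f ≤ c * δ) :
    μ {m | m ∈ Q ∧ c < f m} ≤ ENNReal.ofReal δ * μ Q := by
  have hpos : 0 < μ.real Q := ENNReal.toReal_pos hQ0 hQ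
  have hδ0 : 0 ≤ δ := by
    have := (av_nonneg (μ := μ) (Q := Q) hf0).trans hδ
    exact nonneg_of_mul_nonneg_right this hc
  have hm : MeasurableSet {m | m ∈ Q ∧ c < f m} :=
    hQm.inter (measurableSet_lt measurable_const hf)
  have hfin : μ {m | m ∈ Q ∧ c < f m} ≠ ⊤ :=
    ne_top_of_le_ne_top hQ (measure_mono fun m hm => hm.1)
  have h1 : c * μ.real {m | m ∈ Q ∧ c < f m} ≤ ∫ m in Q, f m ∂μ := by
    have h2 := mul_meas_ge_le_integral_of_nonneg (μ := μ.restrict Q) (f := f)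
      (Filter.Eventually.of_forall hf0) (integrableOn_bdd hQ hf hC) c
    refine le_trans ?_ h2
    refine mul_le_mul_of_nonneg_left ?_ hc.le
    unfold Measure.real
    rw [Measure.restrict_apply (measurableSet_le measurable_const hf)]
    refine ENNReal.toReal_mono (ne_top_of_le_ne_top hQ (measure_mono Set.inter_subset_right))
      (measure_mono fun m hm => ⟨hm.2.le, hm.1⟩)
  have h3 : ∫ m in Q, f m ∂μ ≤ c * δ * μ.real Q := by
    unfold av at hδ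
    rwa [div_le_iff₀ hpos] at hδ
  have h4 : μ.real {m | m ∈ Q ∧ c < f m} ≤ δ * μ.real Q := by
    have := h1.trans h3
    rw [mul_assoc] at this
    exact le_of_mul_le_mul_left this hc
  rw [← ENNReal.ofReal_toReal hfin, ← ENNReal.ofReal_toReal hQ, ← ENNReal.ofReal_mul hδ0]
  exact ENNReal.ofReal_le_ofReal h4

end Av

section Shift

variable {N : Type*} [Group N] [MeasurableSpace N] [MeasurableMul₂ N] {μ : Measure N}
  [μ.IsMulRightInvariant] {Q : Set N}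

theorem av_shift (hQm : MeasurableSet Q) (hQ : μ Q ≠ ⊤) (hQ0 : μ Q ≠ 0) {y : N} {τ : ℝ}
    (hτ : 0 ≤ τ)
    (h1 : μ {m | m ∈ Q ∧ m * y ∉ Q} ≤ ENNReal.ofReal τ * μ Q)
    (h2 : μ {m | m ∈ Q ∧ m * y⁻¹ ∉ Q} ≤ ENNReal.ofReal τ * μ Q)
    {f : N → ℝ} (hf : Measurable f) {C : ℝ} (hC : ∀ m, |f m| ≤ C) :
    |av μ Q (fun m => f (m * y)) - av μ Q f| ≤ 2 * τ * C := by
  classical
  have hC0 : 0 ≤ C := (abs_nonneg _).trans (hC 1)
  have hpos : 0 < μ.real Q := ENNReal.toReal_pos hQ0 hQ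
  have hm : ∀ z : N, Measurable fun m : N => m * z := fun z => measurable_mul_const z
  -- the translate of `Q`
  set Q' : Set N := {m | m * y⁻¹ ∈ Q} with hQ'
  have hQ'm : MeasurableSet Q' := hm y⁻¹ hQm
  have hQ'Q : μ Q' = μ Q := measure_preimage_mul_right μ y⁻¹ Q
  have hQ'fin : μ Q' ≠ ⊤ := by rw [hQ'Q]; exact hQ
  have e1 : ∫ m in Q, f (m * y) ∂μ = ∫ m in Q', f m ∂μ := by
    rw [← integral_indicator hQm, ← integral_indicator hQ'm,
      ← integral_mul_right_eq_self (Set.indicator Q' f) y]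
    congr 1
    funext m
    by_cases hmQ : m ∈ Q
    · have : m * y ∈ Q' := by
        change m * y * y⁻¹ ∈ Q
        rwa [mul_inv_cancel_right]
      rw [Set.indicator_of_mem hmQ, Set.indicator_of_mem this]
    · have : m * y ∉ Q' := by
        change ¬ (m * y * y⁻¹ ∈ Q)
        rwa [mul_inv_cancel_right]
      rw [Set.indicator_of_notMem hmQ, Set.indicator_of_notMem this]
  have i1 := integrableOn_bdd hQ'fin hf hC
  have i2 := integrableOn_bdd hQ hf hC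
  have e2 : ∫ m in Q', f m ∂μ = ∫ m in Q' ∩ Q, f m ∂μ + ∫ m in Q' \ Q, f m ∂μ :=
    (integral_inter_add_diff hQm i1).symm
  have e3 : ∫ m in Q, f m ∂μ = ∫ m in Q ∩ Q', f m ∂μ + ∫ m in Q \ Q', f m ∂μ :=
    (integral_inter_add_diff hQ'm i2).symm
  have hb : ∀ A : Set N, μ A ≤ ENNReal.ofReal τ * μ Q → |∫ m in A, f m ∂μ| ≤ C * (τ * μ.real Q) := by
    intro A hA
    have hA' : μ A ≠ ⊤ := ne_top_of_le_ne_top (ENNReal.mul_ne_top ENNReal.ofReal_ne_top hQ) hA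
    rw [← Real.norm_eq_abs]
    refine (norm_setIntegral_le_of_norm_le_const hA'.lt_top fun m _ => by
      rw [Real.norm_eq_abs]; exact hC m).trans ?_
    refine mul_le_mul_of_nonneg_left ?_ hC0
    unfold Measure.real
    have := ENNReal.toReal_mono (ENNReal.mul_ne_top ENNReal.ofReal_ne_top hQ) hA
    rwa [ENNReal.toReal_mul, ENNReal.toReal_ofReal hτ] at this
  have b1 : μ (Q \ Q') ≤ ENNReal.ofReal τ * μ Q := h2
  have b2 : μ (Q' \ Q) ≤ ENNReal.ofReal τ * μ Q := by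
    refine le_trans (le_of_eq ?_) h1
    rw [← measure_preimage_mul_right μ y (Q' \ Q)]
    congr 1
    ext m
    constructor
    · rintro ⟨h3, h4⟩
      change m * y * y⁻¹ ∈ Q at h3
      rw [mul_inv_cancel_right] at h3
      exact ⟨h3, h4⟩
    · rintro ⟨h3, h4⟩
      refine ⟨?_, h4⟩
      change m * y * y⁻¹ ∈ Q
      rwa [mul_inv_cancel_right]
  unfold av
  rw [← sub_div, abs_div, abs_of_pos hpos, div_le_iff₀ hpos, e1, e2, e3, Set.inter_comm Q Q']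
  have c1 := hb _ b1
  have c2 := hb _ b2
  rw [abs_le] at c1 c2 ⊢
  constructor <;> nlinarith [c1.1, c1.2, c2.1, c2.2]

end Shift

end Crest.Agent.R182.Lip
end

-- ▼ part R182/LipMain
section

set_option autoImplicit false
set_option linter.unusedSectionVars false

open MeasureTheory

namespace Crest.Agent.R182.Lip

open Crest.GroupTheory Crest.Geometry Crest.Agent.R182.QI Crest.Agent.R182.FinPath
  Crest.Agent.R182.FinRed Crest.Agent.R182.Bnd Crest.Agent.R182.Core Crest.Agent.R182.Erg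
  Crest.Agent.R182.OneScale Crest.Agent.R189.MeanF

variable {Γ : Type*} [Group Γ] {k : ℕ} {π : Γ →* Multiplicative (Fin k → ℤ)}

section Meas

variable {S : Set Γ} {M : BModel S π} [Countable Γ]

theorem measurable_pair {β : Type*} [MeasurableSpace β] (f : Γ → Γ → β) (x g g' : M.G) :
    Measurable fun m : M.NN => f (M.rnd (x * M.toG m * g)) (M.rnd (x * M.toG m * g')) := by
  let _ : MeasurableSpace Γ := ⊤
  have : DiscreteMeasurableSpace Γ := ⟨fun _ => trivial⟩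
  have h1 : Measurable fun m : M.NN => (M.rnd (x * M.toG m * g), M.rnd (x * M.toG m * g')) :=
    (M.measurable_rnd (fun γ => γ) x g).prodMk (M.measurable_rnd (fun γ => γ) x g')
  exact (Measurable.of_discrete (f := fun p : Γ × Γ => f p.1 p.2)).comp h1

theorem measurable_XP (hS : Subgroup.closure S = ⊤) {Ψ : Γ → Γ} {K : ℕ} (hΨ : QIMap S S Ψ K)
    {φ : XF S (KX M K) → ℝ} (hφ : φ ∈ cyl S (KX M K)) (x g : M.G) :
    Measurable fun m : M.NN => φ (XP M hS hΨ (x * M.toG m * g)) := by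
  classical
  obtain ⟨-, J, hJ⟩ := hφ
  let _ : MeasurableSpace Γ := ⊤
  have : DiscreteMeasurableSpace Γ := ⟨fun _ => trivial⟩
  let R : XF S (KX M K) → (J → Γ) := fun F j => F.F j
  have hfac : Function.FactorsThrough φ R := fun F F' h => hJ F F' fun j hj => congrFun h ⟨j, hj⟩
  have e : (fun m : M.NN => φ (XP M hS hΨ (x * M.toG m * g))) =
      (Function.extend R φ 0) ∘ fun m : M.NN => R (XP M hS hΨ (x * M.toG m * g)) := by
    funext m
    exact (hfac.extend_apply 0 _).symm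
  rw [e]
  refine Measurable.of_discrete.comp (measurable_pi_lambda _ fun j => ?_)
  have := measurable_pair (M := M) (fun γ γ' => (Ψ γ)⁻¹ * Ψ γ') x g (g * M.ι j)
  simp only [← mul_assoc] at this
  exact this

theorem measurable_N_fh (N : Seminorm ℝ (Fin k → ℝ)) (Ψ : Γ → Γ) (x g g' : M.G) :
    Measurable fun m : M.NN => N (fh M Ψ (x * M.toG m * g) - fh M Ψ (x * M.toG m * g')) :=
  measurable_pair (M := M) (fun γ γ' => N (M.h (M.ι (Ψ γ)) - M.h (M.ι (Ψ γ')))) x g g'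

end Meas

section Mu

variable {S : Finset Γ} {M : BModel (S : Set Γ) π} [Countable Γ]

variable (M) in
/-- the law of the points `x m (g c b)`. -/
noncomputable def mu (hS : Subgroup.closure (S : Set Γ) = ⊤) {Ψ : Γ → Γ} {K : ℕ}
    (hΨ : QIMap (S : Set Γ) (S : Set Γ) Ψ K) (Q : Set M.NN) (θ : FM M.C) (x g b : M.G)
    (φ : XF (S : Set Γ) (KX M K) → ℝ) : ℝ :=
  θ.E fun c => av volume Q fun m => φ (XP M hS hΨ (x * M.toG m * (g * c * b)))

variable {hS : Subgroup.closure (S : Set Γ) = ⊤} {Ψ : Γ → Γ} {K : ℕ}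
    {hΨ : QIMap (S : Set Γ) (S : Set Γ) Ψ K} {Q : Set M.NN} {θ : FM M.C} {x g b : M.G}

theorem pmean_mu (hQ : (volume : Measure M.NN) Q ≠ ⊤) (hQ0 : (volume : Measure M.NN) Q ≠ 0) :
    PMean (cyl (S : Set Γ) (KX M K)) (mu M hS hΨ Q θ x g b) where
  add φ hφ χ hχ := by
    unfold mu
    rw [← θ.E_add]
    congr 1
    funext c
    obtain ⟨C, hC⟩ := hφ.1
    obtain ⟨D, hD⟩ := hχ.1
    exact av_add hQ (measurable_XP hS hΨ hφ x _) (fun m => hC _) (measurable_XP hS hΨ hχ x _)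
      (fun m => hD _)
  smul c φ _ := by
    unfold mu
    rw [← θ.E_smul]
    congr 1
    funext c'
    exact av_smul c _
  nonneg φ _ h := by
    unfold mu
    exact θ.E_nonneg fun i => av_nonneg fun m => h _
  one := by
    unfold mu
    have : (fun c : M.C => av volume Q fun m : M.NN =>
        (1 : XF (S : Set Γ) (KX M K) → ℝ) (XP M hS hΨ (x * M.toG m * (g * c * b)))) =
        fun _ => 1 := by
      funext c
      exact av_const hQ hQ0 1
    rw [this, θ.E_const]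

theorem mu_inv (hQm : MeasurableSet Q) (hQ : (volume : Measure M.NN) Q ≠ ⊤)
    (hQ0 : (volume : Measure M.NN) Q ≠ 0) {γ : Γ} {X : M.L} {y : M.G}
    (hγ : M.ι γ = M.ex X * y) {κ : M.C} (hκ : (κ : M.G) = b * y * b⁻¹) {τ₁ τ₂ : ℝ} (hτ₁ : 0 ≤ τ₁)
    (hθ : ∀ (Φ : M.C → ℝ) (C : ℝ), (∀ x, |Φ x| ≤ C) →
      |θ.E (fun x => Φ (x * κ)) - θ.E Φ| ≤ τ₂ * C)
    (h1 : ∀ i, (volume : Measure M.NN)
      {m | m ∈ Q ∧ m * M.conjN (g * θ.p i * b) (M.E.symm X) ∉ Q} ≤ ENNReal.ofReal τ₁ * volume Q)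
    (h2 : ∀ i, (volume : Measure M.NN)
      {m | m ∈ Q ∧ m * (M.conjN (g * θ.p i * b) (M.E.symm X))⁻¹ ∉ Q} ≤
        ENNReal.ofReal τ₁ * volume Q)
    {φ : XF (S : Set Γ) (KX M K) → ℝ} (hφ : φ ∈ cyl (S : Set Γ) (KX M K)) {C : ℝ}
    (hC : ∀ F, |φ F| ≤ C) :
    |mu M hS hΨ Q θ x g b (fun F => φ (F.act γ)) - mu M hS hΨ Q θ x g b φ| ≤
      (2 * τ₁ + τ₂) * C := by
  set Φ : M.C → ℝ := fun c => av volume Q fun m => φ (XP M hS hΨ (x * M.toG m * (g * c * b)))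
    with hΦ
  have hΦC : ∀ c, |Φ c| ≤ C := fun c => abs_av_le hQ hQ0 fun m => hC _
  have e1 : ∀ (c : M.C) (m : M.NN), φ ((XP M hS hΨ (x * M.toG m * (g * c * b))).act γ) =
      φ (XP M hS hΨ (x * M.toG (m * M.conjN (g * c * b) (M.E.symm X)) *
        (g * ((c * κ : M.C) : M.G) * b))) := by
    intro c m
    rw [XP_act]
    congr 2
    rw [map_mul, hγ]
    have e2 := M.toG_conjN (g * c * b) (M.E.symm X)
    have e3 : M.toG (M.E.symm X) = M.ex X := by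
      rw [M.toG_apply, LinearEquiv.apply_symm_apply]
    rw [e2, e3, Subgroup.coe_mul, hκ]
    group
  have k1 := hθ Φ C hΦC
  have k2 : |mu M hS hΨ Q θ x g b (fun F => φ (F.act γ)) - θ.E (fun c => Φ (c * κ))| ≤
      2 * τ₁ * C := by
    unfold mu
    rw [← θ.E_sub]
    refine θ.abs_E_le fun i => ?_
    have e4 : (fun m : M.NN => φ ((XP M hS hΨ (x * M.toG m * (g * (θ.p i) * b))).act γ)) =
        fun m : M.NN => (fun m' : M.NN => φ (XP M hS hΨ (x * M.toG m' *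
          (g * ((θ.p i * κ : M.C) : M.G) * b)))) (m * M.conjN (g * (θ.p i) * b) (M.E.symm X)) := by
      funext m
      exact e1 _ _
    rw [e4]
    exact av_shift hQm hQ hQ0 hτ₁ (h1 i) (h2 i) (measurable_XP hS hΨ hφ x _) (fun m => hC _)
  have k3 : mu M hS hΨ Q θ x g b φ = θ.E Φ := rfl
  rw [k3]
  rw [abs_le] at k1 k2 ⊢
  constructor <;> nlinarith [k1.1, k1.2, k2.1, k2.2]

end Mu

section Growth

open Pointwise

variable {S : Set Γ} {M : BModel S π} {R₀ : ℝ}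

variable (M) in
/-- letters of `C` -/
def Lam (R₀ : ℝ) : Set M.C := {c | M.len (c : M.G) ≤ R₀}

theorem one_mem_Lam (h : 0 ≤ R₀) : (1 : M.C) ∈ Lam M R₀ := by
  change M.len ((1 : M.C) : M.G) ≤ R₀
  rw [Subgroup.coe_one, M.isLen.one]; exact h

theorem Lam_inv : (Lam M R₀)⁻¹ = Lam M R₀ := by
  ext c
  rw [Set.mem_inv]
  change M.len ((c⁻¹ : M.C) : M.G) ≤ R₀ ↔ M.len (c : M.G) ≤ R₀
  rw [Subgroup.coe_inv, M.isLen.inv]

theorem exists_list_of_mem {n : ℕ} {c : M.C} (hc : c ∈ Lam M R₀ ^ n) :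
    ∃ l : List M.G, l.length = n ∧ (∀ s ∈ l, s ∈ M.C ∧ M.len s ≤ R₀) ∧ (c : M.G) = l.prod := by
  induction n generalizing c with
  | zero =>
    rw [pow_zero, Set.mem_one] at hc
    exact ⟨[], rfl, by simp, by simp [hc]⟩
  | succ n ih =>
    rw [pow_succ'] at hc
    obtain ⟨a, ha, b, hb, rfl⟩ := Set.mem_mul.1 hc
    obtain ⟨l, hl, hl', hb'⟩ := ih hb
    refine ⟨(a : M.G) :: l, by simp [hl], ?_, by simp [hb']⟩
    intro s hs
    rcases List.mem_cons.1 hs with rfl | hs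
    · exact ⟨a.2, ha⟩
    · exact hl' s hs

theorem mem_Lam_pow {l : List M.G} {n : ℕ} (hR : 0 ≤ R₀) (hl : l.length ≤ n)
    (h : ∀ s ∈ l, s ∈ M.C ∧ M.len s ≤ R₀) {c : M.C} (hc : (c : M.G) = l.prod) :
    c ∈ Lam M R₀ ^ n := by
  refine pow_mono (one_mem_Lam hR) hl ?_
  clear hl
  induction l generalizing c with
  | nil =>
    have : c = 1 := Subtype.ext (by simpa using hc)
    rw [this]; simp
  | cons a l ih =>
    rw [List.length_cons, pow_succ']
    have ha := h a (by simp)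
    have hl : ∀ s ∈ l, s ∈ M.C ∧ M.len s ≤ R₀ := fun s hs => h s (by simp [hs])
    have hlC : l.prod ∈ M.C := Subgroup.list_prod_mem _ fun s hs => (hl s hs).1
    have : c = ⟨a, ha.1⟩ * ⟨l.prod, hlC⟩ := Subtype.ext (by simpa using hc)
    rw [this]
    exact Set.mul_mem_mul ha.2 (ih hl rfl)

theorem len_list_le {l : List M.G} (h : ∀ s ∈ l, M.len s ≤ R₀) : M.len l.prod ≤ l.length * R₀ := by
  induction l with
  | nil => simp [M.isLen.one]
  | cons a l ih =>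
    rw [List.prod_cons, List.length_cons]
    have h1 := M.isLen.mul a l.prod
    have h2 := h a (by simp)
    have h3 := ih fun s hs => h s (by simp [hs])
    push_cast
    linarith

theorem len_le_of_mem {n : ℕ} {c : M.C} (hc : c ∈ Lam M R₀ ^ n) : M.len (c : M.G) ≤ n * R₀ := by
  obtain ⟨l, hl, hl', hc'⟩ := exists_list_of_mem hc
  rw [hc', ← hl]
  exact len_list_le fun s hs => (hl' s hs).2

theorem exists_polyGr (hR : M.a ≤ R₀) : ∃ A, PolyGr (Lam M R₀) A := by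
  classical
  obtain ⟨A, hA⟩ := M.C_growth R₀
  refine ⟨A, fun n Y hY hsep => ?_⟩
  obtain ⟨F, hF, hF'⟩ := hA n
  have h1 : ∀ y ∈ Y, ∃ f ∈ F, f ∈ M.C ∧ M.len (f⁻¹ * (y : M.G)) ≤ M.a := by
    intro y hy
    obtain ⟨l, hl, hl', hc⟩ := exists_list_of_mem (hY y hy)
    rw [hc]
    exact hF' l hl.le hl'
  choose! f hf hfC hflen using h1
  refine (Finset.card_le_card_of_injOn f (fun y hy => hf y hy) ?_).trans hF
  intro y hy y' hy' he
  have hy1 : y ∈ Y := hy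
  have hy'1 : y' ∈ Y := hy'
  refine hsep y hy1 y' hy'1 ?_
  have e1 : y⁻¹ * y' = ((⟨f y, hfC y hy1⟩ : M.C)⁻¹ * y)⁻¹ * ((⟨f y, hfC y hy1⟩ : M.C)⁻¹ * y') := by
    group
  have e2 : ((⟨f y, hfC y hy1⟩ : M.C)⁻¹ * y) ∈ Lam M R₀ := by
    change M.len ((f y)⁻¹ * (y : M.G)) ≤ R₀
    exact (hflen y hy1).trans hR
  have e3 : ((⟨f y, hfC y hy1⟩ : M.C)⁻¹ * y') ∈ Lam M R₀ := by
    change M.len ((f y)⁻¹ * (y' : M.G)) ≤ R₀
    rw [he]
    exact (hflen y' hy'1).trans hR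
  have e4 : ((⟨f y, hfC y hy1⟩ : M.C)⁻¹ * y)⁻¹ ∈ Lam M R₀ := by
    have := Lam_inv (M := M) (R₀ := R₀)
    rw [← this, Set.mem_inv, inv_inv]; exact e2
  rw [e1, pow_two]
  exact Set.mul_mem_mul e4 e3

end Growth

/-- conjugates of bounded elements of `C` by powers of `b` have sublinear length with respect to
fixed letters. -/
def SubConj {S : Set Γ} (M : BModel S π) (b : M.G) (R₀ : ℝ) : Prop :=
  ∀ R δ : ℝ, 0 < δ → ∃ N₀ : ℕ, ∀ N : ℕ, N₀ ≤ N → ∀ j : ℕ, j ≤ N → ∀ y ∈ M.C, M.len y ≤ R →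
    ∃ l : List M.G, b ^ j * y * (b ^ j)⁻¹ = l.prod ∧ (l.length : ℝ) ≤ δ * N ∧
      ∀ s ∈ l, s ∈ M.C ∧ M.len s ≤ R₀

section Main

variable {S : Finset Γ} {M : BModel (S : Set Γ) π} [Countable Γ] {N : Seminorm ℝ (Fin k → ℝ)}

/-- excess of the height of the image over one step `u` at the point `x m p`. -/
noncomputable def Dv (M : BModel (S : Set Γ) π) (N : Seminorm ℝ (Fin k → ℝ)) (Ψ : Γ → Γ)
    (x p u : M.G) (c : ℝ) (m : M.NN) : ℝ :=
  max (N (fh M Ψ (x * M.toG m * (p * u)) - fh M Ψ (x * M.toG m * p)) - c) 0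

theorem Dv_nonneg (Ψ : Γ → Γ) (x p u : M.G) (c : ℝ) (m : M.NN) : 0 ≤ Dv M N Ψ x p u c m :=
  le_max_right _ _

theorem measurable_Dv (Ψ : Γ → Γ) (x p u : M.G) (c : ℝ) : Measurable (Dv M N Ψ x p u c) :=
  ((measurable_N_fh N Ψ x (p * u) p).sub_const c).max measurable_const

theorem abs_Dv_le {Ψ : Γ → Γ} {c0 : ℝ} (hc0 : ∀ g u : M.G,
    N (fh M Ψ (g * u) - fh M Ψ g) ≤ c0 * (M.len u + 1)) (x p u : M.G) {c : ℝ} (m : M.NN) :
    |Dv M N Ψ x p u c m| ≤ |c0| * (M.len u + 1) + |c| := by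
  rw [abs_of_nonneg (Dv_nonneg _ _ _ _ _ _)]
  have h1 := hc0 (x * M.toG m * p) u
  rw [mul_assoc _ p u] at h1
  have h2 : 0 ≤ M.len u := M.isLen.nonneg u
  have h3 : c0 * (M.len u + 1) ≤ |c0| * (M.len u + 1) := by
    gcongr; exact le_abs_self _
  refine max_le ?_ (by positivity)
  have := neg_abs_le c
  linarith

/-- sum over the blocks -/
theorem Dv_sum (Ψ : Γ → Γ) (x p b : M.G) (J : ℕ) (c : ℝ) (q : ℕ) (m : M.NN) :
    Dv M N Ψ x p (b ^ (J * q)) (q * c) m ≤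
      ∑ i ∈ Finset.range q, Dv M N Ψ x (p * b ^ (J * i)) (b ^ J) c m := by
  induction q with
  | zero => simp [Dv]
  | succ q ih =>
    rw [Finset.sum_range_succ]
    refine le_trans ?_ (add_le_add_left ih _)
    unfold Dv
    have e1 : p * b ^ (J * (q + 1)) = p * b ^ (J * q) * b ^ J := by
      rw [mul_add, mul_one, pow_add, mul_assoc]
    rw [e1]
    have h1 := map_add_le_add N
      (fh M Ψ (x * M.toG m * (p * b ^ (J * q))) - fh M Ψ (x * M.toG m * p))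
      (fh M Ψ (x * M.toG m * (p * b ^ (J * q) * b ^ J)) -
        fh M Ψ (x * M.toG m * (p * b ^ (J * q))))
    have e2 : fh M Ψ (x * M.toG m * (p * b ^ (J * q))) - fh M Ψ (x * M.toG m * p) +
      (fh M Ψ (x * M.toG m * (p * b ^ (J * q) * b ^ J)) -
        fh M Ψ (x * M.toG m * (p * b ^ (J * q)))) =
        fh M Ψ (x * M.toG m * (p * b ^ (J * q) * b ^ J)) - fh M Ψ (x * M.toG m * p) := by abel
    rw [e2] at h1
    have h2 := le_max_left (N (fh M Ψ (x * M.toG m * (p * b ^ (J * q))) -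
      fh M Ψ (x * M.toG m * p)) - q * c) 0
    have h3 := le_max_left (N (fh M Ψ (x * M.toG m * (p * b ^ (J * q) * b ^ J)) -
        fh M Ψ (x * M.toG m * (p * b ^ (J * q)))) - c) 0
    refine max_le ?_ (add_nonneg (le_max_right _ _) (le_max_right _ _))
    push_cast
    linarith

/-- the block estimate at the level of the points. -/
theorem block_pt (hS : Subgroup.closure (S : Set Γ) = ⊤) {K : ℕ} {b : M.G} {δ τ : ℝ} {J : ℕ}
    {T : Finset Γ} (hblock : ∀ μ : (XF (S : Set Γ) (KX M K) → ℝ) → ℝ,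
        PMean (cyl (S : Set Γ) (KX M K)) μ →
        (∀ γ ∈ T, ∀ φ ∈ cyl (S : Set Γ) (KX M K), ∀ C : ℝ, (∀ F, |φ F| ≤ C) →
          |μ (fun F => φ (F.act γ)) - μ φ| ≤ τ * C) →
        μ (fun w => exc π N (J * (N (M.h b) + δ)) (w.F (M.rnd (b ^ J)))) ≤ δ * J)
    {Ψ : Γ → Γ} (hΨ : QIMap (S : Set Γ) (S : Set Γ) Ψ K) {c0 : ℝ} (hc0 : ∀ g u : M.G,
      N (fh M Ψ (g * u) - fh M Ψ g) ≤ c0 * (M.len u + 1)) (hc00 : 0 ≤ c0)
    (hJ : c0 * (M.a + 1) ≤ δ * J) {Q : Set M.NN} (hQm : MeasurableSet Q)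
    (hQ : (volume : Measure M.NN) Q ≠ ⊤)
    (hQ0 : (volume : Measure M.NN) Q ≠ 0) {θ : FM M.C} {x g : M.G} {d : M.G} {τ₁ τ₂ : ℝ}
    (hτ₁ : 0 ≤ τ₁) (hτ : 2 * τ₁ + τ₂ ≤ τ)
    (hT : ∀ γ ∈ T, ∃ (X : M.L) (y : M.G) (κ : M.C), M.ι γ = M.ex X * y ∧
      (κ : M.G) = d * y * d⁻¹ ∧ (∀ (Φ : M.C → ℝ) (C : ℝ), (∀ x, |Φ x| ≤ C) →
        |θ.E (fun x => Φ (x * κ)) - θ.E Φ| ≤ τ₂ * C) ∧
      (∀ i, (volume : Measure M.NN)
        {m | m ∈ Q ∧ m * M.conjN (g * θ.p i * d) (M.E.symm X) ∉ Q} ≤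
          ENNReal.ofReal τ₁ * volume Q) ∧
      (∀ i, (volume : Measure M.NN)
        {m | m ∈ Q ∧ m * (M.conjN (g * θ.p i * d) (M.E.symm X))⁻¹ ∉ Q} ≤
          ENNReal.ofReal τ₁ * volume Q)) :
    θ.E (fun c => av volume Q (Dv M N Ψ x (g * c * d) (b ^ J) (J * (N (M.h b) + 2 * δ)))) ≤
      δ * J := by
  have h1 := hblock (mu M hS hΨ Q θ x g d) (pmean_mu hQ hQ0) (fun γ hγ φ hφ C hC => by
    obtain ⟨X, y, κ, e1, e2, e3, e4, e5⟩ := hT γ hγ
    refine (mu_inv hQm hQ hQ0 e1 e2 hτ₁ e3 e4 e5 hφ hC).trans ?_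
    have hC0 : 0 ≤ C := (abs_nonneg _).trans (hC (XP M hS hΨ 1))
    gcongr)
  refine le_trans ?_ h1
  unfold mu
  obtain ⟨Ce, hCe⟩ := exists_exc_bound hS π N (KX M K) (J * (N (M.h b) + δ)) (M.rnd (b ^ J))
  have hcyl := cyl_eval (K := KX M K) (M.rnd (b ^ J)) (exc π N (J * (N (M.h b) + δ))) ⟨Ce, hCe⟩
  refine θ.E_mono fun i => ?_
  refine av_mono hQ (measurable_Dv _ _ _ _ _) (fun m => abs_Dv_le hc0 _ _ _ m)
    (measurable_XP hS hΨ hcyl x _) (fun m => hCe _) fun m => ?_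
  unfold Dv exc
  refine max_le_max ?_ le_rfl
  rw [hgtR_XP]
  set p := x * M.toG m * (g * (θ.p i) * d) with hp
  have e1 : x * M.toG m * (g * (θ.p i) * d * b ^ J) =
      p * M.ι (M.rnd (b ^ J)) * ((M.ι (M.rnd (b ^ J)))⁻¹ * b ^ J) := by
    rw [hp]; group
  rw [e1]
  have h2 := hc0 (p * M.ι (M.rnd (b ^ J))) ((M.ι (M.rnd (b ^ J)))⁻¹ * b ^ J)
  have h3 : c0 * (M.len ((M.ι (M.rnd (b ^ J)))⁻¹ * b ^ J) + 1) ≤ c0 * (M.a + 1) := by
    gcongr
    exact M.len_rnd _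
  have h4 := map_add_le_add N
    (fh M Ψ (p * M.ι (M.rnd (b ^ J)) * ((M.ι (M.rnd (b ^ J)))⁻¹ * b ^ J)) -
      fh M Ψ (p * M.ι (M.rnd (b ^ J))))
    (fh M Ψ (p * M.ι (M.rnd (b ^ J))) - fh M Ψ p)
  rw [sub_add_sub_cancel] at h4
  have h5 : (J : ℝ) * (N (M.h b) + 2 * δ) = J * (N (M.h b) + δ) + δ * J := by ring
  rw [h5]
  linarith

set_option maxHeartbeats 1000000 in
open Pointwise in
/-- **LIP**: the one-sided Lipschitz bound along the legs `b ∈ B`, at one common scale `n`. -/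
theorem lip_main (hS : Subgroup.closure (S : Set Γ) = ⊤) (hΓ : Amen Γ)
    (hmic : MicOut (S : Set Γ) π N) (B : Finset M.G) (hBC : ∀ b ∈ B, b ∈ M.C) {R₀ : ℝ}
    (hR₀ : M.a ≤ R₀) (hBR : ∀ b ∈ B, M.len b ≤ R₀) (hsub : ∀ b ∈ B, SubConj M b R₀) (K T : ℕ)
    {μ₀ δ : ℝ} (hμ₀ : 0 < μ₀) (hδ : 0 < δ) :
    ∃ R1 τ : ℝ, 0 < τ ∧ ∀ N1 : ℕ, ∃ n : ℕ, N1 ≤ n ∧ ∀ Ψ : Γ → Γ,
      QIMap (S : Set Γ) (S : Set Γ) Ψ K → ∀ b ∈ B, ∀ x g : M.G, ∀ Q : Set M.NN,
      MeasurableSet Q → (volume : Measure M.NN) Q ≠ 0 → (volume : Measure M.NN) Q ≠ ⊤ →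
      ∀ J : ℕ, J ≤ T * n →
      (∀ l : List M.G, (l.length : ℝ) ≤ μ₀ * n → (∀ s ∈ l, s ∈ M.C ∧ M.len s ≤ R₀) →
        ∀ i ≤ J, ∀ u : M.NN, ‖u‖ ≤ R1 → (volume : Measure M.NN)
          {m | m ∈ Q ∧ m * M.conjN (g * l.prod * b ^ i) u ∉ Q} ≤
            ENNReal.ofReal τ * volume Q) →
      (volume : Measure M.NN) {m | m ∈ Q ∧ J * N (M.h b) + δ * n <
        N (fh M Ψ (x * M.toG m * (g * b ^ J)) - fh M Ψ (x * M.toG m * g))} ≤
          ENNReal.ofReal δ * volume Q := by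
  classical
  have ha := M.a0
  have hR₀0 : 0 ≤ R₀ := ha.trans hR₀
  obtain ⟨c0, hc0, hlip⟩ := fh_N_lip M N K
  -- the ratio of the scales
  obtain ⟨D, hD⟩ := exists_nat_gt (max (1 / μ₀) (32 * c0 * R₀ / δ))
  have hDμ : 1 ≤ μ₀ * D := by
    have := (le_max_left _ _).trans_lt hD
    rw [div_lt_iff₀ hμ₀] at this
    linarith
  have hDδ : 32 * c0 * R₀ ≤ δ * D := by
    have := (le_max_right _ _).trans_lt hD
    rw [div_lt_iff₀ hδ] at this
    linarith
  have hD1 : 1 ≤ D := by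
    rcases Nat.eq_zero_or_pos D with h | h
    · rw [h] at hDμ; simp at hDμ; linarith
    · exact h
  have hDr : (1:ℝ) ≤ D := by exact_mod_cast hD1
  obtain ⟨A, hA⟩ := exists_polyGr (M := M) hR₀
  have hsolv := M.C_solv
  obtain ⟨κ, hκ, hloc⟩ := exists_local (one_mem_Lam hR₀0) Lam_inv (reiter_of_isSolvable M.C) hA
    (T * D)
  set δ' : ℝ := min (δ / (32 * (T + 1))) (κ * δ ^ 2 / (8 * (T + 1))) with hδ'
  have hδ'0 : 0 < δ' := by rw [hδ']; positivity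
  have hδ'1 : δ' * T ≤ δ / 32 := by
    have h1 : δ' ≤ δ / (32 * (T + 1)) := min_le_left _ _
    have h2 : δ / (32 * (T + 1)) * T ≤ δ / 32 := by
      rw [div_mul_eq_mul_div, div_le_div_iff₀ (by positivity) (by positivity)]
      nlinarith
    exact (mul_le_mul_of_nonneg_right h1 (Nat.cast_nonneg T)).trans h2
  have hδ'2 : δ' * T / κ ≤ δ / 2 * δ := by
    have h1 : δ' ≤ κ * δ ^ 2 / (8 * (T + 1)) := min_le_right _ _
    rw [div_le_iff₀ hκ]
    have h2 : κ * δ ^ 2 / (8 * (T + 1)) * T ≤ κ * δ ^ 2 / 8 := by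
      rw [div_mul_eq_mul_div, div_le_div_iff₀ (by positivity) (by positivity)]
      have : 0 ≤ κ * δ ^ 2 := by positivity
      nlinarith
    have h3 := (mul_le_mul_of_nonneg_right h1 (Nat.cast_nonneg T)).trans h2
    have : 0 ≤ κ * δ ^ 2 := by positivity
    linarith
  -- blocks
  obtain ⟨J0, hJ0⟩ := exists_nat_gt (c0 * (M.a + 1) / δ')
  rw [div_lt_iff₀ hδ'0] at hJ0
  choose Jb hJb0 hJb1 Tb τb hτb hblock using fun b : M.G =>
    block (M := M) hS hΓ hmic (KX M K) b hδ'0 J0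
  obtain ⟨τ₀, hτ₀, hτ₀le⟩ : ∃ τ₀ : ℝ, 0 < τ₀ ∧ ∀ b ∈ B, τ₀ ≤ τb b := by
    rcases B.eq_empty_or_nonempty with h | h
    · exact ⟨1, one_pos, by rw [h]; simp⟩
    · obtain ⟨x0, hx0, hmin⟩ := B.exists_min_image τb h
      exact ⟨τb x0, hτb x0, hmin⟩
  set TT : Finset Γ := B.biUnion Tb with hTT
  -- decomposition of the elements of `TT`
  obtain ⟨Rl, hRl⟩ : ∃ Rl : ℝ, ∀ γ ∈ TT, M.len (M.ι γ) ≤ Rl :=
    ⟨∑ γ ∈ TT, M.len (M.ι γ), fun γ hγ => Finset.single_le_sum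
      (f := fun γ => M.len (M.ι γ)) (fun γ _ => M.isLen.nonneg _) hγ⟩
  obtain ⟨R', hR'⟩ := M.dec Rl
  choose! X y hyC hγe hX hy using fun γ (hγ : γ ∈ TT) => hR' (M.ι γ) (hRl γ hγ)
  obtain ⟨ω, hω, hscale⟩ := hloc (τ₀ / 2) (half_pos hτ₀)
  choose! N₀ hN₀ using fun b (hb : b ∈ B) => hsub b hb R' (ω / (T * D + 1)) (by positivity)
  set Jm : ℕ := B.sup Jb with hJm
  have hJm' : ∀ b ∈ B, Jb b ≤ Jm := fun b hb => Finset.le_sup (f := Jb) hb
  obtain ⟨n2, hn2⟩ := exists_nat_gt (32 * (3 * c0 + c0 * (Jm * R₀)) / δ)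
  rw [div_lt_iff₀ hδ] at hn2
  refine ⟨R', τ₀ / 4, by positivity, fun N1 => ?_⟩
  obtain ⟨M', hM'N, hM'⟩ := hscale (max (max N1 1) (max (B.sup N₀) n2))
  have hM'1 : N1 ≤ M' := ((le_max_left _ _).trans (le_max_left _ _)).trans hM'N
  have hM'2 : 1 ≤ M' := ((le_max_right _ _).trans (le_max_left _ _)).trans hM'N
  have hM'3 : ∀ b ∈ B, N₀ b ≤ M' := fun b hb =>
    (((Finset.le_sup (f := N₀) hb).trans (le_max_left _ _)).trans (le_max_right _ _)).trans hM'N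
  have hM'4 : n2 ≤ M' := ((le_max_right _ _).trans (le_max_right _ _)).trans hM'N
  have hM'r : (1:ℝ) ≤ M' := by exact_mod_cast hM'2
  have hM'0 : (0:ℝ) ≤ M' := by linarith
  refine ⟨D * M', hM'1.trans (Nat.le_mul_of_pos_left _ hD1), ?_⟩
  intro Ψ hΨ b hb x g Q hQm hQ0 hQ J hJ habs
  have hlipΨ := hlip Ψ hΨ
  have hM'μ : (M' : ℝ) ≤ μ₀ * (D * M') := by
    have := mul_le_mul_of_nonneg_right hDμ hM'0
    linarith only [this]
  set n : ℝ := ((D * M' : ℕ) : ℝ) with hn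
  have hnD : n = D * M' := by rw [hn]; push_cast; ring
  have hn0 : 0 < n := by rw [hnD]; nlinarith
  have hM'n : (M' : ℝ) ≤ n := by rw [hnD]; nlinarith
  have hJn : (J : ℝ) ≤ T * n := by rw [hn]; exact_mod_cast hJ
  -- conjugates
  let bC : M.C := ⟨b, hBC b hb⟩
  let yC : Γ → M.C := fun γ => if h : γ ∈ TT then ⟨y γ, hyC γ h⟩ else 1
  let kf : ℕ × Γ → M.C := fun p => bC ^ p.1 * yC p.2 * (bC ^ p.1)⁻¹
  set 𝒦 : Finset M.C := (Finset.range (J + 1) ×ˢ TT).image kf with h𝒦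
  set w : ℕ := ⌊ω * M'⌋₊ with hw
  have hw' : (w : ℝ) ≤ ω * M' := Nat.floor_le (by positivity)
  have hJT : J ≤ (T * D + 1) * M' := by
    calc J ≤ T * (D * M') := hJ
      _ = T * D * M' := by ring
      _ ≤ (T * D + 1) * M' := Nat.mul_le_mul_right _ (Nat.le_succ _)
  have hkw : ∀ k ∈ 𝒦, k ∈ Lam M R₀ ^ w := by
    intro k hk
    obtain ⟨⟨i, γ⟩, hiγ, rfl⟩ := Finset.mem_image.1 hk
    rw [Finset.mem_product, Finset.mem_range] at hiγ
    obtain ⟨hi, hγ⟩ := hiγ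
    simp only at hi hγ
    obtain ⟨l, hl, hlen, hls⟩ := hN₀ b hb ((T * D + 1) * M')
      ((hM'3 b hb).trans (Nat.le_mul_of_pos_left _ (Nat.succ_pos _))) i (by omega) (y γ)
      (hyC γ hγ) (hy γ hγ)
    refine mem_Lam_pow hR₀0 ?_ hls (c := kf (i, γ)) ?_
    · refine Nat.le_floor (hlen.trans (le_of_eq ?_))
      push_cast
      have : (T : ℝ) * D + 1 ≠ 0 := by positivity
      field_simp
    · rw [← hl]
      simp only [kf, yC, dif_pos hγ, bC, Subgroup.coe_mul, Subgroup.coe_inv, Subgroup.coe_pow]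
  have hbJ : bC ^ J ∈ Lam M R₀ ^ (T * D * M') := by
    have h1 : bC ∈ Lam M R₀ := hBR b hb
    have h2 : bC ^ J ∈ Lam M R₀ ^ J := Set.pow_mem_pow h1
    refine pow_mono (one_mem_Lam hR₀0) ?_ h2
    calc J ≤ T * (D * M') := hJ
      _ = T * D * M' := by ring
  obtain ⟨θ, hθp, hθinv, hθκ⟩ := hM' 𝒦 w hw' hkw (bC ^ J) hbJ
  -- invariance data for every block
  have hdata : ∀ i ≤ J, ∀ γ ∈ TT, ∃ (X : M.L) (y : M.G) (κ : M.C), M.ι γ = M.ex X * y ∧
      (κ : M.G) = b ^ i * y * (b ^ i)⁻¹ ∧ (∀ (Φ : M.C → ℝ) (C : ℝ), (∀ x, |Φ x| ≤ C) →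
        |θ.E (fun x => Φ (x * κ)) - θ.E Φ| ≤ τ₀ / 2 * C) ∧
      (∀ j, (volume : Measure M.NN)
        {m | m ∈ Q ∧ m * M.conjN (g * θ.p j * b ^ i) (M.E.symm X) ∉ Q} ≤
          ENNReal.ofReal (τ₀ / 4) * volume Q) ∧
      (∀ j, (volume : Measure M.NN)
        {m | m ∈ Q ∧ m * (M.conjN (g * θ.p j * b ^ i) (M.E.symm X))⁻¹ ∉ Q} ≤
          ENNReal.ofReal (τ₀ / 4) * volume Q) := by
    intro i hi γ hγ
    refine ⟨X γ, y γ, kf (i, γ), hγe γ hγ, ?_, ?_, fun j => ?_, fun j => ?_⟩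
    · simp only [kf, yC, dif_pos hγ, bC, Subgroup.coe_mul, Subgroup.coe_inv, Subgroup.coe_pow]
    · exact hθinv _ (Finset.mem_image_of_mem _ (Finset.mem_product.2
        ⟨Finset.mem_range.2 (by omega), hγ⟩))
    · obtain ⟨l, hl, hls, hle⟩ := exists_list_of_mem (hθp j)
      rw [hle]
      refine habs l ?_ hls i hi _ (hX γ hγ)
      rw [hl, hnD]
      exact hM'μ
    · obtain ⟨l, hl, hls, hle⟩ := exists_list_of_mem (hθp j)
      rw [hle, ← map_inv]
      refine habs l ?_ hls i hi _ ?_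
      · rw [hl, hnD]
        exact hM'μ
      · rw [M.inv_def, norm_neg]
        exact hX γ hγ
  have hJ0b : c0 * (M.a + 1) ≤ δ' * Jb b := by
    have h1 : (J0 : ℝ) ≤ Jb b := by exact_mod_cast hJb0 b
    have h2 : (J0 : ℝ) * δ' ≤ Jb b * δ' := mul_le_mul_of_nonneg_right h1 hδ'0.le
    linarith only [h2, hJ0]
  have hTb : Tb b ⊆ TT := Finset.subset_biUnion_of_mem Tb hb
  have hblk : ∀ i ≤ J, θ.E (fun c => av volume Q (Dv M N Ψ x (g * c * b ^ i) (b ^ Jb b)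
      (Jb b * (N (M.h b) + 2 * δ')))) ≤ δ' * Jb b := fun i hi =>
    block_pt hS (hblock b) hΨ hlipΨ hc0 hJ0b hQm hQ hQ0 (τ₁ := τ₀ / 4) (τ₂ := τ₀ / 2)
      (by positivity) (by linarith [hτ₀le b hb]) fun γ hγ => hdata i hi γ (hTb hγ)
  -- sum over the blocks
  set q : ℕ := J / Jb b with hq
  have hqJ : Jb b * q ≤ J := Nat.mul_div_le J (Jb b)
  set cb : ℝ := Jb b * (N (M.h b) + 2 * δ') with hcb
  have hsum : θ.E (fun c => av volume Q (Dv M N Ψ x (g * c) (b ^ (Jb b * q)) (q * cb))) ≤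
      δ' * J := by
    have h1 : θ.E (fun c => av volume Q (Dv M N Ψ x (g * c) (b ^ (Jb b * q)) (q * cb))) ≤
        θ.E (fun c => ∑ i ∈ Finset.range q,
          av volume Q (Dv M N Ψ x (g * c * b ^ (Jb b * i)) (b ^ Jb b) cb)) := by
      refine θ.E_mono fun j => ?_
      rw [← av_sum hQ _ _ (fun i _ => measurable_Dv _ _ _ _ _)
        (C := fun i => |c0| * (M.len (b ^ Jb b) + 1) + |cb|)
        (fun i _ m => abs_Dv_le hlipΨ _ _ _ m)]
      refine av_mono hQ (measurable_Dv _ _ _ _ _) (fun m => abs_Dv_le hlipΨ _ _ _ m)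
        (Finset.measurable_fun_sum _ fun i _ => measurable_Dv _ _ _ _ _)
        (D := ∑ i ∈ Finset.range q, (|c0| * (M.len (b ^ Jb b) + 1) + |cb|))
        (fun m => ?_) fun m => ?_
      · refine (Finset.abs_sum_le_sum_abs _ _).trans (Finset.sum_le_sum fun i _ => ?_)
        exact abs_Dv_le hlipΨ _ _ _ m
      · have := Dv_sum (M := M) (N := N) Ψ x (g * θ.p j) b (Jb b) cb q m
        simpa only [mul_assoc] using this
    refine h1.trans ?_
    rw [θ.E_sum]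
    have h2 : ∀ i ∈ Finset.range q, θ.E (fun c =>
        av volume Q (Dv M N Ψ x (g * c * b ^ (Jb b * i)) (b ^ Jb b) cb)) ≤ δ' * Jb b := by
      intro i hi
      refine hblk _ ?_
      have : i ≤ q := (Finset.mem_range.1 hi).le
      exact (Nat.mul_le_mul_left _ this).trans hqJ
    refine (Finset.sum_le_sum h2).trans ?_
    rw [Finset.sum_const, Finset.card_range, nsmul_eq_mul]
    have h3 : (Jb b : ℝ) * q ≤ J := by exact_mod_cast hqJ
    calc (q : ℝ) * (δ' * Jb b) = δ' * (Jb b * q) := by ring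
      _ ≤ δ' * J := by gcongr
  obtain ⟨j, hjU, hj⟩ := θ.exists_le {c | (bC ^ J)⁻¹ * c * bC ^ J ∈ Lam M R₀ ^ M'}
    (fun c => av volume Q (Dv M N Ψ x (g * c) (b ^ (Jb b * q)) (q * cb))) hκ hθκ
    (fun c => av_nonneg fun m => Dv_nonneg _ _ _ _ _ _) hsum
  set c : M.C := θ.p j with hc
  have hjU' : (bC ^ J)⁻¹ * c * bC ^ J ∈ Lam M R₀ ^ M' := hjU
  have hlc : M.len (c : M.G) ≤ M' * R₀ := len_le_of_mem (hθp j)
  have hlc' : M.len (((bC ^ J)⁻¹ * c * bC ^ J : M.C) : M.G) ≤ M' * R₀ := len_le_of_mem hjU'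
  have hlenb : M.len b ≤ R₀ := hBR b hb
  have hlenbr : ∀ r : ℕ, r ≤ Jm → M.len (b ^ r) ≤ Jm * R₀ := by
    intro r hr
    have hr' : (r : ℝ) ≤ Jm := by exact_mod_cast hr
    refine (M.isLen.pow b r).trans ?_
    exact mul_le_mul hr' hlenb (M.isLen.nonneg _) (Nat.cast_nonneg _)
  have hJbm : Jb b ≤ Jm := hJm' b hb
  -- the pointwise bound
  have hpt : ∀ m : M.NN, N (fh M Ψ (x * M.toG m * (g * b ^ J)) - fh M Ψ (x * M.toG m * g)) ≤
      J * N (M.h b) + δ / 2 * n + Dv M N Ψ x (g * c) (b ^ (Jb b * q)) (q * cb) m := by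
    intro m
    have hmod : J % Jb b < Jb b := Nat.mod_lt _ (hJb1 b)
    have hJe : Jb b * q + J % Jb b = J := Nat.div_add_mod J (Jb b)
    -- four comparisons
    have p1 : N (fh M Ψ (x * M.toG m * (g * b ^ J)) - fh M Ψ (x * M.toG m * (g * c * b ^ J))) ≤
        c0 * (M' * R₀ + 1) := by
      have e1 : x * M.toG m * (g * c * b ^ J) = x * M.toG m * (g * b ^ J) *
          (((bC ^ J)⁻¹ * c * bC ^ J : M.C) : M.G) := by
        simp only [bC, Subgroup.coe_mul, Subgroup.coe_inv, Subgroup.coe_pow]; group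
      rw [← map_neg_eq_map, neg_sub, e1]
      refine (hlipΨ _ _).trans ?_
      gcongr
    have p2 : N (fh M Ψ (x * M.toG m * (g * c * b ^ J)) -
        fh M Ψ (x * M.toG m * (g * c * b ^ (Jb b * q)))) ≤ c0 * (Jm * R₀ + 1) := by
      have e1 : x * M.toG m * (g * c * b ^ J) = x * M.toG m * (g * c * b ^ (Jb b * q)) *
          b ^ (J % Jb b) := by
        conv_lhs => rw [← hJe]
        rw [pow_add]; simp only [mul_assoc]
      rw [e1]
      refine (hlipΨ _ _).trans ?_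
      have := hlenbr (J % Jb b) (by omega)
      gcongr
    have p3 : N (fh M Ψ (x * M.toG m * (g * c * b ^ (Jb b * q))) -
        fh M Ψ (x * M.toG m * (g * c))) ≤
        q * cb + Dv M N Ψ x (g * c) (b ^ (Jb b * q)) (q * cb) m := by
      have := le_max_left (N (fh M Ψ (x * M.toG m * (g * c * b ^ (Jb b * q))) -
        fh M Ψ (x * M.toG m * (g * c))) - q * cb) 0
      unfold Dv
      linarith
    have p4 : N (fh M Ψ (x * M.toG m * (g * c)) - fh M Ψ (x * M.toG m * g)) ≤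
        c0 * (M' * R₀ + 1) := by
      rw [← mul_assoc (x * M.toG m) g]
      refine (hlipΨ _ _).trans ?_
      gcongr
    have h1 := map_add_le_add N (fh M Ψ (x * M.toG m * (g * b ^ J)) -
      fh M Ψ (x * M.toG m * (g * c * b ^ J))) (fh M Ψ (x * M.toG m * (g * c * b ^ J)) -
        fh M Ψ (x * M.toG m * g))
    rw [sub_add_sub_cancel] at h1
    have h2 := map_add_le_add N (fh M Ψ (x * M.toG m * (g * c * b ^ J)) -
      fh M Ψ (x * M.toG m * (g * c * b ^ (Jb b * q))))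
      (fh M Ψ (x * M.toG m * (g * c * b ^ (Jb b * q))) - fh M Ψ (x * M.toG m * g))
    rw [sub_add_sub_cancel] at h2
    have h3 := map_add_le_add N (fh M Ψ (x * M.toG m * (g * c * b ^ (Jb b * q))) -
      fh M Ψ (x * M.toG m * (g * c))) (fh M Ψ (x * M.toG m * (g * c)) -
        fh M Ψ (x * M.toG m * g))
    rw [sub_add_sub_cancel] at h3
    -- numbers
    have n1 : (q : ℝ) * cb ≤ J * N (M.h b) + 2 * δ' * J := by
      have h4 : (Jb b : ℝ) * q ≤ J := by exact_mod_cast hqJ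
      have h5 : 0 ≤ N (M.h b) + 2 * δ' := add_nonneg (apply_nonneg N _) (by positivity)
      calc (q : ℝ) * cb = (Jb b * q) * (N (M.h b) + 2 * δ') := by rw [hcb]; ring
        _ ≤ J * (N (M.h b) + 2 * δ') := by gcongr
        _ = _ := by ring
    have n2' : 2 * δ' * J ≤ δ / 16 * n := by
      calc 2 * δ' * J ≤ 2 * δ' * (T * n) := by gcongr
        _ = 2 * (δ' * T) * n := by ring
        _ ≤ 2 * (δ / 32) * n := by gcongr
        _ = δ / 16 * n := by ring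
    have n3 : 2 * c0 * (M' * R₀) ≤ δ / 16 * n := by
      rw [hnD]
      have : 32 * c0 * R₀ * M' ≤ δ * D * M' := by gcongr
      linarith
    have n4 : 3 * c0 + c0 * (Jm * R₀) ≤ δ / 32 * n := by
      have h4 : (n2 : ℝ) ≤ M' := by exact_mod_cast hM'4
      have h5 : (n2 : ℝ) * δ ≤ n * δ := by gcongr; linarith
      linarith
    have hδn : 0 ≤ δ * n := by positivity
    linarith
  refine (measure_mono fun m hm => ?_).trans (markov hQm hQ hQ0
    (measurable_Dv (M := M) (N := N) Ψ x (g * c) (b ^ (Jb b * q)) (q * cb))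
    (fun m => abs_Dv_le hlipΨ _ _ _ m)
    (fun m => Dv_nonneg _ _ _ _ _ _) (c := δ / 2 * n) (δ := δ) (by positivity) ?_)
  · refine ⟨hm.1, ?_⟩
    have h1 := hm.2
    have h2 := hpt m
    linarith
  · refine hj.trans ?_
    calc δ' * J / κ ≤ δ' * (T * n) / κ := by gcongr
      _ = δ' * T / κ * n := by ring
      _ ≤ δ / 2 * δ * n := by gcongr
      _ = δ / 2 * n * δ := by ring

end Main

end Crest.Agent.R182.Lip
end

-- ▼ part R182/InvInner
section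

set_option autoImplicit false

open MeasureTheory

namespace Crest.Agent.R182.Conv

variable {k : ℕ}

















/-- a type synonym for the new inner product space. -/
def WS (_ : Seminorm ℝ (Fin k → ℝ)) : Type := Fin k → ℝ

instance (p : Seminorm ℝ (Fin k → ℝ)) : AddCommGroup (WS p) :=
  inferInstanceAs (AddCommGroup (Fin k → ℝ))
noncomputable instance (p : Seminorm ℝ (Fin k → ℝ)) : Module ℝ (WS p) :=
  inferInstanceAs (Module ℝ (Fin k → ℝ))
instance (p : Seminorm ℝ (Fin k → ℝ)) : FiniteDimensional ℝ (WS p) :=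
  inferInstanceAs (FiniteDimensional ℝ (Fin k → ℝ))



/-- the Euclidean seminorm on `ℝ^k` in the coordinates `T`. -/
noncomputable def nrmT {E : Type*} [NormedAddCommGroup E] [NormedSpace ℝ E]
    (T : (Fin k → ℝ) ≃ₗ[ℝ] E) : Seminorm ℝ (Fin k → ℝ) :=
  (normSeminorm ℝ E).comp (T : (Fin k → ℝ) →ₗ[ℝ] E)

@[simp] theorem nrmT_apply {E : Type*} [NormedAddCommGroup E] [NormedSpace ℝ E]
    (T : (Fin k → ℝ) ≃ₗ[ℝ] E) (v : Fin k → ℝ) : nrmT T v = ‖T v‖ := rfl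

end Crest.Agent.R182.Conv

namespace Crest.Agent.R182.Erg

open Crest.Agent.R182.Mic


end Crest.Agent.R182.Erg
end

-- ▼ part R182/GenLip

set_option autoImplicit false
set_option linter.unusedSectionVars false

open MeasureTheory List

namespace Crest.Agent.R182.Star

open Crest.GroupTheory Crest.Geometry Crest.Agent.R182.QI Crest.Agent.R182.FinPath
  Crest.Agent.R182.FinRed Crest.Agent.R182.Bnd Crest.Agent.R182.Core Crest.Agent.R182.Erg
  Crest.Agent.R182.OneScale Crest.Agent.R189.MeanF Crest.Agent.R182.Nb Crest.Agent.R182.Lip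
  Crest.Agent.R182.Conv

variable {Γ : Type*} [Group Γ] {k : ℕ} {π : Γ →* Multiplicative (Fin k → ℤ)} {S : Finset Γ}
  {M : BModel (S : Set Γ) π} [Countable Γ] {E : Type*} [NormedAddCommGroup E]
  [InnerProductSpace ℝ E] {T : (Fin k → ℝ) ≃ₗ[ℝ] E} {V : Set M.NN} {RC : ℝ}
  {P : BModel.CapPar M T V RC} {RS : RSys (GI M) E} {Tt : Set M.G} {Cb eps : ℝ}

theorem FF_ext (𝓛 : Legs (M.toCap P) RS Tt Cb eps) (N : ℕ) (τ : ℝ) (Ψ : Γ → Γ) (x : M.G)
    (n : M.NN) (w : List RS.Eb) :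
    FF (M.toCap P) 𝓛 N τ (M.ext Ψ) x n w =
      (N : ℝ)⁻¹ • T (fh M Ψ (x * M.toG n * 𝓛.pos N τ w)) := rfl

theorem norm_FF_sub (𝓛 : Legs (M.toCap P) RS Tt Cb eps) {N : ℕ} (τ : ℝ) (Ψ : Γ → Γ)
    (x : M.G) (n : M.NN) (w w' : List RS.Eb) :
    ‖FF (M.toCap P) 𝓛 N τ (M.ext Ψ) x n w' - FF (M.toCap P) 𝓛 N τ (M.ext Ψ) x n w‖ =
      nrmT T (fh M Ψ (x * M.toG n * 𝓛.pos N τ w') - fh M Ψ (x * M.toG n * 𝓛.pos N τ w)) / N := by
  rw [FF_ext, FF_ext, ← smul_sub, norm_smul, norm_inv, RCLike.norm_natCast, nrmT_apply, map_sub,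
    div_eq_inv_mul]

theorem _root_.Crest.Agent.R182.Lip.SubConj.mono {M : BModel (S : Set Γ) π} {b : M.G} {R₀ R₀' : ℝ}
    (h : SubConj M b R₀) (hR : R₀ ≤ R₀') : SubConj M b R₀' := by
  intro R δ hδ
  obtain ⟨N₀, h1⟩ := h R δ hδ
  refine ⟨N₀, fun N hN j hj y hy hyR => ?_⟩
  obtain ⟨l, e1, e2, e3⟩ := h1 N hN j hj y hy hyR
  exact ⟨l, e1, e2, fun s hs => ⟨(e3 s hs).1, (e3 s hs).2.trans hR⟩⟩

/-- the constant `R₀` of `lip_star` for given legs. -/
theorem exists_R0 (hX : XModel M) (𝓛 : Legs (M.toCap P) RS Tt Cb eps)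
    (hCN : ∀ e, 𝓛.b e ∈ M.CN) :
    ∃ R₀ : ℝ, M.a ≤ R₀ ∧ (∀ e, M.len (𝓛.b e) ≤ R₀) ∧ ∀ e, SubConj M (𝓛.b e) R₀ := by
  obtain ⟨R1, h1⟩ := hX.sub_conj
  have h0 : ∀ e, 0 ≤ M.len (𝓛.b e) := fun e => M.len_nonneg _
  have hs : 0 ≤ ∑ e, M.len (𝓛.b e) := Finset.sum_nonneg fun e _ => h0 e
  refine ⟨max R1 0 + M.a + ∑ e, M.len (𝓛.b e), ?_, fun e => ?_, fun e => ?_⟩
  · have := le_max_right R1 0
    linarith
  · have h2 := Finset.single_le_sum (f := fun e => M.len (𝓛.b e)) (fun e _ => h0 e)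
      (Finset.mem_univ e)
    have := le_max_right R1 0
    have := M.a0
    linarith
  · have h2 : SubConj M (𝓛.b e) R1 := h1 _ (hCN e)
    refine h2.mono ?_
    have := le_max_left R1 0
    have := M.a0
    linarith

/-- the body of `lip_main` at one scale `n`. -/
def LipAt (M : BModel (S : Set Γ) π) (Nn : Seminorm ℝ (Fin k → ℝ))
    (B : Finset M.G) (K Tm : ℕ) (μ₀ δ R₀ R1 τ' : ℝ) (n : ℕ) : Prop :=
  ∀ Ψ : Γ → Γ, QIMap (S : Set Γ) (S : Set Γ) Ψ K → ∀ b ∈ B, ∀ x g : M.G, ∀ Q : Set M.NN,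
    MeasurableSet Q → (volume : Measure M.NN) Q ≠ 0 → (volume : Measure M.NN) Q ≠ ⊤ →
    ∀ J : ℕ, J ≤ Tm * n →
    (∀ l : List M.G, (l.length : ℝ) ≤ μ₀ * n → (∀ s ∈ l, s ∈ M.C ∧ M.len s ≤ R₀) →
      ∀ i ≤ J, ∀ u : M.NN, ‖u‖ ≤ R1 → (volume : Measure M.NN)
        {m | m ∈ Q ∧ m * M.conjN (g * l.prod * b ^ i) u ∉ Q} ≤ ENNReal.ofReal τ' * volume Q) →
    (volume : Measure M.NN) {m | m ∈ Q ∧ J * Nn (M.h b) + δ * n <
      Nn (fh M Ψ (x * M.toG m * (g * b ^ J)) - fh M Ψ (x * M.toG m * g))} ≤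
        ENNReal.ofReal δ * volume Q

theorem exists_lipAt {Nn : Seminorm ℝ (Fin k → ℝ)} (hS : Subgroup.closure (S : Set Γ) = ⊤)
    (hΓ : Amen Γ) (hmic : MicOut (S : Set Γ) π Nn) (B : Finset M.G) (hBC : ∀ b ∈ B, b ∈ M.C)
    {R₀ : ℝ} (hR₀ : M.a ≤ R₀) (hBR : ∀ b ∈ B, M.len b ≤ R₀) (hsub : ∀ b ∈ B, SubConj M b R₀)
    (K Tm : ℕ) {μ₀ δ : ℝ} (hμ₀ : 0 < μ₀) (hδ : 0 < δ) :
    ∃ R1 τ' : ℝ, 0 < τ' ∧ ∀ N1 : ℕ, ∃ n : ℕ, N1 ≤ n ∧ LipAt M Nn B K Tm μ₀ δ R₀ R1 τ' n :=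
  lip_main hS hΓ hmic B hBC hR₀ hBR hsub K Tm hμ₀ hδ

/-- the bound for the number of steps -/
theorem Legs.mul_p_le (𝓛 : Legs (M.toCap P) RS Tt Cb eps) {A a N : ℕ} {τ : ℝ} (hτ : 0 ≤ τ)
    (ha : a ≤ A) (e : RS.Eb) :
    a * 𝓛.p N τ e ≤ (A * ∑ e : RS.Eb, ⌈τ / 𝓛.mE e⌉₊) * N := by
  have h1 : 𝓛.p N τ e ≤ ⌈τ / 𝓛.mE e⌉₊ * N := by
    have h2 : ((𝓛.p N τ e : ℕ) : ℝ) ≤ ((⌈τ / 𝓛.mE e⌉₊ * N : ℕ) : ℝ) := by
      have h3 := 𝓛.p_le (N := N) hτ e
      have h4 := 𝓛.mE_pos e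
      have h5 : ((𝓛.p N τ e : ℕ) : ℝ) ≤ τ / 𝓛.mE e * N := by
        rw [div_mul_eq_mul_div, le_div_iff₀ h4]; exact h3
      push_cast
      exact h5.trans (by gcongr; exact Nat.le_ceil _)
    exact_mod_cast h2
  have h2 : ⌈τ / 𝓛.mE e⌉₊ ≤ ∑ e : RS.Eb, ⌈τ / 𝓛.mE e⌉₊ :=
    Finset.single_le_sum (f := fun e : RS.Eb => ⌈τ / 𝓛.mE e⌉₊) (fun _ _ => Nat.zero_le _)
      (Finset.mem_univ e)
  calc a * 𝓛.p N τ e ≤ A * (⌈τ / 𝓛.mE e⌉₊ * N) := Nat.mul_le_mul ha h1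
    _ ≤ A * ((∑ e : RS.Eb, ⌈τ / 𝓛.mE e⌉₊) * N) := by gcongr
    _ = _ := by ring

/-- **the LIP hypothesis of `star_law` from `LipAt`**: all parameters `A, τ, δ` (finitely many shapes)
are served by one `n = N` as soon as `A ∑ ⌈τ / mE⌉ ≤ Tm` and `δ₀ ≤ δ`. -/
theorem LipAt.star {𝓛 : Legs (M.toCap P) RS Tt Cb eps} {B : Finset M.G} {K Tm N : ℕ}
    {μ₀ δ₀ R₀ R1 τ' : ℝ} (h : LipAt M (nrmT T) B K Tm μ₀ δ₀ R₀ R1 τ' N)
    (hB : ∀ e, 𝓛.b e ∈ B) (hN1 : 1 ≤ N)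
    {Ψ : Γ → Γ} (hΨ : QIMap (S : Set Γ) (S : Set Γ) Ψ K) (x : M.G) {Q : Set M.NN}
    (hQ : MeasurableSet Q) (hQ0 : (volume : Measure M.NN) Q ≠ 0)
    (hQt : (volume : Measure M.NN) Q ≠ ⊤) {A : ℕ} {τ δ : ℝ} (hτ : 0 ≤ τ) (hδ : δ₀ ≤ δ)
    (hTm : A * ∑ e : RS.Eb, ⌈τ / 𝓛.mE e⌉₊ ≤ Tm) (w : List RS.Eb) (e : RS.Eb) {a : ℕ}
    (ha : a ≤ A)
    (habs : ∀ l : List M.G, (l.length : ℝ) ≤ μ₀ * N → (∀ s ∈ l, s ∈ M.C ∧ M.len s ≤ R₀) →
        ∀ i ≤ a * 𝓛.p N τ e, ∀ u : M.NN, ‖u‖ ≤ R1 → (volume : Measure M.NN)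
          {m | m ∈ Q ∧ m * M.conjN (𝓛.pos N τ w * l.prod * 𝓛.b e ^ i) u ∉ Q} ≤
            ENNReal.ofReal τ' * volume Q) :
    (M.toCap P).μ {n | n ∈ Q ∧ a * 𝓛.p N τ e * ‖(M.toCap P).hgt (𝓛.b e)‖ / N + δ <
        ‖FF (M.toCap P) 𝓛 N τ (M.ext Ψ) x n (w ++ replicate a e) -
          FF (M.toCap P) 𝓛 N τ (M.ext Ψ) x n w‖} ≤ ENNReal.ofReal δ * (M.toCap P).μ Q := by
  classical
  have hNR : (0 : ℝ) < N := by exact_mod_cast hN1
  have hJ : a * 𝓛.p N τ e ≤ Tm * N := (𝓛.mul_p_le hτ ha e).trans (Nat.mul_le_mul_right _ hTm)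
  have key := h Ψ hΨ (𝓛.b e) (hB e) x
    (𝓛.pos N τ w) Q hQ hQ0 hQt (a * 𝓛.p N τ e) hJ habs
  have hpos : 𝓛.pos N τ (w ++ replicate a e) = 𝓛.pos N τ w * 𝓛.b e ^ (a * 𝓛.p N τ e) := by
    rw [𝓛.pos_append, 𝓛.pos_replicate]
    unfold Legs.u
    rw [← pow_mul, mul_comm a]
  refine le_trans (measure_mono ?_) (key.trans (mul_le_mul_left (ENNReal.ofReal_le_ofReal hδ) _))
  rintro n ⟨hn, hlt⟩
  refine ⟨hn, ?_⟩
  rw [norm_FF_sub, hpos] at hlt
  rw [lt_div_iff₀ hNR, add_mul, div_mul_cancel₀ _ hNR.ne'] at hlt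
  have e1 : nrmT T (M.h (𝓛.b e)) = ‖(M.toCap P).hgt (𝓛.b e)‖ := rfl
  rw [e1]
  push_cast
  have h2 : δ₀ * N ≤ δ * N := mul_le_mul_of_nonneg_right hδ hNR.le
  linarith


end Crest.Agent.R182.Star
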