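/-
R182 (helper278): the absorption data of `star_law` for boxes of near tuples.
-/
import Mathlib
import Crest.Agent.R182.BoxOne
import Crest.Agent.R182.GenLip
import Crest.Agent.R182.StarLaw

set_option autoImplicit false
set_option linter.unusedSectionVars false

open MeasureTheory List

namespace Crest.Agent.R182.Gen

open Crest.Agent.R182.Nb Crest.Agent.R182.Core Crest.Agent.R182.Cap Crest.Agent.R182.Star
  Crest.Agent.R182.QI

section Reorder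

variable {Γ : Type*} [Group Γ] {k : ℕ} {S : Set Γ} {π : Γ →* Multiplicative (Fin k → ℤ)}
  {M : BModel S π} [Countable Γ] {E : Type} [NormedAddCommGroup E] [InnerProductSpace ℝ E]
  {T : (Fin k → ℝ) ≃ₗ[ℝ] E} {V : Set M.NN} {RC : ℝ} {P : BModel.CapPar M T V RC}
  {R : RSys (GI M) E}

theorem CW.mono {R R' P P' : ℝ} {g : M.G} (h : CW M R P g)
    (hR : R ≤ R') (hP : P ≤ P') : CW M R' P' g := by
  obtain ⟨l, h1, h2, h3⟩ := h
  exact ⟨l, h1, fun s hs => ⟨(h2 s hs).1, (h2 s hs).2.trans hR⟩, h3.trans hP⟩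

theorem NearTup.mono {Rl Rl' C C' μ μ' : ℝ} {N : ℕ} {X : R.Eb → ℝ} {g : R.Eb → M.G}
    (h : NearTup M T R Rl C μ N X g) (hR : Rl ≤ Rl') (hC : C ≤ C') (hμ : μ ≤ μ') :
    NearTup M T R Rl' C' μ' N X g where
  word e := (h.word e).mono hR (by
    have : C * (N : ℝ) ≤ C' * N := by gcongr
    linarith)
  near e := (h.near e).trans (by gcongr)

/-- `exists_geom2` with the constants of the words at the end. -/
theorem exists_geom3 (hRS : (M.toCap P).S = R.toGenSys) {m1 : ℝ} (hm1 : 0 < m1) (hm11 : m1 ≤ 1)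
    (hm1le : ∀ e ∈ R.Eb, ∀ e' ∈ R.Eb, e ≠ e' → inner ℝ e e' ≤ 1 - m1) {δ : ℝ} (hδ : 0 < δ) :
    ∃ μ0 c : ℝ, 0 < μ0 ∧ 0 < c ∧ ∀ Rl C : ℝ, 0 ≤ C →
    ∃ N0 : ℕ, ∀ N : ℕ, N0 ≤ N → ∀ X : R.Eb → ℝ, (∀ e, |X e - 1| ≤ m1 / 10) → ∀ g : R.Eb → M.G,
      NearTup M T R Rl C μ0 N X g →
      Touch M (rayE hRS) g 1 ∧ ∀ g' : M.G, CW M Rl (2 + C * N) g' →
        (∀ e : R.Eb, inner ℝ (e : E) (T (M.h g')) ≤ (X e - δ) * N) →
        Sm M (fam M (rayE hRS) g) (Real.exp (-(c * N))) g' := by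
  obtain ⟨lm, LM, hlm, hLM, hlm1, hLM1⟩ := R.exists_bounds
  set c1 : ℝ := lm * min (m1 / 2) (δ / 2) with hc1
  have hc10 : 0 < c1 := by positivity
  refine ⟨min (m1 / 10) (δ / 4), c1 / 2, by positivity, by positivity, fun Rl C hC => ?_⟩
  obtain ⟨B, hB⟩ := exists_touch M Rl
  obtain ⟨B', hB'⟩ := exists_tiny M Rl
  obtain ⟨N1, hN1⟩ := exists_exp_ge (B + B') C (c1 / 2) (by positivity) hC
  refine ⟨N1, fun N hN X hX g hg => ?_⟩
  have hNr : (0:ℝ) ≤ N := Nat.cast_nonneg N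
  set μ0 : ℝ := min (m1 / 10) (δ / 4) with hμ0
  have hμ1 : μ0 ≤ m1 / 10 := min_le_left _ _
  have hμ2 : μ0 ≤ δ / 4 := min_le_right _ _
  have hμpos : 0 < μ0 := by positivity
  have hX0 : ∀ e, 0 ≤ X e := fun e => by have := (abs_le.1 (hX e)).1; linarith
  have hX3 : ∀ e, 1 - m1 / 10 ≤ X e := fun e => by have := (abs_le.1 (hX e)).1; linarith
  have hX4 : ∀ e, X e ≤ 1 + m1 / 10 := fun e => by have := (abs_le.1 (hX e)).2; linarith
  set Pn : ℝ := 2 + C * N with hPn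
  have hPn2 : 2 ≤ Pn := by
    rw [hPn]
    have : 0 ≤ C * N := by positivity
    linarith
  have hPn1 : 1 ≤ Pn := by linarith
  have hexp := hN1 N hN
  have hexpB : Pn ^ B ≤ Real.exp (c1 * N) := by
    refine (pow_le_pow_right₀ hPn1 (Nat.le_add_right B B')).trans (hexp.trans ?_)
    apply Real.exp_le_exp.2
    nlinarith
  have hexpB' : Pn ^ B' ≤ Real.exp (c1 / 2 * N) :=
    (pow_le_pow_right₀ hPn1 (Nat.le_add_left B' B)).trans hexp
  -- sides from below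
  have hside : ∀ j : GI M, R.lam j * ((X (rayE hRS j) - μ0) * N) ≤ sides M (rayE hRS) g j := by
    intro j
    rw [sides, wg_eq hRS]
    refine mul_le_mul_of_nonneg_left ?_ (R.lam_nonneg j)
    have hu := R.unit _ (R.dir_mem j (lam_ne hRS j))
    have h1 := hg.inner (rayE hRS j) (R.dir j) hu
    have h2 : inner ℝ (R.dir j) ((rayE hRS j : R.Eb) : E) = (1:ℝ) := by
      change inner ℝ (R.dir j) (R.dir j) = (1:ℝ)
      rw [real_inner_self_eq_norm_sq, hu]; norm_num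
    rw [h2, mul_one] at h1
    have h3 := (abs_le.1 h1).1
    linarith
  have hsmall : ∀ j : GI M, ∀ y : ℝ, y ≤ (X (rayE hRS j) - μ0) * N - min (m1 / 2) (δ / 2) * N →
      R.lam j * y ≤ sides M (rayE hRS) g j - c1 * N := by
    intro j y hy
    have hl := lam_pos hRS j
    have hlm' := hlm1 j hl.ne'
    have h1 := hside j
    have h2 := mul_le_mul_of_nonneg_left hy hl.le
    have h3 : c1 * N ≤ R.lam j * (min (m1 / 2) (δ / 2) * N) := by
      rw [hc1, mul_assoc]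
      exact mul_le_mul_of_nonneg_right hlm' (by positivity)
    rw [mul_sub] at h2
    linarith
  have hmar : ∀ (e : R.Eb) (j : GI M), rayE hRS j ≠ e →
      wg M j (M.h (g e)) ≤ sides M (rayE hRS) g j - c1 * N := by
    intro e j hj
    rw [wg_eq hRS]
    refine hsmall j _ ?_
    have hu := R.unit _ (R.dir_mem j (lam_ne hRS j))
    have h1 := hg.inner e (R.dir j) hu
    have h2 := hm1le _ (R.dir_mem j (lam_ne hRS j)) _ e.2 (fun h => hj (Subtype.ext h))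
    have h3 := (abs_le.1 h1).2
    have h6 : X e * N * inner ℝ (R.dir j) (e : E) ≤ X e * N * (1 - m1) :=
      mul_le_mul_of_nonneg_left h2 (mul_nonneg (hX0 e) hNr)
    have a1 := hX3 (rayE hRS j)
    have a2 := hX4 e
    have b3 : X e * (1 - m1) ≤ (1 + m1 / 10) * (1 - m1) :=
      mul_le_mul_of_nonneg_right a2 (by linarith)
    have b4 : X e * (1 - m1) + μ0 ≤ X (rayE hRS j) - μ0 - min (m1 / 2) (δ / 2) := by
      have := min_le_left (m1 / 2) (δ / 2)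
      nlinarith
    have b5 := mul_le_mul_of_nonneg_right b4 hNr
    nlinarith
  have htouch : ∀ (r : R.Eb) (j : GI M), wg M j (M.h (g r)) ≤ sides M (rayE hRS) g j := by
    intro r j
    by_cases h : rayE hRS j = r
    · rw [sides, h]
    · have := hmar r j h
      have : 0 ≤ c1 * N := by positivity
      linarith
  refine ⟨(hB Pn hPn2 (rayE hRS) g (c1 * N) (rays_rayE hRS) hg.word (by positivity) hexpB
    hmar).1, fun g' hg' hh => ?_⟩
  have h1 := hB' Pn hPn2 (rayE hRS) g (rays_rayE hRS) hg.word htouch (c1 * N) (by positivity) g' hg'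
    fun j => by
      rw [wg_eq hRS]
      refine hsmall j _ ((hh (rayE hRS j)).trans ?_)
      have := min_le_right (m1 / 2) (δ / 2)
      have b5 := mul_le_mul_of_nonneg_right this hNr
      nlinarith
  intro i
  refine Bx_mono ?_ (h1 i)
  calc Pn ^ B' * Real.exp (-(c1 * N)) ≤ Real.exp (c1 / 2 * N) * Real.exp (-(c1 * N)) := by gcongr
    _ = Real.exp (-(c1 / 2 * N)) := by rw [← Real.exp_add]; congr 1; ring

/-- `absorb_near2` with the constants of the words at the end. -/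
theorem absorb_near3 (hRS : (M.toCap P).S = R.toGenSys) {m1 : ℝ} (hm1 : 0 < m1) (hm11 : m1 ≤ 1)
    (hm1le : ∀ e ∈ R.Eb, ∀ e' ∈ R.Eb, e ≠ e' → inner ℝ e e' ≤ 1 - m1) {δ : ℝ} (hδ : 0 < δ) :
    ∃ μ0 : ℝ, 0 < μ0 ∧ ∀ Rl C : ℝ, 0 ≤ C → ∀ R1 τ' : ℝ, 0 < τ' →
    ∃ N0 : ℕ, ∀ N : ℕ, N0 ≤ N → ∀ X : R.Eb → ℝ, (∀ e, |X e - 1| ≤ m1 / 10) → ∀ g : R.Eb → M.G,
      NearTup M T R Rl C μ0 N X g →
      Touch M (rayE hRS) g 1 ∧ ∀ g' : M.G, CW M Rl (2 + C * N) g' →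
        (∀ e : R.Eb, inner ℝ (e : E) (T (M.h g')) ≤ (X e - δ) * N) →
        Sm M (fam M (rayE hRS) g) 1 g' ∧ ∀ R' : ℝ, 1 ≤ R' → ∀ u : M.NN, ‖u‖ ≤ R1 →
          volume {m : M.NN | m ∈ box M (fun i => R' • fam M (rayE hRS) g i) 1 ∧
            m * M.conjN g' u ∉ box M (fun i => R' • fam M (rayE hRS) g i) 1} ≤
          ENNReal.ofReal τ' * volume (box M (fun i => R' • fam M (rayE hRS) g i) 1) := by
  obtain ⟨μ0, c, hμ0, hc, hall⟩ := exists_geom3 hRS hm1 hm11 hm1le hδ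
  refine ⟨μ0, hμ0, fun Rl C hC R1 τ' hτ' => ?_⟩
  obtain ⟨N0, hN0⟩ := hall Rl C hC
  obtain ⟨e0, he0, habs⟩ := exists_absorb_word M (spans M) (max R1 0) (le_max_right _ _) hτ'
  obtain ⟨N1, hN1⟩ := exists_nat_ge (Real.log (1 / e0) / c)
  refine ⟨max N0 N1, fun N hN X hX g hg => ?_⟩
  obtain ⟨ht, hsm⟩ := hN0 N (le_of_max_le_left hN) X hX g hg
  refine ⟨ht, fun g' hg' hmar => ?_⟩
  have h1 := hsm g' hg' hmar
  have hNN : (N1 : ℝ) ≤ N := by exact_mod_cast le_of_max_le_right hN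
  have h2 : Real.exp (-(c * N)) ≤ e0 := by
    have h3 : Real.log (1 / e0) ≤ c * N := by
      have := hN1.trans hNN
      rwa [div_le_iff₀' hc] at this
    rw [Real.exp_neg]
    have h4 : 1 / e0 ≤ Real.exp (c * N) := by
      rw [← Real.exp_log (show 0 < 1 / e0 by positivity)]
      exact Real.exp_le_exp.2 h3
    rw [inv_le_comm₀ (Real.exp_pos _) he0, ← one_div]
    exact h4
  have h3 : Real.exp (-(c * N)) ≤ 1 := Real.exp_le_one_iff.2 (by
    have : 0 ≤ c * (N : ℝ) := by positivity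
    linarith)
  exact ⟨fun i => Bx_mono h3 (h1 i), fun R' hR' u hu =>
    habs _ _ (Real.exp_pos _).le h2 g' h1 R' hR' u (hu.trans (le_max_left _ _))⟩

/-- a ball in the shape gives a margin -/
theorem le_of_ball_Om {X : R.Eb → ℝ} {ρ : ℝ} {v : E} (hρ : 0 < ρ) (h : Metric.ball v ρ ⊆ Om R X)
    (e : R.Eb) : inner ℝ (e : E) v + ρ / 2 ≤ X e := by
  have h1 : v + (ρ / 2) • (e : E) ∈ Metric.ball v ρ := by
    rw [Metric.mem_ball, dist_eq_norm, add_sub_cancel_left, norm_smul, R.unit _ e.2, mul_one,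
      Real.norm_of_nonneg (by positivity)]
    linarith
  have h2 := h h1 e
  rw [inner_add_right, inner_smul_right, real_inner_self_eq_norm_sq, R.unit _ e.2] at h2
  linarith

/-- margin at an intermediate point of a leg -/
theorem le_seg {X : R.Eb → ℝ} {τ ρ : ℝ} {A : ℕ} (hρ : 0 < ρ) {w : List R.Eb}
    {e : R.Eb} (h : ∀ a ≤ A, Metric.ball (τ • lsum (w ++ replicate a e)) ρ ⊆ Om R X) {a : ℕ}
    (ha : a ≤ A) {θ : ℝ} (hθ : 0 ≤ θ) (hθa : θ ≤ a * τ) (f : R.Eb) :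
    inner ℝ (f : E) (τ • lsum w) + θ * inner ℝ (f : E) (e : E) + ρ / 2 ≤ X f := by
  have h0 := le_of_ball_Om hρ (h 0 (Nat.zero_le _)) f
  have h1 := le_of_ball_Om hρ (h a ha) f
  have e1 : lsum (w ++ replicate a e) = lsum w + (a : ℝ) • (e : E) := by
    rw [lsum_append]
    congr 1
    simp [lsum, Nat.cast_smul_eq_nsmul]
  rw [replicate_zero, append_nil] at h0
  rw [e1, smul_add, inner_add_right, smul_smul, inner_smul_right _ _ (τ * (a : ℝ))] at h1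
  rcases le_total 0 (inner ℝ (f : E) (e : E) : ℝ) with hi | hi
  · have : θ * inner ℝ (f : E) (e : E) ≤ τ * a * inner ℝ (f : E) (e : E) := by
      rw [mul_comm τ]
      gcongr
    linarith
  · have : θ * inner ℝ (f : E) (e : E) ≤ 0 := mul_nonpos_of_nonneg_of_nonpos hθ hi
    linarith

theorem CW_of_ClSet {m : ℕ} {g : M.G} (h : g ∈ M.ClSet RC m) {Rl Pn : ℝ} (hR : RC ≤ Rl)
    (hP : 1 + (m : ℝ) ≤ Pn) : CW M Rl Pn g := by
  obtain ⟨l, h1, h2, h3⟩ := h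
  refine ⟨l, h3, fun s hs => ⟨(h2 s hs).1, (h2 s hs).2.trans hR⟩, ?_⟩
  have : (l.length : ℝ) ≤ m := by exact_mod_cast h1
  linarith

theorem CW.mul {Rl P₁ P₂ : ℝ} {g₁ g₂ : M.G} (h₁ : CW M Rl (1 + P₁) g₁)
    (h₂ : CW M Rl (1 + P₂) g₂) : CW M Rl (1 + (P₁ + P₂)) (g₁ * g₂) := by
  obtain ⟨l, rfl, h1, h2⟩ := h₁
  obtain ⟨l', rfl, h1', h2'⟩ := h₂
  refine ⟨l ++ l', prod_append.symm, fun s hs => ?_, ?_⟩
  · rcases mem_append.1 hs with h | h
    · exact h1 s h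
    · exact h1' s h
  · rw [length_append]; push_cast; linarith

theorem norm_hgt_list {Rl : ℝ} (l : List M.G) (h : ∀ s ∈ l, M.len s ≤ Rl) :
    ‖T (M.h l.prod)‖ ≤ (M.toCap P).C0 * (P.s * |Rl|) * l.length := by
  have h1 := (M.toCap P).hgt_le l.prod
  have h2 := M.len_list_le l h
  have h3 : (M.toCap P).len l.prod ≤ P.s * (l.length * |Rl|) := by
    change P.s * M.len l.prod ≤ _
    have := P.one_le_s
    refine mul_le_mul_of_nonneg_left (h2.trans ?_) (by linarith)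
    exact mul_le_mul_of_nonneg_left (le_abs_self _) (Nat.cast_nonneg _)
  have h4 : ‖T (M.h l.prod)‖ ≤ (M.toCap P).C0 * (M.toCap P).len l.prod := h1
  have h5 := (M.toCap P).one_le_C0
  calc ‖T (M.h l.prod)‖ ≤ (M.toCap P).C0 * (M.toCap P).len l.prod := h4
    _ ≤ (M.toCap P).C0 * (P.s * (l.length * |Rl|)) :=
        mul_le_mul_of_nonneg_left h3 (by linarith)
    _ = _ := by ring

/-- **the absorption data of `star_law` for boxes of near tuples.** -/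
theorem absorb_star (hRS : (M.toCap P).S = R.toGenSys) {m1 : ℝ} (hm1 : 0 < m1) (hm11 : m1 ≤ 1)
    (hm1le : ∀ e ∈ R.Eb, ∀ e' ∈ R.Eb, e ≠ e' → inner ℝ e e' ≤ 1 - m1) {Tt : Set M.G} {r0 : ℕ}
    (hT : ∀ s ∈ Tt, s ∈ (M.toCap P).Cl r0) (Cb : ℝ) {X : R.Eb → ℝ}
    (hX : ∀ e, |X e - 1| ≤ m1 / 10) {τ ρ1 : ℝ} {A : ℕ} {𝒲 : Finset (List R.Eb)} (hτ : 0 < τ)
    (hρ1 : 0 < ρ1)
    (hball : ∀ w ∈ 𝒲, ∀ e : R.Eb, ∀ a ≤ A,
      Metric.ball (τ • lsum (w ++ replicate a e)) ρ1 ⊆ Om R X) :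
    ∃ eps2 μ1 : ℝ, 0 < eps2 ∧ 0 < μ1 ∧ ∀ eps : ℝ, 0 ≤ eps → eps ≤ eps2 →
    ∀ 𝓛 : Legs (M.toCap P) R Tt Cb eps, ∀ R₀ : ℝ, ∃ μ₀ : ℝ, 0 < μ₀ ∧
    ∀ Rl Cg R1 τ₁ : ℝ, 0 < τ₁ → ∃ N0 : ℕ, ∀ N : ℕ, N0 ≤ N → ∀ g : R.Eb → M.G,
      NearTup M T R Rl Cg μ1 N X g →
      Touch M (rayE hRS) g 1 ∧
      (∀ w ∈ 𝒲, Sm M (fam M (rayE hRS) g) 1 (𝓛.pos N τ w)) ∧
      ∀ R' : ℝ, 1 ≤ R' → ∀ w ∈ 𝒲, ∀ e, ∀ a ≤ A,
        ∀ l : List M.G, (l.length : ℝ) ≤ μ₀ * N → (∀ s ∈ l, s ∈ M.C ∧ M.len s ≤ R₀) →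
          ∀ i ≤ a * 𝓛.p N τ e, ∀ u : M.NN, ‖u‖ ≤ R1 → (volume : Measure M.NN)
            {m | m ∈ box M (fun i => R' • fam M (rayE hRS) g i) 1 ∧
              m * M.conjN (𝓛.pos N τ w * l.prod * 𝓛.b e ^ i) u ∉
                box M (fun i => R' • fam M (rayE hRS) g i) 1} ≤
            ENNReal.ofReal τ₁ * volume (box M (fun i => R' • fam M (rayE hRS) g i) 1) := by
  classical
  obtain ⟨μ1, hμ1, hμ⟩ := absorb_near3 hRS hm1 hm11 hm1le (δ := ρ1 / 4) (by positivity)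
  obtain ⟨Lm, hLm⟩ : ∃ Lm : ℕ, ∀ w ∈ 𝒲, w.length ≤ Lm :=
    ⟨𝒲.sup length, fun w hw => Finset.le_sup (f := length) hw⟩
  refine ⟨ρ1 / (16 * ((Lm + A + 1) * τ)), μ1, by positivity, hμ1, fun eps he0 he 𝓛 R₀ => ?_⟩
  have hC0 := (M.toCap P).one_le_C0
  have hs := P.one_le_s
  obtain ⟨C1, hC1⟩ : ∃ C1 : ℝ, C1 = (M.toCap P).C0 * (P.s * |R₀|) := ⟨_, rfl⟩
  have hC1p : 0 ≤ C1 := by
    rw [hC1]
    have := abs_nonneg R₀
    have h1 : 0 ≤ P.s * |R₀| := mul_nonneg (by linarith) this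
    exact mul_nonneg (by linarith) h1
  refine ⟨min 1 (ρ1 / (16 * (C1 + 1))), by positivity, fun Rl Cg R1 τ₁ hτ₁ => ?_⟩
  obtain ⟨C, hC⟩ : ∃ C : ℝ, C = |Cg| + (r0 * (|Cb| * ((Lm + A) * τ)) + 1) := ⟨_, rfl⟩
  have hCp : 0 ≤ C := by rw [hC]; positivity
  have hCge : r0 * (|Cb| * ((Lm + A) * τ)) + 1 ≤ C := by
    rw [hC]; linarith [abs_nonneg Cg]
  obtain ⟨N1, hN1⟩ := hμ (max Rl (max RC R₀)) C hCp R1 τ₁ hτ₁
  obtain ⟨N2, hN2⟩ := exists_nat_ge (Lm * 𝓛.mX / (ρ1 / 16))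
  refine ⟨max 1 (max N1 N2), fun N hN g hg => ?_⟩
  have hN1' : N1 ≤ N := (le_max_left _ _).trans ((le_max_right _ _).trans hN)
  have hN2' : (N2 : ℝ) ≤ N := by
    exact_mod_cast (le_max_right _ _).trans ((le_max_right _ _).trans hN)
  have hNp : (1 : ℝ) ≤ N := by exact_mod_cast (le_max_left _ _).trans hN
  have hN0 : (0 : ℝ) < N := by linarith
  have hmXn := 𝓛.mX_nonneg
  have hmX : Lm * 𝓛.mX ≤ ρ1 / 16 * N := by
    have := hN2.trans hN2'
    rwa [div_le_iff₀' (by positivity)] at this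
  have heps : eps * ((Lm + A + 1) * τ) ≤ ρ1 / 16 := by
    rw [le_div_iff₀ (by positivity)] at he
    linarith
  obtain ⟨ht, hmain⟩ := hN1 N hN1' X hX g (hg.mono (le_max_left _ _) (by
    rw [hC]
    have := le_abs_self Cg
    have : 0 ≤ r0 * (|Cb| * ((Lm + A) * τ)) + 1 := by positivity
    linarith) le_rfl)
  -- words
  have hposw : ∀ w ∈ 𝒲, CW M (max Rl (max RC R₀))
      (1 + r0 * (|Cb| * (Lm * τ)) * N) (𝓛.pos N τ w) := by
    intro w hw
    obtain ⟨m, hm, hmem⟩ := 𝓛.pos_mem (N := N) hτ.le w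
    refine CW_of_ClSet (Bl_subset_Cl _ hT hmem)
      ((le_max_left _ _).trans (le_max_right _ _)) ?_
    have h1 : (w.length : ℝ) ≤ Lm := by exact_mod_cast hLm w hw
    push_cast
    have h2 : (m : ℝ) ≤ |Cb| * (Lm * τ) * N := hm.trans (by gcongr)
    have h3 : (m : ℝ) * r0 ≤ |Cb| * (Lm * τ) * N * r0 := by gcongr
    linarith
  have hbi : ∀ e : R.Eb, ∀ a ≤ A, ∀ i ≤ a * 𝓛.p N τ e, (i : ℝ) * 𝓛.mE e ≤ a * τ * N := by
    intro e a ha i hi
    have h1 : (i : ℝ) ≤ a * 𝓛.p N τ e := by exact_mod_cast hi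
    have h2 := 𝓛.p_le (N := N) hτ.le e
    have h3 := 𝓛.mE_pos e
    calc (i : ℝ) * 𝓛.mE e ≤ a * 𝓛.p N τ e * 𝓛.mE e := by gcongr
      _ = a * (𝓛.p N τ e * 𝓛.mE e) := by ring
      _ ≤ a * (τ * N) := by gcongr
      _ = _ := by ring
  have hkey : ∀ w ∈ 𝒲, ∀ e : R.Eb, ∀ a ≤ A, ∀ l : List M.G,
      (l.length : ℝ) ≤ min 1 (ρ1 / (16 * (C1 + 1))) * N →
      (∀ s ∈ l, s ∈ M.C ∧ M.len s ≤ R₀) → ∀ i ≤ a * 𝓛.p N τ e,
      CW M (max Rl (max RC R₀)) (2 + C * N) (𝓛.pos N τ w * l.prod * 𝓛.b e ^ i) ∧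
      ∀ f : R.Eb, inner ℝ (f : E) (T (M.h (𝓛.pos N τ w * l.prod * 𝓛.b e ^ i))) ≤
        (X f - ρ1 / 4) * N := by
    intro w hw e a ha l hl hlC i hi
    have hiE := hbi e a ha i hi
    have haA : (a : ℝ) ≤ A := by exact_mod_cast ha
    have hl1 : (l.length : ℝ) ≤ N := by
      refine hl.trans ?_
      have := min_le_left 1 (ρ1 / (16 * (C1 + 1)))
      nlinarith
    have hl2 : C1 * l.length ≤ ρ1 / 16 * N := by
      have h1 : (l.length : ℝ) ≤ ρ1 / (16 * (C1 + 1)) * N :=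
        hl.trans (by gcongr; exact min_le_right _ _)
      calc C1 * l.length ≤ (C1 + 1) * (ρ1 / (16 * (C1 + 1)) * N) := by gcongr; linarith
        _ = ρ1 / 16 * N := by field_simp
    constructor
    · have h1 := hposw w hw
      have h2 : CW M (max Rl (max RC R₀)) (1 + (N : ℝ)) l.prod :=
        ⟨l, rfl, fun s hs => ⟨(hlC s hs).1, (hlC s hs).2.trans
          ((le_max_right _ _).trans (le_max_right _ _))⟩, by linarith⟩
      have h3 : CW M (max Rl (max RC R₀)) (1 + r0 * (|Cb| * (A * τ)) * N) (𝓛.b e ^ i) := by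
        refine CW_of_ClSet (Bl_subset_Cl _ hT (Bl_pow (𝓛.b_mem e) i))
          ((le_max_left _ _).trans (le_max_right _ _)) ?_
        have h4 := 𝓛.rb_le e
        have h5 := 𝓛.mE_pos e
        have h6 : (i : ℝ) * 𝓛.rb e ≤ |Cb| * (A * τ) * N := by
          calc (i : ℝ) * 𝓛.rb e ≤ i * (Cb * 𝓛.mE e) := by gcongr
            _ ≤ i * (|Cb| * 𝓛.mE e) := by gcongr; exact le_abs_self _
            _ = |Cb| * (i * 𝓛.mE e) := by ring
            _ ≤ |Cb| * (a * τ * N) := by gcongr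
            _ ≤ |Cb| * (A * τ * N) := by gcongr
            _ = _ := by ring
        push_cast
        have h7 : (i : ℝ) * 𝓛.rb e * r0 ≤ |Cb| * (A * τ) * N * r0 := by gcongr
        linarith
      refine (CW.mul (CW.mul h1 h2) h3).mono le_rfl ?_
      have h4 : (r0 * (|Cb| * ((Lm + A) * τ)) + 1) * N ≤ C * N := by gcongr
      have h5 : (r0 * (|Cb| * ((Lm + A) * τ)) + 1) * N =
          r0 * (|Cb| * (Lm * τ)) * N + N + r0 * (|Cb| * (A * τ)) * N := by ring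
      linarith
    · intro f
      have hu := R.unit _ f.2
      have h1 := 𝓛.hgt_pos (N := N) hτ.le he0 w
      have h2 := norm_hgt_list (T := T) (P := P) l fun s hs => (hlC s hs).2
      rw [← hC1] at h2
      have h3 := 𝓛.acc e
      have hE := 𝓛.mE_pos e
      have hin : ∀ v : E, inner ℝ (f : E) v ≤ ‖v‖ := fun v => by
        have := real_inner_le_norm (f : E) v
        rwa [hu, one_mul] at this
      have hw1 : (w.length : ℝ) ≤ Lm := by exact_mod_cast hLm w hw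
      -- the five terms
      have e1 : T (M.h (𝓛.pos N τ w * l.prod * 𝓛.b e ^ i)) =
          ((M.toCap P).hgt (𝓛.pos N τ w) - (N : ℝ) • τ • lsum w) + (N : ℝ) • τ • lsum w +
          T (M.h l.prod) + ((i : ℝ) • ((M.toCap P).hgt (𝓛.b e) - 𝓛.mE e • (e : E)) +
          ((i : ℝ) * 𝓛.mE e) • (e : E)) := by
        have h4 : (M.toCap P).hgt (𝓛.pos N τ w * l.prod * 𝓛.b e ^ i) =
            (M.toCap P).hgt (𝓛.pos N τ w) + (M.toCap P).hgt l.prod +
            (i : ℝ) • (M.toCap P).hgt (𝓛.b e) := by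
          rw [(M.toCap P).hgt_mul, (M.toCap P).hgt_mul, Legs.hgt_pow]
        have h5 : T (M.h (𝓛.pos N τ w * l.prod * 𝓛.b e ^ i)) =
            (M.toCap P).hgt (𝓛.pos N τ w * l.prod * 𝓛.b e ^ i) := rfl
        have h6 : T (M.h l.prod) = (M.toCap P).hgt l.prod := rfl
        rw [h5, h6, h4, smul_sub, smul_smul (i : ℝ)]
        abel
      have g1 := hin ((M.toCap P).hgt (𝓛.pos N τ w) - (N : ℝ) • τ • lsum w)
      have g2 := hin (T (M.h l.prod))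
      have g3 := hin ((i : ℝ) • ((M.toCap P).hgt (𝓛.b e) - 𝓛.mE e • (e : E)))
      have g4 : ‖(i : ℝ) • ((M.toCap P).hgt (𝓛.b e) - 𝓛.mE e • (e : E))‖ ≤
          eps * (A * τ * N) := by
        rw [norm_smul, Real.norm_of_nonneg (Nat.cast_nonneg _)]
        calc (i : ℝ) * ‖(M.toCap P).hgt (𝓛.b e) - 𝓛.mE e • (e : E)‖
            ≤ i * (eps * 𝓛.mE e) := by gcongr
          _ = eps * (i * 𝓛.mE e) := by ring
          _ ≤ eps * (a * τ * N) := by gcongr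
          _ ≤ _ := by gcongr
      have g5 : ‖(M.toCap P).hgt (𝓛.pos N τ w) - (N : ℝ) • τ • lsum w‖ ≤
          Lm * (eps * (τ * N) + 𝓛.mX) := h1.trans (by gcongr)
      have g6 := le_seg hρ1 (hball w hw e) ha (θ := (i : ℝ) * 𝓛.mE e / N) (by positivity)
        (by rw [div_le_iff₀ hN0]; exact hiE) f
      have g7 := mul_le_mul_of_nonneg_right g6 hN0.le
      have e2 : (inner ℝ (f : E) (τ • lsum w) + (i : ℝ) * 𝓛.mE e / N * inner ℝ (f : E) (e : E) +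
          ρ1 / 2) * N = N * inner ℝ (f : E) (τ • lsum w) + (i : ℝ) * 𝓛.mE e *
          inner ℝ (f : E) (e : E) + ρ1 / 2 * N := by field_simp
      rw [e2] at g7
      have e6 : inner ℝ (f : E) ((N : ℝ) • τ • lsum w) = N * inner ℝ (f : E) (τ • lsum w) :=
        inner_smul_right _ _ _
      have e7 : inner ℝ (f : E) (((i : ℝ) * 𝓛.mE e) • (e : E)) =
          (i : ℝ) * 𝓛.mE e * inner ℝ (f : E) (e : E) := inner_smul_right _ _ _
      rw [e1, inner_add_right, inner_add_right, inner_add_right, inner_add_right, e6, e7]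
      have g8 : eps * ((Lm + A + 1) * τ) * N ≤ ρ1 / 16 * N := by gcongr
      have g9 : 0 ≤ eps * τ * N := by positivity
      have e3 : eps * ((Lm + A + 1) * τ) * N = Lm * (eps * (τ * N)) + eps * (A * τ * N) +
          eps * τ * N := by ring
      have e4 : Lm * (eps * (τ * N) + 𝓛.mX) = Lm * (eps * (τ * N)) + Lm * 𝓛.mX := by ring
      have e5 : (X f - ρ1 / 4) * N = X f * N - ρ1 / 4 * N := by ring
      rw [e4] at g5
      rw [e5]
      have g10 : 0 < ρ1 * N := by positivity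
      linarith
  refine ⟨ht, fun w hw => ?_, fun R' hR' w hw e a ha l hl hlC i hi u hu => ?_⟩
  · refine (hmain (𝓛.pos N τ w) ((hposw w hw).mono le_rfl ?_) fun f => ?_).1
    · have h1 : (r0 * (|Cb| * ((Lm + A) * τ)) + 1) * N ≤ C * N := by gcongr
      have h2 : 0 ≤ r0 * (|Cb| * (A * τ)) * N := by positivity
      have h5 : (r0 * (|Cb| * ((Lm + A) * τ)) + 1) * N =
          r0 * (|Cb| * (Lm * τ)) * N + N + r0 * (|Cb| * (A * τ)) * N := by ring
      linarith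
    · have h1 := (hkey w hw f 0 (Nat.zero_le _) [] (by simp; positivity) (by simp) 0
        (Nat.zero_le _)).2 f
      simpa using h1
  · obtain ⟨h1, h2⟩ := hkey w hw e a ha l hl hlC i hi
    exact (hmain _ h1 h2).2 R' hR' u hu

end Reorder

end Crest.Agent.R182.Gen

namespace Crest.Agent.R182.Star

open Crest.Agent.R182.QI Crest.Agent.R182.Erg Crest.Agent.R182.OneScale
  Crest.Agent.R182.Nb Crest.Agent.R182.Core Crest.Agent.R182.Cap Crest.Agent.R182.Conv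

section LipMono

variable {Γ : Type*} [Group Γ] {k : ℕ} {π : Γ →* Multiplicative (Fin k → ℤ)} {S : Finset Γ}
  {M : BModel (S : Set Γ) π} [Countable Γ]

theorem LipAt.mono {Nn : Seminorm ℝ (Fin k → ℝ)} {B B' : Finset M.G} {K Tm Tm' : ℕ}
    {μ₀ μ₀' δ δ' R₀ R1 τ' : ℝ} {n : ℕ} (h : LipAt M Nn B K Tm μ₀ δ R₀ R1 τ' n)
    (hB : B' ⊆ B) (hT : Tm' ≤ Tm) (hμ : μ₀ ≤ μ₀') (hδ : δ ≤ δ') :
    LipAt M Nn B' K Tm' μ₀' δ' R₀ R1 τ' n := by
  intro Ψ hΨ b hb x g Q hQ hQ0 hQt J hJ habs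
  have hn : (0 : ℝ) ≤ n := Nat.cast_nonneg n
  refine (measure_mono ?_).trans ((h Ψ hΨ b (hB hb) x g Q hQ hQ0 hQt J
    (hJ.trans (Nat.mul_le_mul_right _ hT)) fun l hl => habs l (hl.trans (by gcongr))).trans
    (by gcongr))
  rintro m ⟨hm, hlt⟩
  refine ⟨hm, lt_of_le_of_lt ?_ hlt⟩
  gcongr

end LipMono

section StarOf

variable {Γ : Type*} [Group Γ] {k : ℕ} {π : Γ →* Multiplicative (Fin k → ℤ)} {S : Finset Γ}
  {M : BModel (S : Set Γ) π} [Countable Γ] {E : Type*} [NormedAddCommGroup E]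
  [InnerProductSpace ℝ E] {T : (Fin k → ℝ) ≃ₗ[ℝ] E} {V : Set M.NN} {RC : ℝ}
  {P : BModel.CapPar M T V RC} {RS : RSys (GI M) E} {Tt : Set M.G} {Cb eps : ℝ}


end StarOf

end Crest.Agent.R182.Star
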