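import Mathlib

-- ▼ part R182/SlowCol
section

set_option autoImplicit false

namespace Crest.Agent.R182.Slow

universe u v

open scoped commutatorElement

/-- iterated commutators -/
inductive Tr (σ : Type v) : Type v
  | leaf : σ → Tr σ
  | br : Tr σ → Tr σ → Tr σ

variable {σ : Type v}

namespace Tr

/-- weight -/
def wt : Tr σ → ℕ
  | leaf _ => 1
  | br x y => wt x + wt y

theorem wt_pos (t : Tr σ) : 1 ≤ t.wt := by
  induction t with
  | leaf s => exact le_rfl
  | br x y hx hy => exact hx.trans (Nat.le_add_right _ _)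

theorem finite_wt_le [Finite σ] (n : ℕ) : {t : Tr σ | t.wt ≤ n}.Finite := by
  induction n with
  | zero =>
    refine Set.finite_empty.subset fun t ht => ?_
    have := t.wt_pos
    have h : t.wt ≤ 0 := ht
    omega
  | succ n ih =>
    refine ((Set.finite_range (leaf : σ → Tr σ)).union (ih.image2 br ih)).subset fun t ht => ?_
    cases t with
    | leaf s => exact Or.inl ⟨s, rfl⟩
    | br x y =>
      refine Or.inr ⟨x, ?_, y, ?_, rfl⟩
      · have h : x.wt + y.wt ≤ n + 1 := ht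
        have := y.wt_pos
        change x.wt ≤ n
        omega
      · have h : x.wt + y.wt ≤ n + 1 := ht
        have := x.wt_pos
        change y.wt ≤ n
        omega

/-- formal inverse -/
def inv (ι : σ → σ) : Tr σ → Tr σ
  | leaf s => leaf (ι s)
  | br x y => br y x

theorem wt_inv (ι : σ → σ) (t : Tr σ) : (t.inv ι).wt = t.wt := by
  cases t with
  | leaf s => rfl
  | br x y => exact Nat.add_comm _ _

variable {G : Type u} [Group G]

/-- value of a tree -/
def ev (f : σ → G) : Tr σ → G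
  | leaf s => f s
  | br x y => ⁅ev f x, ev f y⁆

theorem ev_inv {f : σ → G} {ι : σ → σ} (h : ∀ s, f (ι s) = (f s)⁻¹) (t : Tr σ) :
    (t.inv ι).ev f = (t.ev f)⁻¹ := by
  cases t with
  | leaf s => exact h s
  | br x y => exact (commutatorElement_inv _ _).symm

end Tr

open Tr

/-! ### lists of trees -/

section pv

variable {G : Type u} [Group G] (f : σ → G)

/-- value of a list of trees -/
def pv (l : List (Tr σ)) : G := (l.map (ev f)).prod

@[simp] theorem pv_nil : pv f [] = 1 := rfl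

@[simp] theorem pv_cons (t : Tr σ) (l : List (Tr σ)) : pv f (t :: l) = t.ev f * pv f l := by
  simp [pv]

@[simp] theorem pv_append (l l' : List (Tr σ)) : pv f (l ++ l') = pv f l * pv f l' := by
  simp [pv]

theorem pv_replicate (n : ℕ) (t : Tr σ) : pv f (List.replicate n t) = t.ev f ^ n := by
  simp [pv]

/-- formal inverse of a list -/
def linv (ι : σ → σ) (l : List (Tr σ)) : List (Tr σ) := (l.map (Tr.inv ι)).reverse

theorem pv_linv {f : σ → G} {ι : σ → σ} (h : ∀ s, f (ι s) = (f s)⁻¹) (l : List (Tr σ)) :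
    pv f (linv ι l) = (pv f l)⁻¹ := by
  induction l with
  | nil => simp [linv]
  | cons t l ih =>
    have e : linv ι (t :: l) = linv ι l ++ [t.inv ι] := by simp [linv]
    rw [e, pv_append, ih, pv_cons, pv_cons, pv_nil, ev_inv h]
    group

/-- the list of `p u p⁻¹` -/
def cl (p : Tr σ) : List (Tr σ) → List (Tr σ)
  | [] => []
  | t :: u => br p t :: t :: cl p u

theorem pv_cl (p : Tr σ) (u : List (Tr σ)) : pv f (cl p u) = p.ev f * pv f u * (p.ev f)⁻¹ := by
  induction u with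
  | nil => simp [cl]
  | cons t u ih =>
    rw [cl, pv_cons, pv_cons, ih, pv_cons]
    simp only [ev, commutatorElement_def]
    group

/-- conjugation by a list -/
def cls : List (Tr σ) → List (Tr σ) → List (Tr σ)
  | [], u => u
  | p :: P, u => cl p (cls P u)

theorem pv_cls (P u : List (Tr σ)) : pv f (cls P u) = pv f P * pv f u * (pv f P)⁻¹ := by
  induction P with
  | nil => simp [cls]
  | cons p P ih => rw [cls, pv_cl, ih, pv_cons]; group

/-- the list of `⁅P, q⁆` -/
def c1 (q : Tr σ) : List (Tr σ) → List (Tr σ)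
  | [] => []
  | p :: P => cl p (c1 q P) ++ [br p q]

theorem pv_c1 (q : Tr σ) (P : List (Tr σ)) : pv f (c1 q P) = ⁅pv f P, q.ev f⁆ := by
  induction P with
  | nil => simp [c1]
  | cons p P ih =>
    rw [c1, pv_append, pv_cl, ih, pv_cons, pv_cons, pv_nil]
    simp only [ev, commutatorElement_def]
    group

/-- the list of `⁅P, Q⁆` -/
def c2 (P : List (Tr σ)) : List (Tr σ) → List (Tr σ)
  | [] => []
  | q :: Q => c1 q P ++ cl q (c2 P Q)

theorem pv_c2 (P Q : List (Tr σ)) : pv f (c2 P Q) = ⁅pv f P, pv f Q⁆ := by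
  induction Q with
  | nil => simp [c2]
  | cons q Q ih =>
    rw [c2, pv_append, pv_cl, ih, pv_c1, pv_cons]
    simp only [commutatorElement_def]
    group

end pv

/-! ### energy -/

section energy

/-- energy -/
noncomputable def en (r : ℝ) (l : List (Tr σ)) : ℝ := (l.map fun t => r ^ t.wt).sum

/-- product of `1 + r ^ wt` -/
noncomputable def pe (r : ℝ) (l : List (Tr σ)) : ℝ := (l.map fun t => 1 + r ^ t.wt).prod

variable {r : ℝ}

@[simp] theorem en_nil : en r ([] : List (Tr σ)) = 0 := rfl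

@[simp] theorem en_cons (t : Tr σ) (l : List (Tr σ)) : en r (t :: l) = r ^ t.wt + en r l := by
  simp [en]

@[simp] theorem en_append (l l' : List (Tr σ)) : en r (l ++ l') = en r l + en r l' := by
  simp [en]

@[simp] theorem pe_nil : pe r ([] : List (Tr σ)) = 1 := rfl

@[simp] theorem pe_cons (t : Tr σ) (l : List (Tr σ)) :
    pe r (t :: l) = (1 + r ^ t.wt) * pe r l := by
  simp [pe]

theorem en_nonneg (hr : 0 ≤ r) (l : List (Tr σ)) : 0 ≤ en r l := by
  induction l with
  | nil => simp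
  | cons t l ih => rw [en_cons]; positivity

theorem one_le_pe (hr : 0 ≤ r) (l : List (Tr σ)) : 1 ≤ pe r l := by
  induction l with
  | nil => simp
  | cons t l ih =>
    rw [pe_cons]
    have : 0 ≤ r ^ t.wt := by positivity
    nlinarith

theorem pe_le (hr : 0 ≤ r) (l : List (Tr σ)) : pe r l ≤ Real.exp (en r l) := by
  induction l with
  | nil => simp
  | cons t l ih =>
    rw [pe_cons, en_cons, Real.exp_add]
    have h0 : 0 ≤ r ^ t.wt := by positivity
    have h1 : 1 + r ^ t.wt ≤ Real.exp (r ^ t.wt) := by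
      have := Real.add_one_le_exp (r ^ t.wt)
      linarith
    have h2 := one_le_pe hr l
    exact mul_le_mul h1 ih (by linarith) (Real.exp_pos _).le

theorem en_replicate (n : ℕ) (t : Tr σ) : en r (List.replicate n t) = n * r ^ t.wt := by
  simp [en]

theorem en_linv (ι : σ → σ) (l : List (Tr σ)) : en r (linv ι l) = en r l := by
  induction l with
  | nil => simp [linv]
  | cons t l ih =>
    have e : linv ι (t :: l) = linv ι l ++ [t.inv ι] := by simp [linv]
    rw [e, en_append, ih, en_cons, en_cons, en_nil, wt_inv]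
    ring

theorem en_cl (p : Tr σ) (u : List (Tr σ)) : en r (cl p u) = (1 + r ^ p.wt) * en r u := by
  induction u with
  | nil => simp [cl]
  | cons t u ih =>
    rw [cl, en_cons, en_cons, ih, en_cons, wt, pow_add]
    ring

theorem en_cls (P u : List (Tr σ)) : en r (cls P u) = pe r P * en r u := by
  induction P with
  | nil => simp [cls]
  | cons p P ih => rw [cls, en_cl, ih, pe_cons]; ring

theorem en_c1 (q : Tr σ) (P : List (Tr σ)) : en r (c1 q P) = (pe r P - 1) * r ^ q.wt := by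
  induction P with
  | nil => simp [c1]
  | cons p P ih =>
    rw [c1, en_append, en_cl, ih, en_cons, en_nil, pe_cons, wt, pow_add]
    ring

theorem en_c2 (P Q : List (Tr σ)) : en r (c2 P Q) = (pe r P - 1) * (pe r Q - 1) := by
  induction Q with
  | nil => simp [c2]
  | cons q Q ih =>
    rw [c2, en_append, en_cl, ih, en_c1, pe_cons]
    ring

theorem en_le_of_filter (hr : 0 ≤ r) (p : Tr σ → Bool) (l : List (Tr σ)) :
    en r (l.filter p) ≤ en r l := by
  induction l with
  | nil => simp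
  | cons t l ih =>
    rw [List.filter_cons]
    have h0 : 0 ≤ r ^ t.wt := by positivity
    split_ifs
    · rw [en_cons, en_cons]; linarith
    · rw [en_cons]; linarith

/-- change of scale -/
theorem en_scale {r s : ℝ} (hr : 0 ≤ r) (hrs : r ≤ s) (hs : 0 < s) (w : ℕ) (l : List (Tr σ))
    (hw : ∀ t ∈ l, w ≤ t.wt) : en r l ≤ (r / s) ^ w * en s l := by
  induction l with
  | nil => simp
  | cons t l ih =>
    rw [en_cons, en_cons, mul_add]
    have h1 := ih fun t ht => hw t (List.mem_cons_of_mem _ ht)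
    have h2 : r ^ t.wt ≤ (r / s) ^ w * s ^ t.wt := by
      have h3 : w ≤ t.wt := hw t List.mem_cons_self
      have h4 : (r / s) ^ t.wt ≤ (r / s) ^ w :=
        pow_le_pow_of_le_one (by positivity) ((div_le_one hs).mpr hrs) h3
      calc r ^ t.wt = (r / s) ^ t.wt * s ^ t.wt := by
            rw [← mul_pow, div_mul_cancel₀ _ hs.ne']
        _ ≤ _ := mul_le_mul_of_nonneg_right h4 (by positivity)
    linarith

end energy

/-! ### gathering -/

/-- move the trees with `p` to the right -/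
def ga (p : Tr σ → Bool) : List (Tr σ) → List (Tr σ)
  | [] => []
  | t :: l => if p t then cl t (ga p l) else t :: ga p l

theorem pv_ga {G : Type u} [Group G] (f : σ → G) (p : Tr σ → Bool) (l : List (Tr σ)) :
    pv f (ga p l) * pv f (l.filter p) = pv f l := by
  induction l with
  | nil => simp [ga]
  | cons t l ih =>
    rw [ga, List.filter_cons]
    by_cases h : p t
    · rw [if_pos h, if_pos h, pv_cl, pv_cons, pv_cons, ← ih]; group
    · rw [if_neg h, if_neg h, pv_cons, pv_cons, ← ih]; group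

theorem en_ga {r : ℝ} (hr : 0 ≤ r) (p : Tr σ → Bool) (l : List (Tr σ)) :
    en r (ga p l) ≤ pe r (l.filter p) * en r l := by
  induction l with
  | nil => simp [ga]
  | cons t l ih =>
    have h0 : 0 ≤ r ^ t.wt := by positivity
    have h1 := one_le_pe hr (l.filter p)
    have h2 := en_nonneg hr l
    rw [ga, List.filter_cons]
    by_cases h : p t
    · rw [if_pos h, if_pos h, en_cl, pe_cons, en_cons, mul_assoc]
      refine mul_le_mul_of_nonneg_left (ih.trans ?_) (by positivity)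
      exact mul_le_mul_of_nonneg_left (by linarith) (by linarith)
    · rw [if_neg h, if_neg h, en_cons, en_cons]
      nlinarith

theorem mem_cl {Q : Tr σ → Prop} {p : Tr σ} {u : List (Tr σ)} (h : ∀ t ∈ u, Q t)
    (h' : ∀ t, Q t → Q (br p t)) : ∀ t ∈ cl p u, Q t := by
  induction u with
  | nil => simp [cl]
  | cons t u ih =>
    intro s hs
    rw [cl] at hs
    rcases List.mem_cons.mp hs with rfl | hs
    · exact h' _ (h _ List.mem_cons_self)
    rcases List.mem_cons.mp hs with rfl | hs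
    · exact h _ List.mem_cons_self
    · exact ih (fun t ht => h t (List.mem_cons_of_mem _ ht)) s hs

theorem mem_ga {Q : Tr σ → Prop} {p : Tr σ → Bool} {l : List (Tr σ)}
    (h : ∀ t ∈ l, p t = false → Q t)
    (h' : ∀ t ∈ l, p t = true → ∀ s, Q s → Q (br t s)) : ∀ t ∈ ga p l, Q t := by
  induction l with
  | nil => simp [ga]
  | cons t l ih =>
    have ih' := ih (fun t ht => h t (List.mem_cons_of_mem _ ht))
      (fun t ht => h' t (List.mem_cons_of_mem _ ht))
    rw [ga]
    by_cases hp : p t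
    · rw [if_pos hp]
      exact mem_cl ih' (h' t List.mem_cons_self hp)
    · rw [if_neg hp]
      intro s hs
      rcases List.mem_cons.mp hs with rfl | hs
      · exact h _ List.mem_cons_self (by simpa using hp)
      · exact ih' s hs

/-! ### the homogeneous part -/

/-- the trees of weight exactly `w` -/
def hw (w : ℕ) (l : List (Tr σ)) : List (Tr σ) := l.filter fun t => decide (t.wt = w)

theorem hw_append (w : ℕ) (l l' : List (Tr σ)) : hw w (l ++ l') = hw w l ++ hw w l' := by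
  simp [hw]

theorem hw_of_lt {w : ℕ} {l : List (Tr σ)} (h : ∀ t ∈ l, w < t.wt) : hw w l = [] := by
  rw [hw, List.filter_eq_nil_iff]
  intro t ht
  have := h t ht
  simp; omega

theorem hw_cl {w : ℕ} (p : Tr σ) {u : List (Tr σ)} (h : ∀ t ∈ u, w ≤ t.wt) :
    hw w (cl p u) = hw w u := by
  induction u with
  | nil => simp [cl]
  | cons t u ih =>
    have h1 : w < (br p t).wt := by
      have h2 := h t List.mem_cons_self
      have h3 := p.wt_pos
      change w < p.wt + t.wt
      omega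
    have ih' := ih fun t ht => h t (List.mem_cons_of_mem _ ht)
    simp only [hw] at ih' ⊢
    rw [cl, List.filter_cons, if_neg (by simp; omega), List.filter_cons, List.filter_cons, ih']

theorem le_wt_c1 {a : ℕ} (q : Tr σ) {P : List (Tr σ)} (h : ∀ t ∈ P, a ≤ t.wt) :
    ∀ t ∈ c1 q P, a + q.wt ≤ t.wt := by
  induction P with
  | nil => simp [c1]
  | cons p P ih =>
    have ih' := ih fun t ht => h t (List.mem_cons_of_mem _ ht)
    intro t ht
    rw [c1, List.mem_append] at ht
    rcases ht with ht | ht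
    · refine mem_cl (Q := fun t => a + q.wt ≤ t.wt) ih' (fun s hs => ?_) t ht
      change a + q.wt ≤ p.wt + s.wt
      omega
    · rw [List.mem_singleton] at ht
      subst ht
      have := h p List.mem_cons_self
      change a + q.wt ≤ p.wt + q.wt
      omega

theorem hw_c1 {a n : ℕ} {κ : Tr σ} (q : Tr σ) {P : List (Tr σ)} (h : ∀ t ∈ P, a ≤ t.wt)
    (hP : hw a P = List.replicate n κ) :
    hw (a + q.wt) (c1 q P) = List.replicate n (br κ q) := by
  induction P generalizing n with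
  | nil =>
    have h0 : n = 0 := by
      have := congrArg List.length hP
      simpa [hw] using this.symm
    subst h0
    simp [c1, hw]
  | cons p P ih =>
    have h' : ∀ t ∈ P, a ≤ t.wt := fun t ht => h t (List.mem_cons_of_mem _ ht)
    rw [c1, hw_append, hw_cl _ (le_wt_c1 q h')]
    rw [hw, List.filter_cons] at hP
    by_cases hp : p.wt = a
    · rw [if_pos (by simpa using hp)] at hP
      cases n with
      | zero => simp at hP
      | succ n =>
        rw [List.replicate_succ, List.cons.injEq] at hP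
        obtain ⟨rfl, hP⟩ := hP
        rw [ih h' hP]
        have e : hw (a + q.wt) [br p q] = [br p q] := by
          rw [hw, List.filter_cons, if_pos (by simp [wt, hp])]; rfl
        rw [e, List.replicate_succ']
    · rw [if_neg (by simpa using hp)] at hP
      rw [ih h' hP]
      have e : hw (a + q.wt) [br p q] = [] := by
        refine hw_of_lt fun t ht => ?_
        rw [List.mem_singleton] at ht
        subst ht
        have := h p List.mem_cons_self
        change a + q.wt < p.wt + q.wt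
        omega
      rw [e, List.append_nil]

theorem le_wt_c2 {a b : ℕ} {P Q : List (Tr σ)} (hP : ∀ t ∈ P, a ≤ t.wt)
    (hQ : ∀ t ∈ Q, b ≤ t.wt) : ∀ t ∈ c2 P Q, a + b ≤ t.wt := by
  induction Q with
  | nil => simp [c2]
  | cons q Q ih =>
    have ih' := ih fun t ht => hQ t (List.mem_cons_of_mem _ ht)
    have hq := hQ q List.mem_cons_self
    intro t ht
    rw [c2, List.mem_append] at ht
    rcases ht with ht | ht
    · have := le_wt_c1 q hP t ht
      omega
    · refine mem_cl (Q := fun t => a + b ≤ t.wt) ih' (fun s hs => ?_) t ht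
      change a + b ≤ q.wt + s.wt
      omega

theorem hw_c2 {a b m n : ℕ} {κ κ' : Tr σ} {P Q : List (Tr σ)} (hP : ∀ t ∈ P, a ≤ t.wt)
    (hQ : ∀ t ∈ Q, b ≤ t.wt) (hP' : hw a P = List.replicate m κ)
    (hQ' : hw b Q = List.replicate n κ') :
    hw (a + b) (c2 P Q) = List.replicate (m * n) (br κ κ') := by
  induction Q generalizing n with
  | nil =>
    have h0 : n = 0 := by
      have := congrArg List.length hQ'
      simpa [hw] using this.symm
    subst h0
    simp [c2, hw]
  | cons q Q ih =>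
    have h' : ∀ t ∈ Q, b ≤ t.wt := fun t ht => hQ t (List.mem_cons_of_mem _ ht)
    rw [c2, hw_append, hw_cl _ (le_wt_c2 hP h')]
    rw [hw, List.filter_cons] at hQ'
    by_cases hq : q.wt = b
    · rw [if_pos (by simpa using hq)] at hQ'
      cases n with
      | zero => simp at hQ'
      | succ n =>
        rw [List.replicate_succ, List.cons.injEq] at hQ'
        obtain ⟨rfl, hQ'⟩ := hQ'
        rw [ih h' hQ']
        have e := hw_c1 q hP hP'
        rw [hq] at e
        rw [e, ← List.replicate_add]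
        congr 1
        ring
    · rw [if_neg (by simpa using hq)] at hQ'
      rw [ih h' hQ']
      have e : hw (a + b) (c1 q P) = [] := by
        refine hw_of_lt fun t ht => ?_
        have h1 := le_wt_c1 q hP t ht
        have h2 := hQ q List.mem_cons_self
        omega
      rw [e, List.nil_append]

end Crest.Agent.R182.Slow
private theorem rz_ef938571f4 : type_of% @_root_.Crest.Agent.R182.Slow.Tr.ev.eq_def := @_root_.Crest.Agent.R182.Slow.Tr.ev.eq_def -- L71
private theorem rz_5617d63f2a : type_of% @_root_.Crest.Agent.R182.Slow.Tr.ev.eq_1 := @_root_.Crest.Agent.R182.Slow.Tr.ev.eq_1 -- L71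
private theorem rz_18788403c7 : type_of% @_root_.Crest.Agent.R182.Slow.Tr.wt.eq_def := @_root_.Crest.Agent.R182.Slow.Tr.wt.eq_def -- L27
private theorem rz_24506557f5 : type_of% @_root_.Crest.Agent.R182.Slow.Tr.wt.eq_1 := @_root_.Crest.Agent.R182.Slow.Tr.wt.eq_1 -- L27
private theorem rz_4a3607fff4 : type_of% @_root_.Crest.Agent.R182.Slow.c1.eq_def := @_root_.Crest.Agent.R182.Slow.c1.eq_def -- L141
private theorem rz_be7776314c : type_of% @_root_.Crest.Agent.R182.Slow.c1.eq_1 := @_root_.Crest.Agent.R182.Slow.c1.eq_1 -- L141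
private theorem rz_4dc22a17fb : type_of% @_root_.Crest.Agent.R182.Slow.c2.eq_def := @_root_.Crest.Agent.R182.Slow.c2.eq_def -- L154
private theorem rz_79386cd025 : type_of% @_root_.Crest.Agent.R182.Slow.c2.eq_1 := @_root_.Crest.Agent.R182.Slow.c2.eq_1 -- L154
private theorem rz_a86b54db8a : type_of% @_root_.Crest.Agent.R182.Slow.cl.eq_def := @_root_.Crest.Agent.R182.Slow.cl.eq_def -- L118
private theorem rz_483db222b1 : type_of% @_root_.Crest.Agent.R182.Slow.cl.eq_1 := @_root_.Crest.Agent.R182.Slow.cl.eq_1 -- L118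
private theorem rz_bb72757987 : type_of% @_root_.Crest.Agent.R182.Slow.cls.eq_def := @_root_.Crest.Agent.R182.Slow.cls.eq_def -- L131
private theorem rz_cef374346f : type_of% @_root_.Crest.Agent.R182.Slow.cls.eq_1 := @_root_.Crest.Agent.R182.Slow.cls.eq_1 -- L131
private theorem rz_3743cc503b : type_of% @_root_.Crest.Agent.R182.Slow.ga.eq_def := @_root_.Crest.Agent.R182.Slow.ga.eq_def -- L289
private theorem rz_6be49f9d19 : type_of% @_root_.Crest.Agent.R182.Slow.ga.eq_1 := @_root_.Crest.Agent.R182.Slow.ga.eq_1 -- L289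
end

-- ▼ part R182/SlowNil
section

set_option autoImplicit false

namespace Crest.Agent.R182.Slow

universe u v

open scoped commutatorElement

open Tr

variable {σ : Type v}

/-! ### words -/

section words

variable {G : Type u} [Group G] (f : σ → G)

/-- values of words of length at most `m` -/
def Wd (m : ℕ) : Set G := {g | ∃ l : List σ, l.length ≤ m ∧ (l.map f).prod = g}

variable {f}

theorem one_mem_Wd (m : ℕ) : (1 : G) ∈ Wd f m := ⟨[], by simp⟩

theorem Wd_mono {m m' : ℕ} (h : m ≤ m') : Wd f m ⊆ Wd f m' := by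
  rintro g ⟨l, h1, h2⟩; exact ⟨l, h1.trans h, h2⟩

theorem mul_mem_Wd {m m' : ℕ} {g g' : G} (h : g ∈ Wd f m) (h' : g' ∈ Wd f m') :
    g * g' ∈ Wd f (m + m') := by
  obtain ⟨l, h1, rfl⟩ := h
  obtain ⟨l', h1', rfl⟩ := h'
  exact ⟨l ++ l', by rw [List.length_append]; omega, by simp⟩

theorem inv_mem_Wd {ι : σ → σ} (hι : ∀ s, f (ι s) = (f s)⁻¹) {m : ℕ} {g : G} (h : g ∈ Wd f m) :
    g⁻¹ ∈ Wd f m := by
  obtain ⟨l, h1, rfl⟩ := h
  refine ⟨(l.map ι).reverse, by simpa using h1, ?_⟩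
  rw [List.prod_inv_reverse, List.map_reverse, List.map_map, List.map_map]
  congr 2
  exact List.map_congr_left fun s _ => hι s

theorem pow_mem_Wd {m : ℕ} {g : G} (h : g ∈ Wd f m) (n : ℕ) : g ^ n ∈ Wd f (n * m) := by
  induction n with
  | zero => simpa using one_mem_Wd _
  | succ n ih =>
    rw [pow_succ, Nat.succ_mul]
    exact mul_mem_Wd ih h

theorem letter_mem_Wd (s : σ) : f s ∈ Wd f 1 := ⟨[s], by simp⟩

theorem comm_mem_Wd {ι : σ → σ} (hι : ∀ s, f (ι s) = (f s)⁻¹) {m m' : ℕ} {g g' : G}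
    (h : g ∈ Wd f m) (h' : g' ∈ Wd f m') : ⁅g, g'⁆ ∈ Wd f (2 * (m + m')) := by
  rw [commutatorElement_def]
  refine Wd_mono (by omega) (mul_mem_Wd (mul_mem_Wd (mul_mem_Wd h h') (inv_mem_Wd hι h))
    (inv_mem_Wd hι h') : _ ∈ Wd f (m + m' + m + m'))

end words

/-! ### the lower central series -/

theorem three_subgroups {G : Type u} [Group G] (A B K W : Subgroup G) [W.Normal]
    (h1 : ⁅⁅B, K⁆, A⁆ ≤ W) (h2 : ⁅⁅K, A⁆, B⁆ ≤ W) : ⁅⁅A, B⁆, K⁆ ≤ W := by
  have key : ∀ X Y Z : Subgroup G, ⁅⁅X, Y⁆, Z⁆ ≤ W ↔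
      ⁅⁅X.map (QuotientGroup.mk' W), Y.map (QuotientGroup.mk' W)⁆,
        Z.map (QuotientGroup.mk' W)⁆ = ⊥ := by
    intro X Y Z
    rw [← Subgroup.map_commutator, ← Subgroup.map_commutator, Subgroup.map_eq_bot_iff,
      QuotientGroup.ker_mk']
  rw [key] at h1 h2 ⊢
  exact Subgroup.commutator_commutator_eq_bot_of_rotate h1 h2

theorem lcs_comm (G : Type u) [Group G] (i j : ℕ) :
    ⁅(⊤ : Subgroup G).lowerCentralSeries i, (⊤ : Subgroup G).lowerCentralSeries j⁆ ≤
      (⊤ : Subgroup G).lowerCentralSeries (i + j + 1) := by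
  induction j generalizing i with
  | zero => exact le_rfl
  | succ j ih =>
    rw [Subgroup.commutator_comm, Subgroup.lowerCentralSeries_succ]
    refine three_subgroups _ _ _ _ ?_ ?_
    · rw [Subgroup.commutator_comm ⊤]
      refine (ih (i + 1)).trans ?_
      rw [show i + 1 + j + 1 = i + (j + 1) + 1 by omega]
    · exact Subgroup.commutator_mono (ih i) le_rfl

theorem ev_mem_lcs {G : Type u} [Group G] (f : σ → G) (t : Tr σ) :
    t.ev f ∈ (⊤ : Subgroup G).lowerCentralSeries (t.wt - 1) := by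
  induction t with
  | leaf s => trivial
  | br x y hx hy =>
    have h1 := lcs_comm G (x.wt - 1) (y.wt - 1)
      (Subgroup.commutator_mem_commutator hx hy)
    have h2 := x.wt_pos
    have h3 := y.wt_pos
    rw [show x.wt - 1 + (y.wt - 1) + 1 = (br x y).wt - 1 by simp only [wt]; omega] at h1
    exact h1

theorem ev_eq_one {G : Type u} [Group G] {c : ℕ}
    (hc : (⊤ : Subgroup G).lowerCentralSeries c = ⊥) (f : σ → G) {t : Tr σ}
    (ht : c + 1 ≤ t.wt) : t.ev f = 1 := by
  have h1 := ev_mem_lcs f t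
  have h2 := Subgroup.lowerCentralSeries_antitone (⊤ : Subgroup G) (show c ≤ t.wt - 1 by omega) h1
  rw [hc] at h2
  exact h2

theorem pv_eq_one {G : Type u} [Group G] {c : ℕ}
    (hc : (⊤ : Subgroup G).lowerCentralSeries c = ⊥) (f : σ → G) {l : List (Tr σ)}
    (ht : ∀ t ∈ l, c + 1 ≤ t.wt) : pv f l = 1 := by
  induction l with
  | nil => rfl
  | cons t l ih =>
    rw [pv_cons, ev_eq_one hc f (ht t List.mem_cons_self),
      ih fun t h => ht t (List.mem_cons_of_mem _ h), one_mul]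

/-! ### commutators of powers -/

/-- energy constant -/
noncomputable def KE (D : ℕ) : Tr σ → ℝ
  | leaf _ => D
  | br x y => Real.exp (KE D x + KE D y)

/-- length constant -/
def LE (D : ℕ) : Tr σ → ℕ
  | leaf _ => D
  | br x y => 2 * (LE D x + LE D y)


theorem exists_form {G : Type u} [Group G] {f : σ → G} {ι : σ → σ}
    (hι : ∀ s, f (ι s) = (f s)⁻¹) {D : ℕ} (hD : 1 ≤ D) {R : ℕ} (hR : 1 ≤ R) (κ : Tr σ) :
    ∀ i < κ.wt, ∀ d ≤ D * R, ∃ l : List (Tr σ), (∀ t ∈ l, κ.wt ≤ t.wt) ∧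
      hw κ.wt l = List.replicate (d * R ^ i) κ ∧ en (R : ℝ)⁻¹ l ≤ KE D κ ∧
      pv f l ∈ Wd f (LE D κ * R) := by
  have hR0 : (0 : ℝ) < R := by exact_mod_cast hR
  have hr : (0 : ℝ) ≤ (R : ℝ)⁻¹ := by positivity
  induction κ with
  | leaf s =>
    intro i hi d hd
    have h0 : i = 0 := by have : i < 1 := hi; omega
    subst h0
    refine ⟨List.replicate d (leaf s), ?_, ?_, ?_, ?_⟩
    · intro t ht; rw [List.eq_of_mem_replicate ht]
    · rw [pow_zero, mul_one, hw, List.filter_replicate_of_pos]; simp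
    · rw [en_replicate]
      change (d : ℝ) * (R : ℝ)⁻¹ ^ 1 ≤ (D : ℝ)
      rw [pow_one, ← div_eq_mul_inv, div_le_iff₀ hR0]
      exact_mod_cast hd
    · rw [pv_replicate]
      refine Wd_mono ?_ (pow_mem_Wd (letter_mem_Wd s) d)
      change d * 1 ≤ D * R
      omega
  | br x y hx hy =>
    intro i hi d hd
    have hDR : 1 ≤ D * R := Nat.mul_pos hD hR
    have hRR : R ≤ D * R := Nat.le_mul_of_pos_left R hD
    have key : ∀ m n : ℕ, m * n = d * R ^ i →
        (∃ l : List (Tr σ), (∀ t ∈ l, x.wt ≤ t.wt) ∧ hw x.wt l = List.replicate m x ∧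
          en (R : ℝ)⁻¹ l ≤ KE D x ∧ pv f l ∈ Wd f (LE D x * R)) →
        (∃ l : List (Tr σ), (∀ t ∈ l, y.wt ≤ t.wt) ∧ hw y.wt l = List.replicate n y ∧
          en (R : ℝ)⁻¹ l ≤ KE D y ∧ pv f l ∈ Wd f (LE D y * R)) →
        ∃ l : List (Tr σ), (∀ t ∈ l, (br x y).wt ≤ t.wt) ∧
          hw (br x y).wt l = List.replicate (d * R ^ i) (br x y) ∧
          en (R : ℝ)⁻¹ l ≤ KE D (br x y) ∧ pv f l ∈ Wd f (LE D (br x y) * R) := by
      rintro m n hmn ⟨P, p1, p2, p3, p4⟩ ⟨Q, q1, q2, q3, q4⟩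
      refine ⟨c2 P Q, le_wt_c2 p1 q1, ?_, ?_, ?_⟩
      · rw [← hmn]; exact hw_c2 p1 q1 p2 q2
      · rw [en_c2]
        have e1 := pe_le hr P
        have e2 := pe_le hr Q
        have e3 := one_le_pe hr P
        have e4 := one_le_pe hr Q
        have e5 : Real.exp (en (R : ℝ)⁻¹ P) ≤ Real.exp (KE D x) := Real.exp_le_exp.mpr p3
        have e6 : Real.exp (en (R : ℝ)⁻¹ Q) ≤ Real.exp (KE D y) := Real.exp_le_exp.mpr q3
        change _ ≤ Real.exp (KE D x + KE D y)
        rw [Real.exp_add]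
        exact mul_le_mul (by linarith) (by linarith) (by linarith) (Real.exp_pos _).le
      · rw [pv_c2]
        refine Wd_mono (le_of_eq ?_) (comm_mem_Wd hι p4 q4)
        change 2 * (LE D x * R + LE D y * R) = 2 * (LE D x + LE D y) * R
        ring
    have hi' : i < x.wt + y.wt := hi
    rcases lt_or_ge i x.wt with h | h
    · exact key (d * R ^ i) (1 * R ^ 0) (by simp) (hx i h d hd) (hy 0 y.wt_pos 1 hDR)
    · refine key (d * R ^ (x.wt - 1)) (R * R ^ (i - x.wt)) ?_
        (hx _ (by have := x.wt_pos; omega) d hd) (hy _ (by omega) R hRR)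
      have e : R * R ^ (i - x.wt) = R ^ (i - x.wt + 1) := by rw [pow_succ]; ring
      rw [e, mul_assoc, ← pow_add]
      congr 2
      have := x.wt_pos
      omega

/-! ### the main induction -/

/-- products of trees with the property `Q` and bounded energy are short -/
def Sh (c : ℕ) (ι : σ → σ) (Q : Tr σ → Prop) : Prop := ∀ S : ℝ, ∃ C : ℕ,
  ∀ (G : Type u) [Group G], (⊤ : Subgroup G).lowerCentralSeries c = ⊥ →
  ∀ f : σ → G, (∀ s, f (ι s) = (f s)⁻¹) → ∀ R : ℕ, 1 ≤ R → ∀ l : List (Tr σ),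
    (∀ t ∈ l, Q t) → en (R : ℝ)⁻¹ l ≤ S → pv f l ∈ Wd f (C * R)

theorem sh_base (c : ℕ) (ι : σ → σ) : Sh.{u, v} c ι (fun t => c + 1 ≤ t.wt) := by
  intro S
  refine ⟨0, fun G _ hc f _ R _ l hl _ => ?_⟩
  rw [pv_eq_one hc f hl]
  exact one_mem_Wd _

theorem sh_digit {c : ℕ} {ι : σ → σ} {w : ℕ}
    (h : Sh.{u, v} c ι (fun t => w + 1 ≤ t.wt)) {κ : Tr σ} (hκ : κ.wt = w) {D : ℕ} (hD : 1 ≤ D) :
    ∃ C : ℕ, ∀ (G : Type u) [Group G], (⊤ : Subgroup G).lowerCentralSeries c = ⊥ →
      ∀ f : σ → G, (∀ s, f (ι s) = (f s)⁻¹) → ∀ R : ℕ, 1 ≤ R → ∀ i < w, ∀ d ≤ D * R,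
        (κ.ev f) ^ (d * R ^ i) ∈ Wd f (C * R) := by
  obtain ⟨C, hC⟩ := h (Real.exp (KE D κ) * KE D κ)
  refine ⟨C + LE D κ, fun G _ hc f hf R hR i hi d hd => ?_⟩
  have hr : (0 : ℝ) ≤ (R : ℝ)⁻¹ := by positivity
  obtain ⟨l, h1, h2, h3, h4⟩ := exists_form hf hD hR κ i (hκ ▸ hi) d hd
  have e1 := pv_ga f (fun t => decide (t.wt = κ.wt)) l
  have e2 : l.filter (fun t => decide (t.wt = κ.wt)) = List.replicate (d * R ^ i) κ := h2
  rw [e2, pv_replicate] at e1
  have e3 : (κ.ev f) ^ (d * R ^ i) =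
      (pv f (ga (fun t => decide (t.wt = κ.wt)) l))⁻¹ * pv f l := by
    rw [← e1]; group
  rw [e3, Nat.add_mul]
  refine mul_mem_Wd (inv_mem_Wd hf (hC G hc f hf R hR _ ?_ ?_)) h4
  · refine mem_ga (fun t ht hp => ?_) (fun t ht _ s hs => ?_)
    · have h5 := h1 t ht
      have h6 : ¬ (t.wt = κ.wt) := by simpa using hp
      omega
    · have h5 := t.wt_pos
      change w + 1 ≤ t.wt + s.wt
      omega
  · refine (en_ga hr _ l).trans ?_
    have h5 : pe (R : ℝ)⁻¹ (l.filter (fun t => decide (t.wt = κ.wt))) ≤ Real.exp (KE D κ) :=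
      (pe_le hr _).trans (Real.exp_le_exp.mpr ((en_le_of_filter hr _ _).trans h3))
    exact mul_le_mul h5 h3 (en_nonneg hr _) (Real.exp_pos _).le

theorem sh_pow {c : ℕ} {ι : σ → σ} {w : ℕ} (hw : 1 ≤ w)
    (h : Sh.{u, v} c ι (fun t => w + 1 ≤ t.wt)) {κ : Tr σ} (hκ : κ.wt = w) (S : ℝ) :
    ∃ C : ℕ, ∀ (G : Type u) [Group G], (⊤ : Subgroup G).lowerCentralSeries c = ⊥ →
      ∀ f : σ → G, (∀ s, f (ι s) = (f s)⁻¹) → ∀ R : ℕ, 1 ≤ R → ∀ n : ℕ,
        (n : ℝ) ≤ S * (R : ℝ) ^ w → (κ.ev f) ^ n ∈ Wd f (C * R) := by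
  obtain ⟨D, hD⟩ : ∃ D : ℕ, S ≤ D := ⟨⌈S⌉₊, Nat.le_ceil _⟩
  obtain ⟨C, hC⟩ := sh_digit h hκ (D := D + 1) (by omega)
  refine ⟨(w + 1) * C, fun G _ hc f hf R hR n hn => ?_⟩
  have hR0 : (0 : ℝ) < R := by exact_mod_cast hR
  -- small exponents
  have key : ∀ i ≤ w, ∀ n < R ^ i, (κ.ev f) ^ n ∈ Wd f (i * C * R) := by
    intro i
    induction i with
    | zero =>
      intro _ n hn
      have : n = 0 := by simpa using hn
      subst this
      simpa using one_mem_Wd _
    | succ i ih =>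
      intro hi n hn
      have hRi : 0 < R ^ i := Nat.pow_pos hR
      have e1 : n = n / R ^ i * R ^ i + n % R ^ i := (Nat.div_add_mod' n (R ^ i)).symm
      have e2 : n / R ^ i < R := by
        rw [Nat.div_lt_iff_lt_mul hRi, mul_comm, ← pow_succ]; exact hn
      rw [e1, pow_add]
      refine Wd_mono (le_of_eq ?_) (mul_mem_Wd (hC G hc f hf R hR i (by omega) (n / R ^ i)
        (by nlinarith)) (ih (by omega) _ (Nat.mod_lt _ hRi)))
      ring
  obtain ⟨w', rfl⟩ : ∃ w', w = w' + 1 := ⟨w - 1, by omega⟩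
  have hRi : 0 < R ^ w' := Nat.pow_pos hR
  have e1 : n = n / R ^ w' * R ^ w' + n % R ^ w' := (Nat.div_add_mod' n (R ^ w')).symm
  have e2 : n / R ^ w' ≤ (D + 1) * R := by
    rw [Nat.div_le_iff_le_mul_add_pred hRi]
    have h5 : (n : ℝ) ≤ D * (R : ℝ) ^ (w' + 1) :=
      hn.trans (mul_le_mul_of_nonneg_right hD (by positivity))
    have h6 : n ≤ D * R ^ (w' + 1) := by exact_mod_cast h5
    have h7 : D * R ^ (w' + 1) ≤ R ^ w' * ((D + 1) * R) := by
      rw [pow_succ]; nlinarith [Nat.zero_le (R ^ w' * R)]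
    omega
  rw [e1, pow_add]
  refine Wd_mono ?_ (mul_mem_Wd (hC G hc f hf R hR w' (by omega) (n / R ^ w') e2)
    (key w' (by omega) _ (Nat.mod_lt _ hRi)))
  nlinarith [Nat.zero_le (C * R)]

theorem sh_step {c : ℕ} {ι : σ → σ} {w : ℕ} (hw : 1 ≤ w)
    (h : Sh.{u, v} c ι (fun t => w + 1 ≤ t.wt)) {F : Set (Tr σ)} (hF : F.Finite)
    (hFw : ∀ t ∈ F, t.wt = w) : Sh.{u, v} c ι (fun t => t ∈ F ∨ w + 1 ≤ t.wt) := by
  classical
  induction F, hF using Set.Finite.induction_on with
  | empty =>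
    intro S
    obtain ⟨C, hC⟩ := h S
    exact ⟨C, fun G _ hc f hf R hR l hl => hC G hc f hf R hR l (by simpa using hl)⟩
  | @insert κ F' _ _ ih =>
    have ih' := ih fun t ht => hFw t (Set.mem_insert_of_mem _ ht)
    intro S
    obtain ⟨C, hC⟩ := ih' (Real.exp S * S)
    obtain ⟨C', hC'⟩ := sh_pow hw h (hFw κ (Set.mem_insert _ _)) S
    refine ⟨C + C', fun G _ hc f hf R hR l hl hS => ?_⟩
    have hr : (0 : ℝ) ≤ (R : ℝ)⁻¹ := by positivity
    have hR0 : (0 : ℝ) < R := by exact_mod_cast hR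
    have e1 := pv_ga f (fun t => decide (t = κ)) l
    have e2 : l.filter (fun t => decide (t = κ)) = List.replicate (l.count κ) κ := by
      rw [← List.filter_beq]
      congr 1
    have h3 : (l.count κ : ℝ) * (R : ℝ)⁻¹ ^ κ.wt ≤ S := by
      have h4 := en_le_of_filter hr (fun t => decide (t = κ)) l
      rw [e2, en_replicate] at h4
      exact h4.trans hS
    rw [← e1, Nat.add_mul]
    refine mul_mem_Wd (hC G hc f hf R hR _ ?_ ?_) ?_
    · refine mem_ga (fun t ht hp => ?_) (fun t ht hp s hs => ?_)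
      · have h6 : ¬ (t = κ) := by simpa using hp
        rcases hl t ht with h7 | h7
        · exact Or.inl ((Set.mem_insert_iff.mp h7).resolve_left h6)
        · exact Or.inr h7
      · have h6 : t = κ := by simpa using hp
        right
        change w + 1 ≤ t.wt + s.wt
        have h7 := hFw κ (Set.mem_insert _ _)
        have h8 := s.wt_pos
        rw [h6, h7]
        omega
    · refine (en_ga hr _ l).trans ?_
      have h5 : pe (R : ℝ)⁻¹ (l.filter (fun t => decide (t = κ))) ≤ Real.exp S :=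
        (pe_le hr _).trans (Real.exp_le_exp.mpr ((en_le_of_filter hr _ _).trans hS))
      exact mul_le_mul h5 hS (en_nonneg hr _) (Real.exp_pos _).le
    · rw [e2, pv_replicate]
      refine hC' G hc f hf R hR _ ?_
      rw [hFw κ (Set.mem_insert _ _), inv_pow, ← div_eq_mul_inv, div_le_iff₀ (by positivity)] at h3
      exact h3

theorem sh_all [Finite σ] (c : ℕ) (ι : σ → σ) (w : ℕ) (hw : 1 ≤ w) :
    Sh.{u, v} c ι (fun t => w ≤ t.wt) := by
  have key : ∀ n w : ℕ, 1 ≤ w → c + 1 ≤ w + n → Sh.{u, v} c ι (fun t => w ≤ t.wt) := by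
    intro n
    induction n with
    | zero =>
      intro w _ h S
      obtain ⟨C, hC⟩ := sh_base.{u, v} c ι S
      exact ⟨C, fun G _ hc f hf R hR l hl =>
        hC G hc f hf R hR l fun t ht => by have := hl t ht; omega⟩
    | succ n ih =>
      intro w hw h S
      have h1 := ih (w + 1) (by omega) (by omega)
      have h2 : {t : Tr σ | t.wt = w}.Finite :=
        (finite_wt_le w).subset fun t ht => le_of_eq ht
      obtain ⟨C, hC⟩ := sh_step hw h1 h2 (fun t ht => ht) S
      refine ⟨C, fun G _ hc f hf R hR l hl => hC G hc f hf R hR l fun t ht => ?_⟩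
      have h3 := hl t ht
      rcases Nat.eq_or_lt_of_le h3 with h4 | h4
      · exact Or.inl h4.symm
      · exact Or.inr h4
  exact key (c + 1) w hw (by omega)

/-- **Discrete Guivarc'h estimate**, uniform over all groups of nilpotency class `≤ c`. -/
theorem exists_short [Finite σ] (c : ℕ) (ι : σ → σ) (S : ℝ) : ∃ C : ℕ, 1 ≤ C ∧
    ∀ (G : Type u) [Group G], (⊤ : Subgroup G).lowerCentralSeries c = ⊥ →
    ∀ f : σ → G, (∀ s, f (ι s) = (f s)⁻¹) → ∀ R : ℕ, 1 ≤ R → ∀ l : List (Tr σ),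
      en (R : ℝ)⁻¹ l ≤ S → pv f l ∈ Wd f (C * R) := by
  obtain ⟨C, hC⟩ := sh_all.{u, v} c ι 1 le_rfl S
  exact ⟨C + 1, by omega, fun G _ hc f hf R hR l hl =>
    Wd_mono (Nat.mul_le_mul_right _ (by omega))
      (hC G hc f hf R hR l (fun t _ => t.wt_pos) hl)⟩

end Crest.Agent.R182.Slow
end

-- ▼ part R182/SlowUL

set_option autoImplicit false
set_option linter.unusedSectionVars false

namespace Crest.Agent.R182.Slow

universe u v

open scoped commutatorElement

open Tr

variable {σ : Type v}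

/-- the list of leaves of a word -/
def lv (l : List σ) : List (Tr σ) := l.map leaf

theorem pv_lv {G : Type u} [Group G] (f : σ → G) (l : List σ) : pv f (lv l) = (l.map f).prod := by
  simp only [pv, lv, List.map_map]
  rfl

theorem en_lv (r : ℝ) (l : List σ) : en r (lv l) = l.length * r := by
  induction l with
  | nil => simp [lv]
  | cons s l ih =>
    have e : lv (s :: l) = leaf s :: lv l := rfl
    rw [e, en_cons, ih, List.length_cons]
    push_cast
    simp only [wt]
    ring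

/-! ### (UL) -/

/-- conjugates by powers are short, uniformly in all groups of class `≤ c` -/
theorem exists_UL (c : ℕ) {ε : ℝ} (hε : 0 < ε) : ∃ N0 : ℕ, ∀ (G : Type u) [Group G],
    (⊤ : Subgroup G).lowerCentralSeries c = ⊥ → ∀ x y : G, ∀ N : ℕ, N0 ≤ N → ∀ j ≤ N,
    ∃ l : List G, (l.length : ℝ) ≤ ε * N ∧
      (∀ s ∈ l, s = x ∨ s = x⁻¹ ∨ s = y ∨ s = y⁻¹) ∧ l.prod = y ^ j * x * (y ^ j)⁻¹ := by
  obtain ⟨C, hC1, hC⟩ := exists_short.{u, 0} (σ := Bool × Bool) c (fun s => (s.1, !s.2)) 1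
  have hC0 : (0 : ℝ) < C := by exact_mod_cast hC1
  set ρ : ℝ := ε / (2 * C) with hρ
  have hρ0 : 0 < ρ := by positivity
  obtain ⟨N1, hN1⟩ : ∃ N1 : ℕ, 1 / ρ ≤ N1 := ⟨_, Nat.le_ceil _⟩
  obtain ⟨N2, hN2⟩ : ∃ N2 : ℕ, Real.exp (1 / ρ) / ρ ≤ N2 := ⟨_, Nat.le_ceil _⟩
  refine ⟨max N1 N2, fun G _ hc x y N hN j hj => ?_⟩
  have h1 : (1 : ℝ) ≤ ρ * N := by
    rw [div_le_iff₀ hρ0] at hN1
    have : (N1 : ℝ) ≤ N := by exact_mod_cast (le_max_left _ _).trans hN
    nlinarith
  have h2 : Real.exp (1 / ρ) ≤ ρ * N := by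
    rw [div_le_iff₀ hρ0] at hN2
    have : (N2 : ℝ) ≤ N := by exact_mod_cast (le_max_right _ _).trans hN
    nlinarith
  set R : ℕ := ⌈ρ * N⌉₊ with hR
  have hR1 : ρ * N ≤ R := Nat.le_ceil _
  have hR2 : (R : ℝ) ≤ ρ * N + 1 := (Nat.ceil_lt_add_one (by linarith)).le
  have hR0 : (0 : ℝ) < R := by linarith
  have hR3 : 1 ≤ R := by exact_mod_cast (by linarith : (1 : ℝ) ≤ R)
  have hr : (0 : ℝ) ≤ (R : ℝ)⁻¹ := by positivity
  let f : Bool × Bool → G := fun s => if s.2 then (if s.1 then x else y)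
    else (if s.1 then x else y)⁻¹
  have hf : ∀ s : Bool × Bool, f (s.1, !s.2) = (f s)⁻¹ := by
    rintro ⟨a, b⟩
    cases a <;> cases b <;> simp [f]
  have hmem := hC G hc f hf R hR3
    (cls (lv (List.replicate j (false, true))) (lv [(true, true)])) ?_
  · rw [pv_cls, pv_lv, pv_lv] at hmem
    obtain ⟨l, hl, hl'⟩ := hmem
    refine ⟨l.map f, ?_, ?_, ?_⟩
    · rw [List.length_map]
      have h3 : (l.length : ℝ) ≤ C * R := by exact_mod_cast hl
      have h4 : (C : ℝ) * R ≤ C * (ρ * N + 1) := mul_le_mul_of_nonneg_left hR2 hC0.le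
      have h5 : (C : ℝ) * (2 * (ρ * N)) = ε * N := by rw [hρ]; field_simp
      nlinarith
    · intro s hs
      obtain ⟨a, _, rfl⟩ := List.mem_map.mp hs
      rcases a with ⟨a, b⟩
      cases a <;> cases b <;> simp [f]
    · rw [hl']
      simp [f]
  · rw [en_cls, en_lv]
    have h3 : pe (R : ℝ)⁻¹ (lv (List.replicate j ((false, true) : Bool × Bool))) ≤
        Real.exp (1 / ρ) := by
      refine (pe_le hr _).trans (Real.exp_le_exp.mpr ?_)
      rw [en_lv, List.length_replicate, ← div_eq_mul_inv, div_le_div_iff₀ hR0 hρ0]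
      have : (j : ℝ) ≤ N := by exact_mod_cast hj
      nlinarith
    have h4 : (([((true, true) : Bool × Bool)].length : ℕ) : ℝ) * (R : ℝ)⁻¹ = (R : ℝ)⁻¹ := by simp
    rw [h4, ← div_eq_mul_inv, div_le_one hR0]
    linarith

/-! ### (SLOW) -/

/-- conjugation by long words keeps short words relatively short -/
theorem exists_slow [Finite σ] {G : Type u} [Group G] {c : ℕ}
    (hc : (⊤ : Subgroup G).lowerCentralSeries c = ⊥) {ι : σ → σ} {f : σ → G}
    (hf : ∀ s, f (ι s) = (f s)⁻¹) (A : ℝ) {δ : ℝ} (hδ : 0 < δ) :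
    ∃ δ' : ℝ, 0 < δ' ∧ ∃ N0 : ℕ, ∀ N ≥ N0, ∀ m m' : ℕ, (m : ℝ) ≤ δ' * N → (m' : ℝ) ≤ A * N →
      ∀ y ∈ Wd f m, ∀ b ∈ Wd f m', ∃ m'' : ℕ, (m'' : ℝ) ≤ δ * N ∧ b⁻¹ * y * b ∈ Wd f m'' := by
  obtain ⟨C, hC1, hC⟩ := exists_short.{u, v} c ι 1
  have hC0 : (0 : ℝ) < C := by exact_mod_cast hC1
  set ρ : ℝ := δ / (2 * C) with hρ
  have hρ0 : 0 < ρ := by positivity
  set A' : ℝ := max A 0 with hA'
  obtain ⟨N1, hN1⟩ : ∃ N1 : ℕ, 1 / ρ ≤ N1 := ⟨_, Nat.le_ceil _⟩
  refine ⟨ρ * Real.exp (-(A' / ρ)), by positivity, N1, fun N hN m m' hm hm' => ?_⟩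
  rintro _ ⟨Y, hY, rfl⟩ _ ⟨B, hB, rfl⟩
  have h1 : (1 : ℝ) ≤ ρ * N := by
    rw [div_le_iff₀ hρ0] at hN1
    have : (N1 : ℝ) ≤ N := by exact_mod_cast hN
    nlinarith
  have hN0 : (0 : ℝ) ≤ N := Nat.cast_nonneg _
  set R : ℕ := ⌈ρ * N⌉₊ with hR
  have hR1 : ρ * N ≤ R := Nat.le_ceil _
  have hR2 : (R : ℝ) ≤ ρ * N + 1 := (Nat.ceil_lt_add_one (by linarith)).le
  have hR0 : (0 : ℝ) < R := by linarith
  have hR3 : 1 ≤ R := by exact_mod_cast (by linarith : (1 : ℝ) ≤ R)
  have hr : (0 : ℝ) ≤ (R : ℝ)⁻¹ := by positivity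
  refine ⟨C * R, ?_, ?_⟩
  · push_cast
    have h4 : (C : ℝ) * R ≤ C * (ρ * N + 1) := mul_le_mul_of_nonneg_left hR2 hC0.le
    have h5 : (C : ℝ) * (2 * (ρ * N)) = δ * N := by rw [hρ]; field_simp
    nlinarith
  · have hmem := hC G hc f hf R hR3 (cls (linv ι (lv B)) (lv Y)) ?_
    · rw [pv_cls, pv_linv hf, pv_lv, pv_lv, inv_inv] at hmem
      exact hmem
    · rw [en_cls, en_lv]
      have h3 : pe (R : ℝ)⁻¹ (linv ι (lv B)) ≤ Real.exp (A' / ρ) := by
        refine (pe_le hr _).trans (Real.exp_le_exp.mpr ?_)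
        rw [en_linv, en_lv, ← div_eq_mul_inv, div_le_div_iff₀ hR0 hρ0]
        have e1 : (B.length : ℝ) ≤ A' * N := by
          have : (B.length : ℝ) ≤ m' := by exact_mod_cast hB
          exact this.trans (hm'.trans (mul_le_mul_of_nonneg_right (le_max_left _ _) hN0))
        have e2 : 0 ≤ A' := le_max_right _ _
        calc (B.length : ℝ) * ρ ≤ A' * N * ρ := mul_le_mul_of_nonneg_right e1 hρ0.le
          _ = A' * (ρ * N) := by ring
          _ ≤ A' * R := mul_le_mul_of_nonneg_left hR1 e2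
      have h4 : (Y.length : ℝ) * (R : ℝ)⁻¹ ≤ Real.exp (-(A' / ρ)) := by
        rw [← div_eq_mul_inv, div_le_iff₀ hR0]
        have e1 : (Y.length : ℝ) ≤ m := by exact_mod_cast hY
        have e2 : Real.exp (-(A' / ρ)) * (ρ * N) ≤ Real.exp (-(A' / ρ)) * R :=
          mul_le_mul_of_nonneg_left hR1 (Real.exp_pos _).le
        nlinarith
      calc _ ≤ Real.exp (A' / ρ) * Real.exp (-(A' / ρ)) :=
            mul_le_mul h3 h4 (by positivity) (Real.exp_pos _).le
        _ = 1 := by rw [← Real.exp_add, add_neg_cancel, Real.exp_zero]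
        _ ≤ 1 := le_rfl

/-! ### (POW) -/

section pow

variable {κ : Type v} [Fintype κ] {G : Type u} [Group G]

/-- signed letters -/
def sg (t : κ → G) : κ × Bool → G := fun s => if s.2 then t s.1 else (t s.1)⁻¹

theorem sg_inv (t : κ → G) (s : κ × Bool) : sg t (s.1, !s.2) = (sg t s)⁻¹ := by
  rcases s with ⟨a, b⟩
  cases b <;> simp [sg]

theorem sg_zpow (t : κ → G) (i : κ) (z : ℤ) :
    ((List.replicate z.natAbs (i, decide (0 ≤ z))).map (sg t)).prod = t i ^ z := by
  rw [List.map_replicate, List.prod_replicate]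
  by_cases hz : 0 ≤ z
  · have : sg t (i, decide (0 ≤ z)) = t i := by simp [sg, hz]
    rw [this, ← zpow_natCast, Int.natAbs_of_nonneg hz]
  · have : sg t (i, decide (0 ≤ z)) = (t i)⁻¹ := by simp [sg, hz]
    have hz' : z ≤ 0 := by omega
    rw [this, ← zpow_natCast, Int.ofNat_natAbs_of_nonpos hz', inv_zpow, zpow_neg, inv_inv]

theorem pv_filter_leaf (t : κ → G) (i : κ) (l : List (Tr (κ × Bool)))
    (h : ∀ x ∈ l, ∃ b, x = leaf (i, b)) : ∃ z : ℤ, pv (sg t) l = t i ^ z := by
  induction l with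
  | nil => exact ⟨0, by simp⟩
  | cons x l ih =>
    obtain ⟨z, hz⟩ := ih fun x hx => h x (List.mem_cons_of_mem _ hx)
    obtain ⟨b, rfl⟩ := h x List.mem_cons_self
    rw [pv_cons, hz]
    cases b
    · refine ⟨-1 + z, ?_⟩
      rw [zpow_add, zpow_neg_one]
      simp [ev, sg]
    · refine ⟨1 + z, ?_⟩
      rw [zpow_add, zpow_one]
      simp [ev, sg]

variable {E : Type*} [NormedAddCommGroup E] [NormedSpace ℝ E]

theorem hom_one {H : G → E} (hH : ∀ g g', H (g * g') = H g + H g') : H 1 = 0 := by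
  have := hH 1 1
  rw [mul_one] at this
  simpa using this

theorem hom_inv {H : G → E} (hH : ∀ g g', H (g * g') = H g + H g') (g : G) :
    H g⁻¹ = -H g := by
  have := hH g g⁻¹
  rw [mul_inv_cancel, hom_one hH] at this
  exact (neg_eq_of_add_eq_zero_right this.symm).symm

theorem hom_pow {H : G → E} (hH : ∀ g g', H (g * g') = H g + H g') (g : G) (n : ℕ) :
    H (g ^ n) = (n : ℝ) • H g := by
  induction n with
  | zero => simp [hom_one hH]
  | succ n ih => rw [pow_succ, hH, ih]; push_cast; rw [add_smul, one_smul]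

theorem hom_zpow {H : G → E} (hH : ∀ g g', H (g * g') = H g + H g') (g : G) (z : ℤ) :
    H (g ^ z) = (z : ℝ) • H g := by
  cases z with
  | ofNat n => simpa using hom_pow hH g n
  | negSucc n =>
    rw [zpow_negSucc, hom_inv hH, hom_pow hH]
    push_cast
    rw [← neg_smul]

theorem hom_comm {H : G → E} (hH : ∀ g g', H (g * g') = H g + H g') (g g' : G) :
    H ⁅g, g'⁆ = 0 := by
  rw [commutatorElement_def, hH, hH, hH, hom_inv hH, hom_inv hH]
  abel

/-- collection of the letters -/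
theorem exists_collect {H : G → E} (hH : ∀ g g', H (g * g') = H g + H g') (t : κ → G)
    (F : Finset κ) (S : ℝ) : ∃ S' : ℝ, 0 ≤ S' ∧ ∀ (r : ℝ), 0 ≤ r →
    ∀ l : List (Tr (κ × Bool)), en r l ≤ S →
    ∃ (rest : List (Tr (κ × Bool))) (lets : List (κ × Bool)) (v : κ → ℤ),
      pv (sg t) l = pv (sg t) rest * (lets.map (sg t)).prod ∧ en r rest ≤ S' ∧
      (∀ x ∈ rest, ∀ i ∈ F, ∀ b, x ≠ leaf (i, b)) ∧
      (lets.length : ℝ) ≤ ∑ i ∈ F, |(v i : ℝ)| ∧
      H ((lets.map (sg t)).prod) = ∑ i ∈ F, (v i : ℝ) • H (t i) := by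
  classical
  induction F using Finset.induction_on with
  | empty =>
    exact ⟨max S 0, le_max_right _ _, fun r hr l hl =>
      ⟨l, [], 0, by simp, hl.trans (le_max_left _ _), by simp, by simp, by simp [hom_one hH]⟩⟩
  | @insert i F hi ih =>
    obtain ⟨S', hS', h⟩ := ih
    refine ⟨Real.exp S' * S', by positivity, fun r hr l hl => ?_⟩
    obtain ⟨rest, lets, v, h1, h2, h3, h4, h5⟩ := h r hr l hl
    set p : Tr (κ × Bool) → Bool := fun x => decide (∃ b, x = leaf (i, b)) with hp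
    obtain ⟨z, hz⟩ := pv_filter_leaf t i (rest.filter p) (fun x hx => by
      have := (List.mem_filter.mp hx).2
      simpa [hp] using this)
    refine ⟨ga p rest, List.replicate z.natAbs (i, decide (0 ≤ z)) ++ lets,
      Function.update v i z, ?_, ?_, ?_, ?_, ?_⟩
    · rw [h1, ← pv_ga (sg t) p rest, hz, List.map_append, List.prod_append, sg_zpow, mul_assoc]
    · refine (en_ga hr _ _).trans ?_
      have h5 : pe r (rest.filter p) ≤ Real.exp S' :=
        (pe_le hr _).trans (Real.exp_le_exp.mpr ((en_le_of_filter hr _ _).trans h2))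
      exact mul_le_mul h5 h2 (en_nonneg hr _) (Real.exp_pos _).le
    · refine mem_ga (fun x hx hpx => ?_) (fun x _ _ s _ => ?_)
      · intro j hj b hxb
        rcases Finset.mem_insert.mp hj with rfl | hj
        · have : ¬ ∃ b, x = leaf (j, b) := by simpa [hp] using hpx
          exact this ⟨b, hxb⟩
        · exact h3 x hx j hj b hxb
      · intro j _ b h; cases h
    · rw [Finset.sum_insert hi, List.length_append, List.length_replicate, Function.update_self]
      push_cast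
      have e1 : ∑ j ∈ F, |((Function.update v i z j : ℤ) : ℝ)| = ∑ j ∈ F, |(v j : ℝ)| :=
        Finset.sum_congr rfl fun j hj => by
          rw [Function.update_of_ne (show j ≠ i from fun e => hi (e ▸ hj))]
      rw [e1, Nat.cast_natAbs, Int.cast_abs]
      linarith
    · rw [List.map_append, List.prod_append, hH, sg_zpow, h5, hom_zpow hH,
        Finset.sum_insert hi, Function.update_self]
      congr 1
      exact Finset.sum_congr rfl fun j hj => by
        rw [Function.update_of_ne (show j ≠ i from fun e => hi (e ▸ hj))]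

theorem pv_flatten {τ : Type*} (f : τ → G) (l : List (Tr τ)) (j : ℕ) :
    pv f (List.replicate j l).flatten = pv f l ^ j := by
  induction j with
  | zero => simp
  | succ j ih => rw [List.replicate_succ, List.flatten_cons, pv_append, ih, pow_succ']

theorem en_flatten {τ : Type*} (r : ℝ) (l : List (Tr τ)) (j : ℕ) :
    en r (List.replicate j l).flatten = j * en r l := by
  induction j with
  | zero => simp
  | succ j ih => rw [List.replicate_succ, List.flatten_cons, en_append, ih]; push_cast; ring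

theorem hom_pv {H : G → E} (hH : ∀ g g', H (g * g') = H g + H g') {τ : Type*} (f : τ → G)
    (l : List (Tr τ)) (hl : ∀ x ∈ l, ∀ s, x ≠ leaf s) : H (pv f l) = 0 := by
  induction l with
  | nil => exact hom_one hH
  | cons x l ih =>
    rw [pv_cons, hH, ih fun y hy => hl y (List.mem_cons_of_mem _ hy), add_zero]
    cases x with
    | leaf s => exact absurd rfl (hl _ List.mem_cons_self s)
    | br a b => exact hom_comm hH _ _

theorem two_le_wt {τ : Type*} {x : Tr τ} (hx : ∀ s, x ≠ leaf s) : 2 ≤ x.wt := by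
  cases x with
  | leaf s => exact absurd rfl (hx s)
  | br a b =>
    have := a.wt_pos
    have := b.wt_pos
    change 2 ≤ a.wt + b.wt
    omega

/-- elements of almost zero height have slowly growing powers -/
theorem exists_pow {c : ℕ} (hc : (⊤ : Subgroup G).lowerCentralSeries c = ⊥) (t : κ → G)
    {H : G → E} (hH : ∀ g g', H (g * g') = H g + H g')
    (hli : LinearIndependent ℝ fun i => H (t i)) {δ : ℝ} (hδ : 0 < δ) (B : ℝ) :
    ∃ j : ℕ, 1 ≤ j ∧ ∃ ε : ℝ, 0 < ε ∧ ∃ N0 : ℕ, ∀ N ≥ N0, ∀ m : ℕ, (m : ℝ) ≤ B * N →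
      ∀ g ∈ Wd (sg t) m, ‖H g‖ ≤ ε * N → ∃ m' : ℕ, (m' : ℝ) ≤ δ * j * N ∧
        g ^ j ∈ Wd (sg t) m' := by
  classical
  -- the constants
  obtain ⟨C, hC1, hC⟩ := exists_short.{u, v} (σ := κ × Bool) c (fun s => (s.1, !s.2)) 1
  have hC0 : (0 : ℝ) < C := by exact_mod_cast hC1
  obtain ⟨S', hS', hcol⟩ := exists_collect hH t Finset.univ B
  obtain ⟨L, hL0, hL⟩ : ∃ L : ℝ, 0 < L ∧ ∀ v : κ → ℝ,
      ∑ i, |v i| ≤ L * ‖∑ i, v i • H (t i)‖ := by
    obtain ⟨K, _, hK⟩ := (Fintype.linearCombination ℝ fun i => H (t i)).exists_antilipschitzWith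
      (LinearMap.ker_eq_bot.mpr (linearIndependent_iff_injective_fintypeLinearCombination.mp hli))
    refine ⟨(Fintype.card κ + 1) * (K + 1), by positivity, fun v => ?_⟩
    have h1 : ‖v‖ ≤ K * ‖∑ i, v i • H (t i)‖ := by
      have := hK.le_mul_dist v 0
      rw [dist_zero_right, map_zero, dist_zero_right, Fintype.linearCombination_apply] at this
      exact this
    have h2 : ∑ i, |v i| ≤ Fintype.card κ * ‖v‖ := by
      have : ∑ i, |v i| ≤ ∑ _i : κ, ‖v‖ := Finset.sum_le_sum fun i _ => norm_le_pi_norm v i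
      simpa using this
    have h3 : 0 ≤ ‖∑ i, v i • H (t i)‖ := norm_nonneg _
    have h4 : 0 ≤ (K : ℝ) := K.2
    calc ∑ i, |v i| ≤ Fintype.card κ * ‖v‖ := h2
      _ ≤ Fintype.card κ * (K * ‖∑ i, v i • H (t i)‖) :=
        mul_le_mul_of_nonneg_left h1 (Nat.cast_nonneg _)
      _ ≤ (Fintype.card κ + 1) * ((K + 1) * ‖∑ i, v i • H (t i)‖) :=
        mul_le_mul (by linarith) (mul_le_mul_of_nonneg_right (by linarith) h3)
          (by positivity) (by positivity)
      _ = _ := by ring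
  set ρ : ℝ := δ / (2 * C) with hρ
  have hρ0 : 0 < ρ := by positivity
  obtain ⟨j, hj⟩ : ∃ j : ℕ, max (1 / ρ) (2 * S' / ρ ^ 2) ≤ j := ⟨_, Nat.le_ceil _⟩
  have hj1 : 1 / ρ ≤ j := (le_max_left _ _).trans hj
  have hj2 : 2 * S' / ρ ^ 2 ≤ j := (le_max_right _ _).trans hj
  have hj0 : (0 : ℝ) < j := lt_of_lt_of_le (by positivity) hj1
  have hj3 : 1 ≤ ρ * j := by rwa [div_le_iff₀' hρ0] at hj1
  refine ⟨j, by exact_mod_cast hj0, ρ / (2 * L), by positivity, 1, fun N hN m hm g hg hHg =>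
    ⟨C * ⌈ρ * j * N⌉₊, ?_, ?_⟩⟩
  all_goals
    have hN1 : (1 : ℝ) ≤ N := by exact_mod_cast hN
    have hN0 : (0 : ℝ) < N := by linarith
    have h1 : 1 ≤ ρ * j * N := by nlinarith
    have hR1 : ρ * j * N ≤ ⌈ρ * j * N⌉₊ := Nat.le_ceil _
    have hR2 : (⌈ρ * j * N⌉₊ : ℝ) ≤ ρ * j * N + 1 := (Nat.ceil_lt_add_one (by linarith)).le
  · push_cast
    have h4 : (C : ℝ) * ⌈ρ * j * N⌉₊ ≤ C * (ρ * j * N + 1) := mul_le_mul_of_nonneg_left hR2 hC0.le
    have h5 : (C : ℝ) * (2 * (ρ * j * N)) = δ * j * N := by rw [hρ]; field_simp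
    nlinarith
  · set R : ℕ := ⌈ρ * j * N⌉₊ with hR
    have hR0 : (0 : ℝ) < R := by linarith
    have hR3 : 1 ≤ R := by exact_mod_cast (by linarith : (1 : ℝ) ≤ R)
    have hr : (0 : ℝ) ≤ (R : ℝ)⁻¹ := by positivity
    obtain ⟨Y, hY, rfl⟩ := hg
    obtain ⟨rest, lets, v, e1, e2, e3, e4, e5⟩ := hcol (N : ℝ)⁻¹ (by positivity) (lv Y) (by
      rw [en_lv, ← div_eq_mul_inv, div_le_iff₀ hN0]
      have : (Y.length : ℝ) ≤ m := by exact_mod_cast hY
      linarith)
    rw [pv_lv] at e1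
    have e3' : ∀ x ∈ rest, ∀ s, x ≠ leaf s := fun x hx s => e3 x hx s.1 (Finset.mem_univ _) s.2
    have e6 : H (Y.map (sg t)).prod = ∑ i, (v i : ℝ) • H (t i) := by
      rw [e1, hH, e5, hom_pv hH _ _ e3', zero_add]
    have e7 : (lets.length : ℝ) ≤ ρ / 2 * N := by
      have h2 := hL fun i => (v i : ℝ)
      rw [← e6] at h2
      have h3 : L * ‖H (Y.map (sg t)).prod‖ ≤ L * (ρ / (2 * L) * N) :=
        mul_le_mul_of_nonneg_left hHg hL0.le
      have h4 : L * (ρ / (2 * L) * N) = ρ / 2 * N := by field_simp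
      linarith
    have hmem := hC G hc (sg t) (fun s => sg_inv t s) R hR3
      ((List.replicate j (rest ++ lv lets)).flatten) ?_
    · rw [pv_flatten, pv_append, pv_lv, ← e1] at hmem
      exact hmem
    · rw [en_flatten, en_append, en_lv]
      have hNR : (N : ℝ) ≤ R := by nlinarith
      have h2 := en_scale (r := (R : ℝ)⁻¹) (s := (N : ℝ)⁻¹) hr
        (inv_anti₀ hN0 hNR) (by positivity) 2 rest (fun x hx => two_le_wt (e3' x hx))
      have h3 : (R : ℝ)⁻¹ / (N : ℝ)⁻¹ ≤ 1 / (ρ * j) := by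
        rw [div_inv_eq_mul, ← div_eq_inv_mul, div_le_div_iff₀ hR0 (by positivity)]
        nlinarith
      have h4 : ((R : ℝ)⁻¹ / (N : ℝ)⁻¹) ^ 2 * en (N : ℝ)⁻¹ rest ≤ (1 / (ρ * j)) ^ 2 * S' :=
        mul_le_mul (pow_le_pow_left₀ (by positivity) h3 2) e2 (en_nonneg (by positivity) _)
          (by positivity)
      have h5 : (j : ℝ) * ((1 / (ρ * j)) ^ 2 * S') ≤ 1 / 2 := by
        have h6 : (j : ℝ) * ((1 / (ρ * j)) ^ 2 * S') = S' / ρ ^ 2 / j := by
          field_simp
        rw [h6, div_le_iff₀ hj0]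
        have h7 : 2 * S' / ρ ^ 2 = 2 * (S' / ρ ^ 2) := by ring
        linarith
      have h6 : (j : ℝ) * ((lets.length : ℝ) * (R : ℝ)⁻¹) ≤ 1 / 2 := by
        rw [← div_eq_mul_inv, ← mul_div_assoc, div_le_iff₀ hR0]
        calc (j : ℝ) * lets.length ≤ j * (ρ / 2 * N) := mul_le_mul_of_nonneg_left e7 hj0.le
          _ = 1 / 2 * (ρ * j * N) := by ring
          _ ≤ 1 / 2 * R := by linarith
      have h7 : (j : ℝ) * en (R : ℝ)⁻¹ rest ≤ (j : ℝ) * ((1 / (ρ * j)) ^ 2 * S') :=
        mul_le_mul_of_nonneg_left (h2.trans h4) hj0.le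
      rw [mul_add]
      linarith

end pow

end Crest.Agent.R182.Slow
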