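import Crest.Agent.R182.StarThm2
import Mathlib
import Crest.Agent.R182.StarLeg
import Crest.Agent.R182.SlowUL
import Crest.Agent.R182.GenLip
import Crest.Agent.R182.NbAdM

-- ▼ part R182/StarThm3
section

set_option autoImplicit false
set_option linter.unusedSectionVars false

open MeasureTheory ENNReal List

namespace Crest.Agent.R182.Star

open Crest.Agent.R182.Conv Crest.Agent.R182.Cap

section Main3

variable {G H ι E : Type*} [Group G] [Group H] [MeasurableSpace H] [MeasurableMul₂ H]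
    [MeasurableInv H] [Fintype ι] [NormedAddCommGroup E] [InnerProductSpace ℝ E]

set_option maxHeartbeats 4000000 in
/-- **THE LAW PER POINT**, with `τ, δ, ρ1, A, 𝒲` and the accuracy `eps1` before the legs; only `N0`
depends on the legs. -/
theorem star_law' [FiniteDimensional ℝ E] [MeasurableSpace E] [BorelSpace E]
    (M : CapModel G H ι E) (hR : M.Reach) (hE : M.Ent) {K : ℝ} (hK : 1 ≤ K)
    (R : RSys ι E) (hRS : M.S = R.toGenSys) {T : Set G} {r0 : ℕ} (hT : ∀ s ∈ T, s ∈ M.Cl r0)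
    (Cb : ℝ) (hS : Slow T) (hP : Pow T M.hgt) {Ω : Set E} (hΩ : Convex ℝ Ω) {ρ0 : ℝ}
    (hρ0 : 0 < ρ0) (hball : Metric.ball 0 ρ0 ⊆ Ω) (C2 CQ : ℝ) {η : ℝ} (hη : 0 < η) (kw : ℕ)
    {tW : ℝ} (htW : 0 ≤ tW) :
    ∃ (τ δ ρ1 : ℝ) (A : ℕ) (𝒲 : Finset (List R.Eb)) (eps1 : ℝ), 0 < τ ∧ 0 < δ ∧ 0 < ρ1 ∧ 1 ≤ A ∧
      0 < eps1 ∧
      (∀ w ∈ 𝒲, ∀ e : R.Eb, ∀ a ≤ A, Metric.ball (τ • lsum (w ++ replicate a e)) ρ1 ⊆ Ω) ∧
      ∀ eps : ℝ, 0 ≤ eps → eps ≤ eps1 → ∀ 𝓛 : Legs M R T Cb eps, ∃ N0 : ℕ, 1 ≤ N0 ∧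
      ∀ N ≥ N0, ∀ Ψ : G → G, QI M K Ψ → ∀ x : G, ∀ Q Q' : Set H, MeasurableSet Q →
        MeasurableSet Q' → M.μ Q ≠ ∞ → M.μ Q' ≤ ENNReal.ofReal CQ * M.μ Q →
        (∀ n ∈ Q, M.len (M.emb n) ≤ C2 * N) →
        (∀ w ∈ 𝒲, ∀ a ∈ M.V, ∀ q ∈ Q, q * (M.cj (𝓛.pos N τ w) a)⁻¹ ∈ Q') →
        (∀ w ∈ 𝒲, ∀ e : R.Eb, ∀ a ≤ A,
          M.μ {n | n ∈ Q ∧ a * 𝓛.p N τ e * ‖M.hgt (𝓛.b e)‖ / N + δ <
            ‖FF M 𝓛 N τ Ψ x n (w ++ replicate a e) - FF M 𝓛 N τ Ψ x n w‖} ≤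
              ENNReal.ofReal δ * M.μ Q) →
        M.μ {n | n ∈ Q ∧ ¬ ∃ (σ : Equiv.Perm R.Eb) (L : E →ₗ[ℝ] E), (∀ e : R.Eb, L e = σ e) ∧
          ∀ w : List (R.Eb × ℝ), w.length ≤ kw → (∀ p ∈ w, 0 ≤ p.2 ∧ p.2 ≤ tW) →
            (∀ w', w' <+: w → tsum w' ∈ Ω) →
            ‖GF M N Ψ x n (𝓛.tpos N w) - GF M N Ψ x n 1 - L (tsum w)‖ ≤ η} ≤
          ENNReal.ofReal η * M.μ Q := by
  classical
  have hC0 := M.C0_pos
  obtain ⟨c0, hc0, hrel⟩ := R.exists_rel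
  obtain ⟨cE, hcE⟩ : ∃ cE : ℝ, cE = ((R.Eb.card : ℕ) : ℝ) := ⟨_, rfl⟩
  have hcE0 : 0 ≤ cE := by rw [hcE]; exact Nat.cast_nonneg _
  have hkw0 : (0 : ℝ) ≤ kw := Nat.cast_nonneg _
  obtain ⟨sep, κ, hsep, hκ, Rels, hRels, haff⟩ :=
    word_affine R.Eb R.unit R.span_Eb hc0 hrel (r := ρ0 / 4) (by positivity)
  obtain ⟨j, hj, τp, hτp, epsp, hepsp, hpow⟩ :=
    pow_FF M hK R hT Cb hP (r := ρ0 / 4) (by positivity) hκ
  obtain ⟨s0, hs0, τt, hτt, htimed⟩ :=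
    timed_FF M hK R hT Cb hS kw htW (δ := η / 8) (by positivity)
  -- the contraction
  obtain ⟨s, hsp, hss0, hs12, hsη⟩ : ∃ s : ℝ, 0 < s ∧ s ≤ s0 ∧ s ≤ 1 / 2 ∧
      s * (kw * tW) ≤ η / 8 := by
    obtain ⟨t, ht, ht'⟩ := ex_mul_le (c := kw * tW) (by positivity) (d := η / 8) (by positivity)
    exact ⟨min s0 (min (1 / 2) t), lt_min hs0 (lt_min (by norm_num) ht), min_le_left _ _,
      (min_le_right _ _).trans (min_le_left _ _),
      ht' _ ((min_le_right _ _).trans (min_le_right _ _))⟩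
  obtain ⟨r1, hr1⟩ : ∃ r1 : ℝ, r1 = s * ρ0 / 8 := ⟨_, rfl⟩
  have hr1p : 0 < r1 := by rw [hr1]; positivity
  have hr1ρ : r1 ≤ ρ0 / 16 := by
    rw [hr1]
    have := mul_le_mul_of_nonneg_right hs12 hρ0.le
    linarith only [this]
  obtain ⟨kW, hkW⟩ : ∃ kW : ℝ, kW = kw * (tW / r1 + 1) := ⟨_, rfl⟩
  have hkW0 : 0 ≤ kW := by rw [hkW]; positivity
  obtain ⟨Cd, hCd⟩ : ∃ Cd : ℝ, Cd = cE * (ρ0 / 4 / r1 + 1) := ⟨_, rfl⟩
  have hCd0 : 0 ≤ Cd := by rw [hCd]; positivity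
  obtain ⟨bκ, hbκ, hbκ'⟩ := ex_mul_le hCd0 (d := κ / 2) (by positivity)
  obtain ⟨bη, hbη, hbη'⟩ := ex_mul_le hkW0 (d := η / 8) (by positivity)
  obtain ⟨δn, hδn, hnum⟩ := exists_num hr1p (b1 := r1 * sep / 8)
    (b3 := min bκ bη) (by positivity) (lt_min hbκ hbη)
  obtain ⟨δs, hδs, hδsn, hδsr⟩ : ∃ δs : ℝ, 0 < δs ∧ δs ≤ δn ∧ δs ≤ r1 * sep / 8 :=
    ⟨min δn (r1 * sep / 8), lt_min hδn (by positivity), min_le_left _ _, min_le_right _ _⟩
  obtain ⟨δ1, δ3, hδ1, hδ3, hn1, hn2, hn3, hn4⟩ := hnum δs hδs.le hδsn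
  have hn5 : δ3 * Cd ≤ κ / 2 := hbκ' _ (hn4.trans (min_le_left _ _))
  have hn6 : δ3 * kW ≤ η / 8 := hbη' _ (hn4.trans (min_le_right _ _))
  obtain ⟨τs, hτs, hslow⟩ := slow_FF M hK R hT Cb hS r1 (ρ := r1 * sep / 8) (by positivity)
  obtain ⟨mm, MM, hmm, hMM, hm1, hM1⟩ := R.exists_bounds
  have hLip := R.Lip_nonneg
  obtain ⟨L, hcap⟩ := exists_capAt M hR hE hK R hRS hT Cb
  obtain ⟨Cc, hCc, hcap⟩ := hcap L le_rfl
  -- the slack of WLip
  obtain ⟨δw, hδw, hδws, hδwm⟩ : ∃ δw : ℝ, 0 < δw ∧ δw ≤ δs ∧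
      2 * δw * MM * R.Lip ≤ δs * mm / 8 := by
    obtain ⟨t, ht, ht'⟩ := ex_mul_le (c := 2 * (MM * R.Lip)) (by positivity)
      (d := δs * mm / 8) (by positivity)
    refine ⟨min δs t, lt_min hδs ht, min_le_left _ _, ?_⟩
    have := ht' _ (min_le_right δs t)
    linarith only [this]
  -- the unit
  obtain ⟨A, hAall⟩ := ((((((((((ev_A 1 r1 hτp).and (ev_A 1 r1 hτt)).and (ev_A 1 r1 hτs)).and
    (ev_A 1 r1 one_pos)).and (ev_A (j * cE) r1 (d := ρ0 / 4) (by positivity))).and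
    (ev_A kw r1 (d := s * ρ0 / 8) (by positivity))).and
    (ev_A 1 r1 (d := r1 * sep / 8) (by positivity))).and
    (ev_A cE r1 (d := κ / 2) (by positivity))).and
    (ev_A Cc r1 (d := δs * mm / 8) (by positivity))).and
    ((ev_A kw r1 (d := η / 8) (by positivity)).and (Filter.eventually_ge_atTop 1))).exists
  obtain ⟨⟨⟨⟨⟨⟨⟨⟨⟨hA1, hA2⟩, hA3⟩, hA4⟩, hA5⟩, hA6⟩, hA7⟩, hA8⟩, hA9⟩, hA10, hA11⟩ := hAall
  have hA0 : (0 : ℝ) < A := by exact_mod_cast hA11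
  obtain ⟨τ, hτdef⟩ : ∃ τ : ℝ, τ = r1 / A := ⟨_, rfl⟩
  have hτ : 0 < τ := by rw [hτdef]; positivity
  have hAτ : (A : ℝ) * τ = r1 := by rw [hτdef]; field_simp
  rw [← hτdef] at hA1 hA2 hA3 hA4 hA5 hA6 hA7 hA8 hA9 hA10
  rw [one_mul] at hA1 hA2 hA3 hA4 hA7
  -- the accuracy of the legs
  obtain ⟨eps1, heps1, he1, he2, he3, he4⟩ : ∃ eps1 : ℝ, 0 < eps1 ∧ eps1 ≤ epsp ∧ eps1 ≤ 1 ∧
      Cc * (r1 * eps1) ≤ δs * mm / 8 ∧ r1 * eps1 ≤ δw / 2 := by
    obtain ⟨t, ht, ht'⟩ := ex_mul_le (c := Cc * r1) (by positivity)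
      (d := δs * mm / 8) (by positivity)
    obtain ⟨t2, ht2, ht2'⟩ := ex_mul_le hr1p.le (d := δw / 2) (by positivity)
    refine ⟨min (min epsp 1) (min t t2), lt_min (lt_min hepsp one_pos) (lt_min ht ht2),
      (min_le_left _ _).trans (min_le_left _ _), (min_le_left _ _).trans (min_le_right _ _), ?_, ?_⟩
    · have := ht' (min (min epsp 1) (min t t2)) ((min_le_right _ _).trans (min_le_left _ _))
      linarith only [this]
    · have := ht2' (min (min epsp 1) (min t t2)) ((min_le_right _ _).trans (min_le_right _ _))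
      linarith only [this]
  -- the words
  obtain ⟨Λ, hΛ⟩ : ∃ Λ : ℕ, Λ = ⌈(kw : ℝ) * (tW / τ)⌉₊ + ⌈(j : ℝ) * (ρ0 / 4 / τ)⌉₊ := ⟨_, rfl⟩
  have hΛ1 : (kw : ℝ) * (tW / τ) ≤ Λ := by
    rw [hΛ]; push_cast
    have h1 := Nat.le_ceil ((kw : ℝ) * (tW / τ))
    have h2 : (0 : ℝ) ≤ (⌈(j : ℝ) * (ρ0 / 4 / τ)⌉₊ : ℝ) := Nat.cast_nonneg _
    linarith
  have hΛ2 : (j : ℝ) * (ρ0 / 4 / τ) ≤ Λ := by
    rw [hΛ]; push_cast
    have h1 := Nat.le_ceil ((j : ℝ) * (ρ0 / 4 / τ))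
    have h2 : (0 : ℝ) ≤ (⌈(kw : ℝ) * (tW / τ)⌉₊ : ℝ) := Nat.cast_nonneg _
    linarith
  obtain ⟨P, hPdef⟩ : ∃ P : List R.Eb → Prop, P = PP Ω τ (3 * r1) Λ := ⟨_, rfl⟩
  obtain ⟨Pf, hPfmem⟩ : ∃ Pf : Finset (List R.Eb), ∀ w, w ∈ Pf ↔ P w :=
    ⟨(finite_PP Ω τ (3 * r1) Λ).toFinset, fun w => by rw [Set.Finite.mem_toFinset, hPdef]; rfl⟩
  obtain ⟨𝒲, h𝒲1, h𝒲2, h𝒲3⟩ := exists_words (Ω := Ω) (r1 := r1) R.unit hτ.le hAτ.le Pf
    (fun w hw => by
      have := (hPfmem w).1 hw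
      rw [hPdef] at this
      have h2 := this.2 w (prefix_refl _)
      exact (Metric.ball_subset_ball (by linarith)).trans h2)
  obtain ⟨nW, hnW⟩ : ∃ nW : ℝ, nW = 𝒲.card * (cE * (A + 1)) := ⟨_, rfl⟩
  have hnW0 : 0 ≤ nW := by rw [hnW]; positivity
  obtain ⟨δ, hδ, hδ1', hδ2'⟩ : ∃ δ : ℝ, 0 < δ ∧ δ ≤ δw / 2 ∧ nW * δ ≤ η / 2 := by
    obtain ⟨t, ht, ht'⟩ := ex_mul_le hnW0 (d := η / 2) (by positivity)
    refine ⟨min (δw / 2) t, lt_min (by positivity) ht, min_le_left _ _, ?_⟩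
    have := ht' _ (min_le_right (δw / 2) t)
    linarith only [this]
  -- the cells
  obtain ⟨Crad, hCrad⟩ : ∃ Crad : ℝ,
    Crad = M.C0 * (K * (|C2| + M.C0 * (r0 * (|Cb| * (Λ * τ)))) + K) := ⟨_, rfl⟩
  obtain ⟨Mc, hMc⟩ := exists_cells (E := E) Crad hδw
  -- the small constant
  obtain ⟨nP, hnP⟩ : ∃ nP : ℝ, nP = Pf.card * (cE * (Mc * (L * Fintype.card (Option R.Eb)))) :=
    ⟨_, rfl⟩
  have hnP0 : 0 ≤ nP := by rw [hnP]; positivity
  obtain ⟨c', hc', hc'1⟩ : ∃ c' : ℝ, 0 < c' ∧ nP * (c' * |CQ|) ≤ η / 2 := by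
    obtain ⟨t, ht, ht'⟩ := ex_mul_le (c := nP * |CQ|) (by positivity) (d := η / 2)
      (by positivity)
    refine ⟨t, ht, ?_⟩
    have := ht' t le_rfl
    linarith only [this]
  refine ⟨τ, δ, r1, A, 𝒲, eps1, hτ, hδ, hr1p, hA11, heps1, ?_, ?_⟩
  · intro w hw e a ha
    exact ball_leg R.unit hτ.le (h𝒲3 w hw) e ha hAτ.le
  intro eps heps hepsle 𝓛
  obtain ⟨N1, hpowN⟩ := hpow τ hτ hA1 eps heps (hepsle.trans he1) 𝓛
  obtain ⟨N2, htimedN⟩ := htimed s hsp.le hss0 (by linarith) τ hτ hA2 eps 𝓛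
  obtain ⟨N3, hslowN⟩ := hslow τ A hτ hA3 hAτ.le eps 𝓛
  obtain ⟨N4, hcapN⟩ := hcap τ A eps hτ hA4 heps (hepsle.trans he2) 𝓛 (c' ^ L) (δs * mm / 8)
    (by positivity) (by positivity)
  refine ⟨max (max N1 N2) (max (max N3 N4) 1), le_max_of_le_right (le_max_right _ _), ?_⟩
  intro N hN Ψ hΨ x Q Q' hQ hQ' hQfin hQQ' hlen hQV hlip
  have hN1 : N1 ≤ N := (le_max_left _ _).trans ((le_max_left _ _).trans hN)
  have hN2 : N2 ≤ N := (le_max_right _ _).trans ((le_max_left _ _).trans hN)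
  have hN3 : N3 ≤ N := (le_max_left _ _).trans ((le_max_left _ _).trans ((le_max_right _ _).trans hN))
  have hN4 : N4 ≤ N := (le_max_right _ _).trans ((le_max_left _ _).trans ((le_max_right _ _).trans hN))
  have hN5 : 1 ≤ N := (le_max_right _ _).trans ((le_max_right _ _).trans hN)
  -- the exceptional sets
  have hBLm := union3 (μ := M.μ) (Q := Q) (A := A) 𝒲 (fun n w (e : R.Eb) a =>
    a * 𝓛.p N τ e * ‖M.hgt (𝓛.b e)‖ / N + δ <
      ‖FF M 𝓛 N τ Ψ x n (w ++ replicate a e) - FF M 𝓛 N τ Ψ x n w‖)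
    (δ := δ) (c := η / 2) hlip (by rw [← hcE]; rw [hnW] at hδ2'; exact hδ2')
  have hBSm : M.μ {n | n ∈ Q ∧ (∀ w0 ∈ Pf, WLip R.Eb (FF M 𝓛 N τ Ψ x n) A τ δw w0) ∧
      ¬ ∀ w0 ∈ Pf, WStar R.Eb (FF M 𝓛 N τ Ψ x n) A τ δs w0} ≤
      ENNReal.ofReal (η / 2) * M.μ Q := by
    have : IsProbabilityMeasure M.ν := inferInstance
    have : M.μ.IsMulRightInvariant := ⟨fun n => M.mul_right n⟩
    have : SigmaFinite M.μ := M.sfin
    have : ProperSpace E := FiniteDimensional.proper ℝ E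
    have h1 := star_bad_small (ν := M.ν) (μ := M.μ) R hm1 hM1
      (fun w => measurable_FF 𝓛 hΨ N τ x w) (φ := Fφ M 𝓛 N τ) (fun w => M.cj_meas _)
      (A := A) hτ.le (L := L) (es := es R) (η := c' ^ L) (δ := δw) (δs := δs)
      (δ' := Cc * (τ + A * τ * eps) + δs * mm / 8) hδw.le hδs.le Pf
      (fun w0 _ => hcapN N hN4 Ψ hΨ x w0) (c := ENNReal.ofReal c')
      (by rw [ENNReal.ofReal_pow hc'.le]) hQ hQ' (by
        intro w0 hw0 o
        filter_upwards [M.ae_mem_V] with a ha q hq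
        cases o with
        | none => rw [legw_none]; exact hQV w0 (h𝒲1 w0 hw0) a ha q hq
        | some e => rw [legw_some]; exact hQV _ (h𝒲2 w0 hw0 e A le_rfl) a ha q hq) hQfin
      (Mc := Mc) (by
        intro w0 hw0
        obtain ⟨Tc, hT1, hT2, hT3⟩ := hMc ((N : ℝ)⁻¹ • M.hgt (Ψ x))
        refine ⟨Tc, hT1, hT2, fun n hn => hT3 _ ?_⟩
        rw [hCrad]
        have hw0' := (hPfmem w0).1 hw0
        rw [hPdef] at hw0'
        exact FF_bound 𝓛 hT hΨ hN5 hτ.le x (hlen n hn) hw0'.1) (by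
        have h2 : Cc * (τ + A * τ * eps) ≤ δs * mm / 8 + δs * mm / 8 := by
          rw [hAτ, mul_add]
          have : Cc * (r1 * eps) ≤ Cc * (r1 * eps1) := by gcongr
          linarith
        have h3 : 0 < δs * mm := by positivity
        linarith)
    refine h1.trans (count_le hQQ' hc'.le ?_)
    rw [← hcE, ← hnP]
    exact hc'1
  have hsub : {n | n ∈ Q ∧ ¬ ∃ (σ : Equiv.Perm R.Eb) (L : E →ₗ[ℝ] E), (∀ e : R.Eb, L e = σ e) ∧
          ∀ w : List (R.Eb × ℝ), w.length ≤ kw → (∀ p ∈ w, 0 ≤ p.2 ∧ p.2 ≤ tW) →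
            (∀ w', w' <+: w → tsum w' ∈ Ω) →
            ‖GF M N Ψ x n (𝓛.tpos N w) - GF M N Ψ x n 1 - L (tsum w)‖ ≤ η} ⊆
      {n | n ∈ Q ∧ ∃ w ∈ 𝒲, ∃ e : R.Eb, ∃ a ≤ A, a * 𝓛.p N τ e * ‖M.hgt (𝓛.b e)‖ / N + δ <
        ‖FF M 𝓛 N τ Ψ x n (w ++ replicate a e) - FF M 𝓛 N τ Ψ x n w‖} ∪
      {n | n ∈ Q ∧ (∀ w0 ∈ Pf, WLip R.Eb (FF M 𝓛 N τ Ψ x n) A τ δw w0) ∧
      ¬ ∀ w0 ∈ Pf, WStar R.Eb (FF M 𝓛 N τ Ψ x n) A τ δs w0} := by
    rintro n ⟨hn, hno⟩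
    by_contra hcon
    rw [Set.mem_union, not_or] at hcon
    obtain ⟨hnL, hnS⟩ := hcon
    apply hno
    obtain ⟨F, hF⟩ : ∃ F, F = FF M 𝓛 N τ Ψ x n := ⟨_, rfl⟩
    rw [Set.mem_ofPred_eq, ← hF] at hnS
    have hl0 : ∀ w ∈ 𝒲, WLip R.Eb F A τ δw w := by
      intro w hw e a ha
      by_contra h
      push Not at h
      apply hnL
      refine ⟨hn, w, hw, e, a, ha, ?_⟩
      rw [← hF]
      have h1 := leg_le 𝓛 heps hN5 hτ.le e ha hAτ.le
      have h2 : r1 * eps ≤ r1 * eps1 := by gcongr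
      linarith
    have hl1 : ∀ w ∈ 𝒲, WLip R.Eb F A τ δs w := fun w hw e a ha =>
      (hl0 w hw e a ha).trans (by linarith)
    have hst : ∀ w0 ∈ Pf, WStar R.Eb F A τ δs w0 := by
      by_contra h
      exact hnS ⟨hn, fun w0 hw0 => hl0 w0 (h𝒲1 w0 hw0), h⟩
    obtain ⟨σ, Lm, hL, _, hruns⟩ := haff F A hA11 τ δs δ1 δ3 (r1 * sep / 8) hτ hδs.le hδ1 hδ3
      (by rw [hAτ]; exact hn1) (by
        rw [hAτ]
        have : 0 < r1 * sep := by positivity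
        linarith only [this, hn2]) (by rw [hAτ]; exact hn3)
      (by
        rw [hAτ]
        have : 0 < r1 * sep := by positivity
        linarith only [this, hn2, hA7, hδsr]) (by
        rw [hAτ, ← hcE]
        rw [← hCd]
        linarith only [hn5, hA8]) P (by
        rw [hPdef]
        refine ⟨Nat.zero_le _, fun u' hu' => ?_⟩
        have : u' = [] := by simpa using hu'
        subst this
        rw [lsum_nil, smul_zero]
        exact (Metric.ball_subset_ball (by linarith)).trans hball)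
      (fun w e h => by rw [hPdef] at h ⊢; exact h.init)
      (fun w hw => hl1 w (h𝒲1 w ((hPfmem w).2 hw)))
      (fun w hw e a ha => hl1 _ (h𝒲2 w ((hPfmem w).2 hw) e a ha))
      (fun w hw => hst w ((hPfmem w).2 hw))
      (fun w e e' _ => by rw [hF]; exact hslowN N hN3 Ψ hΨ x n w e e') (by
        intro c hc
        obtain ⟨g1, g2, g3⟩ := hRels c hc
        refine ⟨j, hj, ?_, by rw [hF]; exact hpowN N hN1 Ψ hΨ x n c g1 g2 g3⟩
        rw [hPdef]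
        refine PP_rel R.unit hball hτ ?_ hΛ2 g1 g2 g3
        have : (j : ℝ) * (R.Eb.card * τ) = j * cE * τ := by rw [hcE]; ring
        linarith)
    refine ⟨σ, Lm, hL, fun w hwl hw hpre => ?_⟩
    have hPu : P (uw s τ w) := by
      rw [hPdef]
      refine PP_uw hΩ R.unit hball hsp (by linarith) hτ ?_ hΛ1 htW w hwl hw hpre
      have : (3 : ℝ) * r1 = 3 * (s * ρ0 / 8) := by rw [hr1]
      have : 0 < s * ρ0 := by positivity
      linarith
    have h1 := timed_of_words R.unit hL hA11 hτ hδ3 hsp.le (by linarith) htW hruns w hwl hw hPu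
    rw [hAτ] at h1
    have h2 := htimedN N hN2 Ψ hΨ x n w hwl hw
    rw [← hkW] at h1
    have h4 : GF M N Ψ x n 1 = F [] := by rw [hF, FF_eq, 𝓛.pos_nil]
    rw [← hF] at h2
    rw [h4]
    have h5 : GF M N Ψ x n (𝓛.tpos N w) - F [] - Lm (tsum w) =
        (GF M N Ψ x n (𝓛.tpos N w) - F (uw s τ w)) + (F (uw s τ w) - F [] - Lm (tsum w)) := by
      abel
    rw [h5]
    refine (norm_add_le _ _).trans ?_
    linarith
  refine (measure_mono hsub).trans ((measure_union_le _ _).trans ((add_le_add hBLm hBSm).trans ?_))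
  rw [← add_mul, ← ENNReal.ofReal_add (by positivity) (by positivity), add_halves]

end Main3

end Crest.Agent.R182.Star
end

-- ▼ part R182/LegsEx
section

/-!
# Row 182, module STAR (author: helper671): existence of legs of arbitrary accuracy
-/

set_option autoImplicit false
set_option linter.unusedSectionVars false

open MeasureTheory ENNReal List

namespace Crest.Agent.R182.Star

open Crest.Agent.R182.Conv Crest.Agent.R182.Cap

variable {G H ι E : Type*} [Group G] [Group H] [MeasurableSpace H] [MeasurableMul₂ H]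
    [MeasurableInv H] [Fintype ι] [NormedAddCommGroup E] [InnerProductSpace ℝ E]

section Hgt

variable (M : CapModel G H ι E)

theorem hgt_one' : M.hgt 1 = 0 := by
  have h := M.hgt_mul 1 1
  rw [mul_one] at h
  exact left_eq_add.1 h

theorem hgt_inv' (g : G) : M.hgt g⁻¹ = - M.hgt g := by
  have h := M.hgt_mul g⁻¹ g
  rw [inv_mul_cancel, hgt_one'] at h
  exact eq_neg_of_add_eq_zero_left h.symm

theorem hgt_pow' (g : G) (n : ℕ) : M.hgt (g ^ n) = (n : ℝ) • M.hgt g := by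
  induction n with
  | zero => simp [hgt_one']
  | succ n ih => rw [pow_succ, M.hgt_mul, ih]; push_cast; rw [add_smul, one_smul]

theorem hgt_zpow' (g : G) (n : ℤ) : M.hgt (g ^ n) = (n : ℝ) • M.hgt g := by
  cases n with
  | ofNat n => simpa using hgt_pow' M g n
  | negSucc n =>
    rw [zpow_negSucc, hgt_inv', hgt_pow', Int.cast_negSucc, neg_smul]

theorem hgt_list' (l : List G) : M.hgt l.prod = (l.map M.hgt).sum := by
  induction l with
  | nil => simp [hgt_one']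
  | cons a l ih => rw [List.prod_cons, M.hgt_mul, ih, List.map_cons, List.sum_cons]

end Hgt

theorem Bl_zpow {T : Set G} {m : ℕ} {g : G} (h : g ∈ Bl T m) (n : ℤ) :
    g ^ n ∈ Bl T (n.natAbs * m) := by
  cases n with
  | ofNat n => simpa using Bl_pow h n
  | negSucc n =>
    rw [zpow_negSucc]
    exact Bl_inv (Bl_pow h (n + 1))

theorem Bl_list {T : Set G} (l : List (G × ℕ)) (h : ∀ p ∈ l, p.1 ∈ Bl T p.2) :
    (l.map Prod.fst).prod ∈ Bl T (l.map Prod.snd).sum := by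
  induction l with
  | nil => exact one_mem_Bl _
  | cons a l ih =>
    rw [List.map_cons, List.map_cons, List.prod_cons, List.sum_cons]
    exact Bl_mul (h a mem_cons_self) (ih fun p hp => h p (mem_cons_of_mem _ hp))

/-- **Existence of legs** -/
theorem exists_legs (M : CapModel G H ι E) (R : RSys ι E) {d : ℕ} (t : Fin d → G)
    (hspan : Submodule.span ℝ (Set.range fun i => M.hgt (t i)) = ⊤) {T : Set G}
    (hT : ∀ i, t i ∈ T) :
    ∃ Cb : ℝ, 0 ≤ Cb ∧ ∀ eps : ℝ, 0 < eps → ∃ 𝓛 : Legs M R T Cb eps,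
      ∀ e, ∃ v : Fin d → ℤ, 𝓛.b e = (List.ofFn fun i => t i ^ v i).prod := by
  classical
  have hc : ∀ e : E, ∃ c : Fin d → ℝ, ∑ i, c i • M.hgt (t i) = e := fun e =>
    (Submodule.mem_span_range_iff_exists_fun ℝ).1 (hspan ▸ Submodule.mem_top)
  choose c hc using hc
  set c₀ : ℝ := ∑ i, ‖M.hgt (t i)‖ with hc₀
  have hc₀0 : 0 ≤ c₀ := Finset.sum_nonneg fun _ _ => norm_nonneg _
  refine ⟨∑ e : R.Eb, ∑ i, (|c e i| + 1), by positivity, fun eps heps => ?_⟩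
  set m : ℝ := max 1 (c₀ / eps) with hm
  have hm1 : 1 ≤ m := le_max_left _ _
  have hm0 : 0 < m := by linarith
  have hmc : c₀ ≤ eps * m := by
    have := le_max_right 1 (c₀ / eps)
    rw [div_le_iff₀ heps] at this
    linarith
  let v : R.Eb → Fin d → ℤ := fun e i => ⌊m * c e i⌋
  refine ⟨{ b := fun e => (List.ofFn fun i => t i ^ v e i).prod
            mE := fun _ => m
            mE_pos := fun _ => hm0
            rb := fun e => ∑ i, (v e i).natAbs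
            b_mem := fun e => ?_
            rb_le := fun e => ?_
            acc := fun e => ?_ }, fun e => ⟨v e, rfl⟩⟩
  · have h1 := Bl_list (T := T) (List.ofFn fun i => (t i ^ v e i, (v e i).natAbs)) (by
      intro p hp
      rw [List.mem_ofFn] at hp
      obtain ⟨i, rfl⟩ := hp
      have h2 : t i ∈ Bl T 1 := ⟨[t i], by simp, by simp [hT i], by simp⟩
      simpa using Bl_zpow h2 (v e i))
    rw [List.map_ofFn, List.map_ofFn, List.sum_ofFn] at h1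
    exact h1
  · have h1 : ((∑ i, (v e i).natAbs : ℕ) : ℝ) ≤ ∑ i, (|c e i| + 1) * m := by
      push_cast
      refine Finset.sum_le_sum fun i _ => ?_
      rw [Nat.cast_natAbs, Int.cast_abs]
      have h2 : |((v e i : ℤ) : ℝ) - m * c e i| ≤ 1 := by
        rw [abs_le]
        constructor
        · have := (Int.lt_floor_add_one (m * c e i)).le
          show -1 ≤ ((⌊m * c e i⌋ : ℤ) : ℝ) - m * c e i
          linarith
        · have := Int.floor_le (m * c e i)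
          show ((⌊m * c e i⌋ : ℤ) : ℝ) - m * c e i ≤ 1
          linarith
      have h3 : |((v e i : ℤ) : ℝ)| ≤ |((v e i : ℤ) : ℝ) - m * c e i| + |m * c e i| := by
        have := abs_add_le (((v e i : ℤ) : ℝ) - m * c e i) (m * c e i)
        rwa [sub_add_cancel] at this
      rw [abs_mul, abs_of_pos hm0] at h3
      calc |((v e i : ℤ) : ℝ)| ≤ 1 + m * |c e i| := by linarith
        _ ≤ (|c e i| + 1) * m := by nlinarith
    refine h1.trans ?_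
    rw [← Finset.sum_mul]
    refine mul_le_mul_of_nonneg_right ?_ hm0.le
    exact Finset.single_le_sum (f := fun e : R.Eb => ∑ i, (|c e i| + 1))
      (fun e _ => Finset.sum_nonneg fun i _ => by positivity) (Finset.mem_univ e)
  · have h1 : M.hgt (List.ofFn fun i => t i ^ v e i).prod - m • (e : E) =
        ∑ i, (((v e i : ℤ) : ℝ) - m * c e i) • M.hgt (t i) := by
      rw [hgt_list', List.map_ofFn, List.sum_ofFn]
      conv_lhs => rw [← hc (e : E)]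
      rw [Finset.smul_sum, ← Finset.sum_sub_distrib]
      refine Finset.sum_congr rfl fun i _ => ?_
      rw [Function.comp, hgt_zpow', sub_smul, mul_smul]
    rw [h1]
    refine (norm_sum_le _ _).trans (le_trans ?_ hmc)
    rw [hc₀]
    refine Finset.sum_le_sum fun i _ => ?_
    rw [norm_smul, Real.norm_eq_abs]
    have h2 : |((v e i : ℤ) : ℝ) - m * c e i| ≤ 1 := by
      rw [abs_le]
      constructor
      · have := (Int.lt_floor_add_one (m * c e i)).le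
        show -1 ≤ ((⌊m * c e i⌋ : ℤ) : ℝ) - m * c e i
        linarith
      · have := Int.floor_le (m * c e i)
        show ((⌊m * c e i⌋ : ℤ) : ℝ) - m * c e i ≤ 1
        linarith
    calc _ ≤ 1 * ‖M.hgt (t i)‖ := mul_le_mul_of_nonneg_right h2 (norm_nonneg _)
      _ = _ := one_mul _

end Crest.Agent.R182.Star
end

-- ▼ part R182/SlowApp
section

set_option autoImplicit false

namespace Crest.Agent.R182.Slow

universe u v

open Tr

variable {G : Type u} [Group G]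

theorem lcs_of_nilpotent {N : Subgroup G} (hN : Group.IsNilpotent N) :
    ∃ c, (⊤ : Subgroup N).lowerCentralSeries c = ⊥ :=
  Subgroup.nilpotent_iff_lowerCentralSeries.mp hN

/-- **(SLOW)** for a finite set in a nilpotent subgroup -/
theorem slow_of_nilpotent (N : Subgroup G) (hN : Group.IsNilpotent N) {T : Set G}
    (hT : T.Finite) (hTN : T ⊆ N) : Star.Slow T := by
  obtain ⟨c, hc⟩ := lcs_of_nilpotent hN
  have hfin : Finite {s : G // s ∈ T ∨ s⁻¹ ∈ T} := (hT.union hT.inv).to_subtype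
  have hmem : ∀ s : {s : G // s ∈ T ∨ s⁻¹ ∈ T}, (s : G) ∈ N := fun s => by
    rcases s.2 with h | h
    · exact hTN h
    · have := N.inv_mem (hTN h)
      rwa [inv_inv] at this
  let f : {s : G // s ∈ T ∨ s⁻¹ ∈ T} → N := fun s => ⟨s, hmem s⟩
  let ι : {s : G // s ∈ T ∨ s⁻¹ ∈ T} → {s : G // s ∈ T ∨ s⁻¹ ∈ T} := fun s =>
    ⟨(s : G)⁻¹, by rw [inv_inv]; exact s.2.symm⟩
  have key : ∀ (m : ℕ) (g : G), g ∈ Star.Bl T m ↔ ∃ x ∈ Wd f m, (x : G) = g := by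
    intro m g
    constructor
    · rintro ⟨l, h1, h2, rfl⟩
      refine ⟨_, ⟨l.attach.map fun s => ⟨s.1, h2 s.1 s.2⟩, by simpa using h1, rfl⟩, ?_⟩
      have : ((((l.attach.map fun s => (⟨s.1, h2 s.1 s.2⟩ : {s : G // s ∈ T ∨ s⁻¹ ∈ T})).map
          f).prod : N) : G) = ((l.attach.map fun s => s.1).prod : G) := by
        rw [← Subgroup.coe_subtype, map_list_prod, List.map_map, List.map_map]
        rfl
      rw [this, List.attach_map_subtype_val]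
    · rintro ⟨x, ⟨l, h1, rfl⟩, rfl⟩
      refine ⟨l.map fun s : {s : G // s ∈ T ∨ s⁻¹ ∈ T} => s.1, by simpa using h1,
        fun s hs => ?_, ?_⟩
      · obtain ⟨a, _, rfl⟩ := List.mem_map.mp hs
        exact a.2
      · rw [← Subgroup.coe_subtype, map_list_prod, List.map_map]
        rfl
  intro A δ hδ
  obtain ⟨δ', hδ', N0, h⟩ := exists_slow hc (ι := ι) (f := f) (fun s => rfl) A hδ
  refine ⟨δ', hδ', N0, fun n hn m m' hm hm' y hy b hb => ?_⟩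
  obtain ⟨y', hy', rfl⟩ := (key _ _).mp hy
  obtain ⟨b', hb', rfl⟩ := (key _ _).mp hb
  obtain ⟨m'', h1, h2⟩ := h n hn m m' hm hm' y' hy' b' hb'
  exact ⟨m'', h1, (key _ _).mpr ⟨_, h2, rfl⟩⟩

/-- **(POW)** for a finite family in a nilpotent subgroup, independent modulo the kernel of the
height -/
theorem pow_of_nilpotent (N : Subgroup G) (hN : Group.IsNilpotent N) {κ : Type v} [Fintype κ]
    (t : κ → G) (ht : ∀ i, t i ∈ N) {E : Type*} [NormedAddCommGroup E] [NormedSpace ℝ E]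
    (hgt : G → E) (hH : ∀ g g', hgt (g * g') = hgt g + hgt g')
    (hli : LinearIndependent ℝ fun i => hgt (t i)) : Star.Pow (Set.range t) hgt := by
  obtain ⟨c, hc⟩ := lcs_of_nilpotent hN
  let t' : κ → N := fun i => ⟨t i, ht i⟩
  have key : ∀ (m : ℕ) (g : G), g ∈ Star.Bl (Set.range t) m ↔ ∃ x ∈ Wd (sg t') m, (x : G) = g := by
    intro m g
    constructor
    · rintro ⟨l, h1, h2, rfl⟩
      have h3 : ∃ w : List (κ × Bool), w.length = l.length ∧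
          (((w.map (sg t')).prod : N) : G) = l.prod := by
        clear h1
        induction l with
        | nil => exact ⟨[], rfl, rfl⟩
        | cons s l ih =>
          obtain ⟨w, hw, hw'⟩ := ih fun s hs => h2 s (List.mem_cons_of_mem _ hs)
          obtain ⟨a, ha⟩ : ∃ a : κ × Bool, ((sg t' a : N) : G) = s := by
            rcases h2 s List.mem_cons_self with ⟨i, hi⟩ | ⟨i, hi⟩
            · exact ⟨(i, true), by simpa [sg, t'] using hi⟩
            · refine ⟨(i, false), ?_⟩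
              have : ((sg t' (i, false) : N) : G) = (t i)⁻¹ := by simp [sg, t']
              rw [this, hi, inv_inv]
          refine ⟨a :: w, by simp [hw], ?_⟩
          rw [List.map_cons, List.prod_cons, List.prod_cons, ← hw', ← ha]
          rfl
      obtain ⟨w, hw, hw'⟩ := h3
      exact ⟨_, ⟨w, by omega, rfl⟩, hw'⟩
    · rintro ⟨x, ⟨l, h1, rfl⟩, rfl⟩
      refine ⟨l.map fun s => ((sg t' s : N) : G), by simpa using h1, fun s hs => ?_, ?_⟩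
      · obtain ⟨⟨i, b⟩, _, rfl⟩ := List.mem_map.mp hs
        cases b
        · exact Or.inr ⟨i, by simp [sg, t']⟩
        · exact Or.inl ⟨i, by simp [sg, t']⟩
      · rw [← Subgroup.coe_subtype, map_list_prod, List.map_map]
        rfl
  intro δ B hδ
  obtain ⟨j, hj, ε, hε, N0, h⟩ := exists_pow hc t' (H := fun g : N => hgt g)
    (fun g g' => hH _ _) hli hδ B
  refine ⟨j, hj, ε, hε, N0, fun n hn m hm g hg hhg => ?_⟩
  obtain ⟨g', hg', rfl⟩ := (key _ _).mp hg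
  obtain ⟨m', h1, h2⟩ := h n hn m hm g' hg' hhg
  exact ⟨m', h1, (key _ _).mpr ⟨_, h2, rfl⟩⟩

end Crest.Agent.R182.Slow
end

-- ▼ part R182/StarBM

set_option autoImplicit false
set_option linter.unusedSectionVars false

open MeasureTheory List

namespace Crest.Agent.R182.Star

open Crest.GroupTheory Crest.Geometry Crest.Agent.R182.QI Crest.Agent.R182.FinPath
  Crest.Agent.R182.FinRed Crest.Agent.R182.Bnd Crest.Agent.R182.Core Crest.Agent.R182.Erg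
  Crest.Agent.R182.OneScale Crest.Agent.R189.MeanF Crest.Agent.R182.Nb Crest.Agent.R182.Lip
  Crest.Agent.R182.Conv

variable {Γ : Type*} [Group Γ] {k : ℕ} {π : Γ →* Multiplicative (Fin k → ℤ)} {S : Finset Γ}

/-- the vertical letters -/
def vts (M : BModel (S : Set Γ) π) : Set M.G := Set.range fun i : Fin k => M.t (Pi.single i 1)

section Verts

variable (M : BModel (S : Set Γ) π)

theorem t_mem_CN (v : Fin k → ℤ) : M.t v ∈ M.CN := by
  obtain ⟨l, hl, _, h⟩ := M.t_list v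
  rw [hl]
  exact Subgroup.list_prod_mem _ fun s hs => (h s hs).1

theorem vts_finite : (vts M).Finite := Set.finite_range _

theorem vts_CN : vts M ⊆ M.CN := by
  rintro _ ⟨i, rfl⟩
  exact t_mem_CN M _

theorem slow_vts : Slow (vts M) :=
  Slow.slow_of_nilpotent M.CN M.CN_nil (vts_finite M) (vts_CN M)

variable {E : Type*} [NormedAddCommGroup E] [InnerProductSpace ℝ E]

theorem T_h_t (T : (Fin k → ℝ) ≃ₗ[ℝ] E) (i : Fin k) :
    T (M.h (M.t (Pi.single i 1))) = ((Pi.basisFun ℝ (Fin k)).map T) i := by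
  rw [Module.Basis.map_apply, Pi.basisFun_apply]
  congr 1
  funext j
  rw [M.h_t, Pi.single_apply, Pi.single_apply]
  split_ifs <;> simp

theorem linearIndependent_vts (T : (Fin k → ℝ) ≃ₗ[ℝ] E) :
    LinearIndependent ℝ fun i : Fin k => T (M.h (M.t (Pi.single i 1))) := by
  have h : (fun i : Fin k => T (M.h (M.t (Pi.single i 1)))) =
      ⇑((Pi.basisFun ℝ (Fin k)).map T) := funext fun i => T_h_t M T i
  rw [h]
  exact Module.Basis.linearIndependent _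

theorem span_vts (T : (Fin k → ℝ) ≃ₗ[ℝ] E) :
    Submodule.span ℝ (Set.range fun i : Fin k => T (M.h (M.t (Pi.single i 1)))) = ⊤ := by
  have h : (fun i : Fin k => T (M.h (M.t (Pi.single i 1)))) =
      ⇑((Pi.basisFun ℝ (Fin k)).map T) := funext fun i => T_h_t M T i
  rw [h]
  exact Module.Basis.span_eq _

theorem pow_vts (T : (Fin k → ℝ) ≃ₗ[ℝ] E) : Pow (vts M) fun g => T (M.h g) :=
  Slow.pow_of_nilpotent M.CN M.CN_nil (fun i : Fin k => M.t (Pi.single i 1))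
    (fun i => t_mem_CN M _) (fun g => T (M.h g)) (fun g g' => by rw [M.h_mul, map_add])
    (linearIndependent_vts M T)

end Verts

section Main

variable {M : BModel (S : Set Γ) π} [Countable Γ] {E : Type*} [NormedAddCommGroup E]
  [InnerProductSpace ℝ E] {T : (Fin k → ℝ) ≃ₗ[ℝ] E} {V : Set M.NN} {RC : ℝ}
  {P : BModel.CapPar M T V RC} {RS : RSys (GI M) E} {Cb eps : ℝ}

theorem vts_Cl (P : BModel.CapPar M T V RC) (hRC : M.a ≤ RC) :
    ∃ r0 : ℕ, ∀ s ∈ vts M, s ∈ (M.toCap P).Cl r0 := by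
  refine ⟨∑ i : Fin k, n1 (Pi.single i 1 : Fin k → ℤ), ?_⟩
  rintro _ ⟨i, rfl⟩
  obtain ⟨l, hl, hlen, h⟩ := M.t_list (Pi.single i 1)
  refine ⟨l, hlen.trans ?_, fun s hs => ⟨M.CN_le (h s hs).1, (h s hs).2.trans hRC⟩, hl⟩
  exact Finset.single_le_sum (f := fun i : Fin k => n1 (Pi.single i 1 : Fin k → ℤ))
    (fun _ _ => Nat.zero_le _) (Finset.mem_univ i)

/-- legs exist, with any accuracy -/
theorem exists_legs_bm (P : BModel.CapPar M T V RC) (RS : RSys (GI M) E) :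
    ∃ Cb : ℝ, 0 ≤ Cb ∧ ∀ eps : ℝ, 0 < eps → ∃ 𝓛 : Legs (M.toCap P) RS (vts M) Cb eps,
      ∀ e, 𝓛.b e ∈ M.CN := by
  obtain ⟨Cb, hCb, h⟩ := exists_legs (M.toCap P) RS (fun i : Fin k => M.t (Pi.single i 1))
    (span_vts M T) (T := vts M) (fun i => ⟨i, rfl⟩)
  refine ⟨Cb, hCb, fun eps heps => ?_⟩
  obtain ⟨𝓛, h𝓛⟩ := h eps heps
  refine ⟨𝓛, fun e => ?_⟩
  obtain ⟨v, hv⟩ := h𝓛 e
  rw [hv]
  refine Subgroup.list_prod_mem _ fun s hs => ?_
  obtain ⟨i, rfl⟩ := List.mem_ofFn.1 hs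
  exact Subgroup.zpow_mem _ (t_mem_CN M _) _

/-- **THE LAW PER POINT over a `BModel`**, at every scale where (LIP) holds. -/
theorem star_law_bm [FiniteDimensional ℝ E] [MeasurableSpace E] [BorelSpace E]
    (P : BModel.CapPar M T V RC) (hRC : M.a ≤ RC) {ρV : ℝ} (hρV : ∀ n ∈ V, ‖n‖ ≤ ρV)
    (hRS : (M.toCap P).S = RS.toGenSys) (Cb : ℝ) (K : ℕ) {Ω : Set E} (hΩ : Convex ℝ Ω) {ρ0 : ℝ}
    (hρ0 : 0 < ρ0) (hball : Metric.ball 0 ρ0 ⊆ Ω) (C2 CQ : ℝ) {η : ℝ} (hη : 0 < η) (kw : ℕ)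
    {tW : ℝ} (htW : 0 ≤ tW) :
    ∃ (τ δ ρ1 : ℝ) (A : ℕ) (𝒲 : Finset (List RS.Eb)) (eps1 : ℝ), 0 < τ ∧ 0 < δ ∧ 0 < ρ1 ∧
      1 ≤ A ∧ 0 < eps1 ∧
      (∀ w ∈ 𝒲, ∀ e : RS.Eb, ∀ a ≤ A, Metric.ball (τ • lsum (w ++ replicate a e)) ρ1 ⊆ Ω) ∧
      ∀ eps : ℝ, 0 ≤ eps → eps ≤ eps1 → ∀ 𝓛 : Legs (M.toCap P) RS (vts M) Cb eps,
      ∃ N0 : ℕ, 1 ≤ N0 ∧
      ∀ (B : Finset M.G) (Tm : ℕ) (δ₀ R₀ μ₀ R1 τ₁ : ℝ), (∀ e, 𝓛.b e ∈ B) → δ₀ ≤ δ →
      A * ∑ e : RS.Eb, ⌈τ / 𝓛.mE e⌉₊ ≤ Tm →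
      ∀ N ≥ N0, LipAt M (nrmT T) B K Tm μ₀ δ₀ R₀ R1 τ₁ N →
      ∀ Ψ : Γ → Γ, QIMap (S : Set Γ) (S : Set Γ) Ψ K → ∀ x : M.G, ∀ Q Q' : Set M.NN,
        MeasurableSet Q → MeasurableSet Q' → (volume : Measure M.NN) Q ≠ 0 →
        (volume : Measure M.NN) Q ≠ ⊤ → volume Q' ≤ ENNReal.ofReal CQ * volume Q →
        (∀ n ∈ Q, P.s * M.len (M.toG n) ≤ C2 * N) →
        (∀ w ∈ 𝒲, ∀ a ∈ V, ∀ q ∈ Q, q * (M.conjN (𝓛.pos N τ w) a)⁻¹ ∈ Q') →
        (∀ w ∈ 𝒲, ∀ e : RS.Eb, ∀ a ≤ A,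
          ∀ l : List M.G, (l.length : ℝ) ≤ μ₀ * N → (∀ s ∈ l, s ∈ M.C ∧ M.len s ≤ R₀) →
          ∀ i ≤ a * 𝓛.p N τ e, ∀ u : M.NN, ‖u‖ ≤ R1 → (volume : Measure M.NN)
            {m | m ∈ Q ∧ m * M.conjN (𝓛.pos N τ w * l.prod * 𝓛.b e ^ i) u ∉ Q} ≤
              ENNReal.ofReal τ₁ * volume Q) →
        (volume : Measure M.NN) {n | n ∈ Q ∧ ¬ ∃ (σ : Equiv.Perm RS.Eb) (L : E →ₗ[ℝ] E),
          (∀ e : RS.Eb, L e = σ e) ∧
          ∀ w : List (RS.Eb × ℝ), w.length ≤ kw → (∀ p ∈ w, 0 ≤ p.2 ∧ p.2 ≤ tW) →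
            (∀ w', w' <+: w → tsum w' ∈ Ω) →
            ‖GF (M.toCap P) N (M.ext Ψ) x n (𝓛.tpos N w) - GF (M.toCap P) N (M.ext Ψ) x n 1 -
              L (tsum w)‖ ≤ η} ≤
          ENNReal.ofReal η * volume Q := by
  classical
  obtain ⟨r0, hT⟩ := vts_Cl P hRC
  have hK : 1 ≤ P.s * M.KQ K := by
    have h1 : 1 ≤ M.KQ K := by
      unfold BModel.KQ
      have h1 : 1 ≤ M.a ^ 3 := one_le_pow₀ M.one_le_a
      have h2 : (0:ℝ) ≤ K := Nat.cast_nonneg _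
      nlinarith
    nlinarith [P.one_le_s]
  obtain ⟨τ, δ, ρ1, A, 𝒲, eps1, hτ, hδ, hρ1, hA, heps1, hW, hmain⟩ := star_law' (M.toCap P)
    (M.toCap_reach P M.C_growth) (M.toCap_ent P (AdS.of_bch1 M.nilC M.star_cj) hρV) hK RS hRS hT
    Cb (slow_vts M) (pow_vts M T) hΩ hρ0 hball C2 CQ hη kw htW
  refine ⟨τ, δ, ρ1, A, 𝒲, eps1, hτ, hδ, hρ1, hA, heps1, hW, fun eps heps hle 𝓛 => ?_⟩
  obtain ⟨N0, hN0, hstar⟩ := hmain eps heps hle 𝓛
  refine ⟨N0, hN0, ?_⟩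
  intro B Tm δ₀ R₀ μ₀ R1 τ₁ hB hδ₀ hTm N hN hlip Ψ hΨ x Q Q' hQ hQ' hQ0 hQt hCQ hlen hQV habs
  refine hstar N hN (M.ext Ψ) (M.toCap_qi P hΨ) x Q Q' hQ hQ' hQt hCQ hlen hQV ?_
  intro w hw e a ha
  exact hlip.star hB (hN0.trans hN) hΨ x hQ hQ0 hQt hτ.le hδ₀ hTm w e ha (habs w hw e a ha)

end Main

end Crest.Agent.R182.Star
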