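import Crest.Agent.R182.StarLaw

-- ▼ part R182/StarThm
section

set_option autoImplicit false
set_option linter.unusedSectionVars false

open MeasureTheory ENNReal List

namespace Crest.Agent.R182.Star

open Crest.Agent.R182.Conv Crest.Agent.R182.Cap

section Words

variable {E : Type*} [NormedAddCommGroup E] [InnerProductSpace ℝ E] {Eb : Finset E}

/-- allowed words: bounded length, all prefixes at distance `≥ ρ` from the complement of `Ω`. -/
def PP (Ω : Set E) (τ ρ : ℝ) (Λ : ℕ) (u : List Eb) : Prop :=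
  u.length ≤ Λ ∧ ∀ u', u' <+: u → Metric.ball (τ • lsum u') ρ ⊆ Ω

theorem PP.init {Ω : Set E} {τ ρ : ℝ} {Λ : ℕ} (w : List Eb) (e : Eb)
    (h : PP Ω τ ρ Λ (w ++ [e])) : PP Ω τ ρ Λ w := by
  refine ⟨by have := h.1; rw [length_append] at this; omega, fun u' hu' => ?_⟩
  exact h.2 u' (hu'.trans (prefix_append _ _))

theorem finite_PP (Ω : Set E) (τ ρ : ℝ) (Λ : ℕ) : {u : List Eb | PP Ω τ ρ Λ u}.Finite :=
  (List.finite_length_le (α := Eb) Λ).subset fun _ hu => hu.1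

theorem norm_lsum_le (hu : ∀ e ∈ Eb, ‖e‖ = 1) {τ : ℝ} (hτ : 0 ≤ τ) (w : List Eb) :
    ‖τ • lsum w‖ ≤ w.length * τ := by
  induction w with
  | nil => simp [lsum]
  | cons e w ih =>
    rw [lsum_cons, smul_add, length_cons]
    refine (norm_add_le _ _).trans ?_
    rw [norm_smul τ (e : E), hu e e.2, mul_one, Real.norm_of_nonneg hτ]
    push_cast
    linarith

theorem prefix_flatten (hu : ∀ e ∈ Eb, ‖e‖ = 1) {τ : ℝ} (hτ : 0 ≤ τ) (w : List Eb) (j : ℕ) :
    ∀ u', u' <+: (replicate j w).flatten → ‖τ • lsum u'‖ ≤ j * ‖τ • lsum w‖ + w.length * τ := by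
  induction j with
  | zero =>
    intro u' h
    have : u' = [] := by simpa using h
    subst this
    simp [lsum]; positivity
  | succ j ih =>
    intro u' h
    rw [replicate_succ, flatten_cons] at h
    rcases prefix_or_prefix_of_prefix h (prefix_append w _) with h1 | h1
    · have h2 := norm_lsum_le hu hτ u'
      have h3 : (u'.length : ℝ) ≤ w.length := by exact_mod_cast h1.length_le
      have h4 : (u'.length : ℝ) * τ ≤ w.length * τ := by gcongr
      have h5 : 0 ≤ ((j + 1 : ℕ) : ℝ) * ‖τ • lsum w‖ := by positivity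
      linarith
    · obtain ⟨u'', rfl⟩ := h1
      rw [prefix_append_right_inj] at h
      have h2 := ih u'' h
      rw [lsum_append, smul_add]
      refine (norm_add_le _ _).trans ?_
      push_cast
      linarith

/-- comparison of the unit word with the timed word -/
theorem uw_sum (f : Eb → E) (hf : ∀ e, ‖f e‖ ≤ 1) {s τ : ℝ} (hs1 : s ≤ 1) (hτ : 0 < τ)
    (w : List (Eb × ℝ)) (hw : ∀ p ∈ w, 0 ≤ p.2) :
    ‖(w.map fun p => (τ * ⌊(1 - s) * p.2 / τ⌋₊) • f p.1).sum -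
      (w.map fun p => ((1 - s) * p.2) • f p.1).sum‖ ≤ w.length * τ := by
  induction w with
  | nil => simp
  | cons p w ih =>
    have h1 := ih fun q hq => hw q (mem_cons_of_mem _ hq)
    have h2 := hw p mem_cons_self
    simp only [map_cons, sum_cons, length_cons]
    have h3 : ‖(τ * (⌊(1 - s) * p.2 / τ⌋₊ : ℝ)) • f p.1 - ((1 - s) * p.2) • f p.1‖ ≤ τ := by
      rw [← sub_smul, norm_smul]
      have h0 : 0 ≤ (1 - s) * p.2 / τ := div_nonneg (mul_nonneg (by linarith) h2) hτ.le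
      have h4 := Nat.floor_le h0
      have h5 := Nat.lt_floor_add_one ((1 - s) * p.2 / τ)
      rw [le_div_iff₀ hτ] at h4
      rw [div_lt_iff₀ hτ] at h5
      have h6 : |τ * (⌊(1 - s) * p.2 / τ⌋₊ : ℝ) - (1 - s) * p.2| ≤ τ := by
        rw [abs_le]; constructor <;> linarith
      calc |τ * (⌊(1 - s) * p.2 / τ⌋₊ : ℝ) - (1 - s) * p.2| * ‖f p.1‖ ≤ τ * 1 := by
            gcongr
            exact hf _
        _ = τ := mul_one _
    have h4 : (τ * (⌊(1 - s) * p.2 / τ⌋₊ : ℝ)) • f p.1 +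
        (w.map fun p => (τ * ⌊(1 - s) * p.2 / τ⌋₊) • f p.1).sum -
        (((1 - s) * p.2) • f p.1 + (w.map fun p => ((1 - s) * p.2) • f p.1).sum) =
        ((τ * (⌊(1 - s) * p.2 / τ⌋₊ : ℝ)) • f p.1 - ((1 - s) * p.2) • f p.1) +
        ((w.map fun p => (τ * ⌊(1 - s) * p.2 / τ⌋₊) • f p.1).sum -
        (w.map fun p => ((1 - s) * p.2) • f p.1).sum) := by abel
    rw [h4]
    refine (norm_add_le _ _).trans ?_
    push_cast
    linarith

theorem lsum_uw (σ : Equiv.Perm Eb) (s τ : ℝ) (w : List (Eb × ℝ)) :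
    τ • lsum ((uw s τ w).map σ) =
      (w.map fun p => (τ * ⌊(1 - s) * p.2 / τ⌋₊) • ((σ p.1 : Eb) : E)).sum := by
  induction w with
  | nil => simp [uw, lsum]
  | cons p w ih =>
    have : uw s τ (p :: w) = replicate ⌊(1 - s) * p.2 / τ⌋₊ p.1 ++ uw s τ w := by
      rw [uw, flatMap_cons]; rfl
    rw [this, map_append, lsum_append, smul_add, ih, map_replicate, lsum_replicate, map_cons,
      sum_cons, smul_smul]

theorem tsum_eq (w : List (Eb × ℝ)) : tsum w = (w.map fun p => p.2 • (p.1 : E)).sum := rfl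

theorem smul_tsum (f : Eb → E) (c : ℝ) (w : List (Eb × ℝ)) :
    (w.map fun p => (c * p.2) • f p.1).sum = c • (w.map fun p => p.2 • f p.1).sum := by
  induction w with
  | nil => simp
  | cons p w ih => simp only [map_cons, sum_cons, ih, smul_add, smul_smul]

theorem norm_tsum_le (f : Eb → E) (hf : ∀ e, ‖f e‖ ≤ 1) {tW : ℝ} (w : List (Eb × ℝ))
    (hw : ∀ p ∈ w, 0 ≤ p.2 ∧ p.2 ≤ tW) :
    ‖(w.map fun p => p.2 • f p.1).sum‖ ≤ w.length * tW := by
  induction w with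
  | nil => simp
  | cons p w ih =>
    have h1 := ih fun q hq => hw q (mem_cons_of_mem _ hq)
    obtain ⟨h2, h3⟩ := hw p mem_cons_self
    simp only [map_cons, sum_cons, length_cons]
    refine (norm_add_le _ _).trans ?_
    have h4 : ‖p.2 • f p.1‖ ≤ tW := by
      rw [norm_smul, Real.norm_of_nonneg h2]
      calc p.2 * ‖f p.1‖ ≤ p.2 * 1 := by gcongr; exact hf _
        _ ≤ tW := by linarith
    push_cast
    linarith

theorem length_uw_le {s τ : ℝ} (hs : 0 ≤ s) (hs1 : s ≤ 1) (hτ : 0 < τ) {tW : ℝ}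
    (w : List (Eb × ℝ)) (hw : ∀ p ∈ w, 0 ≤ p.2 ∧ p.2 ≤ tW) :
    ((uw s τ w).length : ℝ) ≤ w.length * (tW / τ) := by
  induction w with
  | nil => simp [uw]
  | cons p w ih =>
    have h1 := ih fun q hq => hw q (mem_cons_of_mem _ hq)
    obtain ⟨h2, h3⟩ := hw p mem_cons_self
    have : uw s τ (p :: w) = replicate ⌊(1 - s) * p.2 / τ⌋₊ p.1 ++ uw s τ w := by
      rw [uw, flatMap_cons]; rfl
    rw [this, length_append, length_replicate, length_cons]
    have h0 : 0 ≤ (1 - s) * p.2 / τ := div_nonneg (mul_nonneg (by linarith) h2) hτ.le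
    have h4 := Nat.floor_le h0
    have h5 : (1 - s) * p.2 / τ ≤ tW / τ := by
      gcongr
      nlinarith
    push_cast
    linarith

theorem runs_uw {A : ℕ} (hA : 1 ≤ A) {s τ : ℝ} (hs : 0 ≤ s) (hs1 : s ≤ 1) (hτ : 0 < τ) {tW : ℝ}
    (w : List (Eb × ℝ)) (hw : ∀ p ∈ w, 0 ≤ p.2 ∧ p.2 ≤ tW) :
    ∃ k : ℕ, Runs A (uw s τ w) k ∧ (k : ℝ) ≤ w.length * (tW / (A * τ) + 1) := by
  induction w with
  | nil => exact ⟨0, Runs.nil, by simp⟩
  | cons p w ih =>
    obtain ⟨k, hk, hk'⟩ := ih fun q hq => hw q (mem_cons_of_mem _ hq)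
    obtain ⟨h2, h3⟩ := hw p mem_cons_self
    have : uw s τ (p :: w) = replicate ⌊(1 - s) * p.2 / τ⌋₊ p.1 ++ uw s τ w := by
      rw [uw, flatMap_cons]; rfl
    rw [this, length_cons]
    refine ⟨_, (Runs.replicate' hA p.1 _).append hk, ?_⟩
    have hA0 : (0 : ℝ) < A := by exact_mod_cast hA
    have h0 : 0 ≤ (1 - s) * p.2 / τ := div_nonneg (mul_nonneg (by linarith) h2) hτ.le
    have h4 := Nat.floor_le h0
    have h5 : (1 - s) * p.2 / τ ≤ tW / τ := by
      gcongr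
      nlinarith
    have h6 : ((⌊(1 - s) * p.2 / τ⌋₊ / A : ℕ) : ℝ) ≤ tW / (A * τ) := by
      refine Nat.cast_div_le.trans ?_
      rw [div_le_div_iff₀ hA0 (by positivity)]
      rw [le_div_iff₀ hτ] at h5
      rw [le_div_iff₀ hτ] at h4
      have : (⌊(1 - s) * p.2 / τ⌋₊ : ℝ) * τ ≤ tW := by
        refine h4.trans ?_
        rw [div_mul_cancel₀ _ hτ.ne'] at h5
        exact h5
      calc (⌊(1 - s) * p.2 / τ⌋₊ : ℝ) * (A * τ) = (⌊(1 - s) * p.2 / τ⌋₊ : ℝ) * τ * A := by ring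
        _ ≤ tW * A := by gcongr
    push_cast
    linarith

/-- the prefixes of the contracted word stay inside. -/
theorem uw_prefix {Ω : Set E} (hΩ : Convex ℝ Ω) (hu : ∀ e ∈ Eb, ‖e‖ = 1) {s τ : ℝ} (hs1 : s < 1)
    (hτ : 0 < τ) (w : List (Eb × ℝ)) (hw : ∀ p ∈ w, 0 ≤ p.2)
    (hpre : ∀ w', w' <+: w → tsum w' ∈ Ω) :
    ∀ u', u' <+: uw s τ w → ∃ z ∈ Ω, ‖τ • lsum u' - (1 - s) • z‖ ≤ w.length * τ := by
  induction w using List.reverseRecOn with
  | nil =>
    intro u' h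
    have : u' = [] := by simpa [uw] using h
    subst this
    have h0 := hpre [] (prefix_refl _)
    refine ⟨0, by simpa [tsum] using h0, by simp [lsum]⟩
  | append_singleton w p ih =>
    intro u' h
    have hsplit : uw s τ (w ++ [p]) = uw s τ w ++ replicate ⌊(1 - s) * p.2 / τ⌋₊ p.1 := by
      simp [uw, flatMap_append]
    rw [hsplit] at h
    have hw' : ∀ q ∈ w, 0 ≤ q.2 := fun q hq => hw q (by simp [hq])
    have hp0 : 0 ≤ p.2 := hw p (by simp)
    rcases prefix_or_prefix_of_prefix h (prefix_append (uw s τ w) _) with h1 | h1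
    · obtain ⟨z, hz, hz'⟩ := ih hw' (fun w' hw' => hpre w' (hw'.trans (prefix_append _ _))) u' h1
      refine ⟨z, hz, hz'.trans ?_⟩
      rw [length_append]; push_cast
      have : 0 ≤ (1 : ℝ) * τ := by positivity
      simp only [length_cons, length_nil]
      push_cast
      linarith
    · obtain ⟨u'', rfl⟩ := h1
      rw [prefix_append_right_inj] at h
      obtain ⟨b, hb⟩ : ∃ b, u'' = replicate b p.1 := by
        refine ⟨u''.length, ?_⟩
        rw [eq_replicate_iff]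
        exact ⟨rfl, fun x hx => eq_of_mem_replicate (h.subset hx)⟩
      have hb' : b ≤ ⌊(1 - s) * p.2 / τ⌋₊ := by
        have := h.length_le
        rw [hb, length_replicate, length_replicate] at this
        exact this
      subst hb
      have hs0 : 0 < 1 - s := by linarith
      have hbτ : (b : ℝ) * τ ≤ (1 - s) * p.2 := by
        have h4 := Nat.floor_le (div_nonneg (mul_nonneg hs0.le hp0) hτ.le)
        rw [le_div_iff₀ hτ] at h4
        have : (b : ℝ) ≤ ⌊(1 - s) * p.2 / τ⌋₊ := by exact_mod_cast hb'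
        calc (b : ℝ) * τ ≤ (⌊(1 - s) * p.2 / τ⌋₊ : ℝ) * τ := by gcongr
          _ ≤ _ := h4
      set t' : ℝ := b * τ / (1 - s) with ht'
      have ht'0 : 0 ≤ t' := by positivity
      have ht'1 : t' ≤ p.2 := by
        rw [ht', div_le_iff₀ hs0]; linarith
      have hx := hpre w (prefix_append _ _)
      have hy := hpre (w ++ [p]) (prefix_refl _)
      have hyx : tsum (w ++ [p]) = tsum w + p.2 • (p.1 : E) := by simp [tsum]
      refine ⟨tsum w + t' • (p.1 : E), ?_, ?_⟩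
      · by_cases hp : p.2 = 0
        · have : t' = 0 := le_antisymm (by linarith) ht'0
          rw [this, zero_smul, add_zero]; exact hx
        · have hpp : 0 < p.2 := lt_of_le_of_ne hp0 (Ne.symm hp)
          have := hΩ.add_smul_sub_mem hx hy (t := t' / p.2)
            ⟨by positivity, by rwa [div_le_one hpp]⟩
          rw [hyx, add_sub_cancel_left, smul_smul, div_mul_cancel₀ _ hp] at this
          exact this
      · have h5 := uw_sum (fun e : Eb => (e : E)) (fun e => (hu e e.2).le) hs1.le hτ w hw'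
        have h6 := lsum_uw (1 : Equiv.Perm Eb) s τ w
        have h7 : (uw s τ w).map (1 : Equiv.Perm Eb) = uw s τ w := map_id _
        rw [h7] at h6
        simp only [Equiv.Perm.coe_one, id_eq] at h6
        rw [← h6, smul_tsum (fun e : Eb => (e : E)) (1 - s) w, ← tsum_eq] at h5
        have h8 : τ • lsum (uw s τ w ++ replicate b p.1) - (1 - s) • (tsum w + t' • (p.1 : E)) =
            τ • lsum (uw s τ w) - (1 - s) • tsum w := by
          rw [lsum_append, lsum_replicate, smul_add, smul_add, smul_smul, smul_smul]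
          have : (1 - s) * t' = τ * b := by rw [ht']; field_simp
          rw [this]; abel
        rw [h8]
        refine h5.trans ?_
        rw [length_append]
        push_cast
        simp only [length_cons, length_nil]
        push_cast
        linarith

end Words

end Crest.Agent.R182.Star
end

-- ▼ part R182/StarThm2

set_option autoImplicit false
set_option linter.unusedSectionVars false

open MeasureTheory ENNReal List

namespace Crest.Agent.R182.Star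

open Crest.Agent.R182.Conv Crest.Agent.R182.Cap

section Words

variable {E : Type*} [NormedAddCommGroup E] [InnerProductSpace ℝ E] {Eb : Finset E}

theorem lin_tsum {σ : Equiv.Perm Eb} {L : E →ₗ[ℝ] E} (hL : ∀ e : Eb, L e = σ e)
    (w : List (Eb × ℝ)) : L (tsum w) = (w.map fun p => p.2 • ((σ p.1 : Eb) : E)).sum := by
  induction w with
  | nil => simp [tsum]
  | cons p w ih =>
    have h1 : tsum (p :: w) = p.2 • (p.1 : E) + tsum w := by simp [tsum]
    rw [h1, map_add, ih, map_cons, sum_cons, map_smul, hL]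

theorem lin_lsum' {σ : Equiv.Perm Eb} {L : E →ₗ[ℝ] E} (hL : ∀ e : Eb, L e = σ e)
    (w : List Eb) : L (lsum w) = lsum (w.map σ) := by
  induction w with
  | nil => simp [lsum]
  | cons e w ih => rw [lsum_cons, map_add, ih, map_cons, lsum_cons, hL]

/-- from the affine law for words in unit legs to the one for timed words -/
theorem timed_of_words (hu : ∀ e ∈ Eb, ‖e‖ = 1) {F : List Eb → E} {P : List Eb → Prop}
    {σ : Equiv.Perm Eb} {L : E →ₗ[ℝ] E} (hL : ∀ e : Eb, L e = σ e) {A : ℕ} (hA : 1 ≤ A)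
    {τ δ3 s : ℝ} (hτ : 0 < τ) (hδ3 : 0 ≤ δ3) (hs : 0 ≤ s) (hs1 : s ≤ 1) {tW : ℝ} (htW : 0 ≤ tW)
    {kw : ℕ} (h : ∀ w m, P w → Runs A w m → ‖F w - F [] - L (τ • lsum w)‖ ≤ m * δ3)
    (w : List (Eb × ℝ)) (hlen : w.length ≤ kw) (hw : ∀ p ∈ w, 0 ≤ p.2 ∧ p.2 ≤ tW)
    (hPw : P (uw s τ w)) :
    ‖F (uw s τ w) - F [] - L (tsum w)‖ ≤
      kw * (tW / (A * τ) + 1) * δ3 + kw * τ + s * (kw * tW) := by
  have hA0 : (0 : ℝ) < A := by exact_mod_cast hA
  obtain ⟨m, hm, hm'⟩ := runs_uw hA hs hs1 hτ w hw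
  have h1 := h _ m hPw hm
  have hlen' : (w.length : ℝ) ≤ kw := by exact_mod_cast hlen
  have hm2 : (m : ℝ) ≤ kw * (tW / (A * τ) + 1) := hm'.trans (by gcongr)
  have hf : ∀ e : Eb, ‖((σ e : Eb) : E)‖ ≤ 1 := fun e => (hu _ (σ e).2).le
  have h2 : ‖L (τ • lsum (uw s τ w)) - (1 - s) • L (tsum w)‖ ≤ w.length * τ := by
    rw [map_smul, lin_lsum' hL, lsum_uw, lin_tsum hL, ← smul_tsum (fun e : Eb => ((σ e : Eb) : E))]
    exact uw_sum (fun e : Eb => ((σ e : Eb) : E)) hf hs1 hτ w fun p hp => (hw p hp).1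
  have h3 : ‖s • L (tsum w)‖ ≤ s * (kw * tW) := by
    rw [norm_smul, Real.norm_of_nonneg hs, lin_tsum hL]
    have := norm_tsum_le (fun e : Eb => ((σ e : Eb) : E)) hf w hw
    gcongr
    exact this.trans (by gcongr)
  have h4 : F (uw s τ w) - F [] - L (tsum w) =
      (F (uw s τ w) - F [] - L (τ • lsum (uw s τ w))) +
      (L (τ • lsum (uw s τ w)) - (1 - s) • L (tsum w)) - s • L (tsum w) := by
    rw [sub_smul, one_smul]; abel
  rw [h4]
  refine (norm_sub_le _ _).trans ((add_le_add_left (norm_add_le _ _) _).trans ?_)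
  have h5 : (m : ℝ) * δ3 ≤ kw * (tW / (A * τ) + 1) * δ3 := by gcongr
  have h6 : (w.length : ℝ) * τ ≤ kw * τ := by gcongr
  linarith

theorem PP_uw {Ω : Set E} (hΩ : Convex ℝ Ω) (hu : ∀ e ∈ Eb, ‖e‖ = 1) {ρ0 : ℝ}
    (hball : Metric.ball 0 ρ0 ⊆ Ω) {s τ ρ : ℝ} (hs : 0 < s) (hs1 : s < 1)
    (hτ : 0 < τ) {tW : ℝ} {kw Λ : ℕ} (hkw : kw * τ + ρ ≤ s * ρ0) (hΛ : kw * (tW / τ) ≤ Λ)
    (htW : 0 ≤ tW)
    (w : List (Eb × ℝ)) (hlen : w.length ≤ kw) (hw : ∀ p ∈ w, 0 ≤ p.2 ∧ p.2 ≤ tW)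
    (hpre : ∀ w', w' <+: w → tsum w' ∈ Ω) : PP Ω τ ρ Λ (uw s τ w) := by
  have hlen' : (w.length : ℝ) ≤ kw := by exact_mod_cast hlen
  refine ⟨?_, fun u' hu' => ?_⟩
  · have h1 := length_uw_le hs.le hs1.le hτ w hw
    have h2 : (w.length : ℝ) * (tW / τ) ≤ kw * (tW / τ) := by gcongr
    exact_mod_cast h1.trans (h2.trans hΛ)
  · obtain ⟨z, hz, hz'⟩ := uw_prefix hΩ hu hs1 hτ w (fun p hp => (hw p hp).1) hpre u' hu'
    intro y hy
    rw [Metric.mem_ball, dist_eq_norm] at hy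
    have h1 : ‖y - (1 - s) • z‖ < s * ρ0 := by
      have : y - (1 - s) • z = (y - τ • lsum u') + (τ • lsum u' - (1 - s) • z) := by abel
      rw [this]
      refine (norm_add_le _ _).trans_lt ?_
      have h6 : (w.length : ℝ) * τ ≤ kw * τ := by gcongr
      linarith
    have h2 : s⁻¹ • (y - (1 - s) • z) ∈ Ω := by
      apply hball
      rw [Metric.mem_ball, dist_zero_right, norm_smul, norm_inv, Real.norm_of_nonneg hs.le,
        inv_mul_lt_iff₀ hs]
      exact h1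
    have h3 := hΩ hz h2 (by linarith : (0:ℝ) ≤ 1 - s) hs.le (by ring)
    rw [smul_smul, mul_inv_cancel₀ hs.ne', one_smul] at h3
    convert h3 using 1
    abel

theorem PP_rel {Ω : Set E} (hu : ∀ e ∈ Eb, ‖e‖ = 1) {ρ0 : ℝ}
    (hball : Metric.ball 0 ρ0 ⊆ Ω) {τ ρ r : ℝ} (hτ : 0 < τ) {j Λ : ℕ}
    (hj : j * (Eb.card * τ) + r + ρ ≤ ρ0) (hΛ : j * (r / τ) ≤ Λ) {c : Eb → ℝ}
    (hc : ∀ e, 0 ≤ c e) (hc0 : comb Eb c = 0) (hcr : ∑ e, c e ≤ r) :
    PP Ω τ ρ Λ ((replicate j (relWord Eb τ c)).flatten) := by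
  have hlenw : ((relWord Eb τ c).length : ℝ) * τ ≤ r := by
    unfold relWord
    rw [length_flatMap]
    simp only [length_replicate]
    rw [Finset.sum_map_toList]
    push_cast
    rw [Finset.sum_mul]
    refine le_trans (Finset.sum_le_sum fun e _ => ?_) hcr
    have := Nat.floor_le (div_nonneg (hc e) hτ.le)
    rwa [le_div_iff₀ hτ] at this
  have hl : ‖τ • lsum (relWord Eb τ c)‖ ≤ Eb.card * τ := by
    have h3 := norm_relWord_sub hu (1 : Equiv.Perm Eb) hτ c hc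
    have h4 : combσ Eb (1 : Equiv.Perm Eb) c = 0 := by
      rw [combσ_apply]
      rw [comb_apply] at hc0
      exact hc0
    rw [h4, sub_zero] at h3
    have h5 : (relWord Eb τ c).map (1 : Equiv.Perm Eb) = relWord Eb τ c := map_id _
    rwa [h5] at h3
  refine ⟨?_, fun u' hu' y hy => hball ?_⟩
  · rw [length_flatten, map_replicate, sum_replicate, smul_eq_mul]
    have : ((relWord Eb τ c).length : ℝ) ≤ r / τ := by rwa [le_div_iff₀ hτ]
    have h1 : (j : ℝ) * (relWord Eb τ c).length ≤ Λ := le_trans (by gcongr) hΛ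
    exact_mod_cast h1
  · have h1 := prefix_flatten hu hτ.le (relWord Eb τ c) j u' hu'
    rw [Metric.mem_ball, dist_eq_norm] at hy
    rw [Metric.mem_ball, dist_zero_right]
    have h2 : ‖y‖ ≤ ‖y - τ • lsum u'‖ + ‖τ • lsum u'‖ := by
      have : y = (y - τ • lsum u') + τ • lsum u' := by abel
      conv_lhs => rw [this]
      exact norm_add_le _ _
    have h3 : (j : ℝ) * ‖τ • lsum (relWord Eb τ c)‖ ≤ j * (Eb.card * τ) := by gcongr
    linarith

/-- moving along a leg shrinks the ball -/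
theorem ball_leg {Ω : Set E} (hu : ∀ e ∈ Eb, ‖e‖ = 1) {τ ρ r1 : ℝ} (hτ : 0 ≤ τ) {w : List Eb}
    (h : Metric.ball (τ • lsum w) (ρ + r1) ⊆ Ω) (e : Eb) {a A : ℕ} (ha : a ≤ A)
    (hA : A * τ ≤ r1) : Metric.ball (τ • lsum (w ++ replicate a e)) ρ ⊆ Ω := by
  intro y hy
  apply h
  rw [Metric.mem_ball, dist_eq_norm] at hy ⊢
  have h1 : y - τ • lsum w = (y - τ • lsum (w ++ replicate a e)) + (τ * a) • (e : E) := by
    rw [lsum_append, lsum_replicate, smul_add, smul_smul]; abel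
  rw [h1]
  refine (norm_add_le _ _).trans_lt ?_
  rw [norm_smul, hu e e.2, mul_one, Real.norm_of_nonneg (by positivity)]
  have : (a : ℝ) ≤ A := by exact_mod_cast ha
  have : τ * a ≤ τ * A := by gcongr
  linarith

end Words

section Main

variable {G H ι E : Type*} [Group G] [Group H] [MeasurableSpace H] [MeasurableMul₂ H]
    [MeasurableInv H] [Fintype ι] [NormedAddCommGroup E] [InnerProductSpace ℝ E]

theorem measurable_FF [MeasurableSpace E] [BorelSpace E] {M : CapModel G H ι E} {R : RSys ι E}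
    {T : Set G} {Cb eps : ℝ} (𝓛 : Legs M R T Cb eps) {K : ℝ} {Ψ : G → G} (hΨ : QI M K Ψ) (N : ℕ)
    (τ : ℝ) (x : G) (w : List R.Eb) : Measurable fun n => FF M 𝓛 N τ Ψ x n w := by
  intro B _
  exact hΨ.meas x (𝓛.pos N τ w) {y | (N : ℝ)⁻¹ • M.hgt y ∈ B}

theorem FF_bound {M : CapModel G H ι E} {R : RSys ι E}
    {T : Set G} {Cb eps : ℝ} (𝓛 : Legs M R T Cb eps) {r0 : ℕ} (hT : ∀ s ∈ T, s ∈ M.Cl r0)
    {K : ℝ} {Ψ : G → G} (hΨ : QI M K Ψ) {N : ℕ} (hN : 1 ≤ N) {τ : ℝ} (hτ : 0 ≤ τ) (x : G) {n : H}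
    {C2 : ℝ} (hn : M.len (M.emb n) ≤ C2 * N) {w : List R.Eb} {Λ : ℕ} (hw : w.length ≤ Λ) :
    ‖FF M 𝓛 N τ Ψ x n w - (N : ℝ)⁻¹ • M.hgt (Ψ x)‖ ≤
      M.C0 * (K * (|C2| + M.C0 * (r0 * (|Cb| * (Λ * τ)))) + K) := by
  have hC0 := M.C0_pos
  have hK := hΨ.one_le
  have hN' : (1 : ℝ) ≤ N := by exact_mod_cast hN
  have h1 := GF_sub_le hΨ N x n 1 (𝓛.pos N τ w) 1
  rw [FF_eq]
  have h2 : GF M N Ψ x (1 : H) 1 = (N : ℝ)⁻¹ • M.hgt (Ψ x) := by
    unfold GF; rw [map_one, mul_one, mul_one]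
  rw [h2, map_one, mul_one, mul_one] at h1
  refine h1.trans ?_
  obtain ⟨m, hm, hmem⟩ := 𝓛.pos_mem (N := N) hτ w
  have h3 := len_Bl M hT hmem
  have h4 : M.dst (x * M.emb n * 𝓛.pos N τ w) x ≤ C2 * N + M.C0 * (r0 * m) := by
    rw [M.dst_comm]
    unfold CapModel.dst
    have : x⁻¹ * (x * M.emb n * 𝓛.pos N τ w) = M.emb n * 𝓛.pos N τ w := by group
    rw [this]
    exact (M.len_mul _ _).trans (add_le_add hn h3)
  have h5 : (m : ℝ) ≤ |Cb| * (Λ * τ) * N := hm.trans (by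
    have : (w.length : ℝ) ≤ Λ := by exact_mod_cast hw
    gcongr)
  have h6 : M.dst (x * M.emb n * 𝓛.pos N τ w) x ≤
      (|C2| + M.C0 * (r0 * (|Cb| * (Λ * τ)))) * N := by
    refine h4.trans ?_
    have h7 : C2 * N ≤ |C2| * N := by gcongr; exact le_abs_self _
    have h8 : M.C0 * (r0 * m) ≤ M.C0 * (r0 * (|Cb| * (Λ * τ) * N)) := by gcongr
    linarith
  calc (N : ℝ)⁻¹ * (M.C0 * (K * M.dst (x * M.emb n * 𝓛.pos N τ w) x + K))
      ≤ (N : ℝ)⁻¹ * (M.C0 * (K * ((|C2| + M.C0 * (r0 * (|Cb| * (Λ * τ)))) * N) + K * N)) := by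
        gcongr
        nlinarith
    _ = _ := by field_simp

/-- leg lengths -/
theorem leg_le {M : CapModel G H ι E} {R : RSys ι E} {T : Set G} {Cb eps : ℝ}
    (𝓛 : Legs M R T Cb eps) (heps : 0 ≤ eps) {N : ℕ} (hN : 1 ≤ N) {τ r1 : ℝ} (hτ : 0 ≤ τ)
    (e : R.Eb) {a A : ℕ} (ha : a ≤ A) (hA : A * τ ≤ r1) :
    a * 𝓛.p N τ e * ‖M.hgt (𝓛.b e)‖ / N ≤ a * τ + r1 * eps := by
  have hN' : (0 : ℝ) < N := by exact_mod_cast hN
  have h1 := 𝓛.p_le (N := N) hτ e
  have h2 := 𝓛.acc e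
  have h3 := 𝓛.mE_pos e
  have h4 : ‖M.hgt (𝓛.b e)‖ ≤ (1 + eps) * 𝓛.mE e := by
    have : M.hgt (𝓛.b e) = (M.hgt (𝓛.b e) - 𝓛.mE e • (e : E)) + 𝓛.mE e • (e : E) := by abel
    rw [this]
    refine (norm_add_le _ _).trans ?_
    rw [norm_smul, R.unit e e.2, Real.norm_of_nonneg h3.le]
    linarith
  have ha' : (a : ℝ) ≤ A := by exact_mod_cast ha
  rw [div_le_iff₀ hN']
  have h5 : (a : ℝ) * τ ≤ r1 := le_trans (by gcongr) hA
  calc (a : ℝ) * 𝓛.p N τ e * ‖M.hgt (𝓛.b e)‖ ≤ a * 𝓛.p N τ e * ((1 + eps) * 𝓛.mE e) := by gcongr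
    _ = a * (1 + eps) * (𝓛.p N τ e * 𝓛.mE e) := by ring
    _ ≤ a * (1 + eps) * (τ * N) := by gcongr
    _ = (a * τ + (a * τ) * eps) * N := by ring
    _ ≤ (a * τ + r1 * eps) * N := by gcongr

theorem ev_A (c r1 : ℝ) {d : ℝ} (hd : 0 < d) : ∀ᶠ A : ℕ in Filter.atTop, c * (r1 / A) ≤ d := by
  have h1 : Filter.Tendsto (fun A : ℕ => c * (r1 / (A : ℝ))) Filter.atTop (nhds (c * 0)) :=
    (tendsto_const_div_atTop_nhds_zero_nat r1).const_mul c
  rw [mul_zero] at h1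
  filter_upwards [h1.eventually (gt_mem_nhds hd)] with A hA using hA.le

theorem ex_mul_le {c : ℝ} (hc : 0 ≤ c) {d : ℝ} (hd : 0 < d) :
    ∃ t : ℝ, 0 < t ∧ ∀ x ≤ t, x * c ≤ d := by
  refine ⟨d / (c + 1), by positivity, fun x hx => ?_⟩
  calc x * c ≤ d / (c + 1) * c := by gcongr
    _ = d * (c / (c + 1)) := by ring
    _ ≤ d * 1 := by
      gcongr
      rw [div_le_one (by positivity)]
      linarith
    _ = d := mul_one d

/-- the finite set of words -/
theorem exists_words {Eb : Finset E} {Ω : Set E} (hu : ∀ e ∈ Eb, ‖e‖ = 1) {τ r1 : ℝ} (hτ : 0 ≤ τ)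
    {A : ℕ} (hA : A * τ ≤ r1) (Pf : Finset (List Eb))
    (hPf : ∀ w ∈ Pf, Metric.ball (τ • lsum w) (3 * r1) ⊆ Ω) :
    ∃ 𝒲 : Finset (List Eb), (∀ w ∈ Pf, w ∈ 𝒲) ∧
      (∀ w ∈ Pf, ∀ e : Eb, ∀ a ≤ A, w ++ replicate a e ∈ 𝒲) ∧
      ∀ w ∈ 𝒲, Metric.ball (τ • lsum w) (r1 + r1) ⊆ Ω := by
  classical
  refine ⟨Pf ∪ (Pf ×ˢ ((Finset.univ : Finset Eb) ×ˢ Finset.range (A + 1))).image
    (fun q : List Eb × (Eb × ℕ) => q.1 ++ replicate q.2.2 q.2.1),
    fun w hw => Finset.mem_union_left _ hw, fun w hw e a ha => ?_, fun w hw => ?_⟩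
  · refine Finset.mem_union_right _ (Finset.mem_image.2 ⟨(w, (e, a)), ?_, rfl⟩)
    simp only [Finset.mem_product, Finset.mem_univ, Finset.mem_range, true_and]
    exact ⟨hw, by omega⟩
  · rcases Finset.mem_union.1 hw with hw | hw
    · refine (Metric.ball_subset_ball ?_).trans (hPf w hw)
      have : 0 ≤ (A : ℝ) * τ := by positivity
      linarith
    · obtain ⟨⟨w, e, a⟩, h1, rfl⟩ := Finset.mem_image.1 hw
      simp only [Finset.mem_product, Finset.mem_univ, Finset.mem_range, true_and] at h1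
      refine ball_leg hu hτ ?_ e (a := a) (A := A) (by omega) hA
      have h2 := hPf w h1.1
      rwa [show r1 + r1 + r1 = 3 * r1 by ring]

theorem union3 {Eb : Finset E} {μ : Measure H} {Q : Set H} {A : ℕ} (𝒲 : Finset (List Eb))
    (bad : H → List Eb → Eb → ℕ → Prop) {δ c : ℝ}
    (h : ∀ w ∈ 𝒲, ∀ e : Eb, ∀ a ≤ A, μ {n | n ∈ Q ∧ bad n w e a} ≤ ENNReal.ofReal δ * μ Q)
    (hc : 𝒲.card * (Eb.card * (A + 1)) * δ ≤ c) :
    μ {n | n ∈ Q ∧ ∃ w ∈ 𝒲, ∃ e : Eb, ∃ a ≤ A, bad n w e a} ≤ ENNReal.ofReal c * μ Q := by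
  have hsub : {n | n ∈ Q ∧ ∃ w ∈ 𝒲, ∃ e : Eb, ∃ a ≤ A, bad n w e a} ⊆
      ⋃ w ∈ 𝒲, ⋃ e : Eb, ⋃ a ∈ Finset.range (A + 1), {n | n ∈ Q ∧ bad n w e a} := by
    rintro n ⟨hn, w, hw, e, a, ha, h⟩
    simp only [Set.mem_iUnion]
    exact ⟨w, hw, e, a, Finset.mem_range.2 (by omega), hn, h⟩
  refine (measure_mono hsub).trans ((measure_biUnion_finset_le _ _).trans ?_)
  have h1 : ∀ w ∈ 𝒲, μ (⋃ e : Eb, ⋃ a ∈ Finset.range (A + 1), {n | n ∈ Q ∧ bad n w e a}) ≤
      Eb.card * ((A + 1 : ℕ) * (ENNReal.ofReal δ * μ Q)) := by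
    intro w hw
    refine (measure_iUnion_fintype_le μ _).trans ?_
    have h2 : ∀ e ∈ (Finset.univ : Finset Eb), μ (⋃ a ∈ Finset.range (A + 1),
        {n | n ∈ Q ∧ bad n w e a}) ≤ (A + 1 : ℕ) * (ENNReal.ofReal δ * μ Q) := by
      intro e _
      refine (measure_biUnion_finset_le _ _).trans ?_
      refine (Finset.sum_le_sum fun a ha => h w hw e a
        (by have := Finset.mem_range.1 ha; omega)).trans ?_
      rw [Finset.sum_const, Finset.card_range, nsmul_eq_mul]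
    refine (Finset.sum_le_sum h2).trans ?_
    simp
  refine (Finset.sum_le_sum h1).trans ?_
  rw [Finset.sum_const, nsmul_eq_mul]
  have h3 : (𝒲.card : ℝ≥0∞) * (Eb.card * ((A + 1 : ℕ) * (ENNReal.ofReal δ * μ Q))) =
      ENNReal.ofReal (𝒲.card * (Eb.card * (A + 1)) * δ) * μ Q := by
    rw [ENNReal.ofReal_mul (by positivity), ENNReal.ofReal_mul (by positivity),
      ENNReal.ofReal_mul (by positivity), ENNReal.ofReal_natCast, ENNReal.ofReal_natCast]
    have : ENNReal.ofReal ((A : ℝ) + 1) = ((A + 1 : ℕ) : ℝ≥0∞) := by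
      rw [← ENNReal.ofReal_natCast]; push_cast; rfl
    rw [this]
    ring
  rw [h3]
  gcongr

theorem count_le {μ : Measure H} {Q Q' : Set H} {CQ c' c : ℝ} (hQQ' : μ Q' ≤ ENNReal.ofReal CQ * μ Q)
    (hc' : 0 ≤ c') {n1 n2 n3 n4 n5 : ℕ}
    (h : (n1 : ℝ) * (n2 * (n3 * (n4 * n5))) * (c' * |CQ|) ≤ c) :
    (n1 : ℝ≥0∞) * (n2 * (n3 * (n4 * (n5 * (ENNReal.ofReal c' * μ Q'))))) ≤ ENNReal.ofReal c * μ Q := by
  have h2 : (n1 : ℝ≥0∞) * (n2 * (n3 * (n4 * (n5 * (ENNReal.ofReal c' * μ Q'))))) ≤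
      n1 * (n2 * (n3 * (n4 * (n5 * (ENNReal.ofReal c' * (ENNReal.ofReal |CQ| * μ Q)))))) := by
    gcongr
    refine hQQ'.trans ?_
    gcongr
    exact le_abs_self _
  refine h2.trans ?_
  have h3 : (n1 : ℝ≥0∞) * (n2 * (n3 * (n4 * (n5 * (ENNReal.ofReal c' *
      (ENNReal.ofReal |CQ| * μ Q)))))) =
      ENNReal.ofReal (n1 * (n2 * (n3 * (n4 * n5))) * (c' * |CQ|)) * μ Q := by
    rw [ENNReal.ofReal_mul (by positivity), ENNReal.ofReal_mul (by positivity),
      ENNReal.ofReal_mul (by positivity), ENNReal.ofReal_mul (by positivity),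
      ENNReal.ofReal_mul (by positivity), ENNReal.ofReal_mul (by positivity),
      ENNReal.ofReal_natCast, ENNReal.ofReal_natCast, ENNReal.ofReal_natCast,
      ENNReal.ofReal_natCast, ENNReal.ofReal_natCast]
    ring
  rw [h3]
  gcongr


end Main

end Crest.Agent.R182.Star
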