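import Mathlib
import Crest.Agent.R182.BoxRaw
import Crest.Agent.R182.HoleDict
import Crest.Agent.R182.HoleScale
import Crest.Agent.R182.ElFacts
import Crest.Agent.R182.GenStar
import Crest.Agent.R182.StarBM
import Crest.Agent.R182.StarLaw
import Crest.Agent.R182.ElGeo
import Crest.Agent.R182.BoxOne
import Crest.Agent.R182.StarThm2

-- ▼ part R182/HoleEl
section

set_option autoImplicit false
set_option linter.unusedSectionVars false

open MeasureTheory Set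
open scoped ENNReal Pointwise RealInnerProductSpace

namespace Crest.Agent.R182.HoleOne

open Crest.GroupTheory Crest.Geometry Crest.Agent.R182.QI Crest.Agent.R182.Core
  Crest.Agent.R182.Core.BModel Crest.Agent.R182.Nb Crest.Agent.R182.HoleNil
  Crest.Agent.R182.HoleGeo Crest.Agent.R182.OneScale Crest.Agent.R182.ElI

variable {Γ : Type*} [Group Γ] {k : ℕ} {S : Set Γ} {π : Γ →* Multiplicative (Fin k → ℤ)}
  {M : BModel S π} {E : Type} [NormedAddCommGroup E] [InnerProductSpace ℝ E]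

/-- the box laws of the shape `Z` at all base points -/
def BoxOut (G : Geo M E) (Ψ : Γ → Γ) (Sc τ : ℝ) (u : G.R → M.G) (η : ℝ) (Z : G.R → ℝ) : Prop :=
  ∀ y : M.G, ∃ (σ : Equiv.Perm G.R) (L : E →ₗ[ℝ] E) (θ : E), (∀ e : G.R, L (e : E) = (σ e : E)) ∧
    RawLaw G Ψ Sc τ u η Z y L θ

/-- raw laws are laws in the sense of EL -/
def RawAt (G : Geo M E) (cs : Cst G) (Ψ : Γ → Γ) (Sc τ : ℝ) (u : G.R → M.G) (η ε δ : ℝ)
    (Z : G.R → ℝ) : Prop :=
  ∀ (x : M.G) (n : M.NN) (σ : Equiv.Perm G.R) (L : E →ₗ[ℝ] E) (θ : E),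
    (∀ e : G.R, L (e : E) = (σ e : E)) → RawLaw G Ψ Sc τ u η Z (x * M.toG n) L θ →
    LawAt G cs Ψ x Sc τ u ε δ Z n σ (θ - Sc⁻¹ • G.T (fh M Ψ x))

/-- the output of the enlargement lemma at one scale -/
def ElOut (G : Geo M E) [DecidableEq G.R] (cs : Cst G) (Ψ : Γ → Γ) (Sc τ : ℝ) (u : G.R → M.G)
    (ε δ η β b : ℝ) (KS : Set M.NN) : Prop :=
  ∀ x : M.G, volume {n : M.NN | n ∈ KS ∧ ∃ (w : G.R) (σ σ' : Equiv.Perm G.R) (θ θ' : E),
        LawAt G cs Ψ x Sc τ u ε δ (fun _ => 1) n σ θ ∧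
        LawAt G cs Ψ x Sc τ u ε δ (Function.update (fun _ => 1) w (1 + b)) n σ' θ' ∧
        ¬ (σ = σ' ∧ ‖θ - θ'‖ ≤ η)} ≤ ENNReal.ofReal β * volume KS


/-- uniqueness of laws of a box -/
theorem law_unique {ι : Type*} [Fintype ι] {f : M.NN → ι → Fin k → ℝ} {A A' : Set M.NN} {τ : ℝ}
    {δ : ℝ≥0∞} (hA : A ⊆ A') (zA : volume A ≠ 0) (tA : volume A ≠ ∞) (hδ : 2 * δ < 1) {n : M.NN}
    {Λ Λ' : ι → Fin k → ℝ} (h : Law volume f A' τ (δ * volume A) n Λ)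
    (h' : Law volume f A' τ (δ * volume A) n Λ') : dist Λ Λ' ≤ 2 * τ := by
  have h1 : Law volume f A τ (δ * volume A) (n * 1) Λ := by
    rw [mul_one]; exact h.mono hA le_rfl le_rfl
  have h2 := h'.overlap h1 (fun g hg => by rw [one_mul]; exact hA hg) (by
    rw [← add_mul, ← two_mul]
    calc 2 * δ * volume A < 1 * volume A := by
          rw [ENNReal.mul_lt_mul_iff_left zA tA]; exact hδ
      _ = volume A := one_mul _)
  linarith

/-- the shapes in the two notations -/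
theorem shape_one {ρ : Type*} {τ : ℝ} {p : ℕ} (hp : (1 : ℝ) = p * τ) :
    (fun _ : ρ => (1 : ℝ)) = fun r : ρ => (((fun _ => p) r : ℕ) : ℝ) * τ := by
  funext r; exact hp

theorem shape_upd {ρ : Type*} [DecidableEq ρ] {τ b : ℝ} {p q : ℕ} (hp : (1 : ℝ) = p * τ)
    (hq : b = q * τ) (r : ρ) : Function.update (fun _ : ρ => (1 : ℝ)) r (1 + b) =
      fun r' : ρ => ((Function.update (fun _ => p) r (p + q) r' : ℕ) : ℝ) * τ := by
  funext r'
  by_cases h : r' = r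
  · subst h
    rw [Function.update_self, Function.update_self, hq]
    push_cast
    rw [add_mul, ← hp]
  · rw [Function.update_of_ne h, Function.update_of_ne h]
    exact hp

theorem shape_add {ρ : Type*} {τ b : ℝ} {p q : ℕ} (hp : (1 : ℝ) = p * τ)
    (hq : b = q * τ) : (fun _ : ρ => 1 + b) = fun r : ρ => (((fun _ => p + q) r : ℕ) : ℝ) * τ := by
  funext r
  rw [hq]
  push_cast
  rw [add_mul, ← hp]

variable [FiniteDimensional ℝ E]

/-- the laws of the shape `m` from the raw laws -/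
theorem exists_lawB (G : Geo M E) : ∃ CR : ℝ, 1 ≤ CR ∧
    ∀ {Ψ : Γ → Γ} {RC Cb e₁ τ Sc : ℝ} (un : ElI.Unit G RC Cb e₁ τ Sc), 0 < Sc → 0 < τ →
      0 ≤ e₁ → ∀ {J : ℕ}, J * τ ≤ 1 / 4 → ∀ {m : G.R → ℕ}, (∀ r, 1 / 2 ≤ (m r : ℝ) * τ) →
      ∀ {η : ℝ}, 0 ≤ η → ∀ {y : M.G} {L : E →ₗ[ℝ] E} {θ : E}, L ∈ LLE G →
      RawLaw G Ψ Sc τ un.u η (fun r => m r * τ) y L θ →
      ∀ {c1 : ℝ} {δ' : ℝ≥0∞}, 0 < c1 → ENNReal.ofReal η ≤ δ' * ENNReal.ofReal (c1 ^ M.r) →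
      LawB M Ψ G.ray un.u c1 (ww' G un.u J) (CR * (η + e₁) * Sc) δ' y m
        (pr M (ww' G un.u J) (toV G L) (Sc • G.T.symm θ)) := by
  obtain ⟨CR, hCR, h⟩ := rawLaw_law G
  refine ⟨CR, hCR, ?_⟩
  intro Ψ RC Cb e₁ τ Sc un hSc hτ he J hJ m hm η hη y L θ hL hraw c1 δ' hc1 hδ'
  have h1 := h un hSc hτ he hJ hm hη hL hraw hc1 hδ'
  rw [fm_eq G un.u hτ m] at h1
  exact h1

/-- **(iii)**: the hypotheses `el₁`, `el₂` of `hole_scale`, together with the laws, with one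
constant `CR` -/
theorem exists_law_el (G : Geo M E) [DecidableEq G.R] : ∃ CR D : ℝ, 1 ≤ CR ∧ 1 ≤ D ∧
    (∀ {Ψ : Γ → Γ} {RC Cb e₁ τ Sc : ℝ} (un : ElI.Unit G RC Cb e₁ τ Sc), 0 < Sc → 0 < τ →
      0 ≤ e₁ → ∀ {J : ℕ}, J * τ ≤ 1 / 4 → ∀ {m : G.R → ℕ}, (∀ r, 1 / 2 ≤ (m r : ℝ) * τ) →
      ∀ {η : ℝ}, 0 ≤ η → ∀ {y : M.G} {L : E →ₗ[ℝ] E} {θ : E}, L ∈ LLE G →
      RawLaw G Ψ Sc τ un.u η (fun r => m r * τ) y L θ →
      ∀ {c1 : ℝ} {δ' : ℝ≥0∞}, 0 < c1 → ENNReal.ofReal η ≤ δ' * ENNReal.ofReal (c1 ^ M.r) →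
      LawB M Ψ G.ray un.u c1 (ww' G un.u J) (CR * (η + e₁) * Sc) δ' y m
        (pr M (ww' G un.u J) (toV G L) (Sc • G.T.symm θ))) ∧
    ∀ {cs : Cst G} {Ψ : Γ → Γ} {RC Cb e₁ τ Sc : ℝ} (un : ElI.Unit G RC Cb e₁ τ Sc), 0 < Sc →
      0 < τ → 0 ≤ e₁ → ∀ {J : ℕ}, J * τ ≤ 1 / 4 → ∀ {p q : ℕ} {b : ℝ}, (1 : ℝ) = p * τ →
      b = q * τ → ∀ {η₀ ε1 δ1 η' β A2 e c1 : ℝ} {δL : ℝ≥0∞}, 0 ≤ η₀ → 0 ≤ η' → 0 < A2 →
      0 < c1 → c1 ≤ 1 →
      ENNReal.ofReal η₀ ≤ δL * ENNReal.ofReal (c1 ^ M.r) → 2 * δL < 1 →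
      volume (M.NB (F G.ray un.u fun _ => p) c1) ≠ 0 →
      (∀ r, volume (M.NB (F G.ray un.u (Function.update (fun _ => p) r (p + q))) c1) ≠ 0) →
      BoxOut G Ψ Sc τ un.u η₀ (fun _ => 1) →
      (∀ r, BoxOut G Ψ Sc τ un.u η₀ (Function.update (fun _ => 1) r (1 + b))) →
      RawAt G cs Ψ Sc τ un.u η₀ ε1 δ1 (fun _ => 1) →
      (∀ r, RawAt G cs Ψ Sc τ un.u η₀ ε1 δ1 (Function.update (fun _ => 1) r (1 + b))) →
      ElOut G cs Ψ Sc τ un.u ε1 δ1 η' β b (M.NB (fm G un.u τ fun _ => 1 + b) (A2 * e)) →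
      ∀ (y : M.G) (r : G.R), volume {n : M.NN |
        n ∈ M.NB (F G.ray un.u fun _ => p + q) (A2 * e) ∧ ∃ Λ Λ',
        LawB M Ψ G.ray un.u c1 (ww' G un.u J) (CR * (η₀ + e₁) * Sc) δL (y * M.toG n)
          (fun _ => p) Λ ∧
        LawB M Ψ G.ray un.u c1 (ww' G un.u J) (CR * (η₀ + e₁) * Sc) δL (y * M.toG n)
          (Function.update (fun _ => p) r (p + q)) Λ' ∧
        4 * (CR * (η₀ + e₁) * Sc) + D * η' * Sc < dist Λ Λ'} ≤
      ENNReal.ofReal (β * A2 ^ M.r) * volume (M.NB (F G.ray un.u fun _ => p + q) e) := by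
  obtain ⟨CR, hCR, hlaw⟩ := exists_lawB G
  obtain ⟨D, hD, hDb⟩ : ∃ D : ℝ, 1 ≤ D ∧ ∀ v : E, ‖G.T.symm v‖ ≤ D * ‖v‖ := by
    let f : E →L[ℝ] (Fin k → ℝ) :=
      LinearMap.toContinuousLinearMap (G.T.symm : E →ₗ[ℝ] (Fin k → ℝ))
    refine ⟨‖f‖ + 1, by linarith [norm_nonneg f], fun v => ?_⟩
    have h1 : ‖f v‖ ≤ ‖f‖ * ‖v‖ := f.le_opNorm v
    have h2 : f v = G.T.symm v := rfl
    rw [h2] at h1
    have := norm_nonneg v
    nlinarith
  refine ⟨CR, D, hCR, hD, @hlaw, ?_⟩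
  intro cs Ψ RC Cb e₁ τ Sc un hSc hτ he₁ J hJ p q b hp hq η₀ ε1 δ1 η' β A2 e c1 δL hη₀ hη' hA2 hc1
    hc1' hδη hδ z1 z2 B1 B2 R1 R2 hel y r
  have hb0 : 0 ≤ b := by rw [hq]; positivity
  have hfm : fm G un.u τ (fun _ => 1 + b) = F G.ray un.u fun _ => p + q := by
    rw [shape_add hp hq]
    exact fm_eq G un.u hτ _
  -- the inclusion of the bad sets
  have hsub : {n : M.NN |
        n ∈ M.NB (F G.ray un.u fun _ => p + q) (A2 * e) ∧ ∃ Λ Λ',
        LawB M Ψ G.ray un.u c1 (ww' G un.u J) (CR * (η₀ + e₁) * Sc) δL (y * M.toG n)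
          (fun _ => p) Λ ∧
        LawB M Ψ G.ray un.u c1 (ww' G un.u J) (CR * (η₀ + e₁) * Sc) δL (y * M.toG n)
          (Function.update (fun _ => p) r (p + q)) Λ' ∧
        4 * (CR * (η₀ + e₁) * Sc) + D * η' * Sc < dist Λ Λ'} ⊆
      {n : M.NN | n ∈ M.NB (fm G un.u τ fun _ => 1 + b) (A2 * e) ∧
        ∃ (w : G.R) (σ σ' : Equiv.Perm G.R) (θ θ' : E),
        LawAt G cs Ψ y Sc τ un.u ε1 δ1 (fun _ => 1) n σ θ ∧
        LawAt G cs Ψ y Sc τ un.u ε1 δ1 (Function.update (fun _ => 1) w (1 + b)) n σ' θ' ∧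
        ¬ (σ = σ' ∧ ‖θ - θ'‖ ≤ η')} := by
    rintro n ⟨hn, Λ, Λ', hΛ, hΛ', hd⟩
    refine ⟨by rw [hfm]; exact hn, r, ?_⟩
    obtain ⟨σ, L, θ, hL, hraw⟩ := B1 (y * M.toG n)
    obtain ⟨σ', L', θ', hL', hraw'⟩ := B2 r (y * M.toG n)
    refine ⟨σ, σ', _, _, R1 y n σ L θ hL hraw, R2 r y n σ' L' θ' hL' hraw', ?_⟩
    rintro ⟨rfl, hθ⟩
    refine absurd hd (not_lt.2 ?_)
    have hLL : L = L' := ext_R G fun e => (hL e).trans (hL' e).symm
    subst hLL
    have hm1 : ∀ r' : G.R, 1 / 2 ≤ (((fun _ => p) r' : ℕ) : ℝ) * τ := by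
      intro r'
      have : (p : ℝ) * τ = 1 := hp.symm
      change 1 / 2 ≤ (p : ℝ) * τ
      rw [this]; norm_num
    have hm2 : ∀ r' : G.R, 1 / 2 ≤ ((Function.update (fun _ => p) r (p + q) r' : ℕ) : ℝ) * τ := by
      intro r'
      have h3 := congrFun (shape_upd (ρ := G.R) hp hq r) r'
      beta_reduce at h3
      rw [← h3]
      by_cases h : r' = r
      · subst h; rw [Function.update_self]; linarith
      · rw [Function.update_of_ne h]; norm_num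
    have hl1 := hlaw un hSc hτ he₁ hJ hm1 hη₀ ⟨σ, hL⟩ (by
      rw [← shape_one hp]; exact hraw) hc1 hδη
    have hl2 := hlaw un hSc hτ he₁ hJ hm2 hη₀ ⟨σ, hL⟩ (by
      rw [← shape_upd hp hq r]; exact hraw') hc1 hδη
    have d1 : dist Λ (pr M (ww' G un.u J) (toV G L) (Sc • G.T.symm θ)) ≤
        2 * (CR * (η₀ + e₁) * Sc) :=
      law_unique (NB_mono hc1') z1 (volume_NB_lt_top M _ _).ne hδ hΛ hl1
    have d2 : dist (pr M (ww' G un.u J) (toV G L) (Sc • G.T.symm θ')) Λ' ≤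
        2 * (CR * (η₀ + e₁) * Sc) :=
      law_unique (NB_mono hc1') (z2 r) (volume_NB_lt_top M _ _).ne hδ hl2 hΛ'
    have d3 : dist (pr M (ww' G un.u J) (toV G L) (Sc • G.T.symm θ))
        (pr M (ww' G un.u J) (toV G L) (Sc • G.T.symm θ')) ≤ D * η' * Sc := by
      rw [dist_pi_le_iff (by positivity)]
      intro i
      rw [dist_eq_norm]
      have e1 : pr M (ww' G un.u J) (toV G L) (Sc • G.T.symm θ) i -
          pr M (ww' G un.u J) (toV G L) (Sc • G.T.symm θ') i = Sc • G.T.symm (θ - θ') := by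
        simp only [pr, map_sub, smul_sub]; abel
      rw [e1, norm_smul, Real.norm_of_nonneg hSc.le]
      have e2 : θ - Sc⁻¹ • G.T (fh M Ψ y) - (θ' - Sc⁻¹ • G.T (fh M Ψ y)) = θ - θ' := by abel
      rw [e2] at hθ
      have h5 := hDb (θ - θ')
      have h6 : D * ‖θ - θ'‖ ≤ D * η' := mul_le_mul_of_nonneg_left hθ (by linarith)
      have h7 := mul_le_mul_of_nonneg_left (h5.trans h6) hSc.le
      linarith
    have t1 := dist_triangle4 Λ (pr M (ww' G un.u J) (toV G L) (Sc • G.T.symm θ))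
      (pr M (ww' G un.u J) (toV G L) (Sc • G.T.symm θ')) Λ'
    linarith
  refine (measure_mono hsub).trans ((hel y).trans ?_)
  rw [hfm, volume_NB_smul hA2, ← mul_assoc]
  gcongr
  by_cases hβ : 0 ≤ β
  · rw [ENNReal.ofReal_mul hβ]
  · rw [ENNReal.ofReal_of_nonpos (not_le.1 hβ).le, zero_mul]
    exact zero_le


end Crest.Agent.R182.HoleOne
end

-- ▼ part R182/BoxUnit
section

set_option autoImplicit false
set_option linter.unusedSectionVars false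

open MeasureTheory List

namespace Crest.Agent.R182.Star

open Crest.Agent.R182.Conv Crest.Agent.R182.Cap

variable {G H ι E : Type*} [Group G] [Group H] [MeasurableSpace H] [MeasurableMul₂ H]
    [MeasurableInv H] [Fintype ι] [NormedAddCommGroup E] [InnerProductSpace ℝ E]

/-- position of a word in powers of the unit legs -/
noncomputable def Legs.upos {M : CapModel G H ι E} {R : RSys ι E} {T : Set G} {Cb eps : ℝ}
    (𝓛 : Legs M R T Cb eps) (N : ℕ) (τ : ℝ) (w : List (R.Eb × ℕ)) : G :=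
  (w.map fun p => 𝓛.u N τ p.1 ^ p.2).prod

/-- the timed word of a word in powers of the unit legs -/
noncomputable def tw {Eb : Finset E} (τ : ℝ) (w : List (Eb × ℕ)) : List (Eb × ℝ) :=
  w.map fun p => (p.1, p.2 * τ)

theorem length_tw {Eb : Finset E} (τ : ℝ) (w : List (Eb × ℕ)) : (tw τ w).length = w.length := by
  simp [tw]

theorem mem_tw {Eb : Finset E} {τ : ℝ} {w : List (Eb × ℕ)} {p : Eb × ℝ} (h : p ∈ tw τ w) :
    ∃ q ∈ w, p = (q.1, q.2 * τ) := by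
  obtain ⟨q, hq, rfl⟩ := mem_map.1 h
  exact ⟨q, hq, rfl⟩

theorem tsum_tw {Eb : Finset E} (τ : ℝ) (w : List (Eb × ℕ)) :
    tsum (tw τ w) = (w.map fun p => (p.2 * τ) • (p.1 : E)).sum := by
  simp only [tsum, tw, map_map]
  rfl

theorem tw_take {Eb : Finset E} (τ : ℝ) (w : List (Eb × ℕ)) (k : ℕ) :
    tw τ (w.take k) = (tw τ w).take k := by
  simp [tw, map_take]

/-- the prefixes of the timed word -/
theorem prefix_tw {Eb : Finset E} {τ : ℝ} {w : List (Eb × ℕ)} {v : List (Eb × ℝ)}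
    (h : v <+: tw τ w) : ∃ w', w' <+: w ∧ v = tw τ w' := by
  refine ⟨w.take v.length, take_prefix _ _, ?_⟩
  rw [tw_take]
  exact (prefix_iff_eq_take.1 h)

/-- a power of a unit leg is a timed leg, up to a bounded power of the generator -/
theorem Legs.u_mul {M : CapModel G H ι E} {R : RSys ι E} {T : Set G} {Cb eps : ℝ}
    (𝓛 : Legs M R T Cb eps) {N : ℕ} {τ : ℝ} (hτ : 0 ≤ τ) (e : R.Eb) (j : ℕ) :
    ∃ i ≤ j, 𝓛.u N (j * τ) e = 𝓛.u N τ e ^ j * 𝓛.b e ^ i := by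
  have hmE := 𝓛.mE_pos e
  have hx : 0 ≤ τ * N / 𝓛.mE e := div_nonneg (mul_nonneg hτ (Nat.cast_nonneg N)) hmE.le
  have e1 : (j : ℝ) * τ * N / 𝓛.mE e = j * (τ * N / 𝓛.mE e) := by ring
  have h1 : j * 𝓛.p N τ e ≤ 𝓛.p N (j * τ) e := by
    unfold Legs.p
    apply Nat.le_floor
    rw [e1]
    push_cast
    gcongr
    exact Nat.floor_le hx
  have h2 : 𝓛.p N (j * τ) e ≤ j * 𝓛.p N τ e + j := by
    have h3 := Nat.lt_floor_add_one (τ * N / 𝓛.mE e)
    have h4 := Nat.floor_le (mul_nonneg (Nat.cast_nonneg j) hx : (0 : ℝ) ≤ j * (τ * N / 𝓛.mE e))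
    have h5 : ((𝓛.p N (j * τ) e : ℕ) : ℝ) ≤ ((j * 𝓛.p N τ e + j : ℕ) : ℝ) := by
      unfold Legs.p
      rw [e1]
      push_cast
      refine h4.trans ?_
      have h6 : (j : ℝ) * (τ * N / 𝓛.mE e) ≤ j * ((⌊τ * N / 𝓛.mE e⌋₊ : ℝ) + 1) := by gcongr
      linarith
    exact_mod_cast h5
  refine ⟨𝓛.p N (j * τ) e - j * 𝓛.p N τ e, by omega, ?_⟩
  unfold Legs.u
  rw [← pow_mul, ← pow_add]
  congr 1
  rw [mul_comm (𝓛.p N τ e) j]
  omega

/-- the power of the unit leg is close to the timed leg -/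
theorem Legs.u_mul_mem {M : CapModel G H ι E} {R : RSys ι E} {T : Set G} {Cb eps : ℝ}
    (𝓛 : Legs M R T Cb eps) {N : ℕ} {τ : ℝ} (hτ : 0 ≤ τ) (e : R.Eb) (j : ℕ) :
    (𝓛.u N (j * τ) e)⁻¹ * 𝓛.u N τ e ^ j ∈ Bl T (j * 𝓛.rb e) := by
  obtain ⟨i, hi, h⟩ := 𝓛.u_mul (N := N) hτ e j
  have h1 : (𝓛.u N (j * τ) e)⁻¹ * 𝓛.u N τ e ^ j = (𝓛.b e ^ i)⁻¹ := by
    rw [h]; group
  rw [h1]
  exact Bl_mono (Nat.mul_le_mul_right _ hi) (Bl_inv (Bl_pow (𝓛.b_mem e) i))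

/-- a bound for all `rb` -/
noncomputable def Legs.rX {M : CapModel G H ι E} {R : RSys ι E} {T : Set G} {Cb eps : ℝ}
    (𝓛 : Legs M R T Cb eps) : ℕ := ∑ e : R.Eb, 𝓛.rb e

theorem Legs.rb_le' {M : CapModel G H ι E} {R : RSys ι E} {T : Set G} {Cb eps : ℝ}
    (𝓛 : Legs M R T Cb eps) (e : R.Eb) : 𝓛.rb e ≤ 𝓛.rX :=
  Finset.single_le_sum (fun _ _ => Nat.zero_le _) (Finset.mem_univ e)

/-- **words in powers of unit legs are close to timed words**, with an error `O(1/N)`. -/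
theorem unit_GF (M : CapModel G H ι E) {K : ℝ} (hK : 1 ≤ K)
    (R : RSys ι E) {T : Set G} {r0 : ℕ} (hT : ∀ s ∈ T, s ∈ M.Cl r0)
    {Cb : ℝ} (hS : Slow T) (kw : ℕ) {tW : ℝ} (htW : 0 ≤ tW) {δ : ℝ} (hδ : 0 < δ) {eps : ℝ}
    (𝓛 : Legs M R T Cb eps) {τ : ℝ} (hτ : 0 < τ) :
    ∃ N0 : ℕ, 1 ≤ N0 ∧ ∀ N ≥ N0, ∀ Ψ : G → G, QI M K Ψ →
      ∀ (x : G) (n : H) (g0 : G) (w : List (R.Eb × ℕ)), w.length ≤ kw →
      (∀ p ∈ w, (p.2 : ℝ) * τ ≤ tW) →
      ‖GF M N Ψ x n (g0 * 𝓛.tpos N (tw τ w)) - GF M N Ψ x n (g0 * 𝓛.upos N τ w)‖ ≤ δ := by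
  have hC0 := M.C0_pos
  set cK : ℝ := M.C0 * K * (M.C0 * r0) with hcK
  have hcKp : 0 ≤ cK := by positivity
  obtain ⟨δ', hδ', N1, hN1⟩ := hS.iter (|Cb| * tW) kw (δ / (2 * (cK + 1))) (by positivity)
  obtain ⟨N2, hN21, hN2⟩ := exists_N_inv (C := M.C0 * K) (δ := δ / 2) (by positivity)
  obtain ⟨N3, hN31, hN3⟩ := exists_N_inv (C := tW / τ * 𝓛.rX) (δ := δ') hδ'
  refine ⟨max N1 (max N2 N3), hN21.trans ((le_max_left _ _).trans (le_max_right _ _)),
    fun N hN Ψ hΨ x n g0 w hlen hw => ?_⟩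
  have hN1' : N1 ≤ N := le_of_max_le_left hN
  have hN2' : N2 ≤ N := le_of_max_le_left (le_of_max_le_right hN)
  have hN3' : N3 ≤ N := le_of_max_le_right (le_of_max_le_right hN)
  have hNp : (1 : ℝ) ≤ N := by exact_mod_cast hN21.trans hN2'
  have hNn : (0 : ℝ) < N := by linarith
  -- the letters
  set l : List (G × G) := w.map fun p => (𝓛.u N τ p.1 ^ p.2,
    (𝓛.u N τ p.1 ^ p.2)⁻¹ * 𝓛.u N (p.2 * τ) p.1) with hl
  have hfst : (l.map Prod.fst).prod = 𝓛.upos N τ w := by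
    rw [hl, map_map]; rfl
  have hprod : (l.map fun p => p.1 * p.2).prod = 𝓛.tpos N (tw τ w) := by
    rw [hl, map_map]
    unfold Legs.tpos tw
    rw [map_map]
    congr 2
    funext p
    simp
  obtain ⟨m, hm, hmem⟩ := hN1 N hN1' l (by rw [hl, length_map]; exact hlen) (by
    intro q hq
    rw [hl, mem_map] at hq
    obtain ⟨p, hp, rfl⟩ := hq
    have hp1 := hw p hp
    constructor
    · obtain ⟨m, hm, h⟩ := 𝓛.u_pow_mem (N := N) hτ.le p.1 p.2
      refine ⟨m, hm.trans ?_, h⟩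
      gcongr
    · refine ⟨p.2 * 𝓛.rb p.1, ?_, ?_⟩
      · have h1 := hN3 N hN3'
        rw [div_le_iff₀ hNn] at h1
        have h2 : (p.2 : ℝ) ≤ tW / τ := by rwa [le_div_iff₀ hτ]
        have h3 : ((𝓛.rb p.1 : ℕ) : ℝ) ≤ (𝓛.rX : ℝ) := by exact_mod_cast 𝓛.rb_le' p.1
        push_cast
        calc (p.2 : ℝ) * 𝓛.rb p.1 ≤ tW / τ * 𝓛.rX := by gcongr
          _ ≤ δ' * N := h1
      · have h := Bl_inv (𝓛.u_mul_mem (N := N) hτ.le p.1 p.2)
        convert h using 1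
        group)
  rw [hfst, hprod] at hmem
  rw [← norm_neg, neg_sub]
  refine (GF_close hT hΨ (hN21.trans hN2') x n (g0 * 𝓛.upos N τ w) (g0 * 𝓛.tpos N (tw τ w)) hm
    (by rw [mul_inv_rev, mul_assoc, inv_mul_cancel_left]; exact hmem)).trans ?_
  have h4 := hN2 N hN2'
  have h5 : cK * (δ / (2 * (cK + 1))) ≤ δ / 2 := by
    rw [mul_div_assoc', div_le_div_iff₀ (by positivity) (by positivity)]
    nlinarith
  linarith

end Crest.Agent.R182.Star
end

-- ▼ part R182/BoxFreqA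
section

set_option autoImplicit false
set_option linter.unusedSectionVars false

open MeasureTheory List
open scoped RealInnerProductSpace

namespace Crest.Agent.R182.Gen

open Crest.Agent.R182.Nb Crest.Agent.R182.Core Crest.Agent.R182.Cap Crest.Agent.R182.Star
  Crest.Agent.R182.QI Crest.Agent.R182.Erg Crest.Agent.R182.OneScale Crest.Agent.R182.Conv
  Crest.Agent.R182.Facet

section A

variable {Γ : Type*} [Group Γ] [Countable Γ] {k : ℕ} {S : Set Γ}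
  {π : Γ →* Multiplicative (Fin k → ℤ)}
  {M : BModel S π} {E : Type} [NormedAddCommGroup E] [InnerProductSpace ℝ E]
  {T : (Fin k → ℝ) ≃ₗ[ℝ] E} {V : Set M.NN} {RC : ℝ} {P : BModel.CapPar M T V RC}
  {R : RSys (GI M) E} {Tt : Set M.G} {r0 : ℕ} {Cb eps : ℝ}

/-- tuples of powers of unit legs are near tuples -/
theorem nearTup_legs (hT : ∀ s ∈ Tt, s ∈ (M.toCap P).Cl r0) (𝓛 : Legs (M.toCap P) R Tt Cb eps)
    (heps : 0 ≤ eps) {N : ℕ} {τ : ℝ} (hτ : 0 ≤ τ) {m : R.Eb → ℕ} {a q μ Cg : ℝ}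
    (ha : ∀ e, m e * τ ≤ a) (hq : ∀ e, (m e : ℝ) ≤ q) (hCg : r0 * (|Cb| * a) ≤ Cg)
    (hμ : a * eps * N + q * 𝓛.mX ≤ μ * N) :
    NearTup M T R RC Cg μ N (fun e => m e * τ) (fun e => 𝓛.u N τ e ^ m e) where
  word e := by
    obtain ⟨j, hj, hmem⟩ := 𝓛.u_pow_mem (N := N) hτ e (m e)
    refine CW_of_ClSet (Bl_subset_Cl _ hT hmem) le_rfl ?_
    have h1 : (j : ℝ) ≤ |Cb| * a * N := hj.trans (by
      gcongr
      exact ha e)
    have h2 : (j : ℝ) * r0 ≤ |Cb| * a * N * r0 := by gcongr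
    have h3 : r0 * (|Cb| * a) * N ≤ Cg * N := by gcongr
    push_cast
    linarith
  near e := by
    have h1 := 𝓛.hgt_u (N := N) hτ heps e (m e) (R.unit _ e.2)
    have h2 : T (M.h (𝓛.u N τ e ^ m e)) = (M.toCap P).hgt (𝓛.u N τ e ^ m e) := rfl
    have e1 : (m e : ℝ) * τ * N = m e * (τ * N) := by ring
    rw [h2, e1]
    refine h1.trans ?_
    have h3 := 𝓛.mE_le e
    have h4 := 𝓛.mX_nonneg
    have h5 := ha e
    have h6 := hq e
    calc (m e : ℝ) * (eps * (τ * N) + 𝓛.mE e) = (m e * τ) * (eps * N) + m e * 𝓛.mE e := by ring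
      _ ≤ a * (eps * N) + q * 𝓛.mX := by
        have h7 : 0 ≤ eps * N := by positivity
        have h8 : (m e : ℝ) * 𝓛.mE e ≤ q * 𝓛.mX :=
          mul_le_mul h6 h3 (𝓛.mE_pos e).le ((Nat.cast_nonneg _).trans h6)
        have h9 := mul_le_mul_of_nonneg_right h5 h7
        linarith
      _ ≤ μ * N := by linarith

end A

end Crest.Agent.R182.Gen

namespace Crest.Agent.R182.HoleOne

open Crest.GroupTheory Crest.Geometry Crest.Agent.R182.QI Crest.Agent.R182.Core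
  Crest.Agent.R182.Core.BModel Crest.Agent.R182.Nb Crest.Agent.R182.HoleNil
  Crest.Agent.R182.OneScale Crest.Agent.R182.ElI Crest.Agent.R182.Star Crest.Agent.R182.Cap
  Crest.Agent.R182.Gen

section B

variable {Γ : Type*} [Group Γ] [Countable Γ] {k : ℕ} {S : Set Γ}
  {π : Γ →* Multiplicative (Fin k → ℤ)}
  {M : BModel S π} {E : Type} [NormedAddCommGroup E] [InnerProductSpace ℝ E]

theorem hRS_of (G : Geo M E) {V : Set M.NN} {RC : ℝ} (P : BModel.CapPar M G.T V RC) :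
    (M.toCap P).S = G.RS.toGenSys := G.hRS.symm


/-- the unit legs as a `Unit` -/
theorem exists_unit_legs (G : Geo M E) {V : Set M.NN} {RC : ℝ} {P : BModel.CapPar M G.T V RC}
    {Tt : Set M.G} {r0 : ℕ} {Cb eps : ℝ} (hT : ∀ s ∈ Tt, s ∈ (M.toCap P).Cl r0)
    (𝓛 : Legs (M.toCap P) G.RS Tt Cb eps) (heps : 0 ≤ eps) {N : ℕ} {τ e0 : ℝ} (hτ : 0 ≤ τ)
    (he : eps * (τ * N) + 𝓛.mX ≤ e0 * (τ * N)) :
    ∃ un : ElI.Unit G RC (r0 * Cb) e0 τ N, ∀ e, un.u e = 𝓛.u N τ e := by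
  have h : ∀ e : G.R, ∃ l : List M.G, l.prod = 𝓛.u N τ e ∧ (∀ s ∈ l, s ∈ M.C ∧ M.len s ≤ RC) ∧
      (l.length : ℝ) ≤ r0 * Cb * (τ * N) := by
    intro e
    obtain ⟨l, h1, h2, h3⟩ := Bl_subset_Cl _ hT (𝓛.u_mem N τ e)
    refine ⟨l, h3.symm, h2, ?_⟩
    have h4 := 𝓛.p_rb_le (N := N) hτ e
    have h5 : (l.length : ℝ) ≤ ((𝓛.p N τ e * 𝓛.rb e : ℕ) : ℝ) * r0 := by exact_mod_cast h1
    calc (l.length : ℝ) ≤ ((𝓛.p N τ e * 𝓛.rb e : ℕ) : ℝ) * r0 := h5
      _ ≤ Cb * (τ * N) * r0 := by gcongr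
      _ = _ := by ring
  choose l hl1 hl2 hl3 using h
  refine ⟨⟨fun e => 𝓛.u N τ e, l, hl1, hl2, hl3, fun e => ?_⟩, fun _ => rfl⟩
  have h1 := 𝓛.hgt_u (N := N) hτ heps e 1 (G.RS.unit _ e.2)
  rw [pow_one, Nat.cast_one, one_mul, one_mul] at h1
  have h2 := 𝓛.mE_le e
  exact h1.trans (by linarith)

/-- the shapes are bounded -/
theorem exists_bound_Om [FiniteDimensional ℝ E] (G : Geo M E) : ∃ D : ℝ, 0 ≤ D ∧
    ∀ X : G.R → ℝ, (∀ e, |X e - 1| ≤ 1 / 2) → ∀ v ∈ Om G.RS X, ‖v‖ ≤ D := by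
  obtain ⟨F, hF⟩ := exists_frame G
  obtain ⟨B, hB, h⟩ := F.exists_norm_bound'
  refine ⟨B * 2, by positivity, fun X hX v hv => h v 2 (by norm_num) fun r => ?_⟩
  rw [hF]
  have h1 := hv r
  have h2 := (abs_le.1 (hX r)).2
  linarith

theorem hw_append (G : Geo M E) (τ : ℝ) (w w' : List (G.R × ℕ)) :
    hw G τ (w ++ w') = hw G τ w + hw G τ w' := by
  simp [hw]

/-- the times of a word with prefixes in a bounded set are bounded -/
theorem time_le (G : Geo M E) {τ D : ℝ} (hτ : 0 ≤ τ) (w : List (G.R × ℕ))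
    (h : ∀ w', w' <+: w → ‖hw G τ w'‖ ≤ D) : ∀ p ∈ w, (p.2 : ℝ) * τ ≤ 2 * D := by
  intro p hp
  obtain ⟨w1, w2, rfl⟩ := List.append_of_mem hp
  have h1 := h w1 (List.prefix_append _ _)
  have h2 := h (w1 ++ [p]) (by
    rw [show w1 ++ p :: w2 = (w1 ++ [p]) ++ w2 by simp]
    exact List.prefix_append _ _)
  rw [hw_append, hw_cons, hw_nil, add_zero] at h2
  have h3 : ‖((p.2 : ℝ) * τ) • (p.1 : E)‖ = p.2 * τ := by
    rw [norm_smul, G.norm_ray, mul_one, Real.norm_of_nonneg (by positivity)]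
  have h4 : ((p.2 : ℝ) * τ) • (p.1 : E) = (hw G τ w1 + ((p.2 : ℝ) * τ) • (p.1 : E)) - hw G τ w1 := by
    abel
  have h5 := norm_sub_le (hw G τ w1 + ((p.2 : ℝ) * τ) • (p.1 : E)) (hw G τ w1)
  rw [← h4, h3] at h5
  linarith

theorem hw_eq_tsum (G : Geo M E) (τ : ℝ) (w : List (G.R × ℕ)) :
    hw G τ w = tsum (tw τ w) := (tsum_tw τ w).symm

/-- from the law for timed words to the law in powers of unit legs -/
theorem rawLaw_of_timed (G : Geo M E) {V : Set M.NN} {RC : ℝ} {P : BModel.CapPar M G.T V RC}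
    {Tt : Set M.G} {Cb eps : ℝ} (𝓛 : Legs (M.toCap P) G.RS Tt Cb eps)
    {N : ℕ} {τ : ℝ} (hτ : 0 < τ) {D tW η η' δ : ℝ} {kw : ℕ} (hkw : 2 ≤ kw) (htW : 2 * D ≤ tW)
    (hη' : η' + δ ≤ η) (hδ : 0 ≤ δ) {Ψ : Γ → Γ} {y : M.G}
    (hunit : ∀ (n : M.NN) (w : List (G.R × ℕ)), w.length ≤ 2 → (∀ p ∈ w, (p.2 : ℝ) * τ ≤ tW) →
      ‖GF (M.toCap P) N (M.ext Ψ) y n (𝓛.tpos N (tw τ w)) -
        GF (M.toCap P) N (M.ext Ψ) y n (𝓛.upos N τ w)‖ ≤ δ)
    {m : G.R → ℕ} (hD : ∀ v ∈ Om G.RS (fun e : G.R => (m e : ℝ) * τ), ‖v‖ ≤ D)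
    {L : E →ₗ[ℝ] E} {θ : E}
    (hlaw : volume {n : M.NN | n ∈ box M (fam M G.ray fun e => 𝓛.u N τ e ^ m e) 1 ∧
      ¬ ∀ w : List (G.R × ℝ), w.length ≤ kw → (∀ p ∈ w, 0 ≤ p.2 ∧ p.2 ≤ tW) →
        (∀ w', w' <+: w → tsum w' ∈ Om G.RS (fun e : G.R => (m e : ℝ) * τ)) →
        ‖GF (M.toCap P) N (M.ext Ψ) y n (𝓛.tpos N w) - θ - L (tsum w)‖ ≤ η'} ≤
      ENNReal.ofReal η' * volume (box M (fam M G.ray fun e => 𝓛.u N τ e ^ m e) 1))
    {u : G.R → M.G} (hu : ∀ e, u e = 𝓛.u N τ e) :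
    RawLaw G Ψ N τ u η (fun e => m e * τ) y L θ := by
  have hu' : u = fun e => 𝓛.u N τ e := funext hu
  subst hu'
  unfold RawLaw
  rw [fm_eq G _ hτ m]
  refine (measure_mono ?_).trans (hlaw.trans (mul_le_mul'
    (ENNReal.ofReal_le_ofReal (by linarith)) le_rfl))
  rintro n ⟨hn, hbad⟩
  refine ⟨hn, fun hall => hbad fun w hwl hpre => ?_⟩
  have hin : ∀ w', w' <+: w → hw G τ w' ∈ Om G.RS (fun e : G.R => (m e : ℝ) * τ) :=
    fun w' hw' e => hpre w' hw' e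
  have htime : ∀ p ∈ w, (p.2 : ℝ) * τ ≤ tW := fun p hp =>
    (time_le G hτ.le w (fun w' hw' => hD _ (hin w' hw')) p hp).trans htW
  have h1 := hall (tw τ w) (by rw [length_tw]; omega) (by
    intro p hp
    obtain ⟨q, hq, rfl⟩ := mem_tw hp
    exact ⟨by positivity, htime q hq⟩) (by
    intro w' hw'
    obtain ⟨w'', hw'', rfl⟩ := prefix_tw hw'
    rw [← hw_eq_tsum]
    exact hin w'' hw'')
  have h2 := hunit n w hwl htime
  rw [norm_sub_rev] at h2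
  have h3 : (N : ℝ)⁻¹ • G.T (fh M Ψ (y * M.toG n * uw (fun e => 𝓛.u N τ e) w)) =
      GF (M.toCap P) N (M.ext Ψ) y n (𝓛.upos N τ w) := rfl
  rw [h3, hw_eq_tsum]
  have h4 : GF (M.toCap P) N (M.ext Ψ) y n (𝓛.upos N τ w) - θ - L (tsum (tw τ w)) =
      (GF (M.toCap P) N (M.ext Ψ) y n (𝓛.upos N τ w) -
        GF (M.toCap P) N (M.ext Ψ) y n (𝓛.tpos N (tw τ w))) +
      (GF (M.toCap P) N (M.ext Ψ) y n (𝓛.tpos N (tw τ w)) - θ - L (tsum (tw τ w))) := by abel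
  rw [h4]
  refine (norm_add_le _ _).trans ?_
  linarith

end B

end Crest.Agent.R182.HoleOne
end

-- ▼ part R182/BoxMain
section

set_option autoImplicit false
set_option linter.unusedSectionVars false

open MeasureTheory Set
open scoped ENNReal Pointwise Topology

namespace Crest.Agent.R182.Gen

open Crest.Agent.R182.Nb Crest.Agent.R182.Core Crest.Agent.R182.Cap Crest.Agent.R182.Star
  Crest.Agent.R182.Facet

theorem exists_pos_le {α : Type*} (s : Finset α) (f : α → ℝ) (h : ∀ x ∈ s, 0 < f x) :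
    ∃ δ : ℝ, 0 < δ ∧ ∀ x ∈ s, δ ≤ f x := by
  classical
  induction s using Finset.induction_on with
  | empty => exact ⟨1, one_pos, by simp⟩
  | insert a s ha ih =>
    obtain ⟨δ, hδ, h1⟩ := ih fun x hx => h x (Finset.mem_insert_of_mem hx)
    refine ⟨min δ (f a), lt_min hδ (h a (Finset.mem_insert_self _ _)), fun x hx => ?_⟩
    rcases Finset.mem_insert.1 hx with rfl | hx
    · exact min_le_right _ _
    · exact (min_le_left _ _).trans (h1 x hx)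

section boxes

variable {Γ : Type*} [Group Γ] {k : ℕ} {S : Set Γ} {π : Γ →* Multiplicative (Fin k → ℤ)}
  (M : BModel S π)

theorem box_smul_mono {v : M.gen → M.L} {a b : ℝ} (ha : 0 < a) (hab : a ≤ b) :
    box M (fun i => a • v i) 1 ⊆ box M (fun i => b • v i) 1 := by
  intro n hn
  have h1 : 1 ≤ b / a := by rwa [one_le_div ha]
  have h2 := Bx_le_smul h1 zero_le_one hn
  simp only [smul_smul, div_mul_cancel₀ _ ha.ne'] at h2
  exact h2

theorem volume_box_ratio {v : M.gen → M.L} {a b : ℝ} (ha : 0 < a) (hab : a ≤ b) :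
    volume (box M (fun i => b • v i) 1) ≤
      ENNReal.ofReal (((b / a) ^ M.c) ^ M.r) * volume (box M (fun i => a • v i) 1) := by
  have h1 : 1 ≤ b / a := by rwa [one_le_div ha]
  have h2 := volume_box_smul_le M (v := fun i => a • v i) (t := 1) h1
  simp only [smul_smul, div_mul_cancel₀ _ ha.ne'] at h2
  exact h2

end boxes

section near

variable {Γ : Type*} [Group Γ] [Countable Γ] {k : ℕ} {S : Set Γ}
  {π : Γ →* Multiplicative (Fin k → ℤ)}
  {M : BModel S π} {E : Type} [NormedAddCommGroup E] [InnerProductSpace ℝ E]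
  {T : (Fin k → ℝ) ≃ₗ[ℝ] E} {V : Set M.NN} {RC : ℝ} {P : BModel.CapPar M T V RC}
  {R : RSys (GI M) E} {Tt : Set M.G} {r0 : ℕ}

theorem cw_of_Bl (hT : ∀ s ∈ Tt, s ∈ (M.toCap P).Cl r0) {m : ℕ} {g : M.G} (hg : g ∈ Bl Tt m)
    {Rl Pn : ℝ} (hRl : RC ≤ Rl) (h : (m : ℝ) * r0 + 1 ≤ Pn) : CW M Rl Pn g := by
  obtain ⟨l, hl, hlC, rfl⟩ := Bl_subset_Cl (M.toCap P) hT hg
  refine ⟨l, rfl, fun s hs => ⟨(hlC s hs).1, (hlC s hs).2.trans hRl⟩, ?_⟩
  have h1 : (l.length : ℝ) ≤ m * r0 := by exact_mod_cast hl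
  linarith

/-- tuples close to the legs are near tuples -/
theorem exists_nearTup (hT : ∀ s ∈ Tt, s ∈ (M.toCap P).Cl r0) (Cb : ℝ) {μ : ℝ} (hμ : 0 < μ) :
    ∃ κ0 : ℝ, 0 < κ0 ∧ ∀ κ : ℝ, 0 ≤ κ → κ ≤ κ0 → κ ≤ 1 → ∀ eps : ℝ, 0 ≤ eps → eps ≤ μ / 8 →
      ∀ 𝓛 : Legs (M.toCap P) R Tt Cb eps, ∃ N0 : ℕ, 1 ≤ N0 ∧ ∀ N ≥ N0, ∀ X : R.Eb → ℝ,
      (∀ e, |X e - 1| ≤ 1 / 2) → ∀ g : R.Eb → M.G,
      (∀ e, ∃ m : ℕ, (m : ℝ) ≤ κ * N ∧ (𝓛.u N (X e) e)⁻¹ * g e ∈ Bl Tt m) →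
      ∀ Rl : ℝ, RC ≤ Rl → ∀ Cg : ℝ, (2 * |Cb| + 1) * r0 ≤ Cg → NearTup M T R Rl Cg μ N X g := by
  have hC0 := (M.toCap P).C0_pos
  set c : ℝ := (M.toCap P).C0 * ((M.toCap P).C0 * r0) with hc
  have hc0 : 0 ≤ c := by positivity
  refine ⟨μ / (4 * (c + 1)), by positivity, fun κ hκ hκ0 hκ1 eps heps hepsμ 𝓛 => ?_⟩
  obtain ⟨N0, hN01, hN0⟩ := exists_N_inv (C := 𝓛.mX) (δ := μ / 4) (by positivity)
  refine ⟨N0, hN01, fun N hN X hX g hg Rl hRl Cg hCg => ?_⟩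
  have hN1 : (1 : ℝ) ≤ N := by exact_mod_cast hN01.trans hN
  have hNp : (0 : ℝ) < N := by linarith
  have hX0 : ∀ e, 0 ≤ X e := fun e => by have := (abs_le.1 (hX e)).1; linarith
  have hX2 : ∀ e, X e ≤ 2 := fun e => by have := (abs_le.1 (hX e)).2; linarith
  refine ⟨fun e => ?_, fun e => ?_⟩
  · obtain ⟨m, hm, hz⟩ := hg e
    obtain ⟨m', hm', hu⟩ := 𝓛.u_pow_mem (N := N) (hX0 e) e 1
    rw [pow_one] at hu
    have hge : g e = 𝓛.u N (X e) e * ((𝓛.u N (X e) e)⁻¹ * g e) := by group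
    rw [hge]
    refine cw_of_Bl hT (Bl_mul hu hz) hRl ?_
    have h1 : (m' : ℝ) ≤ |Cb| * 2 * N := by
      refine hm'.trans ?_
      have := hX2 e
      have h3 : (1 : ℕ) * X e ≤ 2 := by push_cast; linarith
      gcongr
    have h2 : (m : ℝ) ≤ 1 * N := hm.trans (by gcongr)
    push_cast
    have h4 : ((m' : ℝ) + m) * r0 ≤ ((2 * |Cb| + 1) * r0) * N := by
      calc ((m' : ℝ) + m) * r0 ≤ (|Cb| * 2 * N + 1 * N) * r0 := by gcongr
        _ = _ := by ring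
    have h5 : ((2 * |Cb| + 1) * r0) * N ≤ Cg * N := by gcongr
    linarith
  · obtain ⟨m, hm, hz⟩ := hg e
    have h1 := 𝓛.hgt_u (N := N) (hX0 e) heps e 1 (R.unit e e.2)
    rw [pow_one, Nat.cast_one, one_mul, one_mul] at h1
    have hge : g e = 𝓛.u N (X e) e * ((𝓛.u N (X e) e)⁻¹ * g e) := by group
    have h2 : T (M.h (g e)) = (M.toCap P).hgt (𝓛.u N (X e) e) +
        (M.toCap P).hgt ((𝓛.u N (X e) e)⁻¹ * g e) := by
      rw [← (M.toCap P).hgt_mul, ← hge]; rfl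
    have h3 : ‖(M.toCap P).hgt ((𝓛.u N (X e) e)⁻¹ * g e)‖ ≤ c * (κ * N) := by
      refine ((M.toCap P).hgt_le _).trans ?_
      have h4 := len_Bl (M.toCap P) hT hz
      calc (M.toCap P).C0 * (M.toCap P).len ((𝓛.u N (X e) e)⁻¹ * g e)
          ≤ (M.toCap P).C0 * ((M.toCap P).C0 * (r0 * m)) := by gcongr
        _ ≤ (M.toCap P).C0 * ((M.toCap P).C0 * (r0 * (κ * N))) := by gcongr
        _ = _ := by rw [hc]; ring
    have h5 := 𝓛.mE_le e
    have h6 := hN0 N hN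
    rw [div_le_iff₀ hNp] at h6
    have h7 : c * κ ≤ μ / 4 := by
      have : c * κ ≤ c * (μ / (4 * (c + 1))) := by gcongr
      refine this.trans ?_
      rw [mul_div_assoc', div_le_div_iff₀ (by positivity) (by positivity)]
      nlinarith
    rw [h2]
    have h8 : (M.toCap P).hgt (𝓛.u N (X e) e) + (M.toCap P).hgt ((𝓛.u N (X e) e)⁻¹ * g e) -
        (X e * N) • (e : E) = ((M.toCap P).hgt (𝓛.u N (X e) e) - (X e * N) • (e : E)) +
        (M.toCap P).hgt ((𝓛.u N (X e) e)⁻¹ * g e) := by abel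
    rw [h8]
    refine (norm_add_le _ _).trans ?_
    have h9 : eps * (X e * N) ≤ μ / 4 * N := by
      calc eps * (X e * N) ≤ μ / 8 * (2 * N) := by
            have := hX2 e
            have := hX0 e
            gcongr
        _ = μ / 4 * N := by ring
    have h10 : c * (κ * N) ≤ μ / 4 * N := by
      have := mul_le_mul_of_nonneg_right h7 hNp.le
      linarith
    have h11 : 0 ≤ μ * N := by positivity
    linarith

/-- two good points with close test heights have the same law -/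
theorem transfer [FiniteDimensional ℝ E] {Cb eps : ℝ} {𝓛 : Legs (M.toCap P) R Tt Cb eps} {N : ℕ} {X : R.Eb → ℝ}
    (hX : ∀ e, |X e - 1| ≤ 1 / 2) {kw : ℕ} (hkw : 1 ≤ kw) {tW : ℝ} (htW : 2 ≤ tW) {η d sep : ℝ}
    (hsep : ∀ e ∈ R.Eb, ∀ e' ∈ R.Eb, e ≠ e' → sep ≤ ‖e - e'‖) (hnum : 4 * d + 4 * η < sep)
    {Ψ : M.G → M.G} {x : M.G} {q0 q : M.NN} {σ0 : Equiv.Perm R.Eb} {L0 : E →ₗ[ℝ] E}
    (hL0 : ∀ e : R.Eb, L0 e = σ0 e)
    (h0 : ∀ w : List (R.Eb × ℝ), w.length ≤ kw → (∀ p ∈ w, 0 ≤ p.2 ∧ p.2 ≤ tW) →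
      (∀ w', w' <+: w → tsum w' ∈ Om R X) →
      ‖GF (M.toCap P) N Ψ x q0 (𝓛.tpos N w) - GF (M.toCap P) N Ψ x q0 1 - L0 (tsum w)‖ ≤ η)
    (hq : SGood 𝓛 N X kw tW η Ψ x q)
    (hd : ∀ o, ‖GF (M.toCap P) N Ψ x q0 (tg 𝓛 N o) - GF (M.toCap P) N Ψ x q (tg 𝓛 N o)‖ ≤ d) :
    ∀ w : List (R.Eb × ℝ), w.length ≤ kw → (∀ p ∈ w, 0 ≤ p.2 ∧ p.2 ≤ tW) →
      (∀ w', w' <+: w → tsum w' ∈ Om R X) →
      ‖GF (M.toCap P) N Ψ x q (𝓛.tpos N w) - GF (M.toCap P) N Ψ x q0 1 - L0 (tsum w)‖ ≤ η + d := by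
  obtain ⟨σ, L, hL, hlaw⟩ := hq
  have hword : ∀ e : R.Eb, (∀ p ∈ [(e, (1 / 2 : ℝ))], 0 ≤ p.2 ∧ p.2 ≤ tW) ∧
      (∀ w' : List (R.Eb × ℝ), w' <+: [(e, (1 / 2 : ℝ))] → tsum w' ∈ Om R X) ∧
      𝓛.tpos N [(e, (1 / 2 : ℝ))] = tg 𝓛 N (some e) ∧
      tsum [(e, (1 / 2 : ℝ))] = (1 / 2 : ℝ) • (e : E) := by
    intro e
    have e2 : tsum [(e, (1 / 2 : ℝ))] = (1 / 2 : ℝ) • (e : E) := by simp [Star.tsum]
    refine ⟨?_, ?_, by simp [Legs.tpos, tg], e2⟩
    · intro p hp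
      have : p = (e, 1 / 2) := by simpa using hp
      subst this
      constructor
      · norm_num
      · change (1 / 2 : ℝ) ≤ tW; linarith
    · intro w' hw'
      rcases List.prefix_cons_iff.1 hw' with rfl | ⟨t, rfl, ht⟩
      · simpa [Star.tsum] using zero_mem_Om (R := R) hX
      · have ht' : t = [] := by simpa using ht
        subst ht'
        refine mem_Om_of_norm ?_ hX
        rw [e2, norm_smul, R.unit e e.2]
        norm_num
  have hLL : L = L0 := by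
    refine LinearMap.ext_on R.span_Eb fun e he => ?_
    obtain ⟨w1, w2, w3, w4⟩ := hword ⟨e, he⟩
    have a1 := hlaw _ (by simpa using hkw) w1 w2
    have a2 := h0 _ (by simpa using hkw) w1 w2
    rw [w3, w4] at a1 a2
    have a3 := hd (some ⟨e, he⟩)
    have a4 := hd none
    have a5 : tg 𝓛 N none = (1 : M.G) := rfl
    rw [a5] at a4
    have a6 : ‖(1 / 2 : ℝ) • (L e - L0 e)‖ ≤ 2 * d + 2 * η := by
      have a7 : (1 / 2 : ℝ) • (L e - L0 e) =
          -(GF (M.toCap P) N Ψ x q (tg 𝓛 N (some ⟨e, he⟩)) - GF (M.toCap P) N Ψ x q 1 -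
            L ((1 / 2 : ℝ) • e)) +
          (GF (M.toCap P) N Ψ x q0 (tg 𝓛 N (some ⟨e, he⟩)) - GF (M.toCap P) N Ψ x q0 1 -
            L0 ((1 / 2 : ℝ) • e)) -
          (GF (M.toCap P) N Ψ x q0 (tg 𝓛 N (some ⟨e, he⟩)) -
            GF (M.toCap P) N Ψ x q (tg 𝓛 N (some ⟨e, he⟩))) +
          (GF (M.toCap P) N Ψ x q0 1 - GF (M.toCap P) N Ψ x q 1) := by
        rw [map_smul, map_smul, smul_sub]; abel
      rw [a7]
      refine (norm_add_le _ _).trans ?_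
      refine (add_le_add (norm_sub_le _ _) le_rfl).trans ?_
      refine (add_le_add (add_le_add (norm_add_le _ _) le_rfl) le_rfl).trans ?_
      rw [norm_neg]
      linarith
    have a8 : L e = (σ ⟨e, he⟩ : E) := hL ⟨e, he⟩
    have a9 : L0 e = (σ0 ⟨e, he⟩ : E) := hL0 ⟨e, he⟩
    by_contra hne
    have hne' : ((σ ⟨e, he⟩ : R.Eb) : E) ≠ (σ0 ⟨e, he⟩ : E) := by rw [← a8, ← a9]; exact hne
    have b1 := hsep _ (σ ⟨e, he⟩).2 _ (σ0 ⟨e, he⟩).2 hne'
    rw [norm_smul, a8, a9, Real.norm_of_nonneg (by norm_num)] at a6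
    linarith
  subst hLL
  intro w hw1 hw2 hw3
  have b1 := hlaw w hw1 hw2 hw3
  have b2 := hd none
  have a5 : tg 𝓛 N none = (1 : M.G) := rfl
  rw [a5, norm_sub_rev] at b2
  have b3 : GF (M.toCap P) N Ψ x q (𝓛.tpos N w) - GF (M.toCap P) N Ψ x q0 1 - L (tsum w) =
      (GF (M.toCap P) N Ψ x q (𝓛.tpos N w) - GF (M.toCap P) N Ψ x q 1 - L (tsum w)) +
      (GF (M.toCap P) N Ψ x q 1 - GF (M.toCap P) N Ψ x q0 1) := by abel
  rw [b3]
  refine (norm_add_le _ _).trans ?_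
  linarith

/-- measurability of the heights -/
theorem measurable_GF [MeasurableSpace E] {K : ℝ} {Ψ : M.G → M.G} (hΨ : QI (M.toCap P) K Ψ)
    (N : ℕ) (x g : M.G) : Measurable fun n : M.NN => GF (M.toCap P) N Ψ x n g := by
  intro s _
  exact hΨ.meas x g ((fun y => (N : ℝ)⁻¹ • (M.toCap P).hgt y) ⁻¹' s)

end near

end Crest.Agent.R182.Gen
end

-- ▼ part R182/BoxMain2

set_option autoImplicit false
set_option linter.unusedSectionVars false

open MeasureTheory Set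
open scoped ENNReal Pointwise Topology

namespace Crest.Agent.R182.Gen

open Crest.Agent.R182.Nb Crest.Agent.R182.Core Crest.Agent.R182.Cap Crest.Agent.R182.Star
  Crest.Agent.R182.Facet

theorem measure_step {α : Type*} [MeasurableSpace α] (μ : Measure α) {B A D : Set α} {a b : ℝ}
    (hcompl : μ (B \ A) ≤ ENNReal.ofReal a * μ B) (ha : a ≤ 1 / 2)
    (hB : μ B ≠ ∞) (hAB : A ⊆ B) (hB0 : μ B ≠ 0) : μ A ≠ 0 ∧
    (μ D * μ A ≤ ENNReal.ofReal b * μ B * μ B → μ D ≤ ENNReal.ofReal (2 * b) * μ B) := by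
  have h1 : μ B ≤ 2 * μ A := by
    have h2 : μ B ≤ μ A + ENNReal.ofReal (1 / 2) * μ B := by
      calc μ B ≤ μ (A ∪ (B \ A)) :=
            measure_mono (by rw [Set.union_sdiff_self]; exact Set.subset_union_right)
        _ ≤ μ A + μ (B \ A) := measure_union_le _ _
        _ ≤ _ := by
          gcongr
          exact hcompl.trans (by gcongr)
    have h3 : μ B = ENNReal.ofReal (1 / 2) * μ B + ENNReal.ofReal (1 / 2) * μ B := by
      rw [← add_mul, ← ENNReal.ofReal_add (by norm_num) (by norm_num)]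
      norm_num
    have h4 : ENNReal.ofReal (1 / 2) * μ B ≠ ∞ := ENNReal.mul_ne_top ENNReal.ofReal_ne_top hB
    have h5 : ENNReal.ofReal (1 / 2) * μ B ≤ μ A := by
      have h6 : ENNReal.ofReal (1 / 2) * μ B + ENNReal.ofReal (1 / 2) * μ B ≤
          μ A + ENNReal.ofReal (1 / 2) * μ B := by rw [← h3]; exact h2
      exact (ENNReal.add_le_add_iff_right h4).1 h6
    rw [two_mul, h3]
    gcongr
  have hA0 : μ A ≠ 0 := by
    intro h
    rw [h, mul_zero] at h1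
    exact hB0 (le_antisymm h1 (zero_le))
  have hAt : μ A ≠ ∞ := ne_top_of_le_ne_top hB (measure_mono hAB)
  refine ⟨hA0, fun h => ?_⟩
  have h2 : μ D * μ A ≤ (ENNReal.ofReal b * μ B * 2) * μ A := by
    refine h.trans ?_
    calc ENNReal.ofReal b * μ B * μ B ≤ ENNReal.ofReal b * μ B * (2 * μ A) := by gcongr
      _ = _ := by ring
  have h3 := (ENNReal.mul_le_mul_iff_left hA0 hAt).1 h2
  refine h3.trans (le_of_eq ?_)
  rw [mul_comm 2 b, ENNReal.ofReal_mul' (by norm_num)]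
  norm_num
  ring

section main

variable {Γ : Type*} [Group Γ] [Countable Γ] {k : ℕ} {S : Set Γ}
  {π : Γ →* Multiplicative (Fin k → ℤ)}
  {M : BModel S π} {E : Type} [NormedAddCommGroup E] [InnerProductSpace ℝ E]
  [FiniteDimensional ℝ E] [MeasurableSpace E] [BorelSpace E]
  {T : (Fin k → ℝ) ≃ₗ[ℝ] E} {V : Set M.NN} {RC : ℝ} {P : BModel.CapPar M T V RC}
  {R : RSys (GI M) E} {Tt : Set M.G} {r0 : ℕ}

/-- **BOX at one scale.** -/
theorem box_one (hRe : (M.toCap P).Reach) (hEn : (M.toCap P).Ent)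
    (hRS : (M.toCap P).S = R.toGenSys) (hVb : ∃ ρ : ℝ, ∀ n ∈ V, ‖n‖ ≤ ρ)
    (hV1 : V ∈ 𝓝 (1 : M.NN)) (hT : ∀ s ∈ Tt, s ∈ (M.toCap P).Cl r0) (hS : Slow Tt) (Cb : ℝ)
    {K : ℝ} (hK : 1 ≤ K) {m1 : ℝ} (hm1 : 0 < m1) (hm11 : m1 ≤ 1)
    (hm1le : ∀ e ∈ R.Eb, ∀ e' ∈ R.Eb, e ≠ e' → inner ℝ e e' ≤ 1 - m1) {R0 : ℝ} (hR0 : 1 ≤ R0) :
    ∃ D1 D2 CQ C2 : ℝ, 1 ≤ D1 ∧ 1 ≤ D2 ∧
      (∀ (v : M.gen → M.L) (g' : M.G), Sm M v 1 g' → ∀ a ∈ V,
        ∀ q ∈ box M (fun i => D1 • v i) 1, q * (M.conjN g' a)⁻¹ ∈ box M (fun i => D2 • v i) 1) ∧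
      (∀ v : M.gen → M.L, volume (box M (fun i => D2 • v i) 1) ≤
        ENNReal.ofReal CQ * volume (box M (fun i => D1 • v i) 1)) ∧
      (∀ {ρ : Type} (ray : M.gen → ρ) (g : ρ → M.G) (N : ℕ), 1 ≤ N →
        (∀ r, CW M (max RC 0) (2 + ((2 * |Cb| + 1) * r0) * N) (g r)) →
        ∀ n ∈ box M (fun i => D1 • fam M ray g i) 1,
          (M.toCap P).len ((M.toCap P).emb n) ≤ C2 * N) ∧
    ∀ η : ℝ, 0 < η → ∀ (kw : ℕ) (tW : ℝ), ∃ (eps2 η1 : ℝ) (kw1 : ℕ) (tW1 : ℝ), 0 < eps2 ∧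
      0 < η1 ∧ 0 ≤ tW1 ∧ ∀ eps : ℝ, 0 ≤ eps → eps ≤ eps2 →
      ∀ 𝓛 : Legs (M.toCap P) R Tt Cb eps, ∃ κ : ℝ, 0 < κ ∧ κ ≤ 1 ∧ ∃ N0 : ℕ, 1 ≤ N0 ∧ ∀ N ≥ N0,
      ∀ X : R.Eb → ℝ, (∀ e, |X e - 1| ≤ m1 / 10) → ∀ g : R.Eb → M.G,
      (∀ e, ∃ m : ℕ, (m : ℝ) ≤ κ * N ∧ (𝓛.u N (X e) e)⁻¹ * g e ∈ Bl Tt m) →
      ∀ Ψ : M.G → M.G, QI (M.toCap P) K Ψ → ∀ x : M.G,
      volume {n : M.NN | n ∈ box M (fun i => D1 • fam M (rayE hRS) g i) 1 ∧
        ¬ SGood 𝓛 N X kw1 tW1 η1 Ψ x n} ≤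
          ENNReal.ofReal η1 * volume (box M (fun i => D1 • fam M (rayE hRS) g i) 1) →
      ∃ (σ : Equiv.Perm R.Eb) (L : E →ₗ[ℝ] E) (θ : E), (∀ e : R.Eb, L e = σ e) ∧
        volume {n : M.NN | n ∈ box M (fun i => R0 • fam M (rayE hRS) g i) 1 ∧
          ¬ ∀ w : List (R.Eb × ℝ), w.length ≤ kw → (∀ p ∈ w, 0 ≤ p.2 ∧ p.2 ≤ tW) →
            (∀ w', w' <+: w → tsum w' ∈ Om R X) →
            ‖GF (M.toCap P) N Ψ x n (𝓛.tpos N w) - θ - L (tsum w)‖ ≤ η} ≤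
          ENNReal.ofReal η * volume (box M (fun i => R0 • fam M (rayE hRS) g i) 1) := by
  classical
  have hVm : MeasurableSet V := P.V_meas
  have hR00 : 0 < R0 := by linarith
  obtain ⟨ρV, hρV⟩ := hVb
  obtain ⟨ρ3, hρ3⟩ := exists_bound M ρV
  set ρ4 := max (max ρ3 ρV) 0 with hρ4
  obtain ⟨J, R1, C, hR1, hC, hbox⟩ := box_law' M (spans M) (bgen M) 1 hVm ⟨ρV, hρV⟩ hV1 hR0
  obtain ⟨D, hD, hmove⟩ := exists_move' M (spans M) 1 ρ4 (le_max_right _ _)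
  have hR11 : 1 ≤ R1 := hR0.trans hR1
  have hDR1 : 1 ≤ D * R1 := one_le_mul_of_one_le_of_one_le hD hR11
  have hDDR1 : 1 ≤ D * (D * R1) := one_le_mul_of_one_le_of_one_le hD hDR1
  obtain ⟨c2, hc2, hlen⟩ := exists_len_box M (max RC 0) ((2 * |Cb| + 1) * r0) (D * R1)
    (le_max_right _ _) (by positivity) hDR1
  have hs : 0 ≤ P.s := by linarith [P.one_le_s]
  set CQ : ℝ := ((D * (D * R1) / (D * R1)) ^ M.c) ^ M.r with hCQ
  set CB : ℝ := ((D * R1 / R0) ^ M.c) ^ M.r with hCB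
  have hD0 : 0 < D := by linarith
  have hR10 : 0 < R1 := by linarith
  have hCQ0 : 0 ≤ CQ := by positivity
  have hCB0 : 0 ≤ CB := by positivity
  refine ⟨D * R1, D * (D * R1), CQ, P.s * c2, hDR1, hDDR1, ?_, ?_, ?_, ?_⟩
  · intro v g' hg' a ha q hq
    rw [← map_inv]
    refine hmove v g' hg' (D * R1) hDR1 q hq a⁻¹ ?_
    rw [M.inv_def, norm_neg]
    exact (hρV a ha).trans ((le_max_right _ _).trans (le_max_left _ _))
  · intro v
    exact volume_box_ratio M (by linarith) (le_mul_of_one_le_left (by linarith) hD)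
  · intro ρ ray g N hN hg n hn
    have h1 := hlen ray g N hN hg n hn
    change P.s * M.len (M.toG n) ≤ P.s * c2 * N
    rw [mul_assoc]
    exact mul_le_mul_of_nonneg_left h1 hs
  intro η hη kw tW
  obtain ⟨sep, hsep, hsepE⟩ := exists_sep R.Eb
  set vV : ℝ := (volume V).toReal with hvV
  have hvV0 : 0 ≤ vV := ENNReal.toReal_nonneg
  have hVfin : volume V ≠ ∞ := P.V_fin
  have hC0 := (M.toCap P).C0_pos
  -- the proportion for the facets
  obtain ⟨ηf, hηf, hηf'⟩ : ∃ ηf : ℝ, 0 < ηf ∧ ηf * (2 * C * CQ * CB * vV ^ 2) ≤ η / 4 := by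
    obtain ⟨t, ht, ht'⟩ := ex_mul_le (c := 2 * C * CQ * CB * vV ^ 2) (by positivity)
      (d := η / 4) (by positivity)
    exact ⟨t, ht, ht' t le_rfl⟩
  have hfac := fun er : R.Eb => facet_bad hRe hEn hK R hRS er.2
    (Cs := (M.toCap P).C0 * (r0 * |Cb|)) (by positivity) (ρ := m1 / 2) (η := ηf) (by positivity)
    hηf
  choose e1 W he1 hW hfac using hfac
  choose N6 hfac using fun er => hfac er (r0 * |Cb|)
  obtain ⟨e1m, he1m, he1m'⟩ := exists_pos_le Finset.univ e1 fun er _ => he1 er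
  -- the length of the test words
  obtain ⟨kW, hkW⟩ : ∃ kW : ℕ, ∀ er, ∀ w ∈ W er, w.length ≤ kW := by
    refine ⟨(Finset.univ.biUnion W).sup List.length, fun er w hw => ?_⟩
    exact Finset.le_sup (f := List.length)
      (Finset.mem_biUnion.2 ⟨er, Finset.mem_univ _, hw⟩)
  -- their margin
  obtain ⟨δW, hδW, hδW'⟩ : ∃ δW : ℝ, 0 < δW ∧ ∀ er, ∀ w ∈ W er,
      inner ℝ (er : E) (tsum w) ≤ -δW := by
    obtain ⟨δ, hδ, h⟩ := exists_pos_le (Finset.univ.sigma W)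
      (fun p => -inner ℝ (p.1 : E) (tsum p.2)) (by
        intro p hp
        have h1 := (Finset.mem_sigma.1 hp).2
        have h2 := (hW p.1 p.2 h1).2.1
        linarith)
    refine ⟨δ, hδ, fun er w hw => ?_⟩
    have := h ⟨er, w⟩ (Finset.mem_sigma.2 ⟨Finset.mem_univ _, hw⟩)
    linarith
  -- the error
  obtain ⟨e, he, hee1, hesep, heη⟩ : ∃ e : ℝ, 0 < e ∧ e ≤ e1m ∧ e * (40 * J + 4) ≤ sep ∧
      e * (10 * J + 1) ≤ η := by
    obtain ⟨t, ht, ht'⟩ := ex_mul_le (c := 40 * (J : ℝ) + 4) (by positivity) (d := sep) hsep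
    obtain ⟨t2, ht2, ht2'⟩ := ex_mul_le (c := 10 * (J : ℝ) + 1) (by positivity) (d := η) hη
    exact ⟨min e1m (min t t2), lt_min he1m (lt_min ht ht2), min_le_left _ _,
      ht' _ ((min_le_right _ _).trans (min_le_left _ _)),
      ht2' _ ((min_le_right _ _).trans (min_le_right _ _))⟩
  obtain ⟨η1, hη1, hn1, hn2, hn3, hn4⟩ : ∃ η1 : ℝ, 0 < η1 ∧ η1 ≤ e / 2 ∧ η1 * CB ≤ 1 / 2 ∧
      η1 * CB ≤ η / 2 ∧ η1 * (4 * C * CB * vV ^ 2) ≤ η / 4 := by
    obtain ⟨t, ht, ht'⟩ := ex_mul_le hCB0 (d := 1 / 2) (by norm_num)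
    obtain ⟨t2, ht2, ht2'⟩ := ex_mul_le hCB0 (d := η / 2) (by positivity)
    obtain ⟨t3, ht3, ht3'⟩ := ex_mul_le (c := 4 * C * CB * vV ^ 2) (by positivity) (d := η / 4)
      (by positivity)
    exact ⟨min (e / 2) (min t (min t2 t3)), lt_min (by positivity) (lt_min ht (lt_min ht2 ht3)),
      min_le_left _ _, ht' _ ((min_le_right _ _).trans (min_le_left _ _)),
      ht2' _ ((min_le_right _ _).trans ((min_le_right _ _).trans (min_le_left _ _))),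
      ht3' _ ((min_le_right _ _).trans ((min_le_right _ _).trans (min_le_right _ _)))⟩
  set kw1 : ℕ := max kw (kW + 1) with hkw1
  set tW1 : ℝ := max tW 2 with htW1
  -- geometry of the words at the touching points
  set Cw : ℝ := (2 * |Cb| + 1 + |Cb| * kW) * r0 with hCw
  have hCw0 : 0 ≤ Cw := by positivity
  set δg : ℝ := min δW (3 * m1 / 10) / 2 with hδg
  have hδg0 : 0 < δg := by positivity
  obtain ⟨μ0, cc, hμ0, hcc, N1, hgeo⟩ := exists_geom2 hRS hm1 hm11 hm1le (max RC 0) Cw hCw0 hδg0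
  set μ : ℝ := min μ0 (δg / 4) with hμ
  have hμp : 0 < μ := by positivity
  obtain ⟨κ0, hκ0, hnear⟩ := exists_nearTup (R := R) hT Cb hμp
  obtain ⟨κ1, hκ1, N2, hN21, hclose⟩ := exists_close (M.toCap P) hT hS (by linarith : 0 ≤ K)
    (|Cb| * (kw1 * 1)) (δ := e / 2) (by positivity)
  refine ⟨min (μ / 8) (min (e / 2) (δg / (4 * (kW + 1)))), η1, kw1, tW1, by positivity, hη1,
    by positivity, fun eps heps hepsle 𝓛 => ?_⟩
  have heps1 : eps ≤ μ / 8 := hepsle.trans (min_le_left _ _)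
  have heps2 : eps ≤ e / 2 := hepsle.trans ((min_le_right _ _).trans (min_le_left _ _))
  have heps3 : eps ≤ δg / (4 * (kW + 1)) :=
    hepsle.trans ((min_le_right _ _).trans (min_le_right _ _))
  set κ : ℝ := min (min κ0 κ1) 1 with hκ
  have hκp : 0 < κ := by positivity
  have hκκ0 : κ ≤ κ0 := (min_le_left _ _).trans (min_le_left _ _)
  have hκκ1 : κ ≤ κ1 := (min_le_left _ _).trans (min_le_right _ _)
  obtain ⟨N3, hN31, hnear⟩ := hnear κ hκp.le hκκ0 (min_le_right _ _) eps heps heps1 𝓛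
  obtain ⟨N4, hN41, hlegs⟩ := exists_legsAt (M.toCap P) R hT Cb heps he heps2 𝓛
  obtain ⟨N5, hN51, hN5⟩ := exists_N_inv (C := kW * 𝓛.mX) (δ := δg / 4) (by positivity)
  obtain ⟨N7, hN71, hN7⟩ := exists_N_inv
    (C := (M.toCap P).C0 * (K * (2 * (M.toCap P).C0) + K)) (δ := e) he
  obtain ⟨N8, hN8⟩ : ∃ N8 : ℕ, ∀ er, N6 er ≤ N8 :=
    ⟨Finset.univ.sup N6, fun er => Finset.le_sup (Finset.mem_univ er)⟩
  refine ⟨κ, hκp, min_le_right _ _, max (max N1 N2) (max (max N3 N4) (max N5 (max N7 N8))),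
    ?_, ?_⟩
  · exact le_max_of_le_left (le_max_of_le_right hN21)
  intro N hN X hX g hg Ψ hΨ x hstar
  have hNN1 : N1 ≤ N := (le_max_left _ _).trans ((le_max_left _ _).trans hN)
  have hNN2 : N2 ≤ N := (le_max_right _ _).trans ((le_max_left _ _).trans hN)
  have hNr := (le_max_right (max N1 N2) (max (max N3 N4) (max N5 (max N7 N8)))).trans hN
  have hNN3 : N3 ≤ N := (le_max_left _ _).trans ((le_max_left _ _).trans hNr)
  have hNN4 : N4 ≤ N := (le_max_right _ _).trans ((le_max_left _ _).trans hNr)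
  have hNN5 : N5 ≤ N := (le_max_left _ _).trans ((le_max_right _ _).trans hNr)
  have hNN7 : N7 ≤ N :=
    (le_max_left _ _).trans ((le_max_right _ _).trans ((le_max_right _ _).trans hNr))
  have hNN8 : N8 ≤ N :=
    (le_max_right _ _).trans ((le_max_right _ _).trans ((le_max_right _ _).trans hNr))
  have hNp : (1 : ℝ) ≤ N := by exact_mod_cast hN21.trans hNN2
  have hNpos : (0 : ℝ) < N := by linarith
  have hX2 : ∀ e, |X e - 1| ≤ 1 / 2 := fun e => (hX e).trans (by linarith)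
  -- the near tuple
  have hnt : NearTup M T R (max RC 0) Cw μ N X g :=
    hnear N hNN3 X hX2 g hg (max RC 0) (le_max_left _ _) Cw (by
      rw [hCw]
      have : 0 ≤ |Cb| * (kW : ℝ) := by positivity
      exact mul_le_mul_of_nonneg_right (by linarith) (Nat.cast_nonneg _))
  have hnt0 : NearTup M T R (max RC 0) Cw μ0 N X g :=
    ⟨hnt.word, fun e => (hnt.near e).trans (by gcongr; exact min_le_left _ _)⟩
  obtain ⟨htouch, hsm⟩ := hgeo N hNN1 X hX g hnt0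
  set F := fam M (rayE hRS) g with hF
  set B0 := box M (fun i => R0 • F i) 1 with hB0
  set Q0 := box M (fun i => R1 • F i) 1 with hQ0
  set Q := box M (fun i => (D * R1) • F i) 1 with hQ
  set Q' := box M (fun i => (D * (D * R1)) • F i) 1 with hQ'
  have hRD : R0 ≤ D * R1 := hR1.trans (le_mul_of_one_le_left hR10.le hD)
  have hB0Q : B0 ⊆ Q := box_smul_mono M hR00 hRD
  have hQ0Q : Q0 ⊆ Q := box_smul_mono M hR10 (le_mul_of_one_le_left hR10.le hD)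
  have hQQ' : Q ⊆ Q' :=
    box_smul_mono M (by linarith) (le_mul_of_one_le_left (by linarith) hD)
  have hQm : MeasurableSet Q := measurableSet_box M zero_le_one
  have hQ'm : MeasurableSet Q' := measurableSet_box M zero_le_one
  have hQ'fin : volume Q' ≠ ∞ := (volume_box_lt_top M zero_le_one).ne
  have hB0fin : volume B0 ≠ ∞ := (volume_box_lt_top M zero_le_one).ne
  by_cases hB00 : volume B0 = 0
  · refine ⟨1, LinearMap.id, 0, fun e => rfl, ?_⟩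
    refine le_trans (measure_mono (t := B0) fun n hn => hn.1) ?_
    rw [hB00]; exact zero_le
  have hQ'0 : volume Q' ≠ 0 := fun h => hB00 (measure_mono_null (hB0Q.trans hQQ') h)
  have hQvol : volume Q ≤ ENNReal.ofReal CB * volume B0 := volume_box_ratio M hR00 hRD
  have hQ'vol : volume Q' ≤ ENNReal.ofReal CQ * volume Q :=
    volume_box_ratio M (by linarith) (le_mul_of_one_le_left (by linarith) hD)
  -- moves
  have hmv : ∀ g' : M.G, Sm M F 1 g' → ∀ a ∈ V, ∀ q ∈ Q, q * (M.conjN g' a)⁻¹ ∈ Q' := by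
    intro g' hg' a ha q hq
    rw [← map_inv]
    refine hmove F g' hg' (D * R1) hDR1 q hq a⁻¹ ?_
    rw [M.inv_def, norm_neg]
    exact (hρV a ha).trans ((le_max_right _ _).trans (le_max_left _ _))
  have hmv0 : ∀ g' : M.G, Sm M F 1 g' → ∀ a ∈ V, ∀ b ∈ V, ∀ q ∈ Q0,
      q * M.conjN g' (a⁻¹ * b) ∈ Q := by
    intro g' hg' a ha b hb q hq
    refine hmove F g' hg' R1 hR11 q hq _ ?_
    exact (hρ3 a b (hρV a ha) (hρV b hb)).trans ((le_max_left _ _).trans (le_max_left _ _))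
  -- words at the touching points
  have hword : ∀ er : R.Eb, ∀ w ∈ W er, Sm M F 1 (g er * 𝓛.tpos N w) := by
    intro er w hw
    obtain ⟨hw1, hw2, hw3⟩ := hW er w hw
    have hwl : (w.length : ℝ) ≤ kW := by exact_mod_cast hkW er w hw
    have h1 := hsm (g er * 𝓛.tpos N w) ?_ ?_
    · refine fun i => Bx_mono ?_ (h1 i)
      exact Real.exp_le_one_iff.2 (by
        have : 0 ≤ cc * (N : ℝ) := by positivity
        linarith)
    · obtain ⟨m, hm, hz⟩ := hg er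
      have hX0 : 0 ≤ X er := by have := (abs_le.1 (hX2 er)).1; linarith
      have hX3 : X er ≤ 2 := by have := (abs_le.1 (hX2 er)).2; linarith
      obtain ⟨m', hm', hu⟩ := 𝓛.u_pow_mem (N := N) hX0 er 1
      rw [pow_one] at hu
      obtain ⟨m'', hm'', hw'⟩ := tpos_mem 𝓛 (N := N) (tW := 1) w hw1
      have hge : g er * 𝓛.tpos N w = 𝓛.u N (X er) er * ((𝓛.u N (X er) er)⁻¹ * g er) *
          𝓛.tpos N w := by group
      rw [hge]
      refine cw_of_Bl hT (Bl_mul (Bl_mul hu hz) hw') (le_max_left _ _) ?_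
      have a1 : (m' : ℝ) ≤ |Cb| * 2 * N := by
        refine hm'.trans ?_
        have h3 : (1 : ℕ) * X er ≤ 2 := by push_cast; linarith
        gcongr
      have a2 : (m : ℝ) ≤ 1 * N := hm.trans (by gcongr; exact min_le_right _ _)
      have a3 : (m'' : ℝ) ≤ |Cb| * kW * N := by
        refine hm''.trans ?_
        rw [mul_one]
        gcongr
      push_cast
      have a4 : ((m' : ℝ) + m + m'') * r0 ≤ Cw * N := by
        calc ((m' : ℝ) + m + m'') * r0 ≤ (|Cb| * 2 * N + 1 * N + |Cb| * kW * N) * r0 := by gcongr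
          _ = _ := by rw [hCw]; ring
      linarith
    · intro e'
      have a0 : T (M.h (g er * 𝓛.tpos N w)) = T (M.h (g er)) +
          (M.toCap P).hgt (𝓛.tpos N w) := (M.toCap P).hgt_mul _ _
      have a1 := (abs_le.1 (hnt.inner er (e' : E) (R.unit e' e'.2))).2
      have a2 := hgt_tpos 𝓛 (N := N) (tW := 1) heps w hw1
      have a3 : inner ℝ (e' : E) ((M.toCap P).hgt (𝓛.tpos N w)) ≤
          N * inner ℝ (e' : E) (tsum w) + δg / 2 * N := by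
        have b1 := real_inner_le_norm (e' : E) ((M.toCap P).hgt (𝓛.tpos N w) - (N : ℝ) • tsum w)
        rw [R.unit e' e'.2, one_mul, inner_sub_right, inner_smul_right] at b1
        have b2 : (w.length : ℝ) * (eps * (1 * N) + 𝓛.mX) ≤ δg / 2 * N := by
          have c1 : (w.length : ℝ) * eps ≤ δg / 4 := by
            have : (w.length : ℝ) * eps ≤ kW * (δg / (4 * (kW + 1))) := by gcongr
            refine this.trans ?_
            rw [mul_div_assoc', div_le_div_iff₀ (by positivity) (by positivity)]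
            linarith only [hδg0]
          have c2 := hN5 N hNN5
          rw [div_le_iff₀ hNpos] at c2
          have hmX := 𝓛.mX_nonneg
          have c3 : (w.length : ℝ) * 𝓛.mX ≤ kW * 𝓛.mX := by gcongr
          have c4 := mul_le_mul_of_nonneg_right c1 hNpos.le
          linarith only [c2, c3, c4]
        linarith
      rw [a0, inner_add_right]
      have hμ2 : μ ≤ δg / 4 := min_le_right _ _
      have a4 := mul_le_mul_of_nonneg_right hμ2 hNpos.le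
      have hδ1 : 2 * δg ≤ δW := by
        rw [hδg]; have := min_le_left δW (3 * m1 / 10); linarith
      have hδ2 : 2 * δg ≤ 3 * m1 / 10 := by
        rw [hδg]; have := min_le_right δW (3 * m1 / 10); linarith
      have key : X er * inner ℝ (e' : E) (er : E) + inner ℝ (e' : E) (tsum w) + 3 / 4 * δg ≤
          X e' - δg := by
        by_cases h : e' = er
        · subst h
          have b1 := hδW' e' w hw
          rw [real_inner_self_eq_norm_sq, R.unit e' e'.2]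
          linarith
        · have b1 := hm1le e' e'.2 er er.2 fun h' => h (Subtype.ext h')
          have b2 := real_inner_le_norm (e' : E) (tsum w)
          rw [R.unit e' e'.2, one_mul] at b2
          have b3 := (hw3 w (List.prefix_refl _)).2
          have b4 := (abs_le.1 (hX er)).2
          have b5 := (abs_le.1 (hX e')).1
          have b6 := (abs_le.1 (hX er)).1
          have b7 : X er * inner ℝ (e' : E) (er : E) ≤ X er * (1 - m1) :=
            mul_le_mul_of_nonneg_left b1 (by linarith)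
          have b8 : X er * (1 - m1) ≤ (1 + m1 / 10) * (1 - m1) :=
            mul_le_mul_of_nonneg_right (by linarith) (by linarith)
          have b9 : 0 ≤ m1 * m1 := mul_self_nonneg m1
          linarith only [b2, b3, b5, b7, b8, b9, hδ2, hm1]
      have a5 := mul_le_mul_of_nonneg_right key hNpos.le
      linarith
  -- the bad moves
  set Φ : M.NN → Option R.Eb → E := fun n o => GF (M.toCap P) N Ψ x n (tg 𝓛 N o) with hΦ
  have hΦm : Measurable Φ := measurable_pi_lambda _ fun o => measurable_GF hΨ N x _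
  set ε : ℝ≥0∞ := (ENNReal.ofReal ηf * volume Q' + 2 * (ENNReal.ofReal η1 * volume Q)) *
    volume V ^ 2 with hε
  have hbad : ∀ er : R.Eb, badInt volume Φ (5 * e) (M.conjN (g er)) Q0 V ≤ ε := by
    intro er
    have h1 := hfac er N ((hN8 er).trans hNN8) e he.le (hee1.trans (he1m' er (Finset.mem_univ _)))
      (fun p => 𝓛.u N p.2 p.1) (hlegs N hNN4) Ψ hΨ x (g er) Q0 Q Q' hQm hQ'm hQ'fin hQ'0
      (measure_mono hQQ') (fun b hb n hn => hmv (g er) (htouch.sm M er) b hb n hn)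
      (fun w hw b hb n hn => hmv _ (hword er w hw) b hb n hn) hQ0Q
      (fun a ha b hb n hn => hmv0 (g er) (htouch.sm M er) a ha b hb n hn)
      (tg 𝓛 N) (ty R) (X er • (er : E)) (5 * e) (by
        have := hN7 N hNN7
        linarith)
    refine h1.trans ?_
    refine mul_le_mul' (add_le_add le_rfl (mul_le_mul' le_rfl ?_)) le_rfl
    refine le_trans (measure_mono (μ := volume) ?_) hstar
    rintro n ⟨hn, hn2⟩
    refine ⟨hn, fun hgood => hn2 ?_⟩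
    have h2 := hgood.goodAt hm1 hm11 hm1le hX (le_max_right _ _) er (W := W er) (e' := e / 2)
      (fun w hw => ⟨(hW er w hw).1, by
        have := hkW er w hw
        rw [hkw1]
        exact le_max_of_le_right (by omega), (hW er w hw).2.2⟩)
      (by rw [hkw1]; exact le_max_of_le_right (by omega)) (g0 := g er) (by linarith)
      (fun w hwl hw => hclose N hNN2 Ψ hΨ x n _ _ _ (by
        obtain ⟨m, hm, hz⟩ := hg er
        exact ⟨m, hm.trans (by gcongr), hz⟩) (by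
        obtain ⟨m, hm, hz⟩ := tpos_mem 𝓛 (N := N) (tW := 1) w hw
        refine ⟨m, hm.trans ?_, hz⟩
        gcongr))
    rw [add_halves] at h2
    exact h2
  -- the good points
  set A : Set M.NN := {n | n ∈ B0 ∧ SGood 𝓛 N X kw1 tW1 η1 Ψ x n} with hA
  have hAB : A ⊆ B0 := fun n hn => hn.1
  have hcompl : volume (B0 \ A) ≤ ENNReal.ofReal (η1 * CB) * volume B0 := by
    refine le_trans (measure_mono (t := {n | n ∈ Q ∧ ¬ SGood 𝓛 N X kw1 tW1 η1 Ψ x n}) ?_) ?_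
    · rintro n ⟨hn, hn2⟩
      exact ⟨hB0Q hn, fun h => hn2 ⟨hn, h⟩⟩
    · refine hstar.trans ?_
      rw [ENNReal.ofReal_mul hη1.le, mul_assoc]
      gcongr
  have hεle : ε ≤ ENNReal.ofReal ((ηf * CQ * CB + 2 * (η1 * CB)) * vV ^ 2) * volume B0 := by
    have hvol : volume V = ENNReal.ofReal vV := (ENNReal.ofReal_toReal hVfin).symm
    rw [hε, ENNReal.ofReal_mul (by positivity), ENNReal.ofReal_add (by positivity) (by positivity),
      ENNReal.ofReal_mul (by positivity), ENNReal.ofReal_mul hηf.le,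
      ENNReal.ofReal_mul (by norm_num : (0:ℝ) ≤ 2), ENNReal.ofReal_mul hη1.le,
      ENNReal.ofReal_pow hvV0, ← hvol]
    have h2 : ENNReal.ofReal 2 = 2 := by norm_num
    rw [h2]
    calc (ENNReal.ofReal ηf * volume Q' + 2 * (ENNReal.ofReal η1 * volume Q)) * volume V ^ 2
        ≤ (ENNReal.ofReal ηf * (ENNReal.ofReal CQ * (ENNReal.ofReal CB * volume B0)) +
            2 * (ENNReal.ofReal η1 * (ENNReal.ofReal CB * volume B0))) * volume V ^ 2 := by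
          gcongr
          exact hQ'vol.trans (by gcongr)
      _ = _ := by ring
  obtain ⟨hA0, hstep⟩ := measure_step volume (D := ∅) (b := 0) hcompl hn2 hB0fin hAB hB00
  obtain ⟨q0, hq0, hq⟩ := hbox (rayE hRS) g htouch Φ hΦm (5 * e) (by positivity) ε hbad A hAB hA0
  obtain ⟨σ, L, hL, hlaw⟩ := hq0.2
  refine ⟨σ, L, GF (M.toCap P) N Ψ x q0 1, hL, ?_⟩
  set Dst : Set M.NN := {q | q ∈ B0 ∧ 2 * (5 * e) * J < dist (Φ q0) (Φ q)} with hDst
  have hDvol : volume Dst ≤ ENNReal.ofReal (η / 2) * volume B0 := by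
    have h1 : volume Dst * volume A ≤
        ENNReal.ofReal (C * ((ηf * CQ * CB + 2 * (η1 * CB)) * vV ^ 2)) * volume B0 *
          volume B0 := by
      refine hq.trans ?_
      rw [ENNReal.ofReal_mul hC.le]
      calc ENNReal.ofReal C * ε * volume B0 ≤ ENNReal.ofReal C *
            (ENNReal.ofReal ((ηf * CQ * CB + 2 * (η1 * CB)) * vV ^ 2) * volume B0) *
              volume B0 := by gcongr
        _ = _ := by ring
    refine ((measure_step volume hcompl hn2 hB0fin hAB hB00).2 h1).trans ?_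
    gcongr
    linarith only [hηf', hn4]
  refine le_trans (measure_mono (t := Dst ∪ (B0 \ A)) ?_) ?_
  · rintro n ⟨hn, hn2⟩
    by_cases h1 : n ∈ Dst
    · exact Or.inl h1
    refine Or.inr ⟨hn, fun h2 => hn2 ?_⟩
    have h3 : dist (Φ q0) (Φ n) ≤ 2 * (5 * e) * J := by
      by_contra hcon
      exact h1 ⟨hn, not_le.1 hcon⟩
    intro w hw1 hw2 hw3
    have h4 := transfer hX2 (kw := kw1) (by rw [hkw1]; exact le_max_of_le_right (by omega))
      (tW := tW1) (le_max_right _ _) (d := 2 * (5 * e) * J) hsepE (by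
        linarith only [hesep, hn1, he]) hL hlaw h2.2 (fun o => by
        rw [← dist_eq_norm]
        exact (dist_le_pi_dist (Φ q0) (Φ n) o).trans h3) w (hw1.trans (le_max_left _ _))
      (fun p hp => ⟨(hw2 p hp).1, (hw2 p hp).2.trans (le_max_left _ _)⟩) hw3
    refine h4.trans ?_
    linarith only [heη, hn1, he]
  · refine (measure_union_le _ _).trans ?_
    calc volume Dst + volume (B0 \ A)
        ≤ ENNReal.ofReal (η / 2) * volume B0 + ENNReal.ofReal (η / 2) * volume B0 := by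
          gcongr
          exact hcompl.trans (by gcongr)
      _ = ENNReal.ofReal η * volume B0 := by
          rw [← add_mul, ← ENNReal.ofReal_add (by positivity) (by positivity), add_halves]

end main

end Crest.Agent.R182.Gen
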