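import Mathlib
import Crest.Agent.R182.ElBase
import Crest.Agent.R182.CapInst
import Crest.Agent.R182.BoxRay
import Crest.Agent.R182.ElV
import Crest.Agent.R182.ElTgt
import Crest.Agent.R182.ElHop

-- ▼ part R182/ElCount
section

set_option autoImplicit false
set_option linter.unusedSectionVars false

open MeasureTheory Set
open scoped Pointwise ENNReal

namespace Crest.Agent.R182.ElI

open Crest.GroupTheory Crest.Geometry Crest.Agent.R182.QI Crest.Agent.R182.Core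
  Crest.Agent.R182.Nb Crest.Agent.R182.Gen

variable {Γ : Type*} [Group Γ] {k : ℕ} {S : Set Γ} {π : Γ →* Multiplicative (Fin k → ℤ)}

theorem volume_inv_NN (M : BModel S π) (s : Set M.NN) : volume s⁻¹ = volume s := by
  have h1 : s⁻¹ = (-1 : ℝ) • s := by
    ext x
    constructor
    · intro hx
      refine ⟨x⁻¹, hx, ?_⟩
      change (-1 : ℝ) • (-x : M.NN) = x
      simp
    · rintro ⟨y, hy, rfl⟩
      change (-((-1 : ℝ) • y) : M.NN) ∈ s
      simpa using hy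
  rw [h1, Measure.addHaar_smul]
  simp

theorem exists_count {M : BModel S π} (hS : S.Finite) (hcl : Subgroup.closure S = ⊤)
    (hG : M.CGrowth) (K : ℕ) : ∃ (A : ℝ) (D : ℕ), 1 ≤ A ∧ ∀ Ψ : Γ → Γ, QIMap S S Ψ K →
    ∀ (x g : M.G) (B : Set M.NN) (Z : GI M → ℝ) (m : ℝ), 1 ≤ m →
      volume {n : M.NN | up M ((M.ext Ψ x)⁻¹ * M.ext Ψ (x * M.toG n * g)) ∈ B ∧
        M.len ((M.ext Ψ x)⁻¹ * M.ext Ψ (x * M.toG n * g)) ≤ m ∧
        ∀ i, wg M i (M.h ((M.ext Ψ x)⁻¹ * M.ext Ψ (x * M.toG n * g))) ≤ Z i} ≤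
      ENNReal.ofReal (A * m ^ D) * volume (B * M.NB (gZ (eg M) Z) (A * m ^ D)) := by
  classical
  obtain ⟨A₂, hgrow⟩ := hG (RU M)
  obtain ⟨A₃, hA₃, had⟩ := M.ad_mem (max (RU M) M.a) 1
  obtain ⟨Cw, hCw, hwt⟩ := M.exists_wt_le
  obtain ⟨Cv, hCv, hpre⟩ := M.volume_preimage_le hS hcl K (5 * M.a)
  have ha := M.a0
  set C₁ : ℝ := Cw * (M.a * M.a) with hC₁
  have hC₁0 : 0 ≤ C₁ := by positivity
  set v₀ : ℝ≥0∞ := volume (Metric.closedBall (0 : M.NN) 1) with hv₀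
  have hv₀0 : v₀ ≠ 0 := (Metric.measure_closedBall_pos volume _ one_pos).ne'
  have hv₀t : v₀ ≠ ⊤ := measure_closedBall_lt_top.ne
  have hv₀r : 0 < v₀.toReal := ENNReal.toReal_pos hv₀0 hv₀t
  set Ab : ℝ := Real.exp C₁ ^ M.c * (A₃ * 4 ^ M.d) with hAb
  have hAb0 : 0 ≤ Ab := by positivity
  set Ac : ℝ := Cv.toReal * (A₂ * 3 ^ A₂) / v₀.toReal with hAc
  have hAc0 : 0 ≤ Ac := by positivity
  refine ⟨1 + Ab + Ac, M.d + A₂, by linarith, fun Ψ hΨ x g B Z m hm => ?_⟩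
  set R₁ : ℝ := (1 + Ab + Ac) * m ^ (M.d + A₂) with hR₁
  have hmd : m ^ M.d ≤ m ^ (M.d + A₂) := pow_le_pow_right₀ hm (by omega)
  have hmA : m ^ A₂ ≤ m ^ (M.d + A₂) := pow_le_pow_right₀ hm (by omega)
  have hm0 : 0 ≤ m := by linarith
  have hR₁pos : 0 < R₁ := by positivity
  by_cases hfin : volume (B * M.NB (gZ (eg M) Z) R₁) = ⊤
  · rw [hfin, ENNReal.mul_top (by rw [ne_eq, ENNReal.ofReal_eq_zero]; push Not; exact hR₁pos)]
    exact le_top
  set VB := volume (B * M.NB (gZ (eg M) Z) R₁) with hVB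
  set N₀ : ℕ := ⌊m + 1⌋₊ with hN₀
  have hN₀m : (N₀ : ℝ) ≤ m + 1 := Nat.floor_le (by linarith)
  obtain ⟨FC, hFC, hFCmem⟩ := hgrow N₀
  set P : M.NN → M.G := fun n => (M.ext Ψ x)⁻¹ * M.ext Ψ (x * M.toG n * g) with hP
  -- the cells
  let W : M.G → Set M.NN := fun f => M.conjN f⁻¹ ⁻¹' Metric.closedBall (0 : M.NN) 1
  have hWm : ∀ f, MeasurableSet (W f) := fun f =>
    (M.measurePreserving_conjN f⁻¹).measurable Metric.isClosed_closedBall.measurableSet
  have hWv : ∀ f, volume (W f) = v₀ := fun f =>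
    (M.measurePreserving_conjN f⁻¹).measure_preimage
      Metric.isClosed_closedBall.measurableSet.nullMeasurableSet
  have hWinv : ∀ f, ∀ w ∈ W f, w⁻¹ ∈ W f := by
    intro f w hw
    change M.conjN f⁻¹ w⁻¹ ∈ Metric.closedBall (0 : M.NN) 1
    rw [map_inv]
    have h1 : ‖M.conjN f⁻¹ w‖ ≤ 1 := mem_closedBall_zero_iff.1 hw
    rw [mem_closedBall_zero_iff]
    change ‖(-(M.conjN f⁻¹ w) : M.NN)‖ ≤ 1
    rwa [norm_neg]
  -- unipotent elements in the cells are bounded after conjugation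
  have hball : ∀ n : M.NN, n ∈ Metric.closedBall (0 : M.NN) 1 → M.len (M.toG n) ≤ 2 * M.a := by
    intro n hn
    rw [mem_closedBall_zero_iff] at hn
    refine (M.len_toG_le n).trans ?_
    have h1 : Real.log (2 + ‖n‖) ≤ 2 := by
      have h2 : Real.log (2 + ‖n‖) ≤ Real.log 3 :=
        Real.log_le_log (by positivity) (by linarith)
      have h3 := Real.log_le_sub_one_of_pos (by norm_num : (0:ℝ) < 3)
      linarith
    nlinarith
  have hWlen : ∀ f, ∀ w ∈ W f, M.len (f⁻¹ * M.toG w * f) ≤ 2 * M.a := by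
    intro f w hw
    have h1 : M.toG (M.conjN f⁻¹ w) = f⁻¹ * M.toG w * f := by rw [M.toG_conjN, inv_inv]
    rw [← h1]
    exact hball _ hw
  -- the good pairs
  let Bf : M.G → Set M.NN := fun f => {b | b ∈ B ∧ ∃ l : List M.G,
    (∀ s ∈ l, s ∈ M.C ∧ M.len s ≤ RU M) ∧ (l.length : ℝ) ≤ m + 1 ∧ f ∈ M.C ∧
    M.len (f⁻¹ * l.prod) ≤ M.a ∧ ∀ i, wg M i (M.h l.prod) ≤ Z i}
  -- the cells are contained in the box
  have hWsub : ∀ f, (Bf f).Nonempty → W f ⊆ M.NB (gZ (eg M) Z) R₁ := by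
    rintro f ⟨b, hb, l, hl, hlm, hfC, hfl, hlZ⟩ w hw
    have hlp : l.prod ∈ M.C := Subgroup.list_prod_mem _ fun s hs => (hl s hs).1
    have hf : f = (l ++ [(f⁻¹ * l.prod)⁻¹]).prod := by
      rw [List.prod_append, List.prod_singleton]; group
    have hlet : ∀ s ∈ l ++ [(f⁻¹ * l.prod)⁻¹], s ∈ M.C ∧ M.len s ≤ max (RU M) M.a := by
      intro s hs
      rcases List.mem_append.1 hs with h | h
      · exact ⟨(hl s h).1, (hl s h).2.trans (le_max_left _ _)⟩
      · rw [List.mem_singleton.1 h]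
        refine ⟨M.C.inv_mem (M.C.mul_mem (M.C.inv_mem hfC) hlp), ?_⟩
        rw [M.isLen.inv]; exact hfl.trans (le_max_right _ _)
    have hhf : ∀ j : GI M, wg M j (M.h (l ++ [(f⁻¹ * l.prod)⁻¹]).prod) ≤ Z j + C₁ := by
      intro j
      rw [← hf]
      have h1 : M.h l.prod = M.h f + M.h (f⁻¹ * l.prod) := by
        rw [← M.h_mul]; congr 1; group
      have h2 := hlZ j
      rw [h1, map_add] at h2
      have h3 := (neg_le_abs _).trans ((hwt j (M.h (f⁻¹ * l.prod))).trans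
        (mul_le_mul_of_nonneg_left ((M.norm_h_le _).trans
          (mul_le_mul_of_nonneg_left hfl ha)) hCw))
      change _ ≤ Z j + Cw * (M.a * M.a)
      change -(wg M j) (M.h (f⁻¹ * l.prod)) ≤ _ at h3
      linarith
    have hwn : ‖M.bas.equivFun (M.E (M.conjN f⁻¹ w))‖ ≤ 1 := by
      have h4 : M.bas.equivFun (M.E (M.conjN f⁻¹ w)) = M.conjN f⁻¹ w := M.E.symm_apply_apply _
      rw [h4]
      exact mem_closedBall_zero_iff.1 hw
    have h1 := had _ hlet (M.E (M.conjN f⁻¹ w)) hwn (fun j => Z j + C₁) hhf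
    rw [← hf] at h1
    have h2 : gZ (eg M) (fun j => Z j + C₁) = fun i => Real.exp C₁ • gZ (eg M) Z i := by
      funext i
      rw [gZ, gZ, smul_smul, ← Real.exp_add, add_comm]
    rw [h2] at h1
    have h3 := Bx_unscale (Real.one_le_exp hC₁0) (by positivity) h1
    rw [M.mem_NB]
    have h5 : M.E w = M.Ad f (M.E (M.conjN f⁻¹ w)) := by
      have h6 : w = M.conjN f (M.conjN f⁻¹ w) := by
        rw [← M.conjN_mul, mul_inv_cancel, M.conjN_one]
      conv_lhs => rw [h6]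
      rw [M.conjN_apply, LinearEquiv.apply_symm_apply]
    rw [h5]
    refine Bx_mono ?_ h3
    have h7 : (1 + (((l ++ [(f⁻¹ * l.prod)⁻¹]).length : ℕ) : ℝ)) ≤ 4 * m := by
      rw [List.length_append]; push_cast; simp; linarith
    calc Real.exp C₁ ^ M.c * (A₃ * (1 + (((l ++ [(f⁻¹ * l.prod)⁻¹]).length : ℕ) : ℝ)) ^ M.d)
        ≤ Real.exp C₁ ^ M.c * (A₃ * (4 * m) ^ M.d) := by gcongr
      _ = Ab * m ^ M.d := by rw [hAb, mul_pow]; ring
      _ ≤ R₁ := by
          rw [hR₁]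
          have : Ab * m ^ M.d ≤ Ab * m ^ (M.d + A₂) := mul_le_mul_of_nonneg_left hmd hAb0
          have h8 : 0 ≤ (1 + Ac) * m ^ (M.d + A₂) := by positivity
          nlinarith
  -- maximal separated sets
  have hmax : ∀ f, ∃ F : Finset M.NN, ((F.card : ℝ≥0∞) * v₀ ≤ VB) ∧
      ∀ b ∈ Bf f, ∃ b' ∈ F, M.len ((M.toG b' * f)⁻¹ * (M.toG b * f)) ≤ 4 * M.a := by
    intro f
    by_cases hne : (Bf f).Nonempty
    swap
    · refine ⟨∅, by simp, fun b hb => absurd ⟨b, hb⟩ hne⟩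
    have hsub : volume (W f * (MonoidHom.id M.NN) '' (Bf f)⁻¹) ≤ VB := by
      have h1 : W f * (MonoidHom.id M.NN) '' (Bf f)⁻¹ ⊆ (B * M.NB (gZ (eg M) Z) R₁)⁻¹ := by
        rintro _ ⟨w, hw, _, ⟨b, hb, rfl⟩, rfl⟩
        change (w * b)⁻¹ ∈ B * M.NB (gZ (eg M) Z) R₁
        rw [mul_inv_rev]
        exact ⟨b⁻¹, (show b⁻¹ ∈ Bf f from hb).1, w⁻¹, hWsub f hne (hWinv f w hw), rfl⟩
      refine (measure_mono h1).trans (le_of_eq ?_)
      rw [volume_inv_NN]
    obtain ⟨F, hF, hcard, hcov⟩ := BoxVol.exists_maximal (volume : Measure M.NN)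
      (MonoidHom.id M.NN) (hWm f) (by rw [hWv]; exact hv₀0) (Bf f)⁻¹
      (ne_top_of_le_ne_top hfin hsub)
    refine ⟨F.image fun u => u⁻¹, ?_, fun b hb => ?_⟩
    · rw [hWv] at hcard
      refine le_trans ?_ (hcard.trans hsub)
      have h1 : (((F.image fun u => u⁻¹).card : ℕ) : ℝ≥0∞) ≤ (F.card : ℝ≥0∞) := by
        exact_mod_cast Finset.card_image_le
      gcongr
    · obtain ⟨u', hu', w₁, hw₁, w₂, hw₂, he⟩ := hcov b⁻¹ (by simpa using hb)
      refine ⟨u'⁻¹, Finset.mem_image_of_mem _ hu', ?_⟩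
      have he' : b = u'⁻¹ * (w₂⁻¹ * w₁) := by
        have h1 : b⁻¹ = w₁⁻¹ * w₂ * u' := he
        have h2 : b = (w₁⁻¹ * w₂ * u')⁻¹ := by rw [← h1, inv_inv]
        rw [h2]; group
      have h3 : (M.toG u'⁻¹ * f)⁻¹ * (M.toG b * f) =
          (f⁻¹ * M.toG w₂ * f)⁻¹ * (f⁻¹ * M.toG w₁ * f) := by
        rw [he', map_mul, map_mul, map_inv, map_inv]; group
      rw [h3]
      have h4 := M.isLen.mul (f⁻¹ * M.toG w₂ * f)⁻¹ (f⁻¹ * M.toG w₁ * f)
      rw [M.isLen.inv] at h4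
      have h5 := hWlen f w₁ hw₁
      have h6 := hWlen f w₂ hw₂
      linarith
  choose F hFcard hFcov using hmax
  let T : Finset M.G := FC.biUnion fun f => (F f).image fun b => M.ext Ψ x * (M.toG b * f)
  have hsub : {n : M.NN | up M (P n) ∈ B ∧ M.len (P n) ≤ m ∧ ∀ i, wg M i (M.h (P n)) ≤ Z i} ⊆
      {n : M.NN | ∃ p ∈ T, M.len (p⁻¹ * M.ext Ψ (x * M.toG n * g)) ≤ 5 * M.a} := by
    rintro n ⟨hn1, hn2, hn3⟩
    obtain ⟨l, hpl, hlC, hlen⟩ := up_spec M (P n)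
    have hlm : (l.length : ℝ) ≤ m + 1 := hlen.trans (by linarith)
    have hlN : l.length ≤ N₀ := Nat.le_floor hlm
    obtain ⟨f, hf, hfC, hfl⟩ := hFCmem l hlN hlC
    have hhl : M.h (P n) = M.h l.prod := by
      rw [hpl, M.h_mul, M.h_toG, zero_add]
    have hb : up M (P n) ∈ Bf f := ⟨hn1, l, hlC, hlm, hfC, hfl, fun i => by
      rw [← hhl]; exact hn3 i⟩
    obtain ⟨b', hb', hd⟩ := hFcov f _ hb
    refine ⟨M.ext Ψ x * (M.toG b' * f), Finset.mem_biUnion.2 ⟨f, hf,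
      Finset.mem_image_of_mem _ hb'⟩, ?_⟩
    have h1 : (M.ext Ψ x * (M.toG b' * f))⁻¹ * M.ext Ψ (x * M.toG n * g) =
        ((M.toG b' * f)⁻¹ * (M.toG (up M (P n)) * f)) * (f⁻¹ * l.prod) := by
      have h2 : M.ext Ψ (x * M.toG n * g) = M.ext Ψ x * P n := by
        rw [hP]; group
      rw [h2]
      conv_lhs => rw [hpl]
      group
    rw [h1]
    have h2 := M.isLen.mul ((M.toG b' * f)⁻¹ * (M.toG (up M (P n)) * f)) (f⁻¹ * l.prod)
    linarith
  refine (measure_mono hsub).trans ((hpre Ψ hΨ x g T).trans ?_)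
  -- cardinality
  have hT : (T.card : ℝ≥0∞) ≤ (FC.card : ℝ≥0∞) * (VB / v₀) := by
    have h1 : T.card ≤ ∑ f ∈ FC, (F f).card :=
      Finset.card_biUnion_le.trans (Finset.sum_le_sum fun f _ => Finset.card_image_le)
    have h2 : ∀ f, ((F f).card : ℝ≥0∞) ≤ VB / v₀ := fun f => by
      rw [ENNReal.le_div_iff_mul_le (Or.inl hv₀0) (Or.inl hv₀t)]
      exact hFcard f
    calc (T.card : ℝ≥0∞) ≤ ((∑ f ∈ FC, (F f).card : ℕ) : ℝ≥0∞) := by exact_mod_cast h1
      _ = ∑ f ∈ FC, ((F f).card : ℝ≥0∞) := by push_cast; rfl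
      _ ≤ ∑ _f ∈ FC, VB / v₀ := Finset.sum_le_sum fun f _ => h2 f
      _ = _ := by rw [Finset.sum_const, nsmul_eq_mul]
  have hFCr : (FC.card : ℝ) ≤ (A₂ * 3 ^ A₂) * m ^ A₂ := by
    have h1 : (FC.card : ℝ) ≤ A₂ * (1 + N₀) ^ A₂ := by exact_mod_cast hFC
    refine h1.trans ?_
    have h2 : (1 + (N₀ : ℝ)) ^ A₂ ≤ (3 * m) ^ A₂ := by gcongr; linarith
    calc (A₂ : ℝ) * (1 + N₀) ^ A₂ ≤ A₂ * (3 * m) ^ A₂ := by gcongr
      _ = _ := by rw [mul_pow]; ring
  have hkey : Cv * ((FC.card : ℝ≥0∞) / v₀) ≤ ENNReal.ofReal R₁ := by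
    have e1 : Cv = ENNReal.ofReal Cv.toReal := (ENNReal.ofReal_toReal hCv).symm
    have e2 : v₀ = ENNReal.ofReal v₀.toReal := (ENNReal.ofReal_toReal hv₀t).symm
    have e3 : (FC.card : ℝ≥0∞) = ENNReal.ofReal (FC.card : ℝ) := by simp
    rw [e3]
    have e4 : ENNReal.ofReal (FC.card : ℝ) / v₀ = ENNReal.ofReal ((FC.card : ℝ) / v₀.toReal) := by
      rw [ENNReal.ofReal_div_of_pos hv₀r, ENNReal.ofReal_toReal hv₀t]
    rw [e4]
    conv_lhs => rw [e1]
    rw [← ENNReal.ofReal_mul ENNReal.toReal_nonneg]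
    refine ENNReal.ofReal_le_ofReal ?_
    calc Cv.toReal * ((FC.card : ℝ) / v₀.toReal) ≤
          Cv.toReal * ((A₂ * 3 ^ A₂) * m ^ A₂ / v₀.toReal) := by gcongr
      _ = Ac * m ^ A₂ := by rw [hAc]; ring
      _ ≤ R₁ := by
          rw [hR₁]
          have : Ac * m ^ A₂ ≤ Ac * m ^ (M.d + A₂) := mul_le_mul_of_nonneg_left hmA hAc0
          have h8 : 0 ≤ (1 + Ab) * m ^ (M.d + A₂) := by positivity
          nlinarith
  calc Cv * (T.card : ℝ≥0∞) ≤ Cv * ((FC.card : ℝ≥0∞) * (VB / v₀)) := by gcongr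
    _ = Cv * ((FC.card : ℝ≥0∞) / v₀) * VB := by
        rw [ENNReal.div_eq_inv_mul, ENNReal.div_eq_inv_mul]; ring
    _ ≤ ENNReal.ofReal R₁ * VB := by gcongr

end Crest.Agent.R182.ElI
end

-- ▼ part R182/ElStick

set_option autoImplicit false
set_option linter.unusedSectionVars false

open MeasureTheory Set
open scoped Pointwise RealInnerProductSpace ENNReal

namespace Crest.Agent.R182.ElI

open Crest.GroupTheory Crest.Geometry Crest.Agent.R182.QI Crest.Agent.R182.Core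
  Crest.Agent.R182.Nb Crest.Agent.R182.Gen

variable {Γ : Type*} [Group Γ] {k : ℕ} {S : Set Γ} {π : Γ →* Multiplicative (Fin k → ℤ)}
variable {M : BModel S π} {E : Type*} [NormedAddCommGroup E] [InnerProductSpace ℝ E]

section

variable (G : Geo M E)

/-- the Riesz vector of the weight of a monomial -/
noncomputable def ee (κ : List (GI M)) : E := (κ.map fun i => G.RS.lam i • (G.ray i : E)).sum

/-- the sum of the multiples -/
noncomputable def ll (κ : List (GI M)) : ℝ := (κ.map G.RS.lam).sum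

theorem wg_sum (κ : List (GI M)) (v : Fin k → ℝ) : (κ.map (wg M)).sum v = ⟪ee G κ, G.T v⟫ := by
  induction κ with
  | nil => simp [ee]
  | cons i κ ih =>
    unfold ee at ih ⊢
    rw [List.map_cons, List.sum_cons, List.map_cons, List.sum_cons, LinearMap.add_apply, ih,
      inner_add_left, G.wg_ray, real_inner_smul_left]

theorem ee_eq {κ κ' : List (GI M)} (h : (κ.map (wg M)).sum = (κ'.map (wg M)).sum) :
    ee G κ = ee G κ' := by
  refine ext_inner_right ℝ fun v => ?_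
  have := LinearMap.congr_fun h (G.T.symm v)
  rwa [wg_sum G, wg_sum G, LinearEquiv.apply_symm_apply] at this

theorem ee_pure {κ : List (GI M)} {w : G.R} (h : ∀ i ∈ κ, G.ray i = w) :
    ee G κ = ll G κ • (w : E) := by
  induction κ with
  | nil => simp [ee, ll]
  | cons i κ ih =>
    have h1 := ih fun j hj => h j (List.mem_cons_of_mem _ hj)
    unfold ee ll at h1 ⊢
    rw [List.map_cons, List.sum_cons, List.map_cons, List.sum_cons, h1,
      h i List.mem_cons_self, add_smul]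

theorem ll_nonneg (κ : List (GI M)) : 0 ≤ ll G κ := by
  unfold ll
  refine List.sum_nonneg fun x hx => ?_
  rw [List.mem_map] at hx
  obtain ⟨y, _, rfl⟩ := hx
  exact G.RS.lam_nonneg y

theorem ll_le {l1 : ℝ} (h : ∀ i, G.RS.lam i ≤ l1) (κ : List (GI M)) : ll G κ ≤ κ.length * l1 := by
  unfold ll
  induction κ with
  | nil => simp
  | cons i κ ih =>
    rw [List.map_cons, List.sum_cons, List.length_cons]
    push_cast
    linarith [h i]

theorem inner_ee_le (w : G.R) (κ : List (GI M)) : ⟪(w : E), ee G κ⟫ ≤ ll G κ := by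
  induction κ with
  | nil => simp [ee, ll]
  | cons i κ ih =>
    unfold ee ll at ih ⊢
    rw [List.map_cons, List.sum_cons, List.map_cons, List.sum_cons, inner_add_right,
      real_inner_smul_right]
    have h1 : ⟪(w : E), (G.ray i : E)⟫ ≤ 1 := by
      have := real_inner_le_norm (w : E) (G.ray i : E)
      rwa [G.norm_ray, G.norm_ray, one_mul] at this
    nlinarith [G.lam_pos i]

/-- a mixed monomial has a strictly larger sum of multiples -/
theorem inner_ee_mixed {γ l0 : ℝ} (hγ : Gap G γ) (hl : ∀ i, l0 ≤ G.RS.lam i)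
    (w : G.R) (κ : List (GI M)) (h : ¬ ∀ i ∈ κ, G.ray i = w) :
    ⟪(w : E), ee G κ⟫ + γ * l0 ≤ ll G κ := by
  induction κ with
  | nil => exact absurd (fun i hi => by simp at hi) h
  | cons i κ ih =>
    have h0 := inner_ee_le G w κ
    unfold ee ll at ih h0 ⊢
    rw [List.map_cons, List.sum_cons, List.map_cons, List.sum_cons, inner_add_right,
      real_inner_smul_right]
    by_cases hi : G.ray i = w
    · have h1 := ih fun h' => h (List.forall_mem_cons.2 ⟨hi, h'⟩)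
      have h2 : ⟪(w : E), (G.ray i : E)⟫ ≤ 1 := by
        have := real_inner_le_norm (w : E) (G.ray i : E)
        rwa [G.norm_ray, G.norm_ray, one_mul] at this
      nlinarith [G.lam_pos i]
    · have h2 : ⟪(w : E), (G.ray i : E)⟫ ≤ 1 - γ := hγ.2.2 w (G.ray i) (Ne.symm hi)
      have h3 := hl i
      have h4 := hγ.1
      have h5 : G.RS.lam i * ⟪(w : E), (G.ray i : E)⟫ ≤ G.RS.lam i * (1 - γ) :=
        mul_le_mul_of_nonneg_left h2 (G.lam_pos i).le
      nlinarith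

/-- the sides of a target box -/
noncomputable def tY (Sc : ℝ) (X : G.R → ℝ) : GI M → ℝ := fun i => Sc * (G.RS.lam i * X (G.ray i))

theorem le_sum_tY {Sc δ : ℝ} (hSc : 0 ≤ Sc) {X : G.R → ℝ} {θ : E}
    (h : ∀ r : G.R, 1 - δ + ⟪(r : E), θ⟫ ≤ X r) (κ : List (GI M)) :
    Sc * ((1 - δ) * ll G κ + ⟪ee G κ, θ⟫) ≤ (κ.map (tY G Sc X)).sum := by
  induction κ with
  | nil => simp [ee, ll]
  | cons i κ ih =>
    unfold ee ll at ih ⊢
    rw [List.map_cons, List.sum_cons, List.map_cons, List.sum_cons, List.map_cons, List.sum_cons,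
      inner_add_left, real_inner_smul_left, tY]
    have h1 := mul_le_mul_of_nonneg_left (h (G.ray i)) (G.lam_pos i).le
    have h2 := mul_le_mul_of_nonneg_left h1 hSc
    linarith

theorem gsys_Gt_tY {Sc : ℝ} (hSc : 0 ≤ Sc) (X : G.R → ℝ) :
    (gsys M).Gt (tY G Sc X) = Sc * GG G X := by
  unfold GG
  rw [← G.RS.toGenSys.Gt_smul hSc, G.hRS, M.gsysT_Gt]
  rfl

/-- near-round shapes -/
theorem nearRound_tY {γ l0 l1 : ℝ} (hγ : Gap G γ) (hl1 : 0 ≤ l1)
    (hl : ∀ i, l0 ≤ G.RS.lam i ∧ G.RS.lam i ≤ l1) {Sc δ b C : ℝ} (hSc : 0 < Sc) (hδ : 0 ≤ δ)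
    (hb : 0 ≤ b) (hδb : (2 * δ + b) * (M.c * l1) ≤ γ * l0 / 2) (hC : C ≤ Sc * (γ * l0 / 2))
    {X : G.R → ℝ} {θ : E} (hX : ∀ r : G.R, |X r - ⟪(r : E), θ⟫ - 1| ≤ δ) (w : G.R)
    {v : Fin k → ℝ} (hv : G.T v = (Sc * (X w + b)) • (w : E)) :
    BoxVol.NearRound M (fun i => G.ray i = w) (tY G Sc X) v C := by
  intro κ κ' hκne hκ hκc hκ'c hκ' hsum
  rw [wg_sum G, hv, ee_pure G hκ, real_inner_smul_left, real_inner_smul_right,
    real_inner_self_eq_norm_sq, G.norm_ray]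
  have h1 := le_sum_tY G hSc.le (θ := θ) (δ := δ) (X := X)
    (fun r => by linarith [(abs_le.1 (hX r)).1]) κ'
  have h2 : ee G κ' = ll G κ • (w : E) := by rw [← ee_pure G hκ]; exact (ee_eq G hsum).symm
  rw [h2, real_inner_smul_left] at h1
  have h3 := inner_ee_mixed G hγ (fun i => (hl i).1) w κ' hκ'
  rw [h2, real_inner_smul_right, real_inner_self_eq_norm_sq, G.norm_ray] at h3
  have h4 := (abs_le.1 (hX w)).2
  have hn := ll_nonneg G κ
  have hn' := ll_nonneg G κ'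
  have hc : ll G κ ≤ M.c * l1 := by
    refine (ll_le G (fun i => (hl i).2) κ).trans ?_
    have : (κ.length : ℝ) ≤ M.c := by exact_mod_cast hκc
    gcongr
  have hc' : ll G κ' ≤ M.c * l1 := by
    refine (ll_le G (fun i => (hl i).2) κ').trans ?_
    have : (κ'.length : ℝ) ≤ M.c := by exact_mod_cast hκ'c
    gcongr
  refine le_trans ?_ h1
  have h5 : ll G κ * (Sc * (X w + b)) ≤ ll G κ * (Sc * (1 + ⟪(w : E), θ⟫ + δ + b)) := by
    gcongr
    linarith
  have h6 : γ * l0 / 2 ≤ (ll G κ' - ll G κ) - δ * (ll G κ' + ll G κ) - b * ll G κ := by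
    have h7 : δ * (ll G κ' + ll G κ) + b * ll G κ ≤ (2 * δ + b) * (M.c * l1) := by
      have h8 : δ * (ll G κ' + ll G κ) ≤ δ * (M.c * l1 + M.c * l1) := by gcongr
      have h9 : b * ll G κ ≤ b * (M.c * l1) := by gcongr
      linarith
    linarith
  have h7 := mul_le_mul_of_nonneg_left h6 hSc.le
  nlinarith

end

/-- **the volume of a target box times a stick** -/
theorem exists_stick_vol (G : Geo M E) (cs : Cst G) :
    ∃ δ₀ : ℝ, 0 < δ₀ ∧ ∃ κ₀ : ℝ, 1 ≤ κ₀ ∧ ∃ C : ℝ, 0 ≤ C ∧ ∃ S0 : ℝ, 0 < S0 ∧ ∀ Sc, S0 ≤ Sc →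
      ∀ (X X₁ : G.R → ℝ) (θ : E) (w : G.R) (b : ℝ), (∀ r : G.R, |X r - ⟪(r : E), θ⟫ - 1| ≤ δ₀) →
        0 ≤ b → b ≤ δ₀ → (∀ r, r ≠ w → X₁ r + κ₀ * b ≤ X r) → X₁ w ≤ X w + b →
        volume (tBx G Sc X * (tBx G Sc X₁ * tBx G Sc X₁)) ≤
          ENNReal.ofReal (Real.exp (Sc * (GG G X + Dw cs w * b) + C)) := by
  classical
  obtain ⟨γ, hγ⟩ := exists_gap G
  obtain ⟨l0, l1, hl0, hl01, hl1, hl⟩ := exists_lam G
  have hγ0 := hγ.1
  choose Cw hCw1 hCw using fun w : G.R =>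
    BoxVol.exists_stick M (fun i => G.ray i = w) (cs.RQ w)
  obtain ⟨B, hB1, hB⟩ := exists_ge Cw
  obtain ⟨C₀, hC₀, hvol⟩ := BoxVol.exists_vol_le M
  set δ₀ : ℝ := γ * l0 / (6 * (M.c * l1 + 1)) with hδ₀
  have hcl : 0 ≤ (M.c : ℝ) * l1 := by positivity
  have hδ₀0 : 0 < δ₀ := by positivity
  set κ₀ : ℝ := M.c * l1 / l0 + 1 with hκ₀
  have hκ₀1 : 1 ≤ κ₀ := by
    have : 0 ≤ M.c * l1 / l0 := by positivity
    linarith
  refine ⟨δ₀, hδ₀0, κ₀, hκ₀1, C₀ + Real.log B, by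
    have := Real.log_nonneg hB1
    linarith, 2 * B / (γ * l0), by positivity, ?_⟩
  intro Sc hSc X X₁ θ w b hX hb hbδ hoff hw
  have hSc0 : 0 < Sc := lt_of_lt_of_le (by positivity) hSc
  set v₀ : Fin k → ℝ := G.T.symm ((Sc * X w) • (w : E)) with hv₀
  set v : Fin k → ℝ := G.T.symm ((Sc * b) • (w : E)) with hv
  have hww : ⟪(w : E), (w : E)⟫ = 1 := by
    rw [real_inner_self_eq_norm_sq, G.norm_ray]; norm_num
  have hTv₀ : ⟪(w : E), G.T v₀⟫ = Sc * X w := by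
    rw [hv₀, LinearEquiv.apply_symm_apply, real_inner_smul_right, hww, mul_one]
  have hTv : ⟪(w : E), G.T v⟫ = Sc * b := by
    rw [hv, LinearEquiv.apply_symm_apply, real_inner_smul_right, hww, mul_one]
  have h1 := hCw w (tY G Sc X) (tY G Sc X₁) v₀ v (Sc * (l1 * b)) (by positivity)
    (fun i hi => by
      subst hi
      rw [G.wg_ray, hTv₀, tY]; ring)
    (fun i hi => by
      subst hi
      rw [G.wg_ray, hTv]
      have := G.lam_pos i
      positivity)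
    (fun i hi => by
      subst hi
      rw [G.wg_ray, hTv]
      have := (hl i).2
      calc G.RS.lam i * (Sc * b) ≤ l1 * (Sc * b) := by gcongr
        _ = _ := by ring)
    (fun i hi => by
      subst hi
      rw [G.wg_ray, map_add, inner_add_right, hTv₀, hTv, tY]
      have h2 := mul_le_mul_of_nonneg_left hw (G.lam_pos i).le
      have h3 := mul_le_mul_of_nonneg_left h2 hSc0.le
      linarith)
    (fun i hi => by
      have h2 := mul_le_mul_of_nonneg_left (hoff (G.ray i) hi) (G.lam_pos i).le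
      have h3 := mul_le_mul_of_nonneg_left h2 hSc0.le
      have h4 : (M.c : ℝ) * (l1 * b) ≤ G.RS.lam i * (κ₀ * b) := by
        have h5 : (M.c : ℝ) * l1 ≤ l0 * κ₀ := by
          rw [hκ₀, mul_add, mul_div_cancel₀ _ hl0.ne']; linarith
        calc (M.c : ℝ) * (l1 * b) = (M.c * l1) * b := by ring
          _ ≤ (l0 * κ₀) * b := by gcongr
          _ ≤ (G.RS.lam i * κ₀) * b := by
              have := (hl i).1
              gcongr
          _ = _ := by ring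
      have h5 := mul_le_mul_of_nonneg_left h4 hSc0.le
      unfold tY
      linarith)
    (nearRound_tY G hγ (by linarith) hl (δ := δ₀) (b := b) hSc0 hδ₀0.le hb (by
      have h2 : (2 * δ₀ + b) * (M.c * l1) ≤ (3 * δ₀) * (M.c * l1 + 1) :=
        mul_le_mul (by linarith) (by linarith) hcl (by positivity)
      refine h2.trans (le_of_eq ?_)
      rw [hδ₀]; field_simp; ring) (by
      have h2 := hB w
      rw [div_le_iff₀ (by positivity)] at hSc
      linarith) hX w (by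
      rw [map_add, hv₀, hv, LinearEquiv.apply_symm_apply, LinearEquiv.apply_symm_apply,
        ← add_smul]
      congr 1; ring))
  have h2 := hvol (tY G Sc X) 0 le_rfl
  rw [Real.exp_zero, gsys_Gt_tY G hSc0.le, mul_zero, add_zero] at h2
  rw [τ_eq, hTv] at h1
  refine h1.trans ?_
  refine (mul_le_mul_right h2 _).trans ?_
  rw [← ENNReal.ofReal_mul (by have := hCw1 w; positivity)]
  refine ENNReal.ofReal_le_ofReal ?_
  have hB0 : 0 < B := by linarith
  calc Cw w * Real.exp (Dw cs w * (Sc * b)) * Real.exp (Sc * GG G X + C₀)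
      ≤ B * Real.exp (Dw cs w * (Sc * b)) * Real.exp (Sc * GG G X + C₀) := by
        have := hB w
        gcongr
    _ = Real.exp (Real.log B + Dw cs w * (Sc * b) + (Sc * GG G X + C₀)) := by
        rw [Real.exp_add (Real.log B + Dw cs w * (Sc * b)), Real.exp_add (Real.log B),
          Real.exp_log hB0]
    _ ≤ _ := le_of_eq (by congr 1; ring)

theorem volume_smul_set (M : BModel S π) (y : M.NN) (s : Set M.NN) :
    volume (y • s) = volume s := by
  have h : y • s = (fun x => y⁻¹ * x) ⁻¹' s := by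
    ext x
    rw [Set.mem_smul_set_iff_inv_smul_mem]; rfl
  rw [h, measure_preimage_mul]

/-- **field `stick`** -/
theorem exists_stick_ev (hS : S.Finite) (hcl : Subgroup.closure S = ⊤) (hG : M.CGrowth)
    (G : Geo M E) (cs : Cst G) (hκD : 0 ≤ cs.κD) (K : ℕ) (RC Cb : ℝ) :
    ∃ ω₀ : ℝ, 0 < ω₀ ∧ ∃ κ₀ : ℝ, 1 ≤ κ₀ ∧ ∀ ω, ω ≤ ω₀ → ∀ κ, κ₀ ≤ κ → ∀ ε, 0 < ε →
      Ev G RC Cb fun Sc τ u => ∀ Ψ : Γ → Γ, QIMap S S Ψ K → ∀ x : M.G, ∀ (r : G.R) (s : ℝ), 0 ≤ s →
        s ≤ 2 → ∀ z : ℝ, 0 ≤ z → z ≤ 1 → ∀ (X X' : G.R → ℝ) (y : M.NN) (θ : E) (w : G.R) (b : ℝ),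
        (∀ r' : G.R, |X r' - ⟪(r' : E), θ⟫ - 1| ≤ 2 * ω) → 0 ≤ b → b ≤ ω →
        (∀ r, r ≠ w → X' r + κ * b ≤ X r) → X' w ≤ X w + b →
        volume {n | n ∈ (data G cs Ψ x Sc τ u).Dom ∧
          (data G cs Ψ x Sc τ u).g n r s ∈ y • ((data G cs Ψ x Sc τ u).Bx z X *
            (data G cs Ψ x Sc τ u).Bx z X') ∧
          (∀ r' : G.R, ⟪(r' : E), (data G cs Ψ x Sc τ u).f n r s⟫ ≤ X r') ∧
          (∀ r' : G.R, r' ≠ w → ⟪(r' : E), (data G cs Ψ x Sc τ u).f n r s⟫ + κ * b ≤ X r')} ≤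
        ENNReal.ofReal (Real.exp (Sc * (GG G X + Dw cs w * b + κ * z + ε))) := by
  classical
  obtain ⟨δ₀, hδ₀, κ₀, hκ₀, C, hC, S1, hS1, hvol⟩ := exists_stick_vol G cs
  obtain ⟨A, D, hA, hcount⟩ := exists_count hS hcl hG K
  obtain ⟨Bc, hBc, hlen⟩ := exists_len_pnt G K hκD RC Cb
  set L : ℝ := |G.RS.Gt G.RS.lam| + 1 with hL
  have hL0 : 0 < L := by positivity
  refine ⟨δ₀ / 4, by positivity, κ₀, hκ₀, fun ω hω κ hκ ε hε => ?_⟩
  set ε' : ℝ := min (δ₀ / 4) (ε / (4 * L)) with hε'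
  have hε'0 : 0 < ε' := lt_min (by positivity) (by positivity)
  have hε'1 : ε' ≤ δ₀ / 4 := min_le_left _ _
  have hε'2 : L * ε' ≤ ε / 4 := by
    have : ε' ≤ ε / (4 * L) := min_le_right _ _
    calc L * ε' ≤ L * (ε / (4 * L)) := by gcongr
      _ = ε / 4 := by field_simp
  obtain ⟨S2, hS2, habs⟩ := exists_tBx_poly G A Bc D ε' hε'0
  obtain ⟨S3, hS3, hpoly⟩ := exists_poly_le A Bc D (δ := ε / 4) (by positivity)
  refine ⟨1, one_pos, fun τ hτ _ => ⟨1, one_pos, max (max S1 S2) (max S3 (4 * C / ε)),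
    fun Sc hSc un => ?_⟩⟩
  have hScS1 : S1 ≤ Sc := (le_max_left _ _).trans ((le_max_left _ _).trans hSc)
  have hScS2 : S2 ≤ Sc := (le_max_right _ _).trans ((le_max_left _ _).trans hSc)
  have hScS3 : S3 ≤ Sc := (le_max_left _ _).trans ((le_max_right _ _).trans hSc)
  have hScC : 4 * C / ε ≤ Sc := (le_max_right _ _).trans ((le_max_right _ _).trans hSc)
  have hSc1 : 1 ≤ Sc := hS2.trans hScS2
  have hSc0 : 0 < Sc := by linarith
  intro Ψ hΨ x r s hs hs2 z hz0 _ X X' y θ w b hX hb hbω hoff hw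
  -- the modified shapes
  set X₂ : G.R → ℝ := fun r => if r = w then X w else X r - κ * b with hX₂
  set X₁ : G.R → ℝ := fun r => if r = w then X w + b + ε' else X r - κ * b + ε' with hX₁
  set Xp : G.R → ℝ := fun r => X r + ε' with hXp
  have hκb : 0 ≤ κ * b := mul_nonneg (by linarith) hb
  set Z : GI M → ℝ := fun i => Sc * (G.RS.lam i * X₂ (G.ray i)) with hZ
  set B : Set M.NN := y • (tBx G Sc X * tBx G Sc X') with hB
  have hm1 : 1 ≤ Bc * Sc := by nlinarith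
  have h1 := hcount Ψ hΨ x (leg un.u τ r s) B Z (Bc * Sc) hm1
  have hsub : {n | n ∈ (data G cs Ψ x Sc τ un.u).Dom ∧
          (data G cs Ψ x Sc τ un.u).g n r s ∈ y • ((data G cs Ψ x Sc τ un.u).Bx z X *
            (data G cs Ψ x Sc τ un.u).Bx z X') ∧
          (∀ r' : G.R, ⟪(r' : E), (data G cs Ψ x Sc τ un.u).f n r s⟫ ≤ X r') ∧
          (∀ r' : G.R, r' ≠ w → ⟪(r' : E), (data G cs Ψ x Sc τ un.u).f n r s⟫ + κ * b ≤ X r')} ⊆
      {n : M.NN | up M ((M.ext Ψ x)⁻¹ * M.ext Ψ (x * M.toG n * leg un.u τ r s)) ∈ B ∧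
        M.len ((M.ext Ψ x)⁻¹ * M.ext Ψ (x * M.toG n * leg un.u τ r s)) ≤ Bc * Sc ∧
        ∀ i, wg M i (M.h ((M.ext Ψ x)⁻¹ * M.ext Ψ (x * M.toG n * leg un.u τ r s))) ≤ Z i} := by
    rintro n ⟨hn, hg, hf1, hf2⟩
    refine ⟨hg, hlen Sc τ 1 hSc1 hτ un Ψ hΨ x n hn r s hs hs2, fun i => ?_⟩
    have hf : ⟪(G.ray i : E), (data G cs Ψ x Sc τ un.u).f n r s⟫ ≤ X₂ (G.ray i) := by
      rw [hX₂]
      beta_reduce
      split_ifs with h
      · rw [h]; exact hf1 w
      · linarith [hf2 _ h]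
    change ⟪(G.ray i : E), Sc⁻¹ • G.T (M.h (pnt Ψ x un.u τ n r s))⟫ ≤ _ at hf
    rw [real_inner_smul_right, inv_mul_le_iff₀ hSc0] at hf
    change wg M i (M.h (pnt Ψ x un.u τ n r s)) ≤ Z i
    rw [G.wg_ray, hZ]
    have h3 := mul_le_mul_of_nonneg_left hf (G.lam_pos i).le
    beta_reduce
    linarith
  have hBsub : B * M.NB (gZ (eg M) Z) (A * (Bc * Sc) ^ D) ⊆
      y • (tBx G Sc Xp * (tBx G Sc X₁ * tBx G Sc X₁)) := by
    rintro _ ⟨_, ⟨_, ⟨p, hp, q, hq, rfl⟩, rfl⟩, v, hv, rfl⟩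
    refine ⟨p * (q * v), ⟨p, tBx_mono hSc0.le (fun r => by rw [hXp]; beta_reduce; linarith) hp,
      q * v, ⟨q, tBx_mono hSc0.le (fun r => ?_) hq, v, ?_, rfl⟩, rfl⟩, ?_⟩
    · rw [hX₁]
      beta_reduce
      split_ifs with h
      · rw [h]; linarith
      · linarith [hoff r h]
    · have h3 : v ∈ M.NB (gZ (eg M) fun i => Sc * (G.RS.lam i * X₂ (G.ray i)))
          (A * (1 + Bc * Sc) ^ D) := by
        refine BModel.NB_mono ?_ hv
        gcongr
        linarith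
      refine tBx_mono hSc0.le (fun r => ?_) (habs Sc hScS2 X₂ h3)
      rw [hX₁, hX₂]
      beta_reduce
      split_ifs with h
      · linarith
      · linarith
    · simp only [smul_eq_mul, mul_assoc]
  have h2 := hvol Sc hScS1 Xp X₁ θ w b (fun r => by
      rw [hXp]
      have := abs_le.1 (hX r)
      beta_reduce
      rw [abs_le]
      constructor <;> linarith [this.1, this.2]) hb (by linarith)
    (fun r hr => by
      rw [hX₁, hXp]
      beta_reduce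
      rw [if_neg hr]
      nlinarith) (by
      rw [hX₁, hXp]
      beta_reduce
      rw [if_pos rfl]
      linarith)
  refine (measure_mono hsub).trans (h1.trans ?_)
  refine (mul_le_mul_right (measure_mono hBsub) _).trans ?_
  rw [volume_smul_set]
  refine (mul_le_mul_right h2 _).trans ?_
  rw [← ENNReal.ofReal_mul (by positivity)]
  refine ENNReal.ofReal_le_ofReal ?_
  have h3 : A * (Bc * Sc) ^ D ≤ Real.exp (ε / 4 * Sc) := by
    refine le_trans ?_ (hpoly Sc hScS3)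
    gcongr
    linarith
  have h4 : GG G Xp ≤ GG G X + L * ε' := by
    refine (GG_shift G X ε' hε'0.le).trans ?_
    have : G.RS.Gt G.RS.lam ≤ L := by rw [hL]; linarith [le_abs_self (G.RS.Gt G.RS.lam)]
    gcongr
  have h5 : C ≤ ε / 4 * Sc := by
    rw [div_le_iff₀ hε] at hScC
    linarith
  calc A * (Bc * Sc) ^ D * Real.exp (Sc * (GG G Xp + Dw cs w * b) + C)
      ≤ Real.exp (ε / 4 * Sc) * Real.exp (Sc * (GG G Xp + Dw cs w * b) + C) := by gcongr
    _ = Real.exp (ε / 4 * Sc + (Sc * (GG G Xp + Dw cs w * b) + C)) := (Real.exp_add _ _).symm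
    _ ≤ _ := by
        refine Real.exp_le_exp.2 ?_
        have h6 : Sc * GG G Xp ≤ Sc * (GG G X + ε / 4) := by
          gcongr
          linarith
        have h7 : 0 ≤ Sc * (κ * z) := by
          have : 0 ≤ κ := by linarith
          positivity
        have h8 : 0 ≤ ε * Sc := by positivity
        nlinarith

end Crest.Agent.R182.ElI
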