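import Mathlib
import Crest.Agent.R182.ElStick
import Crest.Agent.R182.ElDefs
import Crest.Agent.R182.ElGeo

-- ▼ part R182/ElSlab
section

set_option autoImplicit false
set_option linter.unusedSectionVars false

open MeasureTheory Set
open scoped Pointwise RealInnerProductSpace ENNReal

namespace Crest.Agent.R182.ElI

open Crest.GroupTheory Crest.Geometry Crest.Agent.R182.QI Crest.Agent.R182.Core
  Crest.Agent.R182.Nb Crest.Agent.R182.Gen

variable {Γ : Type*} [Group Γ] {k : ℕ} {S : Set Γ} {π : Γ →* Multiplicative (Fin k → ℤ)}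
variable {M : BModel S π} {E : Type*} [NormedAddCommGroup E] [InnerProductSpace ℝ E]

theorem convex_NB' (M : BModel S π) {σ : Type*} [Fintype σ] (fam : σ → M.L) (s : ℝ) :
    Convex ℝ (M.NB fam s) := by
  intro x hx y hy a b ha hb hab
  rw [BModel.mem_NB] at hx hy ⊢
  obtain ⟨p, hp, hx⟩ := hx
  obtain ⟨q, hq, hy⟩ := hy
  refine ⟨fun κ => a * p κ + b * q κ, fun κ => ?_, ?_⟩
  · refine (abs_add_le _ _).trans ?_
    rw [abs_mul, abs_mul, abs_of_nonneg ha, abs_of_nonneg hb]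
    have h1 := mul_le_mul_of_nonneg_left (hp κ) ha
    have h2 := mul_le_mul_of_nonneg_left (hq κ) hb
    calc _ ≤ a * s + b * s := add_le_add h1 h2
      _ = s := by rw [← add_mul, hab, one_mul]
  · rw [map_add, map_smul, map_smul, hx, hy, Finset.smul_sum, Finset.smul_sum,
      ← Finset.sum_add_distrib]
    exact Finset.sum_congr rfl fun κ _ => by rw [add_smul, smul_smul, smul_smul]

/-- a slab of a target box -/
theorem slab_tBx (G : Geo M E) (Sc : ℝ) (X : G.R → ℝ) (i : GI M) {η : ℝ} (hη : 0 < η) :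
    volume {n | n ∈ tBx G Sc X ∧ |n (i : Fin M.r)| ≤
      η * Real.exp (Sc * (G.RS.lam i * X (G.ray i)))} ≤
      ENNReal.ofReal (4 * 2 ^ M.r * η) * volume (tBx G Sc X) := by
  set H := Real.exp (Sc * (G.RS.lam i * X (G.ray i))) with hH
  have hH0 : 0 < H := Real.exp_pos _
  let ℓ : M.NN →ₗ[ℝ] ℝ :=
    { toFun := fun n => n (i : Fin M.r)
      map_add' := fun _ _ => rfl
      map_smul' := fun _ _ => rfl }
  set x₀ : M.NN := M.E.symm (H • eg M i) with hx₀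
  have h1 : x₀ ∈ tBx G Sc X := by
    unfold tBx
    rw [BModel.mem_NB, hx₀, LinearEquiv.apply_symm_apply]
    exact gen_mem_Bx (M.nilC.nil (gZ (eg M) fun i => Sc * (G.RS.lam i * X (G.ray i)))) i
  have h2 : ℓ x₀ = H := by
    change x₀ (i : Fin M.r) = H
    rw [hx₀, M.E_symm_apply, map_smul, Finsupp.smul_apply, eg, Module.Basis.repr_self,
      Finsupp.single_eq_same, smul_eq_mul, mul_one]
  have h3 := BoxVol.slab_le (volume : Measure M.NN) (convex_NB' M _ _)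
    (BModel.NB_one_mem (fam := gZ (eg M) fun i => Sc * (G.RS.lam i * X (G.ray i)))
      zero_le_one) (tBx_meas G Sc X) ℓ h1 hH0 h2.ge hη
  rw [BModel.finrank_NN] at h3
  exact h3

/-- **field `slab`** -/
theorem exists_slab_ev (hS : S.Finite) (hcl : Subgroup.closure S = ⊤) (hG : M.CGrowth)
    (G : Geo M E) (cs : Cst G) (hκD : 0 ≤ cs.κD) (K : ℕ) (RC Cb : ℝ) {c0 : ℝ}
    (hc0 : ∀ i, c0 ≤ G.RS.lam i) {κ : ℝ} (hκ : 0 ≤ κ) {ε : ℝ} (hε : 0 < ε) :
      Ev G RC Cb fun Sc τ u => ∀ Ψ : Γ → Γ, QIMap S S Ψ K → ∀ x : M.G, ∀ (r : G.R) (s : ℝ), 0 ≤ s →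
        s ≤ 2 → ∀ z : ℝ, 0 ≤ z → z ≤ 1 → ∀ (X : G.R → ℝ) (y y' : M.NN) (r' : G.R) (t : ℝ),
        0 ≤ t →
        volume {n | n ∈ (data G cs Ψ x Sc τ u).Dom ∧
          (data G cs Ψ x Sc τ u).g n r s ∈ y • (data G cs Ψ x Sc τ u).Bx z X ∧
          (data G cs Ψ x Sc τ u).g n r s ∈ y' • (data G cs Ψ x Sc τ u).Ds r' (X r' - t) ∧
          (∀ r' : G.R, ⟪(r' : E), (data G cs Ψ x Sc τ u).f n r s⟫ ≤ X r') ∧
          ⟪(r' : E), (data G cs Ψ x Sc τ u).f n r s⟫ + t ≤ X r'} ≤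
        ENNReal.ofReal (Real.exp (Sc * (GG G X - c0 * t + κ * z + ε))) := by
  classical
  obtain ⟨A, D, hA, hcount⟩ := exists_count hS hcl hG K
  obtain ⟨Bc, hBc, hlen⟩ := exists_len_pnt G K hκD RC Cb
  obtain ⟨C₀, hC₀, hvol⟩ := BoxVol.exists_vol_le M
  set L : ℝ := |G.RS.Gt G.RS.lam| + 1 with hL
  have hL0 : 0 < L := by positivity
  set ε' : ℝ := ε / (8 * L) with hε'
  have hε'0 : 0 < ε' := by positivity
  obtain ⟨S1, hS1, hprod⟩ := exists_tBx_prod G 4 ε' hε'0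
  obtain ⟨S2, hS2, habs⟩ := exists_tBx_poly G A Bc D ε' hε'0
  obtain ⟨S3, hS3, hpoly⟩ := exists_poly_le (16 * 2 ^ M.r * Real.exp C₀ * A ^ 2) Bc (2 * D)
    (δ := ε / 4) (by positivity)
  refine ⟨1, one_pos, fun τ hτ _ => ⟨1, one_pos, max S1 (max S2 S3), fun Sc hSc un => ?_⟩⟩
  have hScS1 : S1 ≤ Sc := (le_max_left _ _).trans hSc
  have hScS2 : S2 ≤ Sc := (le_max_left _ _).trans ((le_max_right _ _).trans hSc)
  have hScS3 : S3 ≤ Sc := (le_max_right _ _).trans ((le_max_right _ _).trans hSc)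
  have hSc1 : 1 ≤ Sc := hS1.trans hScS1
  have hSc0 : 0 < Sc := by linarith
  intro Ψ hΨ x r s hs hs2 z hz0 _ X y y' r' t ht
  obtain ⟨i, hi⟩ := G.ray_surj r'
  subst hi
  set P : ℝ := A * (Bc * Sc) ^ D with hP
  have hBS : 1 ≤ Bc * Sc := by nlinarith
  have hP1 : 1 ≤ P := by
    have := one_le_pow₀ (n := D) hBS
    nlinarith
  set X₂ : G.R → ℝ := fun r => if r = G.ray i then X (G.ray i) - t else X r with hX₂
  have hX₂X : X₂ ≤ X := by
    intro r
    rw [hX₂]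
    beta_reduce
    split_ifs with h
    · rw [h]; linarith
    · exact le_rfl
  set Xp : G.R → ℝ := fun r => X r + ε' with hXp
  set Xpp : G.R → ℝ := fun r => Xp r + ε' with hXpp
  set Z : GI M → ℝ := fun i => Sc * (G.RS.lam i * X₂ (G.ray i)) with hZ
  set B : Set M.NN := (y • tBx G Sc X) ∩ (y' • tDs G Sc (G.ray i) (X (G.ray i) - t)) with hB
  have h1 := hcount Ψ hΨ x (leg un.u τ r s) B Z (Bc * Sc) hBS
  have hsub : {n | n ∈ (data G cs Ψ x Sc τ un.u).Dom ∧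
          (data G cs Ψ x Sc τ un.u).g n r s ∈ y • (data G cs Ψ x Sc τ un.u).Bx z X ∧
          (data G cs Ψ x Sc τ un.u).g n r s ∈
            y' • (data G cs Ψ x Sc τ un.u).Ds (G.ray i) (X (G.ray i) - t) ∧
          (∀ r' : G.R, ⟪(r' : E), (data G cs Ψ x Sc τ un.u).f n r s⟫ ≤ X r') ∧
          ⟪(G.ray i : E), (data G cs Ψ x Sc τ un.u).f n r s⟫ + t ≤ X (G.ray i)} ⊆
      {n : M.NN | up M ((M.ext Ψ x)⁻¹ * M.ext Ψ (x * M.toG n * leg un.u τ r s)) ∈ B ∧
        M.len ((M.ext Ψ x)⁻¹ * M.ext Ψ (x * M.toG n * leg un.u τ r s)) ≤ Bc * Sc ∧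
        ∀ i, wg M i (M.h ((M.ext Ψ x)⁻¹ * M.ext Ψ (x * M.toG n * leg un.u τ r s))) ≤ Z i} := by
    rintro n ⟨hn, hg, hg', hf1, hf2⟩
    refine ⟨⟨hg, hg'⟩, hlen Sc τ 1 hSc1 hτ un Ψ hΨ x n hn r s hs hs2, fun j => ?_⟩
    have hf : ⟪(G.ray j : E), (data G cs Ψ x Sc τ un.u).f n r s⟫ ≤ X₂ (G.ray j) := by
      rw [hX₂]
      beta_reduce
      split_ifs with h
      · rw [h]; linarith
      · exact hf1 _
    change ⟪(G.ray j : E), Sc⁻¹ • G.T (M.h (pnt Ψ x un.u τ n r s))⟫ ≤ _ at hf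
    rw [real_inner_smul_right, inv_mul_le_iff₀ hSc0] at hf
    change wg M j (M.h (pnt Ψ x un.u τ n r s)) ≤ Z j
    rw [G.wg_ray, hZ]
    have h3 := mul_le_mul_of_nonneg_left hf (G.lam_pos j).le
    beta_reduce
    linarith
  -- the enlarged set
  set T : Set M.NN := B * M.NB (gZ (eg M) Z) P with hT
  set e₁ : ℝ := Real.exp (Sc * (G.RS.lam i * (X (G.ray i) - t))) with he₁
  have he₁0 : 0 < e₁ := Real.exp_pos _
  have hTp : ∀ n ∈ T, ∃ p ∈ tBx G Sc Xp, ∃ v ∈ tBx G Sc Xp, n = y * (p * v) ∧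
      |n (i : Fin M.r) - y' (i : Fin M.r)| ≤ 2 * P * e₁ := by
    rintro _ ⟨_, ⟨⟨p, hp, rfl⟩, ⟨q, hq, hqe⟩⟩, v, hv, rfl⟩
    have hv' : v ∈ M.NB (gZ (eg M) fun i => Sc * (G.RS.lam i * X₂ (G.ray i)))
        (A * (1 + Bc * Sc) ^ D) := by
      refine BModel.NB_mono ?_ hv
      rw [hP]
      gcongr
      linarith
    refine ⟨p, tBx_mono hSc0.le (fun r => ?_) hp, v,
      tBx_mono hSc0.le (fun r => ?_) (habs Sc hScS2 X₂ hv'), ?_, ?_⟩
    · rw [hXp]; beta_reduce; linarith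
    · rw [hXp]; beta_reduce; linarith [hX₂X r]
    · simp only [smul_eq_mul, mul_assoc]
    · have h3 : (y • p : M.NN) = y' * q := hqe.symm
      beta_reduce
      rw [h3, mul_apply_gen, mul_apply_gen]
      have h4 : |q (i : Fin M.r)| ≤ e₁ := hq i rfl
      have h5 : |v (i : Fin M.r)| ≤ P * e₁ := by
        have h6 := NB_apply_le (X := X₂) G hv i
        have h7 : X₂ (G.ray i) = X (G.ray i) - t := if_pos rfl
        rwa [h7] at h6
      have h6 : y' (i : Fin M.r) + q (i : Fin M.r) + v (i : Fin M.r) - y' (i : Fin M.r) =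
          q (i : Fin M.r) + v (i : Fin M.r) := by ring
      rw [h6]
      refine (abs_add_le _ _).trans ?_
      nlinarith
  -- volume of the enlarged set
  set η : ℝ := 4 * P * Real.exp (-(Sc * (G.RS.lam i * t))) with hη
  have hη0 : 0 < η := by positivity
  have hTvol : volume T ≤ ENNReal.ofReal (4 * 2 ^ M.r * η) * volume (tBx G Sc Xpp) := by
    by_cases hTe : T = ∅
    · rw [hTe, measure_empty]; exact zero_le
    obtain ⟨n₀, hn₀⟩ := Set.nonempty_iff_ne_empty.2 hTe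
    obtain ⟨p₀, hp₀, v₀, hv₀, hn₀e, hn₀i⟩ := hTp n₀ hn₀
    refine le_trans ?_ (slab_tBx G Sc Xpp i hη0)
    have h3 : T ⊆ n₀ • {n | n ∈ tBx G Sc Xpp ∧ |n (i : Fin M.r)| ≤
        η * Real.exp (Sc * (G.RS.lam i * Xpp (G.ray i)))} := by
      intro n hn
      obtain ⟨p, hp, v, hv, hne, hni⟩ := hTp n hn
      rw [Set.mem_smul_set_iff_inv_smul_mem]
      constructor
      · have h4 : (n₀⁻¹ • n : M.NN) = [v₀⁻¹, p₀⁻¹, p, v].prod := by
          rw [hne, hn₀e]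
          simp only [smul_eq_mul, List.prod_cons, List.prod_nil, mul_one]
          group
        rw [h4]
        refine hprod Sc hScS1 Xp _ (by simp) ?_
        intro a ha
        simp only [List.mem_cons, List.not_mem_nil, or_false] at ha
        rcases ha with rfl | rfl | rfl | rfl
        · exact tBx_inv hv₀
        · exact tBx_inv hp₀
        · exact hp
        · exact hv
      · rw [smul_eq_mul, mul_apply_gen, inv_apply]
        have h4 : -n₀ (i : Fin M.r) + n (i : Fin M.r) =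
            (n (i : Fin M.r) - y' (i : Fin M.r)) - (n₀ (i : Fin M.r) - y' (i : Fin M.r)) := by ring
        rw [h4]
        refine (abs_sub _ _).trans ?_
        have h5 : 4 * P * e₁ ≤ η * Real.exp (Sc * (G.RS.lam i * Xpp (G.ray i))) := by
          rw [hη, mul_assoc (4 * P), ← Real.exp_add]
          refine mul_le_mul_of_nonneg_left (Real.exp_le_exp.2 ?_) (by positivity)
          have h6 : Xpp (G.ray i) = X (G.ray i) + ε' + ε' := rfl
          rw [h6]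
          have h7 : 0 ≤ Sc * (G.RS.lam i * (ε' + ε')) := by
            have := G.lam_pos i
            positivity
          nlinarith
        linarith
    refine (measure_mono h3).trans (le_of_eq ?_)
    rw [volume_smul_set]
  have h2 := hvol (tY G Sc Xpp) 0 le_rfl
  rw [Real.exp_zero, gsys_Gt_tY G hSc0.le, mul_zero, add_zero] at h2
  refine (measure_mono hsub).trans (h1.trans ?_)
  refine (mul_le_mul_right (hTvol.trans (mul_le_mul_right h2 _)) _).trans ?_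
  rw [← ENNReal.ofReal_mul (by positivity), ← ENNReal.ofReal_mul (by positivity)]
  refine ENNReal.ofReal_le_ofReal ?_
  have h4 : GG G Xpp ≤ GG G X + L * ε' + L * ε' := by
    have hLe : G.RS.Gt G.RS.lam ≤ L := by rw [hL]; linarith [le_abs_self (G.RS.Gt G.RS.lam)]
    have h5 := GG_shift G Xp ε' hε'0.le
    have h6 := GG_shift G X ε' hε'0.le
    have h7 : G.RS.Gt G.RS.lam * ε' ≤ L * ε' := by gcongr
    linarith
  have hLε : L * ε' = ε / 8 := by rw [hε']; field_simp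
  have h5 : Real.exp (-(Sc * (G.RS.lam i * t))) ≤ Real.exp (-(Sc * (c0 * t))) := by
    refine Real.exp_le_exp.2 (neg_le_neg ?_)
    have := hc0 i
    gcongr
  have h6 : P * (4 * 2 ^ M.r * (4 * P)) * Real.exp C₀ ≤ Real.exp (ε / 4 * Sc) := by
    refine le_trans (le_of_eq ?_) ((mul_le_mul_of_nonneg_left (?_ : (Bc * Sc) ^ (2 * D) ≤
      (1 + Bc * Sc) ^ (2 * D)) (by positivity)).trans (hpoly Sc hScS3))
    · rw [hP, pow_mul']; ring
    · gcongr; linarith
  calc P * (4 * 2 ^ M.r * η * Real.exp (Sc * GG G Xpp + C₀))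
      = (P * (4 * 2 ^ M.r * (4 * P)) * Real.exp C₀) * Real.exp (-(Sc * (G.RS.lam i * t))) *
          Real.exp (Sc * GG G Xpp) := by rw [hη, Real.exp_add]; ring
    _ ≤ Real.exp (ε / 4 * Sc) * Real.exp (-(Sc * (c0 * t))) * Real.exp (Sc * GG G Xpp) := by
        gcongr
    _ = Real.exp (ε / 4 * Sc + -(Sc * (c0 * t)) + Sc * GG G Xpp) := by
        rw [Real.exp_add, Real.exp_add]
    _ ≤ _ := by
        refine Real.exp_le_exp.2 ?_
        have h7 : Sc * GG G Xpp ≤ Sc * (GG G X + ε / 4) := by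
          gcongr
          linarith
        have h8 : 0 ≤ Sc * (κ * z) := by positivity
        have h9 : 0 ≤ ε * Sc := by positivity
        nlinarith

end Crest.Agent.R182.ElI
end

-- ▼ part R182/ElMeas
section

set_option autoImplicit false

open MeasureTheory Set
open scoped Pointwise ENNReal

namespace Crest.Agent.R182.El

variable {N : Type*} [Group N] [MeasurableSpace N] {μ : Measure N}

section Cover

variable [MeasurableMul N] [μ.IsMulLeftInvariant]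

/-- (M1) covering by translates of `A²`. -/
theorem cover_le {A T : Set N} (hA : MeasurableSet A) (h0 : μ A ≠ 0) (h1 : (1 : N) ∈ A)
    (hinv : ∀ a ∈ A, a⁻¹ ∈ A) (hfin : μ (T * A) ≠ ⊤) (P : N → Prop) (β : ℝ≥0∞)
    (h : ∀ n₀ ∈ T, μ {a | a ∈ A ^ 2 ∧ ¬ P (n₀ * a)} ≤ β * μ A) :
    μ {t | t ∈ T ∧ ¬ P t} ≤ β * μ (T * A) := by
  classical
  rcases T.eq_empty_or_nonempty with rfl | ⟨t₀, ht₀⟩
  · simp
  -- translates
  have htr : ∀ (n : N) (B : Set N), μ (n • B) = μ B := by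
    intro n B
    have : n • B = (fun x => n⁻¹ * x) ⁻¹' B := by
      ext x
      rw [Set.mem_smul_set_iff_inv_smul_mem, smul_eq_mul]; rfl
    rw [this, measure_preimage_mul]
  have hsub : ∀ n ∈ T, n • A ⊆ T * A := by
    intro n hn x hx
    obtain ⟨a, ha, rfl⟩ := hx
    exact Set.mul_mem_mul hn ha
  have hAfin : μ A ≠ ⊤ := by
    intro htop
    apply hfin
    rw [eq_top_iff, ← htop, ← htr t₀ A]
    exact measure_mono (hsub t₀ ht₀)
  -- families of disjoint translates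
  let p : Finset N → Prop := fun S => (∀ n ∈ S, n ∈ T) ∧
    (S : Set N).PairwiseDisjoint fun n => n • A
  have hcard : ∀ S, p S → (S.card : ℝ≥0∞) * μ A ≤ μ (T * A) := by
    rintro S ⟨hS, hd⟩
    have h2 : μ (⋃ n ∈ S, n • A) = ∑ n ∈ S, μ (n • A) :=
      measure_biUnion_finset hd fun n _ => by
        have : n • A = (fun x => n⁻¹ * x) ⁻¹' A := by
          ext x
          rw [Set.mem_smul_set_iff_inv_smul_mem, smul_eq_mul]; rfl
        rw [this]
        exact (measurable_const_mul _) hA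
    rw [Finset.sum_congr rfl fun n _ => htr n A, Finset.sum_const, nsmul_eq_mul] at h2
    rw [← h2]
    exact measure_mono (Set.iUnion₂_subset fun n hn => hsub n (hS n hn))
  obtain ⟨B, hB⟩ : ∃ B : ℕ, ∀ S, p S → S.card ≤ B := by
    obtain ⟨B, hB⟩ := exists_nat_ge (μ (T * A) / μ A).toReal
    refine ⟨B, fun S hS => ?_⟩
    have h3 : (S.card : ℝ≥0∞) ≤ μ (T * A) / μ A := by
      rw [ENNReal.le_div_iff_mul_le (Or.inl h0) (Or.inl hAfin)]
      exact hcard S hS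
    have h4 := ENNReal.toReal_mono (ENNReal.div_ne_top hfin h0) h3
    rw [ENNReal.toReal_natCast] at h4
    exact_mod_cast h4.trans hB
  let q : ℕ → Prop := fun k => ∃ S, p S ∧ S.card = k
  have hq0 : q 0 := ⟨∅, ⟨by simp, by simp⟩, rfl⟩
  have hspec := Nat.findGreatest_spec (P := q) (Nat.zero_le B) hq0
  set k := Nat.findGreatest q B with hk
  obtain ⟨S, hS, hSk⟩ := hspec
  have hmax : ¬ q (k + 1) := by
    intro hq
    have h5 : k + 1 ≤ B := by
      obtain ⟨S', hS', hk'⟩ := hq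
      rw [← hk']
      exact hB S' hS'
    have := Nat.le_findGreatest h5 hq
    omega
  -- `T` is covered
  have hcov : T ⊆ ⋃ n ∈ S, n • (A ^ 2) := by
    intro t ht
    by_contra hne
    have hne' : ∀ n ∈ S, t ∉ n • (A ^ 2) := by
      intro n hn hmem
      exact hne (Set.mem_biUnion hn hmem)
    have htS : t ∉ S := by
      intro htS
      apply hne' t htS
      refine ⟨1, ?_, by simp⟩
      rw [pow_two]
      exact ⟨1, h1, 1, h1, by simp⟩
    apply hmax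
    refine ⟨insert t S, ⟨?_, ?_⟩, by rw [Finset.card_insert_of_notMem htS, hSk]⟩
    · intro n hn
      rcases Finset.mem_insert.1 hn with rfl | hn
      · exact ht
      · exact hS.1 n hn
    · rw [Finset.coe_insert]
      refine hS.2.insert fun n hn _ => ?_
      rw [Set.disjoint_left]
      rintro x ⟨a, ha, rfl⟩ ⟨b, hb, hab⟩
      apply hne' n hn
      refine ⟨b * a⁻¹, ?_, ?_⟩
      · rw [pow_two]; exact ⟨b, hb, a⁻¹, hinv a ha, rfl⟩
      · simp only [smul_eq_mul] at hab ⊢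
        rw [← mul_assoc, hab, mul_inv_cancel_right]
  calc μ {t | t ∈ T ∧ ¬ P t}
      ≤ μ (⋃ n ∈ S, n • {a | a ∈ A ^ 2 ∧ ¬ P (n * a)}) := by
        apply measure_mono
        rintro t ⟨ht, hP⟩
        have := hcov ht
        simp only [Set.mem_iUnion] at this ⊢
        obtain ⟨n, hn, a, ha, rfl⟩ := this
        exact ⟨n, hn, a, ⟨ha, hP⟩, rfl⟩
    _ ≤ ∑ n ∈ S, μ (n • {a | a ∈ A ^ 2 ∧ ¬ P (n * a)}) := measure_biUnion_finset_le _ _
    _ ≤ ∑ _n ∈ S, β * μ A := by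
        refine Finset.sum_le_sum fun n hn => ?_
        rw [htr]
        exact h n (hS.1 n hn)
    _ = β * ((S.card : ℝ≥0∞) * μ A) := by
        rw [Finset.sum_const, nsmul_eq_mul]; ring
    _ ≤ β * μ (T * A) := mul_le_mul_right (hcard S hS) _

end Cover

section Fubini

variable [MeasurableMul₂ N] [MeasurableInv N] [SFinite μ]

omit [MeasurableInv N] in
/-- (M2) a good centre. -/
theorem exists_center [μ.IsMulLeftInvariant] {Rel : N → N → Prop}
    (hR : MeasurableSet {x : N × N | Rel x.1 x.2})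
    {B W : Set N} (hBm : MeasurableSet B) (hWm : MeasurableSet W)
    (hBW : ∀ s ∈ B, ∀ t ∈ B, s⁻¹ * t ∈ W) (hB0 : μ B ≠ 0) (hB : μ B ≠ ⊤) (β : ℝ≥0∞)
    (h : ∀ u ∈ W, μ {s | s ∈ B ∧ ¬ Rel s (s * u)} ≤ β) :
    ∃ s₀ ∈ B, μ {t | t ∈ B ∧ ¬ Rel s₀ t} * μ B ≤ β * μ W := by
  -- the bad set of pairs
  set D : Set (N × N) := {x | x.1 ∈ B ∧ x.2 ∈ B ∧ ¬ Rel x.1 x.2} with hD
  have hDm : MeasurableSet D :=
    (measurable_fst hBm).inter ((measurable_snd hBm).inter hR.compl)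
  set D' : Set (N × N) := {x | (x.1, x.1 * x.2) ∈ D} with hD'
  have hD'm : MeasurableSet D' :=
    (measurable_fst.prodMk (measurable_fst.mul measurable_snd)) hDm
  set f : N → ℝ≥0∞ := fun s => μ {t | (s, t) ∈ D} with hf
  have hfm : Measurable f := measurable_measure_prodMk_left hDm
  have h1 : ∀ s, f s = μ {u | (s, u) ∈ D'} := by
    intro s
    simp only [hf]
    rw [← measure_preimage_mul μ s {t | (s, t) ∈ D}]
    rfl
  have h2 : ∫⁻ s in B, f s ∂μ ≤ β * μ W := by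
    calc ∫⁻ s in B, f s ∂μ ≤ ∫⁻ s, f s ∂μ := setLIntegral_le_lintegral _ _
      _ = ∫⁻ s, μ {u | (s, u) ∈ D'} ∂μ := lintegral_congr h1
      _ = (μ.prod μ) D' := (Measure.prod_apply hD'm).symm
      _ = ∫⁻ u, μ {s | (s, u) ∈ D'} ∂μ := Measure.prod_apply_symm hD'm
      _ ≤ ∫⁻ u, W.indicator (fun _ => β) u ∂μ := by
          refine lintegral_mono fun u => ?_
          by_cases hu : u ∈ W
          · rw [Set.indicator_of_mem hu]
            refine le_trans (measure_mono ?_) (h u hu)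
            intro s hs
            exact ⟨hs.1, hs.2.2⟩
          · rw [Set.indicator_of_notMem hu]
            have : {s | (s, u) ∈ D'} = ∅ := by
              rw [Set.eq_empty_iff_forall_notMem]
              intro s hs
              apply hu
              have := hBW s hs.1 _ hs.2.1
              rwa [inv_mul_cancel_left] at this
            rw [this, measure_empty]
      _ = β * μ W := by rw [lintegral_indicator hWm, setLIntegral_const]
  obtain ⟨s₀, hs₀, hle⟩ := exists_le_setLAverage hB0 hB hfm.aemeasurable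
  refine ⟨s₀, hs₀, ?_⟩
  have h3 : f s₀ * μ B ≤ β * μ W := by
    rw [setLAverage_eq] at hle
    rw [ENNReal.le_div_iff_mul_le (Or.inl hB0) (Or.inl hB)] at hle
    exact hle.trans h2
  refine le_trans (mul_le_mul_left ?_ _) h3
  apply measure_mono
  rintro t ⟨ht, hrel⟩
  exact ⟨hs₀, ht, hrel⟩

/-- (M3) Fubini for moves distributed according to `lam`. -/
theorem lam_le [μ.IsMulRightInvariant] (lam : Measure N) [SFinite lam] {K Bad : Set N}
    (hK : MeasurableSet K) (hBad : MeasurableSet Bad) (m : ℝ≥0∞)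
    (hm : ∀ y, lam {v | y * v⁻¹ ∈ K} ≤ m) :
    ∫⁻ n in K, lam {v | n * v ∈ Bad} ∂μ ≤ m * μ Bad := by
  set D : Set (N × N) := {x | x.1 ∈ K ∧ x.1 * x.2 ∈ Bad} with hD
  have hDm : MeasurableSet D :=
    (measurable_fst hK).inter ((measurable_fst.mul measurable_snd) hBad)
  set D' : Set (N × N) := {x | x.1 * x.2⁻¹ ∈ K ∧ x.1 ∈ Bad} with hD'
  have hD'm : MeasurableSet D' :=
    ((measurable_fst.mul measurable_snd.inv) hK).inter (measurable_fst hBad)
  have h1 : ∫⁻ n in K, lam {v | n * v ∈ Bad} ∂μ = (μ.prod lam) D := by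
    rw [Measure.prod_apply hDm, ← lintegral_indicator hK]
    refine lintegral_congr fun n => ?_
    by_cases hn : n ∈ K
    · rw [Set.indicator_of_mem hn]
      congr 1
      ext v
      simp [hD, hn]
    · rw [Set.indicator_of_notMem hn]
      have : Prod.mk n ⁻¹' D = ∅ := by
        rw [Set.eq_empty_iff_forall_notMem]
        intro v hv
        exact hn hv.1
      rw [this, measure_empty]
  rw [h1, Measure.prod_apply_symm hDm]
  have h2 : ∀ v, μ ((fun x => (x, v)) ⁻¹' D) = μ ((fun x => (x, v)) ⁻¹' D') := by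
    intro v
    rw [← measure_preimage_mul_right μ v ((fun x => (x, v)) ⁻¹' D')]
    congr 1
    ext n
    simp [hD, hD']
  rw [lintegral_congr h2, ← Measure.prod_apply_symm hD'm, Measure.prod_apply hD'm]
  calc ∫⁻ y, lam (Prod.mk y ⁻¹' D') ∂μ ≤ ∫⁻ y, Bad.indicator (fun _ => m) y ∂μ := by
        refine lintegral_mono fun y => ?_
        by_cases hy : y ∈ Bad
        · rw [Set.indicator_of_mem hy]
          refine le_trans (measure_mono ?_) (hm y)
          intro v hv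
          exact hv.1
        · rw [Set.indicator_of_notMem hy]
          have : Prod.mk y ⁻¹' D' = ∅ := by
            rw [Set.eq_empty_iff_forall_notMem]
            intro v hv
            exact hy hv.2
          rw [this, measure_empty]
    _ = m * μ Bad := by rw [lintegral_indicator hBad, setLIntegral_const]

/-- (M3), Markov form, arbitrary bad set. -/
theorem lam_markov [μ.IsMulRightInvariant] (lam : Measure N) [SFinite lam] {K : Set N}
    (hK : MeasurableSet K) (Bad : Set N) (m : ℝ≥0∞)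
    (hm : ∀ y, lam {v | y * v⁻¹ ∈ K} ≤ m) (c : ℝ≥0∞) :
    μ {n | n ∈ K ∧ c ≤ lam {v | n * v ∈ Bad}} * c ≤ m * μ Bad := by
  set B' := toMeasurable μ Bad with hB'
  have hB'm : MeasurableSet B' := measurableSet_toMeasurable μ Bad
  have hsub : Bad ⊆ B' := subset_toMeasurable μ Bad
  have hμ : μ B' = μ Bad := measure_toMeasurable Bad
  have hfm : Measurable fun n => lam {v | n * v ∈ B'} := by
    have hDm : MeasurableSet {x : N × N | x.1 * x.2 ∈ B'} :=
      (measurable_fst.mul measurable_snd) hB'm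
    exact measurable_measure_prodMk_left hDm
  have h1 := lam_le (μ := μ) lam hK hB'm m hm
  have h2 := mul_meas_ge_le_lintegral (μ := μ.restrict K) hfm c
  rw [hμ] at h1
  refine le_trans ?_ (h2.trans h1)
  rw [mul_comm]
  refine mul_le_mul_right ?_ _
  rw [Measure.restrict_apply (measurableSet_le measurable_const hfm)]
  apply measure_mono
  rintro n ⟨hn, hc⟩
  exact ⟨hc.trans (measure_mono fun v hv => hsub hv), hn⟩

/-- (M3), Markov form, bad points only matter where `K` and the moves can reach them. -/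
theorem lam_markov' [μ.IsMulRightInvariant] (lam : Measure N) [SFinite lam] {K V : Set N}
    (hK : MeasurableSet K) (hV : lam Vᶜ = 0) (Bad : Set N) (m : ℝ≥0∞)
    (hm : ∀ y, lam {v | y * v⁻¹ ∈ K} ≤ m) (c : ℝ≥0∞) :
    μ {n | n ∈ K ∧ c ≤ lam {v | n * v ∈ Bad}} * c ≤ m * μ (Bad ∩ (K * V)) := by
  refine le_trans (mul_le_mul_left (measure_mono ?_) _)
    (lam_markov (μ := μ) lam hK (Bad ∩ (K * V)) m hm c)
  rintro n ⟨hn, hc⟩
  refine ⟨hn, hc.trans ?_⟩
  have h1 : {v | n * v ∈ Bad} ⊆ {v | n * v ∈ Bad ∩ (K * V)} ∪ Vᶜ := by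
    intro v hv
    by_cases hvV : v ∈ V
    · exact Or.inl ⟨hv, Set.mul_mem_mul hn hvV⟩
    · exact Or.inr hvV
  refine (measure_mono h1).trans ((measure_union_le _ _).trans ?_)
  rw [hV, add_zero]

/-- (M3) for the Haar measure of a set `A`. -/
theorem mul_markov [μ.IsMulRightInvariant] {K A : Set N} (hK : MeasurableSet K)
    (hA : MeasurableSet A) (Bad : Set N) (c : ℝ≥0∞) :
    μ {n | n ∈ K ∧ c ≤ μ {a | a ∈ A ∧ n * a ∈ Bad}} * c ≤ μ A * μ (Bad ∩ (K * A)) := by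
  have h1 := lam_markov' (μ := μ) (μ.restrict A) (K := K) (V := A) hK
    (by rw [Measure.restrict_apply hA.compl]; simp) Bad (μ A)
    (fun y => (measure_mono (Set.subset_univ _)).trans (by rw [Measure.restrict_apply_univ])) c
  refine le_trans (mul_le_mul_left (measure_mono ?_) _) h1
  rintro n ⟨hn, hc⟩
  refine ⟨hn, hc.trans ?_⟩
  rw [Measure.restrict_apply' hA]
  apply measure_mono
  rintro a ⟨ha, hb⟩
  exact ⟨hb, ha⟩

end Fubini

end Crest.Agent.R182.El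
end

-- ▼ part R182/ElBox
section

set_option autoImplicit false
set_option linter.unusedSectionVars false

open MeasureTheory Set
open scoped Pointwise RealInnerProductSpace ENNReal

namespace Crest.Agent.R182.El

variable {R E N Q : Type*} [Fintype R] [DecidableEq R] [NormedAddCommGroup E] [InnerProductSpace ℝ E]
  [Group N] [MeasurableSpace N] [MeasurableMul₂ N] [MeasurableInv N]
  [Group Q] [MeasurableSpace Q] [MeasurableMul₂ Q] [MeasurableInv Q]

/-- `(σ, θ)` is the law of the box of sides `Z` at the base `n₀` -/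
def IsLaw (M : Mdl R E) (d : Data R E N Q) (p : Par R) (Z : R → ℝ) (n₀ : N)
    (σ : Equiv.Perm R) (θ : E) : Prop :=
  d.μ {n | n ∈ d.Ah Z ∧ ¬ Good M d p.ε Z σ θ (n₀ * n)} ≤ ENNReal.ofReal p.δ * d.μ (d.A Z)

/-- the sides of the image box -/
def XX (M : Mdl R E) (Z : R → ℝ) (σ : Equiv.Perm R) (θ : E) (t : ℝ) : R → ℝ :=
  fun r => ⟪M.e r, θ⟫ + Z (σ.symm r) + t

/-- standing smallness conditions; `m` = separation of the directions -/
structure Small (M : Mdl R E) (p : Par R) (m : ℝ) : Prop where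
  m_pos : 0 < m
  m_le : m ≤ 1
  sep : ∀ r w, r ≠ w → ⟪M.e r, M.e w⟫ ≤ 1 - m
  ω_pos : 0 < p.ω
  ω_le : 2 * p.ω ≤ m
  ε_le : 32 * p.ε ≤ m
  δ_le : 4 * (((M.J : ℝ) + 2) * M.C * p.δ) ≤ 1
  q_le : 3 * M.J + 4 ≤ p.q

section geo

variable {M : Mdl R E} {p : Par R} {m : ℝ} (hs : Small M p m)

include hs

theorem Small.ω_le_half : p.ω ≤ 1 / 2 := by linarith [hs.ω_le, hs.m_le]

theorem NR.le {Z : R → ℝ} (hZ : NR p.ω Z) (r : R) : Z r ≤ 1 + p.ω := by
  have := (abs_le.1 (hZ r)).2; linarith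

theorem NR.ge {Z : R → ℝ} (hZ : NR p.ω Z) (r : R) : 1 - p.ω ≤ Z r := by
  have := (abs_le.1 (hZ r)).1; linarith

theorem NR.half {Z : R → ℝ} (hZ : NR p.ω Z) (r : R) : 1 / 2 ≤ Z r := by
  have := NR.ge hs hZ r
  linarith [hs.ω_le_half]

theorem inner_leg_le {Z : R → ℝ} (hZ : NR p.ω Z) (σ : Equiv.Perm R) {r r' : R} {s : ℝ}
    (h0 : 0 ≤ s) (h1 : s ≤ Z r) : s * ⟪M.e r', M.e (σ r)⟫ ≤ Z (σ.symm r') := by
  by_cases h : r' = σ r
  · subst h
    rw [Frame.inner_self, mul_one, Equiv.symm_apply_apply]; exact h1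
  · have h2 := hs.sep r' (σ r) h
    have h3 := NR.le hs hZ r
    have h4 := NR.ge hs hZ (σ.symm r')
    have h5 := hs.ω_le
    have h6 := hs.m_le
    have h7 := hs.ω_pos
    have h8 := hs.m_pos
    calc s * ⟪M.e r', M.e (σ r)⟫ ≤ s * (1 - m) := mul_le_mul_of_nonneg_left h2 h0
      _ ≤ (1 + p.ω) * (1 - m) := mul_le_mul_of_nonneg_right (by linarith) (by linarith)
      _ ≤ Z (σ.symm r') := by nlinarith

theorem inner_leg_le' {Z : R → ℝ} (hZ : NR p.ω Z) (σ : Equiv.Perm R) {r r' : R} {s : ℝ}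
    (h0 : 0 ≤ s) (h1 : s ≤ Z r) (h : r' ≠ σ r) :
    s * ⟪M.e r', M.e (σ r)⟫ ≤ Z (σ.symm r') - (m - 2 * p.ω) := by
  have h2 := hs.sep r' (σ r) h
  have h3 := NR.le hs hZ r
  have h4 := NR.ge hs hZ (σ.symm r')
  have h5 := hs.ω_le
  have h6 := hs.m_le
  have h7 := hs.ω_pos
  have h8 := hs.m_pos
  calc s * ⟪M.e r', M.e (σ r)⟫ ≤ s * (1 - m) := mul_le_mul_of_nonneg_left h2 h0
    _ ≤ (1 + p.ω) * (1 - m) := mul_le_mul_of_nonneg_right (by linarith) (by linarith)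
    _ ≤ Z (σ.symm r') - (m - 2 * p.ω) := by nlinarith

theorem norm_sub_e {a b : R} (h : a ≠ b) : m ≤ ‖M.e a - M.e b‖ := by
  have h1 : ‖M.e a - M.e b‖ ^ 2 = 2 - 2 * ⟪M.e a, M.e b⟫ := by
    rw [@norm_sub_sq_real, M.norm_e, M.norm_e]; ring
  have h2 := hs.sep a b h
  have h3 : m ^ 2 ≤ ‖M.e a - M.e b‖ ^ 2 := by
    rw [h1]; nlinarith [hs.m_pos, hs.m_le]
  exact (sq_le_sq₀ hs.m_pos.le (norm_nonneg _)).1 h3

variable {d : Data R E N Q}

theorem Good.height {Z : R → ℝ} (hZ : NR p.ω Z) {τ : ℝ} {σ : Equiv.Perm R} {θ : E} {n : N}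
    (h : Good M d τ Z σ θ n) {r : R} {s : ℝ} (h0 : 0 ≤ s) (h1 : s ≤ Z r) (r' : R) :
    ⟪M.e r', d.f n r s⟫ ≤ XX M Z σ θ τ r' := by
  have h2 := h r s h0 h1
  have h3 : ⟪M.e r', d.f n r s⟫ = ⟪M.e r', d.f n r s - θ - s • M.e (σ r)⟫ + ⟪M.e r', θ⟫
      + s * ⟪M.e r', M.e (σ r)⟫ := by
    rw [inner_sub_right, inner_sub_right, real_inner_smul_right]; ring
  rw [h3, XX]
  have h4 := (M.toFrame.inner_le_norm r' (d.f n r s - θ - s • M.e (σ r))).trans h2
  have h5 := inner_leg_le hs hZ σ (r' := r') h0 h1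
  linarith

theorem Good.unique [Nonempty R] {Z : R → ℝ} (hZ : NR p.ω Z) {τ τ' : ℝ} {σ σ' : Equiv.Perm R} {θ θ' : E} {n : N}
    (h : Good M d τ Z σ θ n) (h' : Good M d τ' Z σ' θ' n) (hτ : 4 * (τ + τ') < m) :
    σ = σ' ∧ ‖θ - θ'‖ ≤ τ + τ' := by
  have key : ‖θ - θ'‖ ≤ τ + τ' := by
    obtain ⟨r⟩ := ‹Nonempty R›
    have hZ0 : (0:ℝ) ≤ Z r := by linarith [NR.half hs hZ r]
    have h1 := h r 0 le_rfl hZ0
    have h2 := h' r 0 le_rfl hZ0
    rw [zero_smul, sub_zero] at h1 h2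
    have h3 : θ - θ' = (d.f n r 0 - θ') - (d.f n r 0 - θ) := by abel
    rw [h3]
    exact (norm_sub_le _ _).trans (by linarith)
  refine ⟨Equiv.ext fun r => ?_, key⟩
  by_contra hne
  have hZ0 := NR.half hs hZ r
  have h1 := h r (Z r) (by linarith) le_rfl
  have h2 := h' r (Z r) (by linarith) le_rfl
  have h3 := norm_sub_e hs hne
  have h4 : Z r • (M.e (σ r) - M.e (σ' r)) = (d.f n r (Z r) - θ' - Z r • M.e (σ' r))
      - (d.f n r (Z r) - θ - Z r • M.e (σ r)) - (θ - θ') := by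
    rw [smul_sub]; abel
  have h5 : ‖Z r • (M.e (σ r) - M.e (σ' r))‖ ≤ 2 * (τ + τ') := by
    rw [h4]
    refine (norm_sub_le _ _).trans ?_
    have := norm_sub_le (d.f n r (Z r) - θ' - Z r • M.e (σ' r))
      (d.f n r (Z r) - θ - Z r • M.e (σ r))
    linarith [key]
  rw [norm_smul, Real.norm_of_nonneg (by linarith)] at h5
  have h6 : (1 / 2 : ℝ) * m ≤ Z r * ‖M.e (σ r) - M.e (σ' r)‖ :=
    mul_le_mul hZ0 h3 hs.m_pos.le (by linarith)
  linarith

end geo

/-! ### few exceptions -/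

/-- `P` holds on `B` outside a set of measure at most `c` -/
def Few (μ : Measure N) (B : Set N) (c : ℝ≥0∞) (P : N → Prop) : Prop :=
  μ {a | a ∈ B ∧ ¬ P a} ≤ c

theorem Few.mono {μ : Measure N} {B B' : Set N} {c c' : ℝ≥0∞} {P P' : N → Prop}
    (h : Few μ B c P) (hB : B' ⊆ B) (hc : c ≤ c') (hP : ∀ a ∈ B', P a → P' a) :
    Few μ B' c' P' :=
  (measure_mono (fun a (ha : a ∈ {a | a ∈ B' ∧ ¬ P' a}) =>
    (⟨hB ha.1, fun h' => ha.2 (hP _ ha.1 h')⟩ : a ∈ {a | a ∈ B ∧ ¬ P a}))).trans (h.trans hc)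

theorem Few.and {μ : Measure N} {B : Set N} {c c' : ℝ≥0∞} {P P' : N → Prop}
    (h : Few μ B c P) (h' : Few μ B c' P') : Few μ B (c + c') (fun a => P a ∧ P' a) := by
  refine le_trans (measure_mono ?_) ((measure_union_le _ _).trans (add_le_add h h'))
  intro a ha
  by_cases hp : P a
  · exact Or.inr ⟨ha.1, fun h => ha.2 ⟨hp, h⟩⟩
  · exact Or.inl ⟨ha.1, hp⟩

theorem Few.exists {μ : Measure N} {B : Set N} {c : ℝ≥0∞} {P : N → Prop}
    (h : Few μ B c P) (hc : c < μ B) : ∃ a ∈ B, P a := by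
  by_contra hcon
  push Not at hcon
  have : B ⊆ {a | a ∈ B ∧ ¬ P a} := fun a ha => ⟨ha, hcon a ha⟩
  exact absurd ((measure_mono this).trans h) (not_le.2 hc)

theorem Few.comp_left {μ : Measure N} [μ.IsMulLeftInvariant] {B B' : Set N} {c : ℝ≥0∞}
    {P : N → Prop} (h : Few μ B c P) (m : N) (hm : ∀ a ∈ B', m * a ∈ B) :
    Few μ B' c (fun a => P (m * a)) := by
  have h1 : {a | a ∈ B' ∧ ¬ P (m * a)} ⊆ (fun a => m * a) ⁻¹' {n | n ∈ B ∧ ¬ P n} :=
    fun a ha => ⟨hm a ha.1, ha.2⟩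
  refine (measure_mono h1).trans ?_
  rw [measure_preimage_mul]
  exact h

theorem Few.comp_right {μ : Measure N} [μ.IsMulRightInvariant] {B B' : Set N} {c : ℝ≥0∞}
    {P : N → Prop} (h : Few μ B c P) (m : N) (hm : ∀ a ∈ B', a * m ∈ B) :
    Few μ B' c (fun a => P (a * m)) := by
  have h1 : {a | a ∈ B' ∧ ¬ P (a * m)} ⊆ (fun a => a * m) ⁻¹' {n | n ∈ B ∧ ¬ P n} :=
    fun a ha => ⟨hm a ha.1, ha.2⟩
  refine (measure_mono h1).trans ?_
  rw [measure_preimage_mul_right]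
  exact h

theorem Few.and_list {μ : Measure N} {B : Set N} {c : ℝ≥0∞} {ι : Type*} (l : List ι)
    {P : ι → N → Prop} (h : ∀ i ∈ l, Few μ B c (P i)) :
    Few μ B (l.length * c) (fun a => ∀ i ∈ l, P i a) := by
  induction l with
  | nil => simp [Few]
  | cons i l ih =>
    have h1 := (h i (by simp)).and (ih fun j hj => h j (by simp [hj]))
    refine h1.mono le_rfl (le_of_eq ?_) ?_
    · rw [List.length_cons]; push_cast; ring
    · rintro a - ⟨ha, hb⟩ j hj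
      rcases List.mem_cons.1 hj with rfl | hj
      · exact ha
      · exact hb j hj


section chain

variable {M : Mdl R E} {d : Data R E N Q} {p : Par R} {m : ℝ}

theorem XX_add (Z : R → ℝ) (σ : Equiv.Perm R) (θ : E) (t t' : ℝ) (r : R) :
    XX M Z σ θ (t + t') r = XX M Z σ θ t r + t' := by simp only [XX]; ring

theorem XX_mono (Z : R → ℝ) (σ : Equiv.Perm R) (θ θ' : E) {t t' : ℝ} (h : ‖θ - θ'‖ + t ≤ t') :
    XX M Z σ θ t ≤ XX M Z σ θ' t' := by
  intro r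
  have h1 := M.toFrame.inner_le_norm r (θ - θ')
  rw [inner_sub_right] at h1
  simp only [XX]
  linarith

/-- from the root to a point of a leg -/
theorem line_mem (hF : Facts M d p) (hs : Small M p m) {Z : R → ℝ} (hZ : p.Adm Z)
    {σ : Equiv.Perm R} {θ : E} {t : N} (htD : t ∈ d.Dom) {τ : ℝ} (ht : Good M d τ Z σ θ t) {r : R}
    {s : ℝ} (h0 : 0 ≤ s) (h1 : s ≤ Z r) {z : ℝ} (hz : p.ε ≤ z) :
    (d.g t r 0)⁻¹ * d.g t r s ∈ d.Bx z (XX M Z σ θ (τ + p.ε)) := by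
  refine hF.line t htD r s h0 ?_ z hz _ ?_
  · have := NR.le hs (hF.adm Z hZ) r
    linarith [hs.ω_le_half]
  · intro s' h0' h1' r'
    have := ht.height hs (hF.adm Z hZ) h0' (h1'.trans h1) r'
    rw [XX_add]; linarith

theorem chain_prod (hF : Facts M d p) (hs : Small M p m) {Z : R → ℝ} (hZ : p.Adm Z)
    {σ : Equiv.Perm R} {θ : E} (r₀ : R) (l : List (R × N)) :
    ∀ t : N, (∀ x ∈ l, Cheap M d p.ε x.1 (Z x.1) x.2) →
      (∀ l', l' <+: l → t * (l'.map Prod.snd).prod ∈ d.Dom ∧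
        Good M d p.ε Z σ θ (t * (l'.map Prod.snd).prod)) →
      ∃ L : List Q, L.length = 3 * l.length ∧ (∀ y ∈ L, y ∈ d.Bx p.ε (XX M Z σ θ (2 * p.ε))) ∧
        (d.g t r₀ 0)⁻¹ * d.g (t * (l.map Prod.snd).prod) r₀ 0 = L.prod := by
  induction l with
  | nil => intro t _ _; exact ⟨[], by simp⟩
  | cons x l ih =>
    intro t hc hg
    obtain ⟨L, hL1, hL2, hL3⟩ := ih (t * x.2) (fun y hy => hc y (by simp [hy])) (fun l' hl' => by
      have := hg (x :: l') (List.cons_prefix_cons.2 ⟨rfl, hl'⟩)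
      rwa [List.map_cons, List.prod_cons, ← mul_assoc] at this)
    obtain ⟨htD, hgt⟩ : t ∈ d.Dom ∧ Good M d p.ε Z σ θ t := by
      simpa using hg [] (List.nil_prefix)
    obtain ⟨htD', hgt'⟩ : t * x.2 ∈ d.Dom ∧ Good M d p.ε Z σ θ (t * x.2) := by
      have := hg [x] (by simp)
      simpa using this
    have hZ0 : 0 ≤ Z x.1 := by linarith [NR.half hs (hF.adm Z hZ) x.1]
    have h1 := line_mem hF hs hZ htD hgt hZ0 le_rfl (z := p.ε) le_rfl
    have h2 := line_mem hF hs hZ htD' hgt' hZ0 le_rfl (z := p.ε) le_rfl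
    have h3 : (d.g t x.1 (Z x.1))⁻¹ * d.g (t * x.2) x.1 (Z x.1)
        ∈ d.Bx p.ε (XX M Z σ θ (p.ε + p.ε)) := by
      refine hc x (by simp) t htD htD' p.ε le_rfl _ fun r' => ?_
      rw [XX_add]
      have := hgt.height hs (hF.adm Z hZ) hZ0 le_rfl r'
      linarith
    rw [← two_mul] at h1 h2 h3
    refine ⟨(d.g t x.1 0)⁻¹ * d.g t x.1 (Z x.1) :: (d.g t x.1 (Z x.1))⁻¹ * d.g (t * x.2) x.1 (Z x.1)
      :: ((d.g (t * x.2) x.1 0)⁻¹ * d.g (t * x.2) x.1 (Z x.1))⁻¹ :: L, ?_, ?_, ?_⟩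
    · simp only [List.length_cons, hL1]; ring
    · intro y hy
      simp only [List.mem_cons] at hy
      rcases hy with rfl | rfl | rfl | hy
      · exact h1
      · exact h3
      · exact hF.Bx_inv _ _ _ h2
      · exact hL2 y hy
    · rw [List.map_cons, List.prod_cons, List.prod_cons, List.prod_cons, List.prod_cons, ← hL3,
        hF.g_zero t r₀ x.1, hF.g_zero (t * x.2) r₀ x.1, ← mul_assoc t]
      group

/-- two points joined by a factorised path of good points -/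
theorem conn_mem (hF : Facts M d p) (hs : Small M p m) {Z : R → ℝ} (hZ : p.Adm Z)
    {σ : Equiv.Perm R} {θ : E} {r₀ : R} {s₀ : ℝ} (h0 : 0 ≤ s₀) (h1 : s₀ ≤ Z r₀)
    (l : List (R × N)) (hl : l.length ≤ M.J) (t : N)
    (hc : ∀ x ∈ l, Cheap M d p.ε x.1 (Z x.1) x.2)
    (hg : ∀ l', l' <+: l → t * (l'.map Prod.snd).prod ∈ d.Dom ∧
      Good M d p.ε Z σ θ (t * (l'.map Prod.snd).prod)) :
    (d.g t r₀ s₀)⁻¹ * d.g (t * (l.map Prod.snd).prod) r₀ s₀
      ∈ d.Bx (2 * p.ε) (XX M Z σ θ (3 * p.ε)) := by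
  obtain ⟨L, hL1, hL2, hL3⟩ := chain_prod hF hs hZ r₀ l t hc hg
  obtain ⟨htD, hgt⟩ : t ∈ d.Dom ∧ Good M d p.ε Z σ θ t := by
    simpa using hg [] (List.nil_prefix)
  obtain ⟨htD', hgt'⟩ := hg l (List.prefix_rfl)
  have h2 := line_mem hF hs hZ htD hgt h0 h1 (z := p.ε) le_rfl
  have h3 := line_mem hF hs hZ htD' hgt' h0 h1 (z := p.ε) le_rfl
  rw [← two_mul] at h2 h3
  have h4 := hF.Bx_prod p.ε (XX M Z σ θ (2 * p.ε)) le_rfl
    (((d.g t r₀ 0)⁻¹ * d.g t r₀ s₀)⁻¹ :: (L ++ [(d.g (t * (l.map Prod.snd).prod) r₀ 0)⁻¹ *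
      d.g (t * (l.map Prod.snd).prod) r₀ s₀])) (by
        simp only [List.length_cons, List.length_append, List.length_nil, hL1]
        have := hs.q_le
        omega) (by
        intro y hy
        simp only [List.mem_cons, List.mem_append, List.not_mem_nil,
          or_false] at hy
        rcases hy with rfl | hy | rfl
        · exact hF.Bx_inv _ _ _ h2
        · exact hL2 y hy
        · exact h3)
  rw [List.prod_cons, List.prod_append, List.prod_singleton, ← hL3] at h4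
  have h5 : (fun r => XX M Z σ θ (2 * p.ε) r + p.ε) = XX M Z σ θ (3 * p.ε) := by
    ext r; rw [← XX_add]; congr 1; ring
  rw [h5, ← two_mul] at h4
  convert h4 using 1
  group

end chain

section box

variable {M : Mdl R E} {d : Data R E N Q} {p : Par R} {m : ℝ}

theorem pow_mem_add {A : Set N} {i j : ℕ} {x y : N} (hx : x ∈ A ^ i) (hy : y ∈ A ^ j) :
    x * y ∈ A ^ (i + j) := by
  rw [pow_add]; exact Set.mul_mem_mul hx hy

theorem inv_mem_pow {A : Set N} (hA : ∀ a ∈ A, a⁻¹ ∈ A) {i : ℕ} {x : N} (hx : x ∈ A ^ i) :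
    x⁻¹ ∈ A ^ i := by
  induction i generalizing x with
  | zero => rw [pow_zero, Set.mem_one] at hx ⊢; rw [hx, inv_one]
  | succ i ih =>
    rw [pow_succ, Set.mem_mul] at hx
    obtain ⟨a, ha, b, hb, rfl⟩ := hx
    rw [mul_inv_rev, pow_succ']
    exact Set.mul_mem_mul (hA _ hb) (ih ha)

theorem pow_mono_of_one {A : Set N} (hA : (1 : N) ∈ A) {i j : ℕ} (h : i ≤ j) : A ^ i ⊆ A ^ j :=
  Set.pow_subset_pow_right hA h

/-- law + image box at the base `n₀`, measured at the end of the leg `(r₀, s₀)` -/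
structure IsBox (M : Mdl R E) (d : Data R E N Q) (p : Par R) (Z : R → ℝ) (r₀ : R) (s₀ : ℝ) (n₀ : N)
    (σ : Equiv.Perm R) (θ : E) (ν : Q) : Prop where
  law : IsLaw M d p Z n₀ σ θ
  box : Few d.μ ((d.A Z) ^ 5) (ENNReal.ofReal ((M.J + 1) * M.C * p.δ) * d.μ (d.A Z))
    (fun a => ν⁻¹ * d.g (n₀ * a) r₀ s₀ ∈ d.Bx (2 * p.ε) (XX M Z σ θ (3 * p.ε)))

theorem IsLaw.few (hF : Facts M d p) {Z : R → ℝ} {n₀ : N} {σ : Equiv.Perm R} {θ : E}
    (h : IsLaw M d p Z n₀ σ θ) {B : Set N} {m : N} (hB : ∀ a ∈ B, m * a ∈ d.Ah Z) :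
    Few d.μ B (ENNReal.ofReal p.δ * d.μ (d.A Z)) (fun a => Good M d p.ε Z σ θ (n₀ * m * a)) := by
  have := hF.μ_left
  have h1 : Few d.μ (d.Ah Z) (ENNReal.ofReal p.δ * d.μ (d.A Z))
    (fun a => Good M d p.ε Z σ θ (n₀ * a)) := h
  refine (h1.comp_left m hB).mono le_rfl le_rfl fun a _ ha => ?_
  rwa [mul_assoc]

theorem exists_isBox (hF : Facts M d p) (hs : Small M p m) {Z : R → ℝ} (hZ : p.Adm Z)
    {r₀ : R} {s₀ : ℝ} (h0 : 0 ≤ s₀) (h1 : s₀ ≤ Z r₀) (n₀ : N)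
    (hD : ∀ a ∈ d.Ah Z, n₀ * a ∈ d.Dom) :
    ∃ σ θ ν, IsBox M d p Z r₀ s₀ n₀ σ θ ν := by
  have := hF.μ_left
  have := hF.μ_right
  have := hF.μ_sf
  obtain ⟨σ₀, θ, ha⟩ := hF.box Z hZ n₀
  have hlaw : IsLaw M d p Z n₀ σ₀ θ := ha
  have hA5 : MeasurableSet ((d.A Z) ^ 5) := hF.A_meas Z hZ 5 (by norm_num)
  have hsub : d.A Z ⊆ (d.A Z) ^ 5 := by
    conv_lhs => rw [← pow_one (d.A Z)]
    exact pow_mono_of_one (hF.A_one Z hZ) (by norm_num)
  have hsub' : (d.A Z) ^ 5 ⊆ (d.A Z) ^ 10 := pow_mono_of_one (hF.A_one Z hZ) (by norm_num)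
  have hAtop : d.μ (d.Ah Z) ≠ ⊤ :=
    ne_top_of_le_ne_top (ENNReal.mul_ne_top ENNReal.ofReal_ne_top (hF.A_fin Z hZ)) (hF.Ah_le Z hZ)
  obtain ⟨s, hsB, hs0⟩ := exists_center (μ := d.μ)
    (Rel := fun s t => (d.g (n₀ * s) r₀ s₀)⁻¹ * d.g (n₀ * t) r₀ s₀
      ∈ d.Bx (2 * p.ε) (XX M Z σ₀ θ (3 * p.ε)))
    (by
      have hm : Measurable fun x : N × N =>
          (d.g (n₀ * x.1) r₀ s₀)⁻¹ * d.g (n₀ * x.2) r₀ s₀ := by
        have hg := hF.g_meas r₀ s₀
        exact ((hg.comp (measurable_const.mul measurable_fst)).inv).mul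
          (hg.comp (measurable_const.mul measurable_snd))
      exact hm (hF.Bx_meas _ _))
    (B := (d.A Z) ^ 5) (W := (d.A Z) ^ 10) hA5 (hF.A_meas Z hZ 10 le_rfl)
    (fun s hs t ht => by
      have := pow_mem_add (inv_mem_pow (hF.A_inv Z hZ) hs) ht
      simpa using this)
    (fun h => hF.A_ne Z hZ (measure_mono_null hsub h))
    (ne_top_of_le_ne_top hAtop (measure_mono (hsub'.trans (hF.A_pow Z hZ))))
    ((M.J + 1 : ℕ) * (ENNReal.ofReal p.δ * d.μ (d.A Z)))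
    (by
      intro u hu
      obtain ⟨l, hl, hc, rfl, hpre⟩ := hF.gen Z hZ u hu
      have hfew : Few d.μ ((d.A Z) ^ 5) (l.inits.length * (ENNReal.ofReal p.δ * d.μ (d.A Z)))
          (fun s => ∀ l' ∈ l.inits, Good M d p.ε Z σ₀ θ (n₀ * (s * (l'.map Prod.snd).prod))) := by
        refine Few.and_list _ fun l' hl' => ?_
        have h2 : Few d.μ (d.Ah Z) (ENNReal.ofReal p.δ * d.μ (d.A Z))
          (fun a_1 => Good M d p.ε Z σ₀ θ (n₀ * a_1)) := ha
        exact h2.comp_right _ fun s hs => hpre l' ((List.mem_inits _ _).1 hl') s hs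
      refine hfew.mono le_rfl ?_ ?_
      · gcongr
        rw [List.length_inits]; omega
      · intro s hs hg
        have := conn_mem hF ‹Small M p m› hZ h0 h1 l hl (n₀ * s) hc (fun l' hl' => by
          have h3 := hg l' ((List.mem_inits _ _).2 hl')
          have h4 := hD _ (hpre l' hl' s hs)
          rw [← mul_assoc] at h3 h4
          exact ⟨h4, h3⟩)
        rwa [mul_assoc] at this)
  refine ⟨σ₀, θ, d.g (n₀ * s) r₀ s₀, hlaw, ?_⟩
  -- divide by the measure of the box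
  have hB1 : d.μ (d.A Z) ≤ d.μ ((d.A Z) ^ 5) := measure_mono hsub
  have hW : d.μ ((d.A Z) ^ 10) ≤ ENNReal.ofReal M.C * d.μ (d.A Z) :=
    (measure_mono (hF.A_pow Z hZ)).trans (hF.Ah_le Z hZ)
  have h2 : d.μ {t | t ∈ (d.A Z) ^ 5 ∧ ¬ ((d.g (n₀ * s) r₀ s₀)⁻¹ * d.g (n₀ * t) r₀ s₀
      ∈ d.Bx (2 * p.ε) (XX M Z σ₀ θ (3 * p.ε)))} * d.μ (d.A Z) ≤
      (ENNReal.ofReal ((M.J + 1) * M.C * p.δ) * d.μ (d.A Z)) * d.μ (d.A Z) := by
    refine (mul_le_mul_right hB1 _).trans (hs0.trans ?_)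
    refine (mul_le_mul_right hW _).trans (le_of_eq ?_)
    have hJ : (0:ℝ) ≤ (M.J + 1 : ℝ) := by positivity
    have hC : (0:ℝ) ≤ M.C := by linarith [M.one_le_C]
    rw [ENNReal.ofReal_mul (mul_nonneg hJ hC), ENNReal.ofReal_mul hJ]
    have : ENNReal.ofReal ((M.J : ℝ) + 1) = ((M.J + 1 : ℕ) : ℝ≥0∞) := by
      rw [← Nat.cast_succ, ENNReal.ofReal_natCast]
    rw [this]; ring
  exact (ENNReal.mul_le_mul_iff_left (hF.A_ne Z hZ) (hF.A_fin Z hZ)).1 h2

/-- two fractions of the same mass -/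
theorem ofReal_mul_add_lt {x : ℝ≥0∞} (hx0 : x ≠ 0) (hx : x ≠ ⊤) {a b : ℝ} (ha : 0 ≤ a)
    (hb : 0 ≤ b) (hab : a + b < 1) :
    ENNReal.ofReal a * x + ENNReal.ofReal b * x < x := by
  rw [← add_mul, ← ENNReal.ofReal_add ha hb]
  calc ENNReal.ofReal (a + b) * x < 1 * x :=
        ENNReal.mul_lt_mul_left hx0 hx (ENNReal.ofReal_lt_one.2 hab)
    _ = x := one_mul x

theorem Small.JCδ (hs : Small M p m) (hF : Facts M d p) :
    0 ≤ ((M.J : ℝ) + 1) * M.C * p.δ ∧ ((M.J : ℝ) + 1) * M.C * p.δ + p.δ ≤ 1 / 4 ∧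
      p.δ ≤ 1 / 8 := by
  have h1 := hs.δ_le
  have h2 := M.one_le_C
  have h3 := hF.δ_pos
  have h4 : (0:ℝ) ≤ M.J := Nat.cast_nonneg _
  have h5 : p.δ ≤ M.C * p.δ := by nlinarith
  have h6 : 0 ≤ (M.J : ℝ) * M.C * p.δ := by positivity
  refine ⟨by positivity, ?_, ?_⟩ <;> nlinarith

theorem law_compare [Nonempty R] (hF : Facts M d p) (hs : Small M p m) {Z : R → ℝ}
    (hZ : p.Adm Z) {n₀ k : N} (hk : k ∈ (d.A Z) ^ 9) {σ σ' : Equiv.Perm R} {θ θ' : E}
    (h : IsLaw M d p Z n₀ σ θ) (h' : IsLaw M d p Z (n₀ * k) σ' θ') :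
    σ = σ' ∧ ‖θ - θ'‖ ≤ 2 * p.ε := by
  have h1 := h.few hF (B := d.A Z) (m := k) (fun a ha => hF.A_pow Z hZ (by
    have := pow_mem_add hk (j := 1) (by rwa [pow_one])
    exact this))
  have h2 := h'.few hF (B := d.A Z) (m := 1) (fun a ha => by
    rw [one_mul]
    refine hF.A_pow Z hZ (pow_mono_of_one (hF.A_one Z hZ) (by norm_num : 1 ≤ 10) ?_)
    rwa [pow_one])
  obtain ⟨a, -, ha1, ha2⟩ := (h1.and h2).exists (ofReal_mul_add_lt (hF.A_ne Z hZ)
    (hF.A_fin Z hZ) hF.δ_pos.le hF.δ_pos.le (by linarith [(hs.JCδ hF).2.2]))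
  rw [mul_one] at ha2
  have h3 := ha1.unique hs (hF.adm Z hZ) ha2 (by have := hs.ε_le; have := hs.m_pos; linarith)
  exact ⟨h3.1, h3.2.trans (by linarith)⟩

theorem mem_Ah {Z : R → ℝ} (hF : Facts M d p) (hZ : p.Adm Z) {a : N} (ha : a ∈ d.A Z) {k : ℕ}
    (hk : 1 ≤ k) : a ∈ (d.A Z) ^ k :=
  pow_mono_of_one (hF.A_one Z hZ) hk (by rwa [pow_one])

theorem box_compare [Nonempty R] (hF : Facts M d p) (hs : Small M p m) {Z : R → ℝ}
    (hZ : p.Adm Z) {r₀ : R} {s₀ : ℝ} {n₀ k : N} (hk : k ∈ (d.A Z) ^ 4)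
    {σ σ' : Equiv.Perm R} {θ θ' : E} {ν ν' : Q}
    (h : IsBox M d p Z r₀ s₀ n₀ σ θ ν) (h' : IsBox M d p Z r₀ s₀ (n₀ * k) σ' θ' ν') :
    σ = σ' ∧ ‖θ - θ'‖ ≤ 2 * p.ε ∧ ∃ y y', y ∈ d.Bx (2 * p.ε) (XX M Z σ θ (3 * p.ε)) ∧
      y' ∈ d.Bx (2 * p.ε) (XX M Z σ θ' (3 * p.ε)) ∧ ν⁻¹ * ν' = y * y'⁻¹ := by
  have := hF.μ_left
  obtain ⟨hσ, hθ⟩ := law_compare hF hs hZ
    (pow_mono_of_one (hF.A_one Z hZ) (by norm_num : 4 ≤ 9) hk) h.law h'.law
  subst hσ
  refine ⟨rfl, hθ, ?_⟩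
  have h1 := h.box.comp_left k (B' := d.A Z) (fun a ha =>
    pow_mem_add hk (j := 1) (by rwa [pow_one]))
  have h2 := h'.box.comp_left 1 (B' := d.A Z) (fun a ha => by
    rw [one_mul]; exact mem_Ah hF hZ ha (by norm_num))
  have h3 := hs.JCδ hF
  obtain ⟨a, -, ha1, ha2⟩ := (h1.and h2).exists (ofReal_mul_add_lt (hF.A_ne Z hZ)
    (hF.A_fin Z hZ) h3.1 h3.1 (by linarith [hF.δ_pos]))
  refine ⟨_, _, ha1, ha2, ?_⟩
  rw [one_mul, ← mul_assoc n₀]
  group

/-- typical points -/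
def Typ (M : Mdl R E) (d : Data R E N Q) (p : Par R) (Z : R → ℝ) (r₀ : R) (s₀ : ℝ) (t : N) : Prop :=
  ∀ σ θ ν, IsBox M d p Z r₀ s₀ t σ θ ν → Good M d (3 * p.ε) Z σ θ t ∧
    ν⁻¹ * d.g t r₀ s₀ ∈ d.Bx (3 * p.ε) (XX M Z σ θ (6 * p.ε))

theorem Good.congr {Z : R → ℝ} {τ τ' : ℝ} {σ : Equiv.Perm R} {θ θ' : E} {n : N}
    (h : Good M d τ Z σ θ n) (hθ : ‖θ - θ'‖ + τ ≤ τ') : Good M d τ' Z σ θ' n := by
  intro r s h0 h1
  have h2 := h r s h0 h1
  have h3 : d.f n r s - θ' - s • M.e (σ r) = (d.f n r s - θ - s • M.e (σ r)) + (θ - θ') := by abel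
  rw [h3]
  exact (norm_add_le _ _).trans (by linarith)

theorem Bx_mem_prod (hF : Facts M d p) {z : ℝ} (hz : p.ε ≤ z) {X : R → ℝ} (l : List Q)
    (hl : l.length ≤ p.q) (h : ∀ x ∈ l, x ∈ d.Bx z X) {z' : ℝ} {X' : R → ℝ} (hz' : z + p.ε ≤ z')
    (hX' : ∀ r, X r + p.ε ≤ X' r) : l.prod ∈ d.Bx z' X' :=
  hF.Bx_mono _ _ _ _ hz' hX' (hF.Bx_prod z X hz l hl h)

theorem typ_few [Nonempty R] (hF : Facts M d p) (hs : Small M p m) {Z : R → ℝ}
    (hZ : p.Adm Z) {r₀ : R} {s₀ : ℝ} (h0 : 0 ≤ s₀) (h1 : s₀ ≤ Z r₀) (n₀ : N)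
    (hD : ∀ a ∈ d.Ah Z, n₀ * a ∈ d.Dom) :
    Few d.μ ((d.A Z) ^ 2) (ENNReal.ofReal ((M.J + 2) * M.C * p.δ) * d.μ (d.A Z))
      (fun a => Typ M d p Z r₀ s₀ (n₀ * a)) := by
  obtain ⟨σ, θ, ν, hb⟩ := exists_isBox hF hs hZ h0 h1 n₀ hD
  have hA := hF.A_one Z hZ
  have h2 := hb.law.few hF (B := (d.A Z) ^ 2) (m := 1) (fun a ha => by
    rw [one_mul]; exact hF.A_pow Z hZ (pow_mono_of_one hA (by norm_num) ha))
  have h3 := hb.box.mono (B' := (d.A Z) ^ 2) (P' := fun a => ν⁻¹ * d.g (n₀ * a) r₀ s₀ ∈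
    d.Bx (2 * p.ε) (XX M Z σ θ (3 * p.ε))) (pow_mono_of_one hA (by norm_num)) le_rfl
    (fun _ _ h => h)
  refine (h2.and h3).mono le_rfl ?_ ?_
  · rw [← add_mul]
    gcongr
    have hC := M.one_le_C
    have hδ := hF.δ_pos
    have hJ : (0:ℝ) ≤ M.J := Nat.cast_nonneg _
    rw [← ENNReal.ofReal_add hδ.le (by positivity)]
    refine ENNReal.ofReal_le_ofReal ?_
    nlinarith
  · rintro a ha ⟨hg, hbx⟩ σ' θ' ν' hb'
    rw [mul_one] at hg
    obtain ⟨hσ, hθ, y, y', hy, hy', hyy⟩ := box_compare hF hs hZ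
      (pow_mono_of_one hA (by norm_num : 2 ≤ 4) ha) hb hb'
    subst hσ
    refine ⟨hg.congr (by linarith), ?_⟩
    have hmono : XX M Z σ θ (3 * p.ε) ≤ XX M Z σ θ' (5 * p.ε) := XX_mono _ _ _ _ (by linarith)
    have hε := hF.ε_pos
    have h4 := Bx_mem_prod hF (z := 2 * p.ε) (by linarith) (X := XX M Z σ θ' (5 * p.ε))
      [y', y⁻¹, ν⁻¹ * d.g (n₀ * a) r₀ s₀] (by simp; have := hs.q_le; omega) (by
        intro x hx
        simp only [List.mem_cons, List.not_mem_nil, or_false] at hx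
        rcases hx with rfl | rfl | rfl
        · exact hF.Bx_mono _ _ _ _ le_rfl (XX_mono _ _ _ _ (by rw [sub_self, norm_zero]; linarith)) hy'
        · exact hF.Bx_inv _ _ _ (hF.Bx_mono _ _ _ _ le_rfl hmono hy)
        · exact hF.Bx_mono _ _ _ _ le_rfl hmono hbx)
      (z' := 3 * p.ε) (X' := XX M Z σ θ' (6 * p.ε)) (by linarith)
      (fun r => by rw [← XX_add]; exact le_of_eq (by congr 1; ring))
    have h5 : ν'⁻¹ * d.g (n₀ * a) r₀ s₀ = [y', y⁻¹, ν⁻¹ * d.g (n₀ * a) r₀ s₀].prod := by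
      have h6 : ν' = ν * (y * y'⁻¹) := by rw [← hyy]; group
      rw [h6]
      simp only [List.prod_cons, List.prod_nil]
      group
    rw [h5]; exact h4

theorem typ_pair [Nonempty R] (hF : Facts M d p) (hs : Small M p m) {Z : R → ℝ}
    (hZ : p.Adm Z) {r₀ : R} {s₀ : ℝ} (h0 : 0 ≤ s₀) (h1 : s₀ ≤ Z r₀) {t k : N}
    (hk : k ∈ (d.A Z) ^ 4) (hD : ∀ a ∈ d.Ah Z, t * k * a ∈ d.Dom)
    (ht : Typ M d p Z r₀ s₀ t) (htk : Typ M d p Z r₀ s₀ (t * k))
    {σ : Equiv.Perm R} {θ : E} {ν : Q} (hb : IsBox M d p Z r₀ s₀ t σ θ ν) :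
    Good M d (5 * p.ε) Z σ θ (t * k) ∧
    (d.g t r₀ s₀)⁻¹ * d.g (t * k) r₀ s₀ ∈ d.Bx (4 * p.ε) (XX M Z σ θ (9 * p.ε)) := by
  obtain ⟨σ', θ', ν', hb'⟩ := exists_isBox hF hs hZ h0 h1 (t * k) hD
  obtain ⟨hσ, hθ, y, y', hy, hy', hyy⟩ := box_compare hF hs hZ hk hb hb'
  subst hσ
  have hε := hF.ε_pos
  obtain ⟨-, h2⟩ := ht _ _ _ hb
  obtain ⟨hg, h3⟩ := htk _ _ _ hb'
  refine ⟨hg.congr (by rw [← norm_neg, neg_sub]; linarith), ?_⟩
  have hθ' : ‖θ' - θ‖ ≤ 2 * p.ε := by rw [← norm_neg, neg_sub]; exact hθ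
  have h4 := Bx_mem_prod hF (z := 3 * p.ε) (by linarith) (X := XX M Z σ θ (8 * p.ε))
      [(ν⁻¹ * d.g t r₀ s₀)⁻¹, y, y'⁻¹, ν'⁻¹ * d.g (t * k) r₀ s₀]
      (by simp; have := hs.q_le; omega) (by
        intro x hx
        simp only [List.mem_cons, List.not_mem_nil, or_false] at hx
        rcases hx with rfl | rfl | rfl | rfl
        · exact hF.Bx_inv _ _ _ (hF.Bx_mono _ _ _ _ le_rfl
            (XX_mono _ _ _ _ (by rw [sub_self, norm_zero]; linarith)) h2)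
        · exact hF.Bx_mono _ _ _ _ (by linarith)
            (XX_mono _ _ _ _ (by rw [sub_self, norm_zero]; linarith)) hy
        · exact hF.Bx_inv _ _ _ (hF.Bx_mono _ _ _ _ (by linarith)
            (XX_mono _ _ _ _ (by linarith)) hy')
        · exact hF.Bx_mono _ _ _ _ le_rfl (XX_mono _ _ _ _ (by linarith)) h3)
      (z' := 4 * p.ε) (X' := XX M Z σ θ (9 * p.ε)) (by linarith)
      (fun r => by rw [← XX_add]; exact le_of_eq (by congr 1; ring))
  have h5 : (d.g t r₀ s₀)⁻¹ * d.g (t * k) r₀ s₀ =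
      [(ν⁻¹ * d.g t r₀ s₀)⁻¹, y, y'⁻¹, ν'⁻¹ * d.g (t * k) r₀ s₀].prod := by
    have h6 : ν' = ν * (y * y'⁻¹) := by rw [← hyy]; group
    rw [h6]
    simp only [List.prod_cons, List.prod_nil]
    group
  rw [h5]; exact h4

end box

end Crest.Agent.R182.El
end

-- ▼ part R182/ElMain
section

set_option autoImplicit false
set_option linter.unusedSectionVars false

open MeasureTheory Set
open scoped Pointwise RealInnerProductSpace ENNReal

namespace Crest.Agent.R182.El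

variable {R E N Q : Type*} [Fintype R] [DecidableEq R] [NormedAddCommGroup E]
  [InnerProductSpace ℝ E]
  [Group N] [MeasurableSpace N] [MeasurableMul₂ N] [MeasurableInv N]
  [Group Q] [MeasurableSpace Q] [MeasurableMul₂ Q] [MeasurableInv Q]
  {M : Mdl R E} {d : Data R E N Q} {p : Par R} {m : ℝ}

theorem Good.height' (hs : Small M p m) {Z : R → ℝ} (hZ : NR p.ω Z) {τ : ℝ} {σ : Equiv.Perm R}
    {θ : E} {n : N} (h : Good M d τ Z σ θ n) {r : R} {s : ℝ} (h0 : 0 ≤ s) (h1 : s ≤ Z r) {r' : R}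
    (hr : r' ≠ σ r) : ⟪M.e r', d.f n r s⟫ ≤ XX M Z σ θ (τ - (m - 2 * p.ω)) r' := by
  have h2 := h r s h0 h1
  have h3 : ⟪M.e r', d.f n r s⟫ = ⟪M.e r', d.f n r s - θ - s • M.e (σ r)⟫ + ⟪M.e r', θ⟫
      + s * ⟪M.e r', M.e (σ r)⟫ := by
    rw [inner_sub_right, inner_sub_right, real_inner_smul_right]; ring
  rw [h3, XX]
  have h4 := (M.toFrame.inner_le_norm r' (d.f n r s - θ - s • M.e (σ r))).trans h2
  have h5 := inner_leg_le' hs hZ σ (r' := r') h0 h1 hr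
  linarith

theorem G_XX {Z : R → ℝ} {σ : Equiv.Perm R} (hσ : ∀ r r', Z r = Z r')
    (θ : E) {τ : ℝ} (hτ : 0 ≤ τ) : M.G (XX M Z σ θ τ) ≤ M.G Z + M.κ * τ := by
  have h1 := M.G_shift (fun r => Z (σ.symm r) + ⟪M.e r, θ⟫) τ hτ
  have h2 : (fun r => Z (σ.symm r)) = Z := funext fun r => hσ _ _
  rw [M.G_trans (fun r => Z (σ.symm r)) θ, h2] at h1
  refine le_trans (le_of_eq ?_) h1
  congr 1
  ext r
  simp only [XX]
  ring

/-- D-numbers from below: few points of a box lie in a slab of the image box -/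
theorem spread (hF : Facts M d p) (hs : Small M p m) {Y : R → ℝ} (hY : p.Adm Y)
    (hYr : ∀ r r', Y r = Y r') {w : R} {n₁ : N}
    {σ : Equiv.Perm R} {θ : E} {ν : Q} (_hb : IsBox M d p Y w (Y w) n₁ σ θ ν)
    (hD : ∀ a ∈ d.A Y, n₁ * a ∈ d.Dom) {r' : R} (hr : r' ≠ σ w) {t : ℝ} (ht0 : 0 ≤ t) (ht1 : t ≤ 1) (htm : t ≤ m - 2 * p.ω)
    (htc : 8 * M.κ * p.ε ≤ M.c0 * t) (hω : 3 * p.ε ≤ p.ω) (y : Q) :
    d.μ {a | a ∈ d.A Y ∧ Good M d p.ε Y σ θ (n₁ * a) ∧
      ν⁻¹ * d.g (n₁ * a) w (Y w) ∈ d.Bx (2 * p.ε) (XX M Y σ θ (3 * p.ε)) ∧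
      y⁻¹ * d.g (n₁ * a) w (Y w) ∈ d.Ds r' (XX M Y σ θ (3 * p.ε) r' - t)}
      ≤ ENNReal.ofReal (1 / 4) * d.μ (d.A Y) := by
  have := hF.μ_left
  have hN := hF.adm Y hY
  have hε := hF.ε_pos
  have hY0 : 0 ≤ Y w := by linarith [NR.half hs hN w]
  have hY2 : Y w ≤ 2 := by linarith [NR.le hs hN w, hs.ω_le_half]
  have hX : ∀ r, |XX M Y σ θ (3 * p.ε) r - ⟪M.e r, θ⟫ - 1| ≤ 2 * p.ω := by
    intro r
    have h1 := abs_le.1 (hN (σ.symm r))
    simp only [XX]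
    rw [abs_le]
    constructor <;> linarith [hs.ω_pos]
  have h1 := hF.slab w (Y w) hY0 hY2 (2 * p.ε) (by linarith)
    (by have := hs.ε_le; have := hs.m_le; linarith)
    (XX M Y σ θ (3 * p.ε)) ν y θ r' t hX ht0 ht1
  have h2 : d.μ {a | a ∈ d.A Y ∧ Good M d p.ε Y σ θ (n₁ * a) ∧
      ν⁻¹ * d.g (n₁ * a) w (Y w) ∈ d.Bx (2 * p.ε) (XX M Y σ θ (3 * p.ε)) ∧
      y⁻¹ * d.g (n₁ * a) w (Y w) ∈ d.Ds r' (XX M Y σ θ (3 * p.ε) r' - t)} ≤
      ENNReal.ofReal (Real.exp (p.S * (M.G (XX M Y σ θ (3 * p.ε)) - M.c0 * t +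
        M.κ * (2 * p.ε) + p.ε))) := by
    refine le_trans (measure_mono ?_) ((measure_preimage_mul d.μ n₁ _).le.trans h1)
    rintro a ⟨haA, ha1, ha2, ha3⟩
    refine ⟨hD a haA, ?_, ?_, ?_, ?_⟩
    · rw [Set.mem_smul_set_iff_inv_smul_mem, smul_eq_mul]; exact ha2
    · rw [Set.mem_smul_set_iff_inv_smul_mem, smul_eq_mul]; exact ha3
    · intro r
      have := ha1.height hs hN hY0 le_rfl r
      have h3 : XX M Y σ θ (3 * p.ε) r = XX M Y σ θ p.ε r + 2 * p.ε := by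
        rw [← XX_add]; congr 1; ring
      rw [h3]; linarith
    · have := ha1.height' hs hN hY0 le_rfl hr
      have h3 : XX M Y σ θ (3 * p.ε) r' = XX M Y σ θ (p.ε - (m - 2 * p.ω)) r' +
          (2 * p.ε + (m - 2 * p.ω)) := by
        rw [← XX_add]; congr 1; ring
      rw [h3]; linarith
  refine h2.trans (le_trans ?_ (mul_le_mul_right (hF.A_vol Y hY) _))
  rw [← ENNReal.ofReal_mul (by norm_num)]
  refine ENNReal.ofReal_le_ofReal ?_
  have h3 := G_XX (M := M) (Z := Y) (σ := σ) hYr θ (τ := 3 * p.ε) (by linarith)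
  have h4 : Real.exp (-2) ≤ 1 / 4 := by
    have h5 := Real.add_one_le_exp (1:ℝ)
    have h6 : Real.exp (-2) = (Real.exp 1)⁻¹ ^ 2 := by
      rw [← Real.exp_neg, ← Real.exp_nat_mul]; norm_num
    rw [h6, inv_pow, one_div]
    refine inv_anti₀ (by norm_num) ?_
    nlinarith
  calc Real.exp (p.S * (M.G (XX M Y σ θ (3 * p.ε)) - M.c0 * t + M.κ * (2 * p.ε) + p.ε))
      ≤ Real.exp (-2 + p.S * (M.G Y - p.ε)) := by
        refine Real.exp_le_exp.2 ?_
        have h5 := M.one_le_κ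
        have h6 := hF.S_pos
        have h7 := hF.S_large
        have h8 : M.G (XX M Y σ θ (3 * p.ε)) - M.c0 * t + M.κ * (2 * p.ε) + p.ε ≤
            M.G Y - p.ε - p.ε := by nlinarith
        have h9 := mul_le_mul_of_nonneg_left h8 h6.le
        nlinarith
    _ = Real.exp (-2) * Real.exp (p.S * (M.G Y - p.ε)) := Real.exp_add _ _
    _ ≤ 1 / 4 * Real.exp (p.S * (M.G Y - p.ε)) :=
        mul_le_mul_of_nonneg_right h4 (Real.exp_pos _).le

/-- the type is constant -/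
theorem type_const [Nonempty R] (hF : Facts M d p) (hs : Small M p m) {Z : R → ℝ} (hZ : p.Adm Z)
    {n n' : N} {σ σ' : Equiv.Perm R} {θ θ' : E} (h : IsLaw M d p Z n σ θ)
    (h' : IsLaw M d p Z n' σ' θ') : σ = σ' := by
  have key : ∀ g ∈ Subgroup.closure (d.A Z), ∀ n (σ σ' : Equiv.Perm R) (θ θ' : E),
      IsLaw M d p Z n σ θ → IsLaw M d p Z (n * g) σ' θ' → σ = σ' := by
    intro g hg
    induction hg using Subgroup.closure_induction with
    | mem x hx =>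
      intro n σ σ' θ θ' h h'
      exact (law_compare hF hs hZ (mem_Ah hF hZ hx (by norm_num)) h h').1
    | one =>
      intro n σ σ' θ θ' h h'
      exact (law_compare hF hs hZ (mem_Ah hF hZ (hF.A_one Z hZ) (by norm_num)) h h').1
    | mul x y _ _ hx hy =>
      intro n σ σ' θ θ' h h'
      obtain ⟨σ₁, θ₁, h1⟩ := hF.box Z hZ (n * x)
      have h2 : IsLaw M d p Z (n * x) σ₁ θ₁ := h1
      rw [← mul_assoc] at h'
      exact (hx _ _ _ _ _ h h2).trans (hy _ _ _ _ _ h2 h')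
    | inv x _ hx =>
      intro n σ σ' θ θ' h h'
      refine (hx (n * x⁻¹) _ _ _ θ h' ?_).symm
      rwa [inv_mul_cancel_right]
  refine key (n⁻¹ * n') (by rw [hF.A_gen Z hZ]; trivial) n σ σ' θ θ' h ?_
  rwa [mul_inv_cancel_left]

theorem Good.sub {Z Z' : R → ℝ} (hZZ : Z ≤ Z') {τ : ℝ} {σ : Equiv.Perm R} {θ : E} {n : N}
    (h : Good M d τ Z' σ θ n) : Good M d τ Z σ θ n :=
  fun r s h0 h1 => h r s h0 (h1.trans (hZZ r))

/-- the type does not depend on the shape -/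
theorem type_shape [Nonempty R] (hF : Facts M d p) (hs : Small M p m) {Y Z : R → ℝ}
    (hY : p.Adm Y) (hZ : p.Adm Z) (hYZ : Y ≤ Z) (hA : d.A Y ⊆ d.A Z)
    {n n' : N} {σ σ' : Equiv.Perm R} {θ θ' : E} (h : IsLaw M d p Y n σ θ)
    (h' : IsLaw M d p Z n' σ' θ') : σ = σ' := by
  have := hF.μ_left
  have := hF.μ_right
  have hAY := hF.A_one Y hY
  have hAZ := hF.A_one Z hZ
  obtain ⟨σb, θ₁, h1⟩ := hF.box Z hZ 1
  have hlaw : IsLaw M d p Z 1 σb θ₁ := h1
  have hσ' : σb = σ' := type_const hF hs hZ hlaw h'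
  have hmul : d.μ (d.A Z * d.A Y) ≤ ENNReal.ofReal M.C * d.μ (d.A Z) := by
    refine (measure_mono ?_).trans (hF.Ah_le Z hZ)
    refine (Set.mul_subset_mul_left hA).trans ?_
    rw [← pow_two]
    exact (pow_mono_of_one hAZ (by norm_num)).trans (hF.A_pow Z hZ)
  have hfin : d.μ (d.A Z * d.A Y) ≠ ⊤ :=
    ne_top_of_le_ne_top (ENNReal.mul_ne_top ENNReal.ofReal_ne_top (hF.A_fin Z hZ)) hmul
  -- most points of `A Z` are good for their own `Y`-law
  have h2 : d.μ {t | t ∈ d.A Z ∧ ¬ (∀ (σ₁ : Equiv.Perm R) (θ₁ : E), IsLaw M d p Y t σ₁ θ₁ →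
      Good M d (3 * p.ε) Y σ₁ θ₁ t)} ≤ ENNReal.ofReal p.δ * d.μ (d.A Z * d.A Y) := by
    refine cover_le ?_ (hF.A_ne Y hY) hAY (hF.A_inv Y hY) hfin _ _ fun n₀ _ => ?_
    · have := hF.A_meas Y hY 1 (by norm_num)
      rwa [pow_one] at this
    · obtain ⟨σc, θ₀, h3⟩ := hF.box Y hY n₀
      have h4 : IsLaw M d p Y n₀ σc θ₀ := h3
      have h5 := h4.few hF (B := (d.A Y) ^ 2) (m := 1) (fun a ha => by
        rw [one_mul]; exact hF.A_pow Y hY (pow_mono_of_one hAY (by norm_num) ha))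
      refine h5.mono le_rfl le_rfl fun a ha hg σ₁ θ₁ hl => ?_
      rw [mul_one] at hg
      obtain ⟨h6, h7⟩ := law_compare hF hs hY (pow_mono_of_one hAY (by norm_num) ha) h4 hl
      subst h6
      exact hg.congr (by linarith)
  have h3 := hlaw.few hF (B := d.A Z) (m := 1) (fun a ha => by
    rw [one_mul]; exact hF.A_pow Z hZ (mem_Ah hF hZ ha (by norm_num)))
  have h4 : Few d.μ (d.A Z) (ENNReal.ofReal (p.δ * M.C) * d.μ (d.A Z))
      (fun t => ∀ (σ₁ : Equiv.Perm R) (θ₁ : E), IsLaw M d p Y t σ₁ θ₁ →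
      Good M d (3 * p.ε) Y σ₁ θ₁ t) := by
    refine le_trans h2 ?_
    rw [ENNReal.ofReal_mul hF.δ_pos.le, mul_assoc]
    exact mul_le_mul_right hmul _
  have hC := M.one_le_C
  have hδ := hF.δ_pos
  have hδ4 := hs.δ_le
  have hJ : (0:ℝ) ≤ M.J := Nat.cast_nonneg _
  obtain ⟨t, -, ht1, ht2⟩ := (h3.and h4).exists (ofReal_mul_add_lt (hF.A_ne Z hZ)
    (hF.A_fin Z hZ) hδ.le (by positivity) (by
      have h6 := (hs.JCδ hF).2.2
      have h7 : 0 ≤ (M.J : ℝ) * (M.C * p.δ) := by positivity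
      nlinarith))
  rw [one_mul, one_mul] at ht1
  obtain ⟨σc, θ₀, h5⟩ := hF.box Y hY t
  have h6 : IsLaw M d p Y t σc θ₀ := h5
  have h7 := ht2 _ _ h6
  have h8 := (h7.unique hs (hF.adm Y hY) (ht1.sub hYZ)
    (by have := hs.ε_le; have := hs.m_pos; linarith)).1
  rw [← hσ', ← h8]
  exact type_const hF hs hY h h6

/-- a hop along the ray `w` from a good point costs little in the other directions -/
theorem hop_Ds (hF : Facts M d p) (hs : Small M p m) {Y Z : R → ℝ} (hY : p.Adm Y) (hZ : p.Adm Z)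
    {w : R} (hYZ : Y w ≤ Z w) {σ : Equiv.Perm R} {θ : E} {n v : N} (hnD : n ∈ d.Dom)
    (hnvD : n * v ∈ d.Dom) (hn : Good M d p.ε Y σ θ n)
    (hv : v ∈ d.V w (Z w)) {r' : R} (hr : r' ≠ σ w) {t : ℝ}
    (hm : M.κ * (Z w - Y w) + t + 2 * p.ε ≤ m - 2 * p.ω) :
    (d.g n w (Y w))⁻¹ * d.g (n * v) w (Y w) ∈
      d.Ds r' (XX M Y σ θ (3 * p.ε) r' - t - 2 * p.ε) := by
  have hε := hF.ε_pos
  have hN := hF.adm Y hY
  have hY0 : 0 ≤ Y w := by linarith [NR.half hs hN w]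
  have h1 := hF.hop n hnD w (Z w) (Y w) ⟨Z, hZ, rfl⟩ ⟨Y, hY, rfl⟩ hYZ v
    (hF.V_U w (Z w) ⟨Z, hZ, rfl⟩ v hv) hnvD p.ε le_rfl
    (fun r => ⟪M.e r, d.f n w (Y w)⟫ + M.κ * (Z w - Y w) + p.ε) (fun r => le_rfl)
  have h2 := hF.Bx_Ds _ _ r' (by have := hs.ε_le; have := hs.m_le; linarith) h1
  refine hF.Ds_mono _ _ _ ?_ h2
  have h3 := hn.height' hs hN hY0 le_rfl hr
  simp only [XX] at h3 ⊢
  linarith

/-- **Inequality (I)** -/
theorem ineq_I [Nonempty R] (hF : Facts M d p) (hs : Small M p m) {Y Z : R → ℝ} (hY : p.Adm Y)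
    (hYr : ∀ r r', Y r = Y r') (hZ : p.Adm Z) (hA : d.A Y ⊆ d.A Z) {w : R} (hYZ : Y w ≤ Z w) (hZr : ∀ r, r ≠ w → Z r = Y r)
    {n₁ : N} {σ : Equiv.Perm R} {θ θ' : E} {ν : Q} (hb : IsBox M d p Y w (Y w) n₁ σ θ ν)
    (hb' : IsLaw M d p Z n₁ σ θ') (hD1 : ∀ a ∈ d.A Y, n₁ * a ∈ d.Dom)
    (hD2 : ∀ a ∈ d.A Y, ∀ v ∈ d.V w (Z w), ∀ x ∈ d.Ah Z, n₁ * a * v * x ∈ d.Dom)
    (hgood : Few d.μ (d.A Y) (ENNReal.ofReal (1 / 2) * d.μ (d.A Y)) (fun a =>
      (Good M d p.ε Y σ θ (n₁ * a) ∧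
        ν⁻¹ * d.g (n₁ * a) w (Y w) ∈ d.Bx (2 * p.ε) (XX M Y σ θ (3 * p.ε))) ∧
      ∃ v ∈ d.V w (Z w), Typ M d p Z w (Y w) (n₁ * a * v)))
    {r' : R} (hr : r' ≠ σ w) {t : ℝ} (ht0 : 0 ≤ t) (ht1 : t ≤ 1)
    (htc : 8 * M.κ * p.ε ≤ M.c0 * t) (hω : 3 * p.ε ≤ p.ω)
    (hm : M.κ * (Z w - Y w) + t + 2 * p.ε ≤ m - 2 * p.ω) :
    ⟪M.e r', θ⟫ ≤ ⟪M.e r', θ'⟫ + t + 12 * p.ε := by
  by_contra hcon
  push Not at hcon
  have hε := hF.ε_pos
  have hκ := M.one_le_κ
  have hN := hF.adm Y hY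
  have hNZ := hF.adm Z hZ
  have hY0 : 0 ≤ Y w := by linarith [NR.half hs hN w]
  have hZ0 : Y w ≤ Z w := hYZ
  have hκ0 : 0 ≤ M.κ * (Z w - Y w) := by nlinarith
  have hA0 := hF.A_ne Y hY
  have hAt := hF.A_fin Y hY
  obtain ⟨a₁, ha₁, ⟨hg₁, hx₁⟩, v₁, hv₁, ht₁⟩ := hgood.exists (by
    calc ENNReal.ofReal (1 / 2) * d.μ (d.A Y) < 1 * d.μ (d.A Y) :=
          ENNReal.mul_lt_mul_left hA0 hAt (ENNReal.ofReal_lt_one.2 (by norm_num))
      _ = d.μ (d.A Y) := one_mul _)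
  have h1 := spread hF hs hY hYr hb hD1 hr ht0 ht1 (by linarith) htc hω (d.g (n₁ * a₁) w (Y w))
  have h2 : Few d.μ (d.A Y) (ENNReal.ofReal (1 / 4) * d.μ (d.A Y)) (fun a =>
      ¬ (Good M d p.ε Y σ θ (n₁ * a) ∧
      ν⁻¹ * d.g (n₁ * a) w (Y w) ∈ d.Bx (2 * p.ε) (XX M Y σ θ (3 * p.ε)) ∧
      (d.g (n₁ * a₁) w (Y w))⁻¹ * d.g (n₁ * a) w (Y w) ∈
        d.Ds r' (XX M Y σ θ (3 * p.ε) r' - t))) := by
    refine le_trans (measure_mono ?_) h1
    rintro a ⟨ha, hna⟩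
    exact ⟨ha, not_not.1 hna⟩
  obtain ⟨a₂, ha₂, ⟨⟨hg₂, hx₂⟩, v₂, hv₂, ht₂⟩, hnot⟩ := (hgood.and h2).exists
    (ofReal_mul_add_lt hA0 hAt (by norm_num) (by norm_num) (by norm_num))
  refine hnot ⟨hg₂, hx₂, ?_⟩
  -- the two hops
  have h1Ah : (1 : N) ∈ d.Ah Z :=
    hF.A_pow Z hZ (mem_Ah hF hZ (hF.A_one Z hZ) (by norm_num))
  have hD3 : ∀ a ∈ d.A Y, ∀ v ∈ d.V w (Z w), n₁ * a * v ∈ d.Dom := fun a ha v hv => by
    have := hD2 a ha v hv 1 h1Ah
    rwa [mul_one] at this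
  have h3 := hop_Ds hF hs hY hZ hYZ (hD1 _ ha₁) (hD3 _ ha₁ _ hv₁) hg₁ hv₁ hr (t := t) hm
  have h4 := hop_Ds hF hs hY hZ hYZ (hD1 _ ha₂) (hD3 _ ha₂ _ hv₂) hg₂ hv₂ hr (t := t) hm
  -- the middle part
  have hVA : ∀ v ∈ d.V w (Z w), v ∈ d.A Z := fun v hv => hF.V_sub Z hZ w hv
  have hav : ∀ a ∈ d.A Y, ∀ v ∈ d.V w (Z w), a * v ∈ (d.A Z) ^ 2 := fun a ha v hv =>
    pow_mem_add (i := 1) (j := 1) (by rw [pow_one]; exact hA ha) (by rw [pow_one]; exact hVA v hv)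
  have hk : (a₁ * v₁)⁻¹ * (a₂ * v₂) ∈ (d.A Z) ^ 4 :=
    pow_mem_add (i := 2) (j := 2) (inv_mem_pow (hF.A_inv Z hZ) (hav a₁ ha₁ v₁ hv₁))
      (hav a₂ ha₂ v₂ hv₂)
  obtain ⟨σ'', θ'', ν'', hb''⟩ := exists_isBox hF hs hZ hY0 hYZ (n₁ * a₁ * v₁)
    (hD2 _ ha₁ _ hv₁)
  have h5 : IsLaw M d p Z (n₁ * (a₁ * v₁)) σ'' θ'' := by rw [← mul_assoc]; exact hb''.law
  obtain ⟨hσ, hθ⟩ := law_compare hF hs hZ
    (pow_mono_of_one (hF.A_one Z hZ) (by norm_num : 2 ≤ 9) (hav a₁ ha₁ v₁ hv₁)) hb' h5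
  subst hσ
  have h6 : n₁ * a₁ * v₁ * ((a₁ * v₁)⁻¹ * (a₂ * v₂)) = n₁ * a₂ * v₂ := by group
  have h7 := (typ_pair hF hs hZ hY0 hYZ hk (by rw [h6]; exact hD2 _ ha₂ _ hv₂) ht₁
    (by rw [h6]; exact ht₂) hb'').2
  rw [h6] at h7
  have h8 := hF.Bx_Ds _ _ r' (by have := hs.ε_le; have := hs.m_le; linarith) h7
  have hsw : σ.symm r' ≠ w := fun h => hr (by rw [← h, Equiv.apply_symm_apply])
  have h9 : (d.g (n₁ * a₁ * v₁) w (Y w))⁻¹ * d.g (n₁ * a₂ * v₂) w (Y w) ∈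
      d.Ds r' (XX M Y σ θ (3 * p.ε) r' - t - 2 * p.ε) := by
    refine hF.Ds_mono _ _ _ ?_ h8
    have h10 := M.toFrame.inner_le_norm r' (θ'' - θ')
    rw [inner_sub_right, ← norm_neg, neg_sub] at h10
    simp only [XX, hZr _ hsw]
    linarith
  have h10 := hF.Ds_mul _ _ _ (hF.Ds_mono r' _ (XX M Y σ θ (3 * p.ε) r' - t - p.ε) (by linarith)
    (hF.Ds_mul _ _ _ h3 _ h9)) _
    (hF.Ds_mono r' _ (XX M Y σ θ (3 * p.ε) r' - t - p.ε) (by linarith) (hF.Ds_inv _ _ _ h4))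
  rw [sub_add_cancel] at h10
  convert h10 using 1
  group

end Crest.Agent.R182.El
end

-- ▼ part R182/ElWalk
section

set_option autoImplicit false
set_option linter.unusedSectionVars false

open MeasureTheory Set
open scoped Pointwise RealInnerProductSpace ENNReal

namespace Crest.Agent.R182.El

variable {R E N Q : Type*} [Fintype R] [DecidableEq R] [NormedAddCommGroup E]
  [InnerProductSpace ℝ E]
  [Group N] [MeasurableSpace N] [MeasurableMul₂ N] [MeasurableInv N]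
  [Group Q] [MeasurableSpace Q] [MeasurableMul₂ Q] [MeasurableInv Q]
  {M : Mdl R E} {d : Data R E N Q} {p : Par R} {m : ℝ}

theorem typ_good [Nonempty R] (hF : Facts M d p) (hs : Small M p m) {Z : R → ℝ} (hZ : p.Adm Z)
    {r₀ : R} {s₀ : ℝ} (h0 : 0 ≤ s₀) (h1 : s₀ ≤ Z r₀) {n k : N} (hk : k ∈ (d.A Z) ^ 9)
    (hD : ∀ a ∈ d.Ah Z, n * k * a ∈ d.Dom)
    {σ : Equiv.Perm R} {θ : E} (hl : IsLaw M d p Z n σ θ) (ht : Typ M d p Z r₀ s₀ (n * k)) :
    Good M d (5 * p.ε) Z σ θ (n * k) := by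
  obtain ⟨σ', θ', ν', hb⟩ := exists_isBox hF hs hZ h0 h1 (n * k) hD
  obtain ⟨hσ, hθ⟩ := law_compare hF hs hZ hk hl hb.law
  subst hσ
  refine (ht _ _ _ hb).1.congr ?_
  rw [← norm_neg, neg_sub]
  linarith

/-- comparison of two laws through one hop along the ray `w` -/
theorem hop_law (hF : Facts M d p) {Y Z : R → ℝ} (hY : p.Adm Y) (hZ : p.Adm Z)
    {w : R} (hYZ : Y w ≤ Z w) (h0 : 0 ≤ Y w) {σ : Equiv.Perm R} {θ θ' : E} {n u : N} {τ τ' : ℝ}
    (hu : u ∈ d.U w (Z w)) (hn : Good M d τ Y σ θ n) (hn' : Good M d τ' Z σ θ' (n * u)) :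
    ‖θ' - θ‖ ≤ M.κ * (Z w - Y w) + p.ε + τ + τ' := by
  have h1 := hF.lip n w (Z w) (Y w) ⟨Z, hZ, rfl⟩ ⟨Y, hY, rfl⟩ hYZ u hu
  have h2 := hn w (Y w) h0 le_rfl
  have h3 := hn' w (Y w) h0 hYZ
  have h4 : θ' - θ = (d.f (n * u) w (Y w) - d.f n w (Y w)) +
      (d.f n w (Y w) - θ - Y w • M.e (σ w)) -
      (d.f (n * u) w (Y w) - θ' - Y w • M.e (σ w)) := by abel
  rw [h4]
  have h5 := norm_sub_le ((d.f (n * u) w (Y w) - d.f n w (Y w)) +
      (d.f n w (Y w) - θ - Y w • M.e (σ w))) (d.f (n * u) w (Y w) - θ' - Y w • M.e (σ w))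
  have h6 := norm_add_le (d.f (n * u) w (Y w) - d.f n w (Y w))
      (d.f n w (Y w) - θ - Y w • M.e (σ w))
  linarith

/-- the walk through the levels -/
theorem walk_prod (hF : Facts M d p) (hs : Small M p m) {Y : R → ℝ} (hY : p.Adm Y) {w : R}
    (K : ℕ) (Z : ℕ → R → ℝ) (hZ : ∀ j ≤ K, p.Adm (Z j)) (hZY : ∀ j ≤ K, Y w ≤ Z j w)
    {ι : ℝ} (hmono : ∀ j < K, Z j w ≤ Z (j + 1) w) (hι : ∀ j < K, Z (j + 1) w ≤ Z j w + ι)
    (s : N) (hsD : s ∈ d.Dom) (v : ℕ → N) (hv : ∀ j ≤ K, v j ∈ d.V w (Z j w))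
    (hvD : ∀ j ≤ K, s * v j ∈ d.Dom) (X : R → ℝ)
    (hX0 : ∀ r, ⟪M.e r, d.f s w (Y w)⟫ + M.κ * (Z 0 w - Y w) + p.ε ≤ X r) (hι0 : 0 ≤ ι)
    (hX : ∀ j ≤ K, ∀ r, ∀ s', 0 ≤ s' → s' ≤ Z j w →
      ⟪M.e r, d.f (s * v j) w s'⟫ + M.κ * ι + p.ε ≤ X r) :
    ∀ k ≤ K, ∃ L : List Q, L.length = 5 * k + 1 ∧ (∀ y ∈ L, y ∈ d.Bx p.ε X) ∧
      (d.g s w (Y w))⁻¹ * d.g (s * v k) w (Y w) = L.prod := by
  have hκ := M.one_le_κ
  have hκι : 0 ≤ M.κ * ι := by positivity
  have hN := hF.adm Y hY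
  have hY0 : 0 ≤ Y w := by linarith [NR.half hs hN w]
  have h2 : ∀ j ≤ K, Z j w ≤ 2 := fun j hj => by
    linarith [NR.le hs (hF.adm _ (hZ j hj)) w, hs.ω_le_half]
  intro k
  induction k with
  | zero =>
    intro _
    refine ⟨[(d.g s w (Y w))⁻¹ * d.g (s * v 0) w (Y w)], by simp, ?_, by simp⟩
    intro y hy
    rw [List.mem_singleton] at hy
    subst hy
    exact hF.hop s hsD w (Z 0 w) (Y w) ⟨_, hZ 0 (Nat.zero_le _), rfl⟩ ⟨Y, hY, rfl⟩
      (hZY 0 (Nat.zero_le _)) _ (hF.V_U w _ ⟨_, hZ 0 (Nat.zero_le _), rfl⟩ _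
        (hv 0 (Nat.zero_le _))) (hvD 0 (Nat.zero_le _)) _ le_rfl _ hX0
  | succ k ih =>
    intro hk
    obtain ⟨L, hL1, hL2, hL3⟩ := ih (by omega)
    have hk' : k ≤ K := by omega
    have hlk : k < K := by omega
    have hlen : ∀ j ≤ K, ∀ s', 0 ≤ s' → s' ≤ Z j w →
        (d.g (s * v j) w 0)⁻¹ * d.g (s * v j) w s' ∈ d.Bx p.ε X := by
      intro j hj s' h0' h1'
      refine hF.line _ (hvD j hj) _ _ h0' (h1'.trans (h2 j hj)) _ le_rfl _ fun s'' h0'' h1'' r => ?_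
      have := hX j hj r s'' h0'' (h1''.trans h1')
      linarith
    have hZk0 : 0 ≤ Z k w := hY0.trans (hZY k hk')
    have ha1 := hlen k hk' (Y w) hY0 (hZY k hk')
    have ha2 := hlen k hk' (Z k w) hZk0 le_rfl
    have ha4 := hlen (k + 1) hk (Z k w) hZk0 (hmono k hlk)
    have ha5 := hlen (k + 1) hk (Y w) hY0 (hZY _ hk)
    have ha3 : (d.g (s * v k) w (Z k w))⁻¹ * d.g (s * v (k + 1)) w (Z k w) ∈ d.Bx p.ε X := by
      have h3 : s * v (k + 1) = s * v k * ((v k)⁻¹ * v (k + 1)) := by group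
      rw [h3]
      refine hF.hop _ (hvD k hk') w (Z (k + 1) w) (Z k w) ⟨_, hZ _ hk, rfl⟩ ⟨_, hZ _ hk', rfl⟩
        (hmono k hlk) _ (hF.V_VU w _ _ ⟨_, hZ _ hk', rfl⟩ ⟨_, hZ _ hk, rfl⟩ (hmono k hlk) _
        (hv k hk') _ (hv _ hk)) (by rw [← h3]; exact hvD _ hk) _ le_rfl _ fun r => ?_
      have h4 := hX k hk' r (Z k w) hZk0 le_rfl
      have h5 : M.κ * (Z (k + 1) w - Z k w) ≤ M.κ * ι :=
        mul_le_mul_of_nonneg_left (by linarith [hι k hlk]) (by linarith)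
      linarith
    refine ⟨L ++ [((d.g (s * v k) w 0)⁻¹ * d.g (s * v k) w (Y w))⁻¹,
      (d.g (s * v k) w 0)⁻¹ * d.g (s * v k) w (Z k w),
      (d.g (s * v k) w (Z k w))⁻¹ * d.g (s * v (k + 1)) w (Z k w),
      ((d.g (s * v (k + 1)) w 0)⁻¹ * d.g (s * v (k + 1)) w (Z k w))⁻¹,
      (d.g (s * v (k + 1)) w 0)⁻¹ * d.g (s * v (k + 1)) w (Y w)], ?_, ?_, ?_⟩
    · simp only [List.length_append, hL1, List.length_cons, List.length_nil]; ring
    · intro y hy
      simp only [List.mem_append, List.mem_cons, List.not_mem_nil, or_false] at hy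
      rcases hy with hy | rfl | rfl | rfl | rfl | rfl
      · exact hL2 y hy
      · exact hF.Bx_inv _ _ _ ha1
      · exact ha2
      · exact ha3
      · exact hF.Bx_inv _ _ _ ha4
      · exact ha5
    · rw [List.prod_append, ← hL3]
      simp only [List.prod_cons, List.prod_nil]
      group

end Crest.Agent.R182.El
end

-- ▼ part R182/ElVol
section

set_option autoImplicit false

open MeasureTheory Set
open scoped Pointwise ENNReal

namespace Crest.Agent.R182.El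

/-- **Volume count.** -/
theorem vol_count {N : Type*} [Group N] [MeasurableSpace N] [MeasurableMul₂ N] [MeasurableInv N]
    {μ : Measure N} [SigmaFinite μ] [μ.IsMulLeftInvariant] [μ.IsMulRightInvariant]
    {lam : Measure N} [IsFiniteMeasure lam] {A T : Set N} (hA : MeasurableSet A)
    (_hA0 : μ A ≠ 0) (hAt : μ A ≠ ⊤) (n₁ : N) {m : ℝ≥0∞} (hm0 : m ≠ 0)
    (hm : ∀ y, lam {v | y * v⁻¹ ∈ A} ≤ m) (hlam : lam univ ≠ 0) {S ε Db GY a : ℝ}
    (hS : 4 ≤ S * ε) (hε : 0 < ε)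
    (h1 : m * ENNReal.ofReal (Real.exp (S * (Db - ε))) ≤ lam univ)
    (h2 : ENNReal.ofReal (Real.exp (S * (GY - ε))) ≤ μ A)
    (hT : μ T ≤ ENNReal.ofReal (Real.exp (S * a)))
    (hgood : μ {x | x ∈ A ∧ ¬ (lam {v | n₁ * x * v ∉ T} ≤ lam univ / 2)} ≤ μ A / 4) :
    Db + GY ≤ a + 3 * ε := by
  have hlt : lam univ ≠ ⊤ := measure_ne_top lam univ
  have hSpos : 0 < S := by
    by_contra h
    have : S * ε ≤ 0 := mul_nonpos_of_nonpos_of_nonneg (not_lt.1 h) hε.le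
    linarith
  -- `m` is finite
  have hmt : m ≠ ⊤ := by
    rintro rfl
    apply hlt
    rw [eq_top_iff]
    refine le_trans (le_of_eq ?_) h1
    rw [ENNReal.top_mul]
    exact (ENNReal.ofReal_pos.2 (Real.exp_pos _)).ne'
  -- a measurable hull of `T`
  set T' := toMeasurable μ T with hT'
  have hT'm : MeasurableSet T' := measurableSet_toMeasurable μ T
  have hTT' : T ⊆ T' := subset_toMeasurable μ T
  have hμT' : μ T' = μ T := measure_toMeasurable T
  -- the functions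
  have hDm : MeasurableSet {x : N × N | n₁ * x.1 * x.2 ∉ T'} :=
    (((measurable_fst.const_mul n₁).mul measurable_snd) hT'm).compl
  have hgm : Measurable fun x => lam {v | n₁ * x * v ∉ T'} := measurable_measure_prodMk_left hDm
  set Gd : Set N := {x | x ∈ A ∧ lam {v | n₁ * x * v ∉ T'} ≤ lam univ / 2} with hGd
  have hGdm : MeasurableSet Gd := hA.inter (measurableSet_le hgm measurable_const)
  have hGdA : μ A ≤ μ Gd + μ A / 4 := by
    have hsub : A ⊆ Gd ∪ {x | x ∈ A ∧ ¬ (lam {v | n₁ * x * v ∉ T} ≤ lam univ / 2)} := by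
      intro x hx
      by_cases h : lam {v | n₁ * x * v ∉ T'} ≤ lam univ / 2
      · exact Or.inl ⟨hx, h⟩
      · refine Or.inr ⟨hx, fun h' => h (le_trans (measure_mono ?_) h')⟩
        intro v hv hvT
        exact hv (hTT' hvT)
    exact (measure_mono hsub).trans ((measure_union_le _ _).trans (add_le_add le_rfl hgood))
  -- lower bound for the integral
  set K : Set N := (fun n => n₁⁻¹ * n) ⁻¹' A with hK
  have hKm : MeasurableSet K := (measurable_const_mul _) hA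
  have hmK : ∀ y, lam {v | y * v⁻¹ ∈ K} ≤ m := by
    intro y
    refine le_trans (le_of_eq ?_) (hm (n₁⁻¹ * y))
    congr 1
    ext v
    simp only [hK, Set.mem_ofPred_eq, Set.mem_preimage]
    rw [mul_assoc]
  have h3 := lam_le (μ := μ) lam hKm hT'm m hmK
  rw [hμT'] at h3
  set GK : Set N := (fun n => n₁⁻¹ * n) ⁻¹' Gd with hGK
  have hGKm : MeasurableSet GK := (measurable_const_mul _) hGdm
  have hGKμ : μ GK = μ Gd := measure_preimage_mul μ _ _
  have hGKK : GK ⊆ K := fun n hn => hn.1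
  have h4 : (lam univ / 2) * μ Gd ≤ ∫⁻ n in K, lam {v | n * v ∈ T'} ∂μ := by
    calc (lam univ / 2) * μ Gd = ∫⁻ _n in GK, lam univ / 2 ∂μ := by
          rw [setLIntegral_const, hGKμ]
      _ ≤ ∫⁻ n in GK, lam {v | n * v ∈ T'} ∂μ := by
          refine setLIntegral_mono' hGKm fun n hn => ?_
          have h5 : lam {v | n * v ∉ T'} ≤ lam univ / 2 := by
            have := hn.2
            rwa [mul_inv_cancel_left] at this
          have h6 : lam univ ≤ lam {v | n * v ∈ T'} + lam univ / 2 := by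
            have : (univ : Set N) ⊆ {v | n * v ∈ T'} ∪ {v | n * v ∉ T'} := by
              intro v _
              by_cases h : n * v ∈ T'
              · exact Or.inl h
              · exact Or.inr h
            exact (measure_mono this).trans
              ((measure_union_le _ _).trans (add_le_add le_rfl h5))
          have h7 : lam univ / 2 ≠ ⊤ := ENNReal.div_ne_top hlt (by norm_num)
          have h8 : lam univ / 2 + lam univ / 2 ≤ lam {v | n * v ∈ T'} + lam univ / 2 := by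
            rwa [ENNReal.add_halves]
          exact (ENNReal.add_le_add_iff_right h7).1 h8
      _ ≤ ∫⁻ n in K, lam {v | n * v ∈ T'} ∂μ := lintegral_mono_set hGKK
  have h5 : (lam univ / 2) * μ Gd ≤ m * ENNReal.ofReal (Real.exp (S * a)) :=
    (h4.trans h3).trans (mul_le_mul_right hT _)
  -- pass to real numbers
  have hGdfin : μ Gd ≠ ⊤ := ((measure_mono fun x hx => hx.1).trans_lt hAt.lt_top).ne
  set α := (μ A).toReal with hα
  set γ := (μ Gd).toReal with hγ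
  set l := (lam univ).toReal with hl
  set M := m.toReal with hM
  have hMpos : 0 < M := ENNReal.toReal_pos hm0 hmt
  have e1 : M * Real.exp (S * (Db - ε)) ≤ l := by
    have := ENNReal.toReal_mono hlt h1
    rwa [ENNReal.toReal_mul, ENNReal.toReal_ofReal (Real.exp_pos _).le] at this
  have e2 : Real.exp (S * (GY - ε)) ≤ α := by
    have := ENNReal.toReal_mono hAt h2
    rwa [ENNReal.toReal_ofReal (Real.exp_pos _).le] at this
  have e3 : α ≤ γ + α / 4 := by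
    have := ENNReal.toReal_mono (ENNReal.add_ne_top.2 ⟨hGdfin,
      ENNReal.div_ne_top hAt (by norm_num)⟩) hGdA
    rw [ENNReal.toReal_add hGdfin (ENNReal.div_ne_top hAt (by norm_num)),
      ENNReal.toReal_div] at this
    simpa using this
  have e4 : l / 2 * γ ≤ M * Real.exp (S * a) := by
    have := ENNReal.toReal_mono (ENNReal.mul_ne_top hmt ENNReal.ofReal_ne_top) h5
    rw [ENNReal.toReal_mul, ENNReal.toReal_mul, ENNReal.toReal_ofReal (Real.exp_pos _).le,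
      ENNReal.toReal_div] at this
    simpa using this
  have hlpos : 0 < l := ENNReal.toReal_pos hlam hlt
  have e5 : l / 2 * (3 / 4 * Real.exp (S * (GY - ε))) ≤ M * Real.exp (S * a) := by
    refine le_trans (mul_le_mul_of_nonneg_left ?_ (by positivity)) e4
    linarith
  have e6 : M * Real.exp (S * (Db - ε)) / 2 * (3 / 4 * Real.exp (S * (GY - ε))) ≤
      M * Real.exp (S * a) := by
    refine le_trans (mul_le_mul_of_nonneg_right ?_ (by positivity)) e5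
    linarith
  have e7 : 3 / 8 * Real.exp (S * (Db - ε) + S * (GY - ε)) ≤ Real.exp (S * a) := by
    rw [Real.exp_add]
    have : M * (3 / 8 * (Real.exp (S * (Db - ε)) * Real.exp (S * (GY - ε)))) ≤
        M * Real.exp (S * a) := by linarith
    exact le_of_mul_le_mul_left this hMpos
  have e8 : Real.exp (-(S * ε)) ≤ 3 / 8 := by
    have h9 : (5 : ℝ) ≤ Real.exp (S * ε) := by
      have := Real.add_one_le_exp (S * ε)
      linarith
    rw [Real.exp_neg, inv_le_comm₀ (Real.exp_pos _) (by norm_num)]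
    norm_num
    linarith
  have e9 : Real.exp (-(S * ε) + (S * (Db - ε) + S * (GY - ε))) ≤ Real.exp (S * a) := by
    rw [Real.exp_add]
    exact (mul_le_mul_of_nonneg_right e8 (Real.exp_pos _).le).trans e7
  rw [Real.exp_le_exp] at e9
  have e10 : S * (Db + GY) ≤ S * (a + 3 * ε) := by nlinarith
  exact le_of_mul_le_mul_left e10 hSpos

end Crest.Agent.R182.El
end

-- ▼ part R182/ElPoint
section

set_option autoImplicit false
set_option linter.unusedSectionVars false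

open MeasureTheory Set
open scoped Pointwise RealInnerProductSpace ENNReal

namespace Crest.Agent.R182.El

variable {R E N Q : Type*} [Fintype R] [DecidableEq R] [NormedAddCommGroup E]
  [InnerProductSpace ℝ E]
  [Group N] [MeasurableSpace N] [MeasurableMul₂ N] [MeasurableInv N]
  [Group Q] [MeasurableSpace Q] [MeasurableMul₂ Q] [MeasurableInv Q]
  {M : Mdl R E} {d : Data R E N Q} {p : Par R} {m : ℝ}

/-- the levels -/
noncomputable def lev (Y : R → ℝ) (w : R) (ι : ℝ) (j : ℕ) : R → ℝ :=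
  Function.update Y w (Y w + j * ι)

@[simp] theorem lev_self (Y : R → ℝ) (w : R) (ι : ℝ) (j : ℕ) : lev Y w ι j w = Y w + j * ι := by
  simp [lev]

theorem lev_ne (Y : R → ℝ) {w r : R} (h : r ≠ w) (ι : ℝ) (j : ℕ) : lev Y w ι j r = Y r := by
  simp [lev, h]

@[simp] theorem lev_zero (Y : R → ℝ) (w : R) (ι : ℝ) : lev Y w ι 0 = Y := by
  simp [lev]

/-- everything that is known at a fine point `n₁` -/
structure Pt (M : Mdl R E) (d : Data R E N Q) (p : Par R) (Y : R → ℝ) (w : R) (ι : ℝ) (K : ℕ)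
    (n₁ : N) (σ : Equiv.Perm R) (θ : E) (ν : Q) (θs : ℕ → E) : Prop where
  round : ∀ r r', Y r = Y r'
  adm : ∀ j ≤ K, p.Adm (lev Y w ι j)
  hA : ∀ j ≤ K, d.A Y ⊆ d.A (lev Y w ι j)
  box : IsBox M d p Y w (Y w) n₁ σ θ ν
  law : ∀ j ≤ K, IsLaw M d p (lev Y w ι j) n₁ σ (θs j)
  dom : ∀ a ∈ d.A Y, n₁ * a ∈ d.Dom
  dom_V : ∀ j ≤ K, ∀ a ∈ d.A Y, ∀ v ∈ d.V w (lev Y w ι j w), ∀ x ∈ d.Ah (lev Y w ι j),
    n₁ * a * v * x ∈ d.Dom
  good : Few d.μ (d.A Y) (ENNReal.ofReal (1 / 4) * d.μ (d.A Y)) (fun a =>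
      (Good M d p.ε Y σ θ (n₁ * a) ∧
        ν⁻¹ * d.g (n₁ * a) w (Y w) ∈ d.Bx (2 * p.ε) (XX M Y σ θ (3 * p.ε))) ∧
      ∀ j ≤ K, d.lam w (lev Y w ι j w) {v | ¬ Typ M d p (lev Y w ι j) w (Y w) (n₁ * a * v)} ≤
        d.lam w (lev Y w ι j w) univ / 2)

theorem exists_typ (hF : Facts M d p) {w : R} {t : ℝ} (ht : p.AdmT w t) {P : N → Prop}
    (h : d.lam w t {v | ¬ P v} ≤ d.lam w t univ / 2) : ∃ v ∈ d.V w t, P v := by
  by_contra hcon
  push Not at hcon
  have h1 : (univ : Set N) ⊆ (d.V w t)ᶜ ∪ {v | ¬ P v} := by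
    intro v _
    by_cases hv : v ∈ d.V w t
    · exact Or.inr (hcon v hv)
    · exact Or.inl hv
  have h2 := (measure_mono (μ := d.lam w t) h1).trans (measure_union_le _ _)
  rw [hF.lam_compl w t ht, zero_add] at h2
  have h3 := h2.trans h
  exact absurd h3 (not_le.2 (ENNReal.half_lt_self (hF.lam_ne w t ht) (hF.lam_fin w t ht)))

theorem one_mem_Ah (hF : Facts M d p) {Z : R → ℝ} (hZ : p.Adm Z) : (1 : N) ∈ d.Ah Z :=
  hF.A_pow Z hZ (mem_Ah hF hZ (hF.A_one Z hZ) (by norm_num))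

/-- the box of radius `τ` around the image box -/
noncomputable def stickX (X : R → ℝ) (w : R) (κ b : ℝ) : R → ℝ :=
  fun r => X r + (if r = w then b else - (κ * b))

theorem vol_step [Nonempty R] (hF : Facts M d p) (hs : Small M p m) {Y : R → ℝ} {w : R} {ι : ℝ}
    {K : ℕ} {n₁ : N} {σ : Equiv.Perm R} {θ : E} {ν : Q} {θs : ℕ → E}
    (hpt : Pt M d p Y w ι K n₁ σ θ ν θs) (hι : 0 ≤ ι) (hq : 5 * K + 1 ≤ p.q) {e2 β : ℝ}
    (he2 : 0 ≤ e2) (hβ : 0 ≤ β) (h1 : ⟪M.e (σ w), θs K - θ⟫ ≤ e2)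
    (h2 : ∀ j ≤ K, ⟪M.e (σ w), θs j - θ⟫ + j * ι ≤ β) (hω1 : β + M.κ * ι ≤ p.ω)
    (hω2 : e2 + 10 * p.ε ≤ p.ω)
    (hm : M.κ * (K * ι) + M.κ * ι + M.κ * (β + M.κ * ι) + 14 * p.ε ≤ m - 2 * p.ω) :
    M.D w * (K * ι) ≤ M.D (σ w) * (β + M.κ * ι) + M.κ * (e2 + 10 * p.ε) + 2 * M.κ * p.ε
      + 4 * p.ε := by
  have := hF.μ_left
  have := hF.μ_right
  have := hF.μ_sf
  have hε := hF.ε_pos
  have hκ := M.one_le_κ
  have hY : p.Adm Y := by simpa using hpt.adm 0 (Nat.zero_le _)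
  have hN := hF.adm Y hY
  have hY0 : 0 ≤ Y w := by linarith [NR.half hs hN w]
  have hY2 : Y w ≤ 2 := by linarith [NR.le hs hN w, hs.ω_le_half]
  have hAK := hpt.adm K le_rfl
  have hTK : p.AdmT w (Y w + K * ι) := ⟨_, hAK, lev_self _ _ _ _⟩
  have hκι : 0 ≤ M.κ * ι := by positivity
  have hjι : ∀ j ≤ K, (j : ℝ) * ι ≤ K * ι := fun j hj =>
    mul_le_mul_of_nonneg_right (by exact_mod_cast hj) hι
  set τ := e2 + 10 * p.ε with hτ
  have hτ0 : 0 ≤ τ := by rw [hτ]; linarith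
  set b' := β + M.κ * ι with hb'
  have hb'0 : 0 ≤ b' := by rw [hb']; linarith
  set X := XX M Y σ θ τ with hX
  set X'' := stickX X (σ w) M.κ b' with hX''
  set T : Set N := {n | n ∈ d.Dom ∧ d.g n w (Y w) ∈ ν • (d.Bx (2 * p.ε) X * d.Bx (2 * p.ε) X'') ∧
        (∀ r', ⟪M.e r', d.f n w (Y w)⟫ ≤ X r') ∧
        (∀ r', r' ≠ σ w → ⟪M.e r', d.f n w (Y w)⟫ + M.κ * b' ≤ X r')} with hT
  have hXr : ∀ r, |X r - ⟪M.e r, θ⟫ - 1| ≤ 2 * p.ω := by
    intro r
    have h3 := abs_le.1 (hN (σ.symm r))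
    simp only [hX, XX]
    rw [abs_le]
    constructor <;> linarith [hs.ω_pos]
  have hstick := hF.stick w (Y w) hY0 hY2 (2 * p.ε) (by linarith)
    (by have := hs.ε_le; have := hs.m_le; linarith) X X'' ν θ (σ w) b' hXr hb'0 hω1
    (fun r hr => by simp only [hX'', stickX, if_neg hr]; linarith)
    (by simp only [hX'', stickX, if_true]; linarith)
  -- distance of the laws
  have hdist : ∀ a ∈ d.A Y, Good M d p.ε Y σ θ (n₁ * a) → ∀ j ≤ K,
      ∀ v ∈ d.V w (lev Y w ι j w), Typ M d p (lev Y w ι j) w (Y w) (n₁ * a * v) →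
      Good M d (5 * p.ε) (lev Y w ι j) σ (θs j) (n₁ * a * v) ∧
        ‖θs j - θ‖ ≤ M.κ * (K * ι) + 7 * p.ε := by
    intro a ha hg j hj v hv ht
    have hZ := hpt.adm j hj
    have hYZ : Y w ≤ lev Y w ι j w := by rw [lev_self]; nlinarith [Nat.cast_nonneg (α := ℝ) j]
    have hk : a * v ∈ (d.A (lev Y w ι j)) ^ 2 :=
      pow_mem_add (i := 1) (j := 1) (by rw [pow_one]; exact hpt.hA j hj ha)
        (by rw [pow_one]; exact hF.V_sub _ hZ w hv)
    have hg' : Good M d (5 * p.ε) (lev Y w ι j) σ (θs j) (n₁ * (a * v)) := by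
      refine typ_good hF hs hZ hY0 hYZ
        (pow_mono_of_one (hF.A_one _ hZ) (by norm_num : 2 ≤ 9) hk) ?_ (hpt.law j hj) ?_
      · intro x hx; rw [← mul_assoc n₁]; exact hpt.dom_V j hj a ha v hv x hx
      · rw [← mul_assoc]; exact ht
    rw [← mul_assoc] at hg'
    refine ⟨hg', ?_⟩
    have h3 := hop_law hF hY hZ hYZ hY0 (hF.V_U w _ ⟨_, hZ, rfl⟩ v hv) hg hg'
    rw [lev_self] at h3
    have h4 : M.κ * (Y w + j * ι - Y w) ≤ M.κ * (K * ι) :=
      mul_le_mul_of_nonneg_left (by linarith [hjι j hj]) (by linarith)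
    linarith
  obtain ⟨mm, hmm0, hmm1, hmm2⟩ := hF.lam_vol Y hY w (K * ι) (by positivity) hAK
  have : IsFiniteMeasure (d.lam w (Y w + K * ι)) := ⟨lt_top_iff_ne_top.2 (hF.lam_fin w _ hTK)⟩
  have hAm : MeasurableSet (d.A Y) := by
    have := hF.A_meas Y hY 1 (by norm_num)
    rwa [pow_one] at this
  have key := vol_count (μ := d.μ) (lam := d.lam w (Y w + K * ι)) (A := d.A Y) (T := T) hAm
    (hF.A_ne Y hY) (hF.A_fin Y hY) n₁ hmm0 hmm1 (hF.lam_ne w _ hTK) (S := p.S) (ε := p.ε)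
    (Db := M.D w * (K * ι)) (GY := M.G Y)
    (a := M.G X + M.D (σ w) * b' + M.κ * (2 * p.ε) + p.ε) hF.S_large hε hmm2 (hF.A_vol Y hY)
    hstick (by
      have h3 : d.μ (d.A Y) / 4 = ENNReal.ofReal (1 / 4) * d.μ (d.A Y) := by
        rw [ENNReal.div_eq_inv_mul, one_div, ENNReal.ofReal_inv_of_pos (by norm_num)]
        norm_num
      rw [h3]
      refine Few.mono hpt.good le_rfl le_rfl ?_
      rintro a ha ⟨⟨hg, hbx⟩, htyp⟩
      -- typical moves on all levels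
      have hex : ∀ j, ∃ v, j ≤ K → v ∈ d.V w (lev Y w ι j w) ∧
          Typ M d p (lev Y w ι j) w (Y w) (n₁ * a * v) := by
        intro j
        by_cases hj : j ≤ K
        · obtain ⟨v, hv, ht⟩ := exists_typ hF ⟨_, hpt.adm j hj, rfl⟩ (htyp j hj)
          exact ⟨v, fun _ => ⟨hv, ht⟩⟩
        · exact ⟨1, fun h => absurd h hj⟩
      choose v₀ hv₀ using hex
      have hK := htyp K le_rfl
      rw [lev_self] at hK
      have hsub : {v | n₁ * a * v ∉ T} ⊆ (d.V w (Y w + K * ι))ᶜ ∪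
          {v | ¬ Typ M d p (lev Y w ι K) w (Y w) (n₁ * a * v)} := by
        intro v hv
        by_contra hcon
        rw [mem_union, not_or, mem_compl_iff, not_not, Set.mem_ofPred_eq, not_not] at hcon
        obtain ⟨hvV, hvT⟩ := hcon
        apply hv
        -- the walk
        set v' : ℕ → N := fun j => if j = K then v else v₀ j with hv'
        have hv'K : v' K = v := by simp [hv']
        have hvj : ∀ j ≤ K, v' j ∈ d.V w (lev Y w ι j w) ∧
            Typ M d p (lev Y w ι j) w (Y w) (n₁ * a * v' j) := by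
          intro j hj
          by_cases hjK : j = K
          · subst hjK
            rw [hv'K, lev_self]
            exact ⟨hvV, hvT⟩
          · simp only [hv', if_neg hjK]; exact hv₀ j hj
        have hvD : ∀ j ≤ K, n₁ * a * v' j ∈ d.Dom := fun j hj => by
          have := hpt.dom_V j hj a ha _ (hvj j hj).1 1 (one_mem_Ah hF (hpt.adm j hj))
          rwa [mul_one] at this
        have hw := walk_prod hF hs hY K (lev Y w ι) hpt.adm
          (fun j _ => by rw [lev_self]; nlinarith [Nat.cast_nonneg (α := ℝ) j]) (ι := ι)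
          (fun j _ => by rw [lev_self, lev_self]; push_cast; nlinarith)
          (fun j _ => by rw [lev_self, lev_self]; push_cast; linarith)
          (n₁ * a) (hpt.dom a ha) v' (fun j hj => (hvj j hj).1) hvD (fun r => X'' r - p.ε)
          (by
            intro r
            rw [lev_self]
            by_cases hr : r = σ w
            · subst hr
              have h4 := hg.height hs hN hY0 le_rfl (σ w)
              simp only [hX'', stickX, hX, if_true, XX, Equiv.symm_apply_apply] at h4 ⊢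
              push_cast
              linarith
            · have h4 := hg.height' hs hN hY0 le_rfl hr
              simp only [hX'', stickX, hX, if_neg hr, XX] at h4 ⊢
              push_cast
              have h5 : 0 ≤ M.κ * (K * ι) := by positivity
              linarith)
          hι
          (by
            intro j hj r s' h0' h1'
            obtain ⟨hgj, hθj⟩ := hdist a ha hg j hj _ (hvj j hj).1 (hvj j hj).2
            have hNj := hF.adm _ (hpt.adm j hj)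
            by_cases hr : r = σ w
            · subst hr
              have h4 := hgj.height hs hNj h0' h1' (σ w)
              have h5 := h2 j hj
              rw [inner_sub_right] at h5
              simp only [hX'', stickX, hX, if_true, XX, Equiv.symm_apply_apply, lev_self]
                at h4 ⊢
              linarith
            · have hsw : σ.symm r ≠ w := fun h => hr (by rw [← h, Equiv.apply_symm_apply])
              have h4 := hgj.height' hs hNj h0' h1' hr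
              have h5 := M.toFrame.inner_le_norm r (θs j - θ)
              rw [inner_sub_right] at h5
              simp only [hX'', stickX, hX, if_neg hr, XX, lev_ne Y hsw] at h4 ⊢
              linarith)
          K le_rfl
        obtain ⟨L, hL1, hL2, hL3⟩ := hw
        rw [hv'K] at hL3
        have hL4 : L.prod ∈ d.Bx (2 * p.ε) X'' := by
          have h4 := hF.Bx_prod p.ε (fun r => X'' r - p.ε) le_rfl L (by omega) hL2
          refine hF.Bx_mono _ _ _ _ (by linarith) (fun r => ?_) h4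
          simp
        obtain ⟨hgK, hθK⟩ := hdist a ha hg K le_rfl _ (by rw [lev_self]; exact hvV) hvT
        have hNK := hF.adm _ hAK
        have hYK : Y w ≤ lev Y w ι K w := by rw [lev_self]; nlinarith [Nat.cast_nonneg (α := ℝ) K]
        have hlow : ∀ r, r ≠ σ w → ⟪M.e r, d.f (n₁ * a * v) w (Y w)⟫ + M.κ * b' ≤ X r := by
          intro r hr
          have hsw : σ.symm r ≠ w := fun h => hr (by rw [← h, Equiv.apply_symm_apply])
          have h4 := hgK.height' hs hNK hY0 hYK hr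
          have h5 := M.toFrame.inner_le_norm r (θs K - θ)
          rw [inner_sub_right] at h5
          simp only [hX, XX, lev_ne Y hsw] at h4 ⊢
          linarith
        refine ⟨?_, ?_, ?_, hlow⟩
        · have := hvD K le_rfl
          rwa [hv'K] at this
        · rw [Set.mem_smul_set_iff_inv_smul_mem, smul_eq_mul]
          refine Set.mem_mul.2 ⟨ν⁻¹ * d.g (n₁ * a) w (Y w),
            hF.Bx_mono _ _ _ _ le_rfl (XX_mono _ _ _ _ (by rw [sub_self, norm_zero]; linarith)) hbx,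
            L.prod, hL4, ?_⟩
          rw [← hL3]; group
        · intro r
          by_cases hr : r = σ w
          · subst hr
            have h4 := hgK w (Y w) hY0 hYK
            have h5 : ⟪M.e (σ w), d.f (n₁ * a * v) w (Y w)⟫ =
                ⟪M.e (σ w), d.f (n₁ * a * v) w (Y w) - θs K - Y w • M.e (σ w)⟫ +
                ⟪M.e (σ w), θs K - θ⟫ + ⟪M.e (σ w), θ⟫ + Y w := by
              rw [inner_sub_right, inner_sub_right, inner_sub_right, real_inner_smul_right,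
                M.toFrame.inner_self]; ring
            have h6 := (M.toFrame.inner_le_norm (σ w) _).trans h4
            simp only [hX, XX, Equiv.symm_apply_apply]
            rw [h5]; linarith
          · have h6 : 0 ≤ M.κ * b' := by positivity
            linarith [hlow r hr]
      refine (measure_mono hsub).trans ((measure_union_le _ _).trans ?_)
      rw [hF.lam_compl w _ hTK, zero_add]
      exact hK)
  have h5 := G_XX (M := M) (Z := Y) (σ := σ) hpt.round θ hτ0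
  linarith

/-- numerical conditions: `t` = slab parameter, `B` = constant of the sum rule -/
structure Num (M : Mdl R E) (p : Par R) (m B t ι : ℝ) (K : ℕ) : Prop where
  B_one : 1 ≤ B
  sum : ∀ (w : R) (θ : E) (t : ℝ), 0 ≤ t → (∀ r, r ≠ w → -t ≤ ⟪M.e r, θ⟫) →
    ⟪M.e w, θ⟫ ≤ B * t
  t0 : 0 ≤ t
  t1 : t ≤ 1
  tc : 8 * M.κ * p.ε ≤ M.c0 * t
  ω3 : 3 * p.ε ≤ p.ω
  ι0 : 0 < ι
  hq : 5 * K + 1 ≤ p.q
  m1 : M.κ * (K * ι) + t + 2 * p.ε ≤ m - 2 * p.ω
  ω1 : B * (t + 12 * p.ε) + K * ι + M.κ * ι ≤ p.ω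
  ω2 : B * (t + 12 * p.ε) + 10 * p.ε ≤ p.ω
  m2 : M.κ * (K * ι) + M.κ * ι + M.κ * (B * (t + 12 * p.ε) + K * ι + M.κ * ι) + 14 * p.ε ≤
    m - 2 * p.ω

section pt

variable {Y : R → ℝ} {w : R} {ι : ℝ} {K : ℕ} {n₁ : N} {σ : Equiv.Perm R} {θ : E} {ν : Q}
  {θs : ℕ → E} {B t : ℝ}

theorem Pt.admY (hpt : Pt M d p Y w ι K n₁ σ θ ν θs) : p.Adm Y := by
  simpa using hpt.adm 0 (Nat.zero_le _)

theorem Pt.good_half (hF : Facts M d p) (hpt : Pt M d p Y w ι K n₁ σ θ ν θs) {j : ℕ}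
    (hj : j ≤ K) : Few d.μ (d.A Y) (ENNReal.ofReal (1 / 2) * d.μ (d.A Y)) (fun a =>
      (Good M d p.ε Y σ θ (n₁ * a) ∧
        ν⁻¹ * d.g (n₁ * a) w (Y w) ∈ d.Bx (2 * p.ε) (XX M Y σ θ (3 * p.ε))) ∧
      ∃ v ∈ d.V w (lev Y w ι j w), Typ M d p (lev Y w ι j) w (Y w) (n₁ * a * v)) := by
  refine hpt.good.mono le_rfl ?_ ?_
  · gcongr; norm_num
  · rintro a _ ⟨h1, h2⟩
    exact ⟨h1, exists_typ hF ⟨_, hpt.adm j hj, rfl⟩ (h2 j hj)⟩

theorem Pt.lower [Nonempty R] (hF : Facts M d p) (hs : Small M p m) (hn : Num M p m B t ι K)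
    (hpt : Pt M d p Y w ι K n₁ σ θ ν θs) {j : ℕ} (hj : j ≤ K) {r : R} (hr : r ≠ σ w) :
    -(t + 12 * p.ε) ≤ ⟪M.e r, θs j - θ⟫ := by
  have hι := hn.ι0
  have hj' : (j : ℝ) * ι ≤ K * ι := mul_le_mul_of_nonneg_right (by exact_mod_cast hj) hι.le
  have hκ := M.one_le_κ
  have h1 := ineq_I hF hs hpt.admY hpt.round (hpt.adm j hj) (hpt.hA j hj)
    (by rw [lev_self]; nlinarith [Nat.cast_nonneg (α := ℝ) j])
    (fun r hr => lev_ne Y hr ι j) hpt.box (hpt.law j hj) hpt.dom (hpt.dom_V j hj)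
    (hpt.good_half hF hj) hr hn.t0 hn.t1 hn.tc hn.ω3
    (by
      rw [lev_self]
      have := hn.m1
      have h3 : M.κ * (Y w + j * ι - Y w) ≤ M.κ * (K * ι) :=
        mul_le_mul_of_nonneg_left (by linarith) (by linarith)
      linarith)
  rw [inner_sub_right]
  linarith

theorem Num.te (hF : Facts M d p) (hn : Num M p m B t ι K) : 0 ≤ t + 12 * p.ε := by
  have := hF.ε_pos; have := hn.t0; linarith

theorem Pt.upper [Nonempty R] (hF : Facts M d p) (hs : Small M p m) (hn : Num M p m B t ι K)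
    (hpt : Pt M d p Y w ι K n₁ σ θ ν θs) {j : ℕ} (hj : j ≤ K) :
    ⟪M.e (σ w), θs j - θ⟫ ≤ B * (t + 12 * p.ε) :=
  hn.sum _ _ _ (hn.te hF) fun _ hr => hpt.lower hF hs hn hj hr

/-- error of the volume inequality -/
noncomputable def err (M : Mdl R E) (p : Par R) (B t : ℝ) : ℝ :=
  M.κ * (B * (t + 12 * p.ε) + 10 * p.ε) + 2 * M.κ * p.ε + 4 * p.ε

theorem Pt.D_le [Nonempty R] (hF : Facts M d p) (hs : Small M p m) (hn : Num M p m B t ι K)
    (hpt : Pt M d p Y w ι K n₁ σ θ ν θs) :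
    M.D w * (K * ι) ≤ M.D (σ w) * (K * ι) +
      (M.D (σ w) * (B * (t + 12 * p.ε) + M.κ * ι) + err M p B t) := by
  have hι := hn.ι0
  have hB := hn.B_one
  have hte := hn.te hF
  have hκ := M.one_le_κ
  have h1 := vol_step hF hs hpt hι.le hn.hq (e2 := B * (t + 12 * p.ε))
    (β := B * (t + 12 * p.ε) + K * ι) (by positivity) (by positivity)
    (hpt.upper hF hs hn le_rfl) (fun j hj => by
      have := hpt.upper hF hs hn hj
      have hj' : (j : ℝ) * ι ≤ K * ι := mul_le_mul_of_nonneg_right (by exact_mod_cast hj) hι.le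
      linarith) (by linarith [hn.ω1]) (by linarith [hn.ω2]) (by linarith [hn.m2])
  simp only [err]
  nlinarith

/-- distance of the laws of two levels -/
theorem Pt.dist_levels [Nonempty R] (hF : Facts M d p) (hs : Small M p m)
    (hn : Num M p m B t ι K) (hpt : Pt M d p Y w ι K n₁ σ θ ν θs) {j : ℕ} (hj : j ≤ K) :
    ‖θs K - θs j‖ ≤ M.κ * (K * ι - j * ι) + 11 * p.ε := by
  have hY := hpt.admY
  have hN := hF.adm Y hY
  have hY0 : 0 ≤ Y w := by linarith [NR.half hs hN w]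
  have hι := hn.ι0
  have hj' : (j : ℝ) * ι ≤ K * ι := mul_le_mul_of_nonneg_right (by exact_mod_cast hj) hι.le
  have hjn : (0 : ℝ) ≤ j * ι := by positivity
  obtain ⟨a, ha, -, htyp⟩ := hpt.good.exists (by
    calc ENNReal.ofReal (1 / 4) * d.μ (d.A Y) < 1 * d.μ (d.A Y) :=
          ENNReal.mul_lt_mul_left (hF.A_ne Y hY) (hF.A_fin Y hY)
            (ENNReal.ofReal_lt_one.2 (by norm_num))
      _ = d.μ (d.A Y) := one_mul _)
  have hgd : ∀ i ≤ K, ∃ v ∈ d.V w (lev Y w ι i w),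
      Good M d (5 * p.ε) (lev Y w ι i) σ (θs i) (n₁ * a * v) := by
    intro i hi
    have hZ := hpt.adm i hi
    obtain ⟨v, hv, ht⟩ := exists_typ hF ⟨_, hZ, rfl⟩ (htyp i hi)
    refine ⟨v, hv, ?_⟩
    have hk : a * v ∈ (d.A (lev Y w ι i)) ^ 2 :=
      pow_mem_add (i := 1) (j := 1) (by rw [pow_one]; exact hpt.hA i hi ha)
        (by rw [pow_one]; exact hF.V_sub _ hZ w hv)
    have := typ_good hF hs hZ hY0 (by rw [lev_self]; nlinarith [Nat.cast_nonneg (α := ℝ) i])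
      (pow_mono_of_one (hF.A_one _ hZ) (by norm_num : 2 ≤ 9) hk)
      (fun x hx => by rw [← mul_assoc n₁]; exact hpt.dom_V i hi a ha v hv x hx) (hpt.law i hi)
      (by rw [← mul_assoc]; exact ht)
    rwa [← mul_assoc] at this
  obtain ⟨v, hv, hg⟩ := hgd j hj
  obtain ⟨v', hv', hg'⟩ := hgd K le_rfl
  have hjK : lev Y w ι j w ≤ lev Y w ι K w := by rw [lev_self, lev_self]; linarith
  have hu := hF.V_VU w _ _ ⟨_, hpt.adm j hj, rfl⟩ ⟨_, hpt.adm K le_rfl, rfl⟩ hjK v hv v' hv'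
  have h3 := hop_law hF (hpt.adm j hj) (hpt.adm K le_rfl) hjK
    (by rw [lev_self]; linarith) hu hg (n := n₁ * a * v) (τ' := 5 * p.ε) (θ' := θs K) (by
      have : n₁ * a * v * (v⁻¹ * v') = n₁ * a * v' := by group
      rw [this]; exact hg')
  rw [lev_self, lev_self] at h3
  have h4 : Y w + K * ι - (Y w + j * ι) = K * ι - j * ι := by ring
  rw [h4] at h3
  linarith

/-- **the enlargement lemma at one point**, given `D (σ w) = D w` -/
theorem Pt.sharp [Nonempty R] (hF : Facts M d p) (hs : Small M p m) (hn : Num M p m B t ι K)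
    (hpt : Pt M d p Y w ι K n₁ σ θ ν θs) (hD : M.D (σ w) = M.D w) {e' : ℝ}
    (he' : M.κ * ι + err M p B t / M.D w ≤ e') (hK : e' < K * ι) {B₂ : ℝ}
    (hB₂ : ∀ (θ : E) (t : ℝ), 0 ≤ t → (∀ r, ⟪M.e r, θ⟫ ≤ t) → ‖θ‖ ≤ B₂ * t) :
    ‖θ - θs K‖ ≤ B₂ * (e' + M.κ * (e' + B * (t + 12 * p.ε)) + 11 * p.ε) := by
  have hι := hn.ι0
  have hB := hn.B_one
  have hte := hn.te hF
  have hκ := M.one_le_κ
  have hε := hF.ε_pos
  have hD0 := M.D_pos w
  have herr : 0 ≤ err M p B t := by simp only [err]; positivity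
  have he0 : 0 ≤ e' := le_trans (by positivity) he'
  -- the best level
  set φ : ℕ → ℝ := fun j => ⟪M.e (σ w), θs j - θ⟫ + j * ι with hφ
  obtain ⟨j, hjm, hj⟩ := Finset.exists_max_image (Finset.range (K + 1)) φ ⟨0, by simp⟩
  have hjK : j ≤ K := by rw [Finset.mem_range] at hjm; omega
  have hφj : ∀ i ≤ K, φ i ≤ max 0 (φ j) := fun i hi =>
    (hj i (Finset.mem_range.2 (by omega))).trans (le_max_right _ _)
  have hφup : max 0 (φ j) ≤ B * (t + 12 * p.ε) + K * ι := by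
    refine max_le (by positivity) ?_
    have := hpt.upper hF hs hn hjK
    have hj' : (j : ℝ) * ι ≤ K * ι := mul_le_mul_of_nonneg_right (by exact_mod_cast hjK) hι.le
    simp only [hφ]; linarith
  have h1 := vol_step hF hs hpt hι.le hn.hq (e2 := B * (t + 12 * p.ε))
    (β := max 0 (φ j)) (by positivity) (le_max_left _ _)
    (hpt.upper hF hs hn le_rfl) (fun i hi => hφj i hi) (by linarith [hn.ω1])
    (by linarith [hn.ω2]) (by nlinarith [hn.m2])
  rw [hD] at h1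
  have h2 : K * ι ≤ max 0 (φ j) + e' := by
    have h3 : M.D w * (K * ι) ≤ M.D w * (max 0 (φ j) + M.κ * ι) + err M p B t := by
      simp only [err]; linarith
    have h4 : M.D w * (K * ι) ≤ M.D w * (max 0 (φ j) + M.κ * ι + err M p B t / M.D w) := by
      rw [mul_add (M.D w) _ (err M p B t / M.D w), mul_div_cancel₀ _ hD0.ne']
      exact h3
    have h5 := le_of_mul_le_mul_left h4 hD0
    linarith
  have h3 : 0 < φ j := by
    by_contra hcon
    rw [max_eq_left (not_lt.1 hcon)] at h2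
    linarith
  rw [max_eq_right h3.le] at h2
  have h4 := hpt.upper hF hs hn hjK
  have hj' : (j : ℝ) * ι ≤ K * ι := mul_le_mul_of_nonneg_right (by exact_mod_cast hjK) hι.le
  have h5 : K * ι - j * ι ≤ e' + B * (t + 12 * p.ε) := by simp only [hφ] at h2; linarith
  have h6 : -e' ≤ ⟪M.e (σ w), θs j - θ⟫ := by simp only [hφ] at h2; linarith
  have h7 := hpt.dist_levels hF hs hn hjK
  have h8 : M.κ * (K * ι - j * ι) ≤ M.κ * (e' + B * (t + 12 * p.ε)) :=
    mul_le_mul_of_nonneg_left h5 (by linarith)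
  refine hB₂ _ _ (by positivity) fun r => ?_
  by_cases hr : r = σ w
  · subst hr
    have h9 := M.toFrame.inner_le_norm (σ w) (θs j - θs K)
    rw [← norm_neg, neg_sub] at h9
    have h10 : ⟪M.e (σ w), θ - θs K⟫ = ⟪M.e (σ w), θs j - θs K⟫ - ⟪M.e (σ w), θs j - θ⟫ := by
      rw [inner_sub_right, inner_sub_right, inner_sub_right]; ring
    rw [h10]
    linarith
  · have h9 := hpt.lower hF hs hn (le_refl K) hr
    rw [inner_sub_right] at h9 ⊢
    have h10 : t + 12 * p.ε ≤ M.κ * (e' + B * (t + 12 * p.ε)) := by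
      have : t + 12 * p.ε ≤ B * (t + 12 * p.ε) := by nlinarith
      nlinarith
    linarith

end pt

theorem perm_D_eq {D : R → ℝ} {σ : Equiv.Perm R} (h : ∀ w, D w ≤ D (σ w)) (w : R) :
    D (σ w) = D w := by
  have h1 : ∑ w, D w = ∑ w, D (σ w) := (Equiv.sum_comp σ D).symm
  have h2 := (Finset.sum_eq_sum_iff_of_le (s := Finset.univ) (fun i _ => h i)).1 h1
  exact (h2 w (Finset.mem_univ _)).symm

end Crest.Agent.R182.El
end

-- ▼ part R182/ElFinal

set_option autoImplicit false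
set_option linter.unusedSectionVars false

open MeasureTheory Set
open scoped Pointwise RealInnerProductSpace ENNReal

namespace Crest.Agent.R182.El

variable {R E N Q : Type*} [Fintype R] [DecidableEq R] [NormedAddCommGroup E]
  [InnerProductSpace ℝ E]
  [Group N] [MeasurableSpace N] [MeasurableMul₂ N] [MeasurableInv N]
  [Group Q] [MeasurableSpace Q] [MeasurableMul₂ Q] [MeasurableInv Q]
  {M : Mdl R E} {d : Data R E N Q} {p : Par R} {m : ℝ}

/-- most moves on all levels along the ray `w` lead to typical points -/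
def Nice (M : Mdl R E) (d : Data R E N Q) (p : Par R) (Y : R → ℝ) (ι : ℝ) (w : R) (j : ℕ)
    (n : N) : Prop :=
  d.lam w (lev Y w ι j w) {v | ¬ Typ M d p (lev Y w ι j) w (Y w) (n * v)} ≤
    d.lam w (lev Y w ι j w) univ / 2

/-- fine points: most points of the box are nice -/
def Fine (M : Mdl R E) (d : Data R E N Q) (p : Par R) (Y : R → ℝ) (ι : ℝ) (L : ℕ) (n : N) : Prop :=
  ∀ w, Few d.μ (d.A Y) (ENNReal.ofReal (1 / 8) * d.μ (d.A Y))
    (fun a => ∀ j ≤ L, Nice M d p Y ι w j (n * a))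

/-- admissible set-up: levels `j ι`, `j ≤ L`, `L ι = b` -/
structure Lev (M : Mdl R E) (d : Data R E N Q) (p : Par R) (Y : R → ℝ) (b ι : ℝ) (L : ℕ) :
    Prop where
  round : ∀ r r', Y r = Y r'
  L_pos : 0 < L
  Lι : L * ι = b
  ι_ge : p.ε ≤ ι
  adm : ∀ w, ∀ j ≤ L, p.Adm (lev Y w ι j)

section lev

variable {Y : R → ℝ} {b ι : ℝ} {L : ℕ} {K : Set N}

theorem Lev.cond (hl : Lev M d p Y b ι L) (hF : Facts M d p) {j : ℕ} (hj : j ≤ L) :
    ((j : ℝ) * ι = 0 ∨ p.ε ≤ j * ι) ∧ ((j : ℝ) * ι = b ∨ j * ι + p.ε ≤ b) := by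
  have hε := hF.ε_pos
  have hι := hl.ι_ge
  constructor
  · rcases Nat.eq_zero_or_pos j with h | h
    · left; rw [h]; simp
    · right
      have : (1 : ℝ) ≤ j := by exact_mod_cast h
      nlinarith
  · rcases hj.eq_or_lt with h | h
    · left; rw [h]; exact hl.Lι
    · right
      have h1 : (j : ℝ) + 1 ≤ L := by exact_mod_cast h
      rw [← hl.Lι]; nlinarith

theorem Lev.A_sub (hl : Lev M d p Y b ι L) (hF : Facts M d p) (w : R) {j : ℕ} (hj : j ≤ L) :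
    d.A Y ⊆ d.A (lev Y w ι j) := by
  refine hF.A_mono Y _ (by simpa using hl.adm w 0 (Nat.zero_le _)) (hl.adm w j hj) fun r => ?_
  by_cases hr : r = w
  · subst hr
    rw [lev_self]
    rcases (hl.cond hF hj).1 with h | h
    · left; rw [h, add_zero]
    · right; linarith
  · left; rw [lev_ne Y hr]

/-- at most points of `K A` most moves are good -/
theorem nice_few [Nonempty R] (hF : Facts M d p) (hs : Small M p m) (hl : Lev M d p Y b ι L)
    (hK : KFacts M d p Y b K) (w : R) {j : ℕ} (hj : j ≤ L) :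
    d.μ {n | n ∈ K * d.A Y ∧ ¬ Nice M d p Y ι w j n} ≤
      ENNReal.ofReal (2 * ((M.J + 2) * M.C * p.δ) * M.C) * d.μ K := by
  have := hF.μ_left
  have := hF.μ_right
  have := hF.μ_sf
  have hY : p.Adm Y := by simpa using hl.adm w 0 (Nat.zero_le _)
  have hN := hF.adm Y hY
  have hY0 : 0 ≤ Y w := by linarith [NR.half hs hN w]
  have hι : 0 < ι := hF.ε_pos.trans_le hl.ι_ge
  have hjι : (0 : ℝ) ≤ j * ι := by positivity
  have hZ := hl.adm w j hj
  have hT : p.AdmT w (Y w + j * ι) := ⟨_, hZ, lev_self _ _ _ _⟩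
  obtain ⟨c1, c2⟩ := hl.cond hF hj
  obtain ⟨mm, hm0, hm1, hm2⟩ := hK.mul_V w (j * ι) c1 c2 hZ
  have hdom := hK.dom_V w (j * ι) c1 c2 hZ
  have : IsFiniteMeasure (d.lam w (Y w + j * ι)) := ⟨lt_top_iff_ne_top.2 (hF.lam_fin w _ hT)⟩
  set T : Set N := K * d.A Y * d.V w (Y w + j * ι) with hTdef
  set Z := lev Y w ι j with hZdef
  have hZe : d.A (Function.update Y w (Y w + j * ι)) = d.A Z := rfl
  have hAm : MeasurableSet (d.A Z) := by
    have := hF.A_meas Z hZ 1 (by norm_num)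
    rwa [pow_one] at this
  have hlt : ENNReal.ofReal M.C * d.μ K * d.lam w (Y w + j * ι) univ ≠ ⊤ :=
    ENNReal.mul_ne_top (ENNReal.mul_ne_top ENNReal.ofReal_ne_top hK.fin) (hF.lam_fin w _ hT)
  have hm2' : mm * d.μ (T * d.A Z) ≤ ENNReal.ofReal M.C * d.μ K * d.lam w (Y w + j * ι) univ := hm2
  have hfin : d.μ (T * d.A Z) ≠ ⊤ := by
    intro h
    rw [h, ENNReal.mul_top hm0] at hm2'
    exact hlt (top_le_iff.1 hm2')
  set Bad : Set N := {t | t ∈ T ∧ ¬ Typ M d p Z w (Y w) t} with hBad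
  have h1 : d.μ Bad ≤ ENNReal.ofReal ((M.J + 2) * M.C * p.δ) * d.μ (T * d.A Z) := by
    refine cover_le hAm (hF.A_ne Z hZ) (hF.A_one Z hZ) (hF.A_inv Z hZ) hfin _ _ fun n₀ hn₀ => ?_
    exact typ_few hF hs hZ hY0 (by rw [hZdef, lev_self]; linarith) n₀
      (fun a ha => hdom (Set.mul_mem_mul hn₀ ha))
  have h2 := lam_markov (μ := d.μ) (d.lam w (Y w + j * ι)) hK.meas_A Bad mm hm1
    (d.lam w (Y w + j * ι) univ / 2)
  have h3 : {n | n ∈ K * d.A Y ∧ ¬ Nice M d p Y ι w j n} ⊆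
      {n | n ∈ K * d.A Y ∧ d.lam w (Y w + j * ι) univ / 2 ≤
        d.lam w (Y w + j * ι) {v | n * v ∈ Bad}} := by
    rintro n ⟨hn, hnn⟩
    refine ⟨hn, ?_⟩
    rw [Nice, lev_self, not_le] at hnn
    refine hnn.le.trans ?_
    have h4 : {v | ¬ Typ M d p (lev Y w ι j) w (Y w) (n * v)} ⊆
        (d.V w (Y w + j * ι))ᶜ ∪ {v | n * v ∈ Bad} := by
      intro v hv
      by_cases hvV : v ∈ d.V w (Y w + j * ι)
      · exact Or.inr ⟨Set.mul_mem_mul hn hvV, hv⟩
      · exact Or.inl hvV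
    refine (measure_mono h4).trans ((measure_union_le _ _).trans ?_)
    rw [hF.lam_compl w _ hT, zero_add]
  have h5 : d.μ {n | n ∈ K * d.A Y ∧ ¬ Nice M d p Y ι w j n} *
      (d.lam w (Y w + j * ι) univ / 2) ≤
      (ENNReal.ofReal (2 * ((M.J + 2) * M.C * p.δ) * M.C) * d.μ K) *
      (d.lam w (Y w + j * ι) univ / 2) := by
    calc _ ≤ d.μ {n | n ∈ K * d.A Y ∧ d.lam w (Y w + j * ι) univ / 2 ≤
          d.lam w (Y w + j * ι) {v | n * v ∈ Bad}} * (d.lam w (Y w + j * ι) univ / 2) :=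
            mul_le_mul_left (measure_mono h3) _
      _ ≤ mm * d.μ Bad := h2
      _ ≤ mm * (ENNReal.ofReal ((M.J + 2) * M.C * p.δ) * d.μ (T * d.A Z)) :=
            mul_le_mul_right h1 _
      _ = ENNReal.ofReal ((M.J + 2) * M.C * p.δ) * (mm * d.μ (T * d.A Z)) := by ring
      _ ≤ ENNReal.ofReal ((M.J + 2) * M.C * p.δ) *
          (ENNReal.ofReal M.C * d.μ K * d.lam w (Y w + j * ι) univ) :=
            mul_le_mul_right hm2' _
      _ = _ := by
        have hC : (0:ℝ) ≤ M.C := by linarith [M.one_le_C]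
        have hJ : (0:ℝ) ≤ (M.J + 2) * M.C * p.δ := by
          have := hF.δ_pos; positivity
        have h8 : ENNReal.ofReal (2 * ((M.J + 2) * M.C * p.δ) * M.C) =
            2 * ENNReal.ofReal ((M.J + 2) * M.C * p.δ) * ENNReal.ofReal M.C := by
          rw [ENNReal.ofReal_mul (by positivity), ENNReal.ofReal_mul (by norm_num : (0:ℝ) ≤ 2)]
          norm_num
        rw [h8, ENNReal.div_eq_inv_mul]
        have h7 : (2 : ℝ≥0∞) * 2⁻¹ = 1 := ENNReal.mul_inv_cancel (by norm_num) (by norm_num)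
        calc ENNReal.ofReal ((M.J + 2) * M.C * p.δ) *
            (ENNReal.ofReal M.C * d.μ K * d.lam w (Y w + j * ι) univ)
            = (2 * 2⁻¹) * (ENNReal.ofReal ((M.J + 2) * M.C * p.δ) *
            (ENNReal.ofReal M.C * d.μ K * d.lam w (Y w + j * ι) univ)) := by rw [h7, one_mul]
          _ = _ := by ring
  have hl0 : d.lam w (Y w + j * ι) univ / 2 ≠ 0 :=
    (ENNReal.half_pos (hF.lam_ne w _ hT)).ne'
  have hlt' : d.lam w (Y w + j * ι) univ / 2 ≠ ⊤ :=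
    ne_top_of_le_ne_top (hF.lam_fin w _ hT) ENNReal.half_le_self
  exact (ENNReal.mul_le_mul_iff_left hl0 hlt').1 h5

/-- **most points of `K` are fine** -/
theorem fine_few [Nonempty R] (hF : Facts M d p) (hs : Small M p m) (hl : Lev M d p Y b ι L)
    (hK : KFacts M d p Y b K) :
    d.μ {n | n ∈ K ∧ ¬ Fine M d p Y ι L n} ≤
      ENNReal.ofReal (16 * (Fintype.card R * (L + 1)) * ((M.J + 2) * M.C * p.δ) * M.C) * d.μ K := by
  have := hF.μ_left
  have := hF.μ_right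
  have := hF.μ_sf
  obtain ⟨w₀⟩ := ‹Nonempty R›
  have hne : Nonempty R := ⟨w₀⟩
  have hY : p.Adm Y := by simpa using hl.adm w₀ 0 (Nat.zero_le _)
  have hAm : MeasurableSet (d.A Y) := by
    have := hF.A_meas Y hY 1 (by norm_num)
    rwa [pow_one] at this
  have hC : (0:ℝ) ≤ M.C := by linarith [M.one_le_C]
  have hδ := hF.δ_pos
  set β₀ : ℝ := 2 * ((M.J + 2) * M.C * p.δ) * M.C with hβ₀
  have hβ₀0 : 0 ≤ β₀ := by rw [hβ₀]; positivity
  set Bad : Set N := ⋃ w : R, ⋃ j ∈ Finset.range (L + 1),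
    {n | n ∈ K * d.A Y ∧ ¬ Nice M d p Y ι w j n} with hBad
  have h1 : d.μ Bad ≤ ENNReal.ofReal (Fintype.card R * (L + 1) * β₀) * d.μ K := by
    calc d.μ Bad ≤ ∑ w : R, d.μ (⋃ j ∈ Finset.range (L + 1),
          {n | n ∈ K * d.A Y ∧ ¬ Nice M d p Y ι w j n}) := by
          rw [hBad]; exact (measure_iUnion_fintype_le _ _)
      _ ≤ ∑ w : R, ∑ j ∈ Finset.range (L + 1), ENNReal.ofReal β₀ * d.μ K := by
          refine Finset.sum_le_sum fun w _ => ?_
          refine (measure_biUnion_finset_le _ _).trans ?_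
          refine Finset.sum_le_sum fun j hj => ?_
          exact nice_few hF hs hl hK w (by rw [Finset.mem_range] at hj; omega)
      _ = _ := by
          have h9 : ENNReal.ofReal (Fintype.card R * (L + 1) * β₀) =
              (Fintype.card R : ℝ≥0∞) * ((L + 1 : ℕ) : ℝ≥0∞) * ENNReal.ofReal β₀ := by
            rw [ENNReal.ofReal_mul (by positivity : (0:ℝ) ≤ Fintype.card R * (L + 1)),
              ENNReal.ofReal_mul (by positivity : (0:ℝ) ≤ Fintype.card R), ENNReal.ofReal_natCast]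
            have : ENNReal.ofReal ((L : ℝ) + 1) = ((L + 1 : ℕ) : ℝ≥0∞) := by
              rw [← Nat.cast_succ, ENNReal.ofReal_natCast]
            rw [this]
          rw [Finset.sum_const, Finset.sum_const, Finset.card_range, Finset.card_univ,
            nsmul_eq_mul, nsmul_eq_mul, h9]
          ring
  set c := ENNReal.ofReal (1 / 8) * d.μ (d.A Y) with hc
  have h2 := mul_markov (μ := d.μ) hK.meas hAm Bad c
  have h3 : {n | n ∈ K ∧ ¬ Fine M d p Y ι L n} ⊆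
      {n | n ∈ K ∧ c ≤ d.μ {a | a ∈ d.A Y ∧ n * a ∈ Bad}} := by
    rintro n ⟨hn, hnf⟩
    refine ⟨hn, ?_⟩
    rw [Fine] at hnf
    push Not at hnf
    obtain ⟨w, hw⟩ := hnf
    rw [Few, not_le] at hw
    refine hw.le.trans (measure_mono ?_)
    rintro a ⟨ha, hna⟩
    push Not at hna
    obtain ⟨j, hj, hnj⟩ := hna
    refine ⟨ha, ?_⟩
    rw [hBad]
    simp only [Set.mem_iUnion]
    exact ⟨w, j, Finset.mem_range.2 (by omega), Set.mul_mem_mul hn ha, hnj⟩
  have h4 : d.μ {n | n ∈ K ∧ ¬ Fine M d p Y ι L n} * c ≤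
      (ENNReal.ofReal (16 * (Fintype.card R * (L + 1)) * ((M.J + 2) * M.C * p.δ) * M.C) * d.μ K)
        * c := by
    calc _ ≤ d.μ {n | n ∈ K ∧ c ≤ d.μ {a | a ∈ d.A Y ∧ n * a ∈ Bad}} * c :=
            mul_le_mul_left (measure_mono h3) _
      _ ≤ d.μ (d.A Y) * d.μ (Bad ∩ (K * d.A Y)) := h2
      _ ≤ d.μ (d.A Y) * (ENNReal.ofReal (Fintype.card R * (L + 1) * β₀) * d.μ K) :=
            mul_le_mul_right ((measure_mono Set.inter_subset_left).trans h1) _
      _ = _ := by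
        have h5 : (16 * (Fintype.card R * (L + 1)) * ((M.J + 2) * M.C * p.δ) * M.C : ℝ) =
            8 * (Fintype.card R * (L + 1) * β₀) := by rw [hβ₀]; ring
        rw [h5, ENNReal.ofReal_mul (by norm_num : (0:ℝ) ≤ 8), hc, one_div,
          ENNReal.ofReal_inv_of_pos (by norm_num)]
        have h6 : ENNReal.ofReal 8 = 8 := by norm_num
        rw [h6]
        have h7 : (8 : ℝ≥0∞) * 8⁻¹ = 1 := ENNReal.mul_inv_cancel (by norm_num) (by norm_num)
        calc d.μ (d.A Y) * (ENNReal.ofReal (Fintype.card R * (L + 1) * β₀) * d.μ K)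
            = (8 * 8⁻¹) * (d.μ (d.A Y) *
              (ENNReal.ofReal (Fintype.card R * (L + 1) * β₀) * d.μ K)) := by rw [h7, one_mul]
          _ = _ := by ring
  have hc0 : c ≠ 0 := by
    rw [hc]
    exact mul_ne_zero (ENNReal.ofReal_pos.2 (by norm_num)).ne' (hF.A_ne Y hY)
  have hct : c ≠ ⊤ := ENNReal.mul_ne_top ENNReal.ofReal_ne_top (hF.A_fin Y hY)
  exact (ENNReal.mul_le_mul_iff_left hc0 hct).1 h4

/-- at a fine point everything is known -/
theorem Fine.pt [Nonempty R] (hF : Facts M d p) (hs : Small M p m) (hl : Lev M d p Y b ι L)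
    (hK : KFacts M d p Y b K) (hδ : 8 * (((M.J : ℝ) + 2) * M.C * p.δ) ≤ 1) {n : N} (hn : n ∈ K)
    (hf : Fine M d p Y ι L n) (w : R) :
    ∃ σ θ ν θs, Pt M d p Y w ι L n σ θ ν θs := by
  have hY : p.Adm Y := by simpa using hl.adm w 0 (Nat.zero_le _)
  have hN := hF.adm Y hY
  have hY0 : 0 ≤ Y w := by linarith [NR.half hs hN w]
  have hAY := hF.A_one Y hY
  have hdomA : ∀ a ∈ d.Ah Y, n * a ∈ d.Dom := by
    intro a ha
    have h1 : n * 1 * a ∈ K * d.A Y * d.Ah Y :=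
      Set.mul_mem_mul (Set.mul_mem_mul hn hAY) ha
    rw [mul_one] at h1
    exact hK.dom h1
  obtain ⟨σ, θ, ν, hb⟩ := exists_isBox hF hs hY hY0 le_rfl n hdomA
  have hex : ∀ j, ∃ θ', j ≤ L → IsLaw M d p (lev Y w ι j) n σ θ' := by
    intro j
    by_cases hj : j ≤ L
    · obtain ⟨σa, θ', h1⟩ := hF.box _ (hl.adm w j hj) n
      have h2 : IsLaw M d p (lev Y w ι j) n σa θ' := h1
      have h3 : Y ≤ lev Y w ι j := by
        intro r
        by_cases hr : r = w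
        · subst hr
          rw [lev_self]
          have : (0:ℝ) ≤ j * ι := by have := hF.ε_pos.trans_le hl.ι_ge; positivity
          linarith
        · rw [lev_ne Y hr]
      have h4 := type_shape hF hs hY (hl.adm w j hj) h3 (hl.A_sub hF w hj) hb.law h2
      exact ⟨θ', fun _ => by rw [h4]; exact h2⟩
    · exact ⟨0, fun h => absurd h hj⟩
  choose θs hθs using hex
  refine ⟨σ, θ, ν, θs, hl.round, fun j hj => hl.adm w j hj, fun j hj => hl.A_sub hF w hj, hb,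
    fun j hj => hθs j hj, ?_, ?_, ?_⟩
  · intro a ha
    exact hdomA a (hF.A_pow Y hY (mem_Ah hF hY ha (by norm_num)))
  · intro j hj a ha v hv x hx
    obtain ⟨c1, c2⟩ := hl.cond hF hj
    rw [lev_self] at hv
    exact hK.dom_V w (j * ι) c1 c2 (hl.adm w j hj)
      (Set.mul_mem_mul (Set.mul_mem_mul (Set.mul_mem_mul hn ha) hv) hx)
  · have h1 := hb.law.few hF (B := d.A Y) (m := 1) (fun a ha => by
      rw [one_mul]; exact hF.A_pow Y hY (mem_Ah hF hY ha (by norm_num)))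
    have h2 := hb.box.mono (B' := d.A Y) (P' := fun a => ν⁻¹ * d.g (n * a) w (Y w) ∈
      d.Bx (2 * p.ε) (XX M Y σ θ (3 * p.ε))) (fun a ha => mem_Ah hF hY ha (by norm_num)) le_rfl
      (fun _ _ h => h)
    refine ((h1.and h2).and (hf w)).mono le_rfl ?_ ?_
    · rw [← add_mul, ← add_mul]
      gcongr
      have hC := M.one_le_C
      have hδ0 := hF.δ_pos
      have hJ : (0:ℝ) ≤ M.J := Nat.cast_nonneg _
      rw [← ENNReal.ofReal_add hδ0.le (by positivity),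
        ← ENNReal.ofReal_add (by positivity) (by norm_num)]
      refine ENNReal.ofReal_le_ofReal ?_
      nlinarith
    · rintro a _ ⟨⟨hg, hbx⟩, hnice⟩
      rw [mul_one] at hg
      exact ⟨⟨hg, hbx⟩, hnice⟩

/-- numerical conditions for the sharp form -/
structure Num' (M : Mdl R E) (p : Par R) (B B₂ t ι b g Dm e' η : ℝ) : Prop where
  norm : ∀ (θ : E) (t : ℝ), 0 ≤ t → (∀ r, ⟪M.e r, θ⟫ ≤ t) → ‖θ‖ ≤ B₂ * t
  gap : ∀ w w', M.D w' < M.D w → M.D w' + g ≤ M.D w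
  Dm_le : ∀ w, M.D w ≤ Dm
  h1 : Dm * (B * (t + 12 * p.ε) + M.κ * ι) + err M p B t < g * b
  h2 : ∀ w, M.κ * ι + err M p B t / M.D w ≤ e'
  h3 : e' < b
  h4 : B₂ * (e' + M.κ * (e' + B * (t + 12 * p.ε)) + 11 * p.ε) + 4 * p.ε ≤ η

/-- the laws of `Y` and of `Y + b e_w` agree at fine points -/
theorem Fine.laws [Nonempty R] (hF : Facts M d p) (hs : Small M p m) (hl : Lev M d p Y b ι L)
    (hK : KFacts M d p Y b K) (hδ : 8 * (((M.J : ℝ) + 2) * M.C * p.δ) ≤ 1) {B B₂ t g Dm e' η : ℝ}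
    (hn : Num M p m B t ι L) (hn' : Num' M p B B₂ t ι b g Dm e' η) {n : N} (hnK : n ∈ K)
    (hf : Fine M d p Y ι L n) (w : R) {σ σ' : Equiv.Perm R} {θ θ' : E}
    (h : IsLaw M d p Y n σ θ) (h' : IsLaw M d p (lev Y w ι L) n σ' θ') :
    σ = σ' ∧ ‖θ - θ'‖ ≤ η := by
  have hY : p.Adm Y := by simpa using hl.adm w 0 (Nat.zero_le _)
  have hN := hF.adm Y hY
  have hZ := hl.adm w L le_rfl
  have hte := hn.te hF
  have hB := hn.B_one
  have hκ := M.one_le_κ
  have hε := hF.ε_pos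
  have hι := hn.ι0
  have hLι := hl.Lι
  -- `σ` preserves `D`
  have hD : ∀ w, M.D w ≤ M.D (σ w) := by
    intro w
    obtain ⟨σ₁, θ₁, ν, θs, hpt⟩ := Fine.pt hF hs hl hK hδ hnK hf w
    obtain rfl : σ = σ₁ := type_const hF hs hY h hpt.box.law
    by_contra hcon
    rw [not_le] at hcon
    have h1 := hn'.gap _ _ hcon
    have h2 := hpt.D_le hF hs hn
    have h3 : M.D (σ w) * (B * (t + 12 * p.ε) + M.κ * ι) ≤ Dm * (B * (t + 12 * p.ε) + M.κ * ι) :=
      mul_le_mul_of_nonneg_right (hn'.Dm_le _) (by positivity)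
    have h4 := hn'.h1
    rw [hLι] at h2
    have hb : 0 ≤ b := by
      rw [← hLι]; positivity
    nlinarith
  have hDw := perm_D_eq hD w
  obtain ⟨σ₁, θ₁, ν, θs, hpt⟩ := Fine.pt hF hs hl hK hδ hnK hf w
  obtain rfl : σ = σ₁ := type_const hF hs hY h hpt.box.law
  have h1 := hpt.sharp hF hs hn hDw (hn'.h2 w) (by rw [hLι]; exact hn'.h3) hn'.norm
  -- compare with the given laws
  have h2 := law_compare hF hs hY (n₀ := n) (k := 1) (mem_Ah hF hY (hF.A_one Y hY) (by norm_num)) h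
    (by rw [mul_one]; exact hpt.box.law)
  have h3 := law_compare hF hs hZ (n₀ := n) (k := 1) (mem_Ah hF hZ (hF.A_one _ hZ) (by norm_num))
    (hpt.law L le_rfl) (by rw [mul_one]; exact h')
  refine ⟨h3.1, ?_⟩
  have h4 : θ - θ' = (θ - θ₁) + (θ₁ - θs L) + (θs L - θ') := by abel
  rw [h4]
  refine (norm_add₃_le).trans ?_
  have h5 := hn'.h4
  linarith [h2.2, h3.2]

end lev

set_option maxHeartbeats 1600000 in
/-- **EL_K, the enlargement lemma.** -/
theorem el_K.{u, v} {R E : Type*} [Fintype R] [DecidableEq R] [Nonempty R] [NormedAddCommGroup E]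
    [InnerProductSpace ℝ E] (M : Mdl R E) :
    ∃ ω0 : ℝ, 0 < ω0 ∧ ∀ ω : ℝ, 0 < ω → ω ≤ ω0 → ∃ b0 : ℝ, 0 < b0 ∧ ∀ b : ℝ, 0 < b → b ≤ b0 →
    ∀ η : ℝ, 0 < η → ∀ β : ℝ, 0 < β → ∃ L : ℕ, 0 < L ∧ ∃ ε1 : ℝ, 0 < ε1 ∧ ∃ δ1 : ℝ, 0 < δ1 ∧
    ∃ q0 : ℕ, ∀ (N : Type u) (Q : Type v) [Group N] [MeasurableSpace N] [MeasurableMul₂ N]
      [MeasurableInv N] [Group Q] [MeasurableSpace Q] [MeasurableMul₂ Q] [MeasurableInv Q]
      (d : Data R E N Q) (p : Par R), Facts M d p → p.ω = ω → p.ε ≤ ε1 → p.δ ≤ δ1 → q0 ≤ p.q →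
    ∀ (Y : R → ℝ) (K : Set N), (∀ r r', Y r = Y r') →
      (∀ w, ∀ j ≤ L, p.Adm (lev Y w (b / L) j)) → KFacts M d p Y b K →
      d.μ {n | n ∈ K ∧ ∃ (w : R) (σ σ' : Equiv.Perm R) (θ θ' : E), IsLaw M d p Y n σ θ ∧
        IsLaw M d p (Function.update Y w (Y w + b)) n σ' θ' ∧ ¬ (σ = σ' ∧ ‖θ - θ'‖ ≤ η)} ≤
      ENNReal.ofReal β * d.μ K := by
  obtain ⟨m, hm0, hm1, hsep⟩ := M.toFrame.exists_sep
  obtain ⟨B, hB1, hB⟩ := M.toFrame.exists_sum_bound
  obtain ⟨B₂, hB₂0, hB₂⟩ := M.toFrame.exists_norm_bound'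
  have hκ := M.one_le_κ
  have hκ0 : 0 < M.κ := by linarith
  have hC := M.one_le_C
  have hc0 := M.c0_pos
  have hJ : (0:ℝ) ≤ M.J := Nat.cast_nonneg _
  -- the gap of the dimensions
  obtain ⟨g, hg0, hg⟩ : ∃ g : ℝ, 0 < g ∧ ∀ w w', M.D w' < M.D w → M.D w' + g ≤ M.D w := by
    obtain ⟨g, hg0, hg⟩ : ∃ g : ℝ, 0 < g ∧ ∀ x : R × R, M.D x.2 < M.D x.1 →
        g ≤ M.D x.1 - M.D x.2 := by
      set s : Finset (R × R) := Finset.univ.filter fun x => M.D x.2 < M.D x.1 with hs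
      rcases s.eq_empty_or_nonempty with h | h
      · refine ⟨1, one_pos, fun x hx => ?_⟩
        have : x ∈ s := by rw [hs, Finset.mem_filter]; exact ⟨Finset.mem_univ _, hx⟩
        rw [h] at this
        exact absurd this (Finset.notMem_empty _)
      · obtain ⟨y, hy, hmin⟩ := Finset.exists_min_image s (fun x => M.D x.1 - M.D x.2) h
        rw [hs, Finset.mem_filter] at hy
        refine ⟨M.D y.1 - M.D y.2, by linarith [hy.2], fun x hx => hmin x ?_⟩
        rw [hs, Finset.mem_filter]; exact ⟨Finset.mem_univ _, hx⟩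
    exact ⟨g, hg0, fun w w' h => by have := hg (w, w') h; linarith⟩
  obtain ⟨w1, -, hw1⟩ := Finset.exists_max_image Finset.univ M.D Finset.univ_nonempty
  obtain ⟨w2, -, hw2⟩ := Finset.exists_min_image Finset.univ M.D Finset.univ_nonempty
  obtain ⟨Dm, hDm⟩ : ∃ Dm, Dm = M.D w1 := ⟨_, rfl⟩
  obtain ⟨Dn, hDn⟩ : ∃ Dn, Dn = M.D w2 := ⟨_, rfl⟩
  rw [← hDm] at hw1
  rw [← hDn] at hw2
  have hDm0 : 0 < Dm := hDm ▸ M.D_pos _
  have hDn0 : 0 < Dn := hDn ▸ M.D_pos _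
  -- constants: `t + 12 ε = T0 ε`, `err = E0 ε`
  obtain ⟨T0, hT0⟩ : ∃ T0 : ℝ, T0 = 8 * M.κ / M.c0 + 12 := ⟨_, rfl⟩
  have hT00 : 0 < T0 := by rw [hT0]; positivity
  obtain ⟨E0, hE0⟩ : ∃ E0 : ℝ, E0 = M.κ * (B * T0 + 10) + 2 * M.κ + 4 := ⟨_, rfl⟩
  have hE00 : 0 < E0 := by rw [hE0]; positivity
  obtain ⟨H, hH⟩ : ∃ H : ℝ, H = 32 + T0 + B * T0 + E0 + E0 / Dn := ⟨_, rfl⟩
  have hH0 : 0 < H := by rw [hH]; positivity
  refine ⟨m / 8, by positivity, fun ω hω hωm => ⟨min (ω / 2) (m / (8 * M.κ)), by positivity,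
    fun b hb hb0 η hη β hβ => ?_⟩⟩
  have hb1 : b ≤ ω / 2 := hb0.trans (min_le_left _ _)
  have hb2 : M.κ * b ≤ m / 8 := by
    have h1 := hb0.trans (min_le_right _ _)
    rw [le_div_iff₀ (by positivity)] at h1
    linarith
  obtain ⟨ζ, hζ0, hζ1, hζ2, hζ3, hζ4, hζ5⟩ : ∃ ζ : ℝ, 0 < ζ ∧ M.κ * ζ ≤ m / 16 ∧ ζ ≤ ω / 8 ∧
      (2 * Dm + 1) * ζ ≤ g * b / 2 ∧ ζ ≤ b / 4 ∧ (B₂ * (3 + 3 * M.κ) + 1) * ζ ≤ η := by
    refine ⟨min (m / 16 / M.κ) (min (ω / 8) (min (g * b / 2 / (2 * Dm + 1))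
      (min (b / 4) (η / (B₂ * (3 + 3 * M.κ) + 1))))), ?_, ?_, ?_, ?_, ?_, ?_⟩
    · refine lt_min (by positivity) (lt_min (by positivity) (lt_min (by positivity)
        (lt_min (by positivity) (by positivity))))
    · have h := min_le_left (m / 16 / M.κ) (min (ω / 8) (min (g * b / 2 / (2 * Dm + 1))
        (min (b / 4) (η / (B₂ * (3 + 3 * M.κ) + 1)))))
      rw [le_div_iff₀ hκ0] at h
      linarith
    · exact (min_le_right _ _).trans (min_le_left _ _)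
    · have h := (min_le_right (m / 16 / M.κ) (min (ω / 8) (min (g * b / 2 / (2 * Dm + 1))
        (min (b / 4) (η / (B₂ * (3 + 3 * M.κ) + 1)))))).trans ((min_le_right _ _).trans
        (min_le_left _ _))
      rw [le_div_iff₀ (by positivity)] at h
      linarith
    · exact (min_le_right _ _).trans ((min_le_right _ _).trans ((min_le_right _ _).trans
        (min_le_left _ _)))
    · have h := (min_le_right (m / 16 / M.κ) (min (ω / 8) (min (g * b / 2 / (2 * Dm + 1))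
        (min (b / 4) (η / (B₂ * (3 + 3 * M.κ) + 1)))))).trans ((min_le_right _ _).trans
        ((min_le_right _ _).trans (min_le_right _ _)))
      rw [le_div_iff₀ (by positivity)] at h
      linarith
  obtain ⟨L, hL⟩ := exists_nat_gt (M.κ * b / ζ)
  have hL0 : (0:ℝ) < L := lt_of_le_of_lt (by positivity) hL
  have hLpos : 0 < L := by exact_mod_cast hL0
  have hLb : (L : ℝ) * (b / L) = b := by field_simp
  have hι0 : 0 < b / L := by positivity
  have hκι : M.κ * (b / L) ≤ ζ := by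
    rw [div_lt_iff₀ hζ0] at hL
    rw [← mul_div_assoc, div_le_iff₀ hL0]
    linarith
  obtain ⟨F, hFF⟩ : ∃ F : ℝ, F = 16 * (Fintype.card R * (L + 1)) * ((M.J + 2) * M.C) * M.C :=
    ⟨_, rfl⟩
  have hFF0 : 0 ≤ F := by rw [hFF]; positivity
  refine ⟨L, hLpos, min (ζ / H) (b / L), by positivity,
    min (1 / (8 * ((M.J + 2) * M.C))) (β / (F + 1)), by positivity,
    3 * M.J + 4 + (5 * L + 1), ?_⟩
  intro N Q _ _ _ _ _ _ _ _ d p hF hpω hpε hpδ hpq Y K hround hadm hK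
  have hε := hF.ε_pos
  have hδ := hF.δ_pos
  have hι_ge : p.ε ≤ b / L := hpε.trans (min_le_right _ _)
  have hHε : H * p.ε ≤ ζ := by
    have h := hpε.trans (min_le_left _ _)
    rw [le_div_iff₀ hH0] at h
    linarith
  have hx1 : 0 ≤ T0 * p.ε := by positivity
  have hx2 : 0 ≤ B * T0 * p.ε := by positivity
  have hx3 : 0 ≤ E0 * p.ε := by positivity
  have hx4 : 0 ≤ E0 / Dn * p.ε := by positivity
  have hHe : H * p.ε = 32 * p.ε + T0 * p.ε + B * T0 * p.ε + E0 * p.ε + E0 / Dn * p.ε := by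
    rw [hH]; ring
  rw [hHe] at hHε
  have hζm : ζ ≤ m / 16 := by
    have : ζ ≤ M.κ * ζ := by nlinarith
    linarith
  have hJCδ : 8 * (((M.J : ℝ) + 2) * M.C * p.δ) ≤ 1 := by
    have h := hpδ.trans (min_le_left _ _)
    rw [le_div_iff₀ (by positivity)] at h
    linarith
  have hFδ : F * p.δ ≤ β := by
    have h := hpδ.trans (min_le_right _ _)
    rw [le_div_iff₀ (by positivity)] at h
    have h2 : p.δ * (F + 1) = F * p.δ + p.δ := by ring
    linarith
  have hs : Small M p m := by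
    refine ⟨hm0, hm1, hsep, by rw [hpω]; exact hω, by rw [hpω]; linarith, by linarith, ?_, by omega⟩
    have : (0:ℝ) ≤ ((M.J : ℝ) + 2) * M.C * p.δ := by positivity
    linarith
  obtain ⟨t, ht⟩ : ∃ t : ℝ, t = 8 * M.κ * p.ε / M.c0 := ⟨_, rfl⟩
  have ht0 : 0 ≤ t := by rw [ht]; positivity
  have hte : t + 12 * p.ε = T0 * p.ε := by rw [ht, hT0]; ring
  have herr : err M p B t = E0 * p.ε := by
    rw [err, hte, hE0]; ring
  have hBte : B * (t + 12 * p.ε) = B * T0 * p.ε := by rw [hte]; ring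
  have hl : Lev M d p Y b (b / L) L := ⟨hround, hLpos, hLb, hι_ge, hadm⟩
  have hn : Num M p m B t (b / L) L := by
    refine ⟨hB1, hB, ht0, ?_, ?_, ?_, hι0, by omega, ?_, ?_, ?_, ?_⟩
    · linarith
    · rw [ht]; field_simp; exact le_rfl
    · rw [hpω]; linarith
    · rw [hpω, hLb]; linarith
    · rw [hpω, hBte, hLb]; linarith
    · rw [hpω, hBte]; linarith
    · rw [hpω, hBte, hLb]
      have h1 : M.κ * (B * T0 * p.ε + b + M.κ * (b / L)) ≤ M.κ * (ζ + b + ζ) :=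
        mul_le_mul_of_nonneg_left (by linarith) hκ0.le
      have h2 : M.κ * (ζ + b + ζ) = M.κ * ζ + M.κ * b + M.κ * ζ := by ring
      linarith
  have hn' : Num' M p B B₂ t (b / L) b g Dm (2 * ζ) η := by
    refine ⟨hB₂, hg, fun w => hw1 w (Finset.mem_univ _), ?_, ?_, by linarith, ?_⟩
    · rw [herr, hBte]
      have h1 : Dm * (B * T0 * p.ε + M.κ * (b / L)) ≤ Dm * (ζ + ζ) :=
        mul_le_mul_of_nonneg_left (by linarith) hDm0.le
      have h2 : 0 < g * b := by positivity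
      have h3 : Dm * (ζ + ζ) + ζ = (2 * Dm + 1) * ζ := by ring
      linarith
    · intro w
      rw [herr]
      have h1 : E0 * p.ε / M.D w ≤ E0 * p.ε / Dn :=
        div_le_div_of_nonneg_left hx3 hDn0 (hw2 w (Finset.mem_univ _))
      have h2 : E0 * p.ε / Dn = E0 / Dn * p.ε := by ring
      linarith
    · rw [hBte]
      have h1 : M.κ * (2 * ζ + B * T0 * p.ε) ≤ M.κ * (3 * ζ) :=
        mul_le_mul_of_nonneg_left (by linarith) hκ0.le
      have h2 : B₂ * (2 * ζ + M.κ * (2 * ζ + B * T0 * p.ε) + 11 * p.ε) ≤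
          B₂ * (2 * ζ + M.κ * (3 * ζ) + ζ) :=
        mul_le_mul_of_nonneg_left (by linarith) hB₂0
      have h3 : B₂ * (2 * ζ + M.κ * (3 * ζ) + ζ) + ζ = (B₂ * (3 + 3 * M.κ) + 1) * ζ := by ring
      linarith
  have h1 := fine_few hF hs hl hK
  refine le_trans (measure_mono ?_) (h1.trans ?_)
  · rintro n ⟨hnK, w, σ, σ', θ, θ', h, h', hne⟩
    refine ⟨hnK, fun hf => hne ?_⟩
    refine Fine.laws hF hs hl hK hJCδ hn hn' hnK hf w h ?_
    have : lev Y w (b / L) L = Function.update Y w (Y w + b) := by rw [lev, hLb]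
    rw [this]; exact h'
  · gcongr
    rw [hFF] at hFδ
    linarith

end Crest.Agent.R182.El
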