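import Mathlib
import Crest.Agent.R182.CoreX
import Crest.Agent.R182.OneScale
import Crest.Agent.R182.HoleEnd
import Crest.Agent.R182.ElBase
import Crest.Agent.R182.ElFacts
import Crest.Agent.R182.ElFinal_Mg
import Crest.Agent.R182.ElStick
import Crest.Agent.R182.BoxNR
import Crest.Agent.R182.BoxFacts
import Crest.Agent.R182.ElA
import Crest.Agent.R182.ElV

-- ▼ part R182/HoleConj
section

set_option autoImplicit false

namespace Crest.Agent.R182.HoleOne

open Crest.GroupTheory Crest.Geometry Crest.Agent.R182.QI Crest.Agent.R182.FinPath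
  Crest.Agent.R182.FinRed Crest.Agent.R182.Bnd Crest.Agent.R182.Core Crest.Agent.R182.OneScale

variable {Γ : Type*} [Group Γ] {k : ℕ} {S : Set Γ} {π : Γ →* Multiplicative (Fin k → ℤ)}

theorem len_list_le (M : BModel S π) {R : ℝ} (l : List M.G) (h : ∀ s ∈ l, M.len s ≤ R) :
    M.len l.prod ≤ l.length * R := by
  induction l with
  | nil => simp [M.isLen.one]
  | cons s l ih =>
    rw [List.prod_cons, List.length_cons]
    refine (M.isLen.mul _ _).trans ?_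
    have h1 := h s List.mem_cons_self
    have h2 := ih fun t ht => h t (List.mem_cons_of_mem _ ht)
    push_cast
    linarith

/-- one vertical -/
theorem conj_len_one (M : BModel S π) (hX : XModel M) {b : M.G} (hb : b ∈ M.CN) (R C : ℝ) {δ : ℝ}
    (hδ : 0 < δ) : ∃ N0 : ℕ, ∀ N : ℕ, N0 ≤ N → ∀ j : ℕ, (j : ℝ) ≤ C * N → ∀ y ∈ M.C,
      M.len y ≤ R → M.len ((b ^ j)⁻¹ * y * b ^ j) ≤ δ * N := by
  obtain ⟨R₀, hR₀⟩ := hX.sub_conj
  set C' : ℕ := ⌈C⌉₊ + 1 with hC'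
  have hC'1 : (1 : ℝ) ≤ C' := by rw [hC']; push_cast; linarith [Nat.cast_nonneg (α := ℝ) ⌈C⌉₊]
  have hCC' : C ≤ C' := by
    rw [hC']; push_cast
    have := Nat.le_ceil C
    linarith
  set δ' : ℝ := δ / (C' * (|R₀| + 1)) with hδ'
  have hR0p : 0 < |R₀| + 1 := by positivity
  have hδ'p : 0 < δ' := by rw [hδ']; positivity
  obtain ⟨N₀, hN₀⟩ := hR₀ b⁻¹ (M.CN.inv_mem hb) R δ' hδ'p
  refine ⟨N₀, fun N hN j hj y hy hyR => ?_⟩
  have hNn : (0 : ℝ) ≤ N := Nat.cast_nonneg N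
  have hN' : N₀ ≤ C' * N := by
    have : 1 ≤ C' := by rw [hC']; omega
    calc N₀ ≤ N := hN
      _ = 1 * N := (one_mul N).symm
      _ ≤ C' * N := Nat.mul_le_mul_right N this
  have hj' : j ≤ C' * N := by
    have h1 : (j : ℝ) ≤ ((C' * N : ℕ) : ℝ) := by
      push_cast
      exact hj.trans (mul_le_mul_of_nonneg_right hCC' hNn)
    exact_mod_cast h1
  obtain ⟨l, hl1, hl2, hl3⟩ := hN₀ (C' * N) hN' j hj' y hy hyR
  have e1 : (b ^ j)⁻¹ * y * b ^ j = l.prod := by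
    rw [← hl1, inv_pow, inv_inv]
  rw [e1]
  have h2 := len_list_le M l (R := |R₀| + 1) fun s hs =>
    ((hl3 s hs).2.trans (le_abs_self _)).trans (by linarith)
  refine h2.trans ?_
  push_cast at hl2
  calc (l.length : ℝ) * (|R₀| + 1) ≤ (δ' * (C' * N)) * (|R₀| + 1) := by gcongr
    _ = δ * N := by rw [hδ']; field_simp

/-- finitely many verticals -/
theorem exists_conj_len (M : BModel S π) (hX : XModel M) (B : Finset M.G)
    (hB : ∀ b ∈ B, b ∈ M.CN) (R C : ℝ) {δ : ℝ} (hδ : 0 < δ) :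
    ∃ N0 : ℕ, ∀ N : ℕ, N0 ≤ N → ∀ b ∈ B, ∀ j : ℕ, (j : ℝ) ≤ C * N → ∀ y ∈ M.C,
      M.len y ≤ R → M.len ((b ^ j)⁻¹ * y * b ^ j) ≤ δ * N := by
  classical
  have h : ∀ b : B, ∃ N0 : ℕ, ∀ N : ℕ, N0 ≤ N → ∀ j : ℕ, (j : ℝ) ≤ C * N → ∀ y ∈ M.C,
      M.len y ≤ R → M.len (((b : M.G) ^ j)⁻¹ * y * (b : M.G) ^ j) ≤ δ * N :=
    fun b => conj_len_one M hX (hB b b.2) R C hδ
  choose N0 hN0 using h
  refine ⟨Finset.univ.sup N0, fun N hN b hb j hj y hy hyR => ?_⟩
  exact hN0 ⟨b, hb⟩ N ((Finset.le_sup (f := N0) (Finset.mem_univ _)).trans hN) j hj y hy hyR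

/-- **the heights of the images** of `z b^j` and `z y b^j` are close, for bounded `y ∈ C`. -/
theorem exists_conj_fh (M : BModel S π) (hX : XModel M) (K : ℕ) (B : Finset M.G)
    (hB : ∀ b ∈ B, b ∈ M.CN) (R C : ℝ) {δ : ℝ} (hδ : 0 < δ) :
    ∃ N0 : ℕ, ∀ N : ℕ, N0 ≤ N → ∀ b ∈ B, ∀ j : ℕ, (j : ℝ) ≤ C * N → ∀ y ∈ M.C,
      M.len y ≤ R → ∀ Ψ : Γ → Γ, QIMap S S Ψ K → ∀ (z : M.G) (i : Fin k),
        |fh M Ψ (z * (y * b ^ j)) i - fh M Ψ (z * b ^ j) i| ≤ δ * N := by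
  obtain ⟨c, hc, hlip⟩ := fh_lip M K
  obtain ⟨N1, hN1⟩ := exists_conj_len M hX B hB R C (δ := δ / (2 * (c + 1))) (by positivity)
  obtain ⟨N2, hN2⟩ := exists_nat_ge (2 * c / δ)
  refine ⟨max N1 N2, fun N hN b hb j hj y hy hyR Ψ hΨ z i => ?_⟩
  have h1 := hN1 N (le_of_max_le_left hN) b hb j hj y hy hyR
  have h2 : (N2 : ℝ) ≤ N := by exact_mod_cast le_of_max_le_right hN
  have hNn : (0 : ℝ) ≤ N := Nat.cast_nonneg N
  have h3 := hlip Ψ hΨ (z * b ^ j) ((b ^ j)⁻¹ * y * b ^ j) i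
  have e1 : z * b ^ j * ((b ^ j)⁻¹ * y * b ^ j) = z * (y * b ^ j) := by group
  rw [e1] at h3
  refine h3.trans ?_
  have h4 : c ≤ δ / 2 * N := by
    have h5 := hN2.trans h2
    rw [div_le_iff₀ hδ] at h5
    linarith
  have h5 : c * (δ / (2 * (c + 1)) * N) ≤ δ / 2 * N := by
    have h6 : c * (δ / (2 * (c + 1))) ≤ δ / 2 := by
      rw [mul_div_assoc', div_le_div_iff₀ (by positivity) (by norm_num)]
      nlinarith
    calc c * (δ / (2 * (c + 1)) * N) = (c * (δ / (2 * (c + 1)))) * N := by ring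
      _ ≤ δ / 2 * N := mul_le_mul_of_nonneg_right h6 hNn
  have h6 : c * M.len ((b ^ j)⁻¹ * y * b ^ j) ≤ c * (δ / (2 * (c + 1)) * N) :=
    mul_le_mul_of_nonneg_left h1 hc
  calc c * (M.len ((b ^ j)⁻¹ * y * b ^ j) + 1) = c * M.len ((b ^ j)⁻¹ * y * b ^ j) + c := by ring
    _ ≤ δ / 2 * N + δ / 2 * N := by linarith
    _ = δ * N := by ring

end Crest.Agent.R182.HoleOne
end

-- ▼ part R182/HoleNum
section

set_option autoImplicit false
set_option linter.unusedSectionVars false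

open MeasureTheory Set
open scoped ENNReal Pointwise RealInnerProductSpace

namespace Crest.Agent.R182.HoleOne

open Crest.GroupTheory Crest.Geometry Crest.Agent.R182.QI Crest.Agent.R182.Core
  Crest.Agent.R182.Core.BModel Crest.Agent.R182.Nb Crest.Agent.R182.HoleNil
  Crest.Agent.R182.OneScale Crest.Agent.R182.ElI

/-- (n1) exponentials beat polynomials -/
theorem exists_exp_small (P A c : ℝ) (D : ℕ) (hc : 0 < c) : ∃ N0 : ℕ, ∀ N : ℕ, N0 ≤ N →
    P * (1 + A * N) ^ D * Real.exp (-(c * N)) ≤ 1 := by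
  obtain ⟨S0, -, h⟩ := ElI.exists_poly_le P A D hc
  refine ⟨⌈S0⌉₊, fun N hN => ?_⟩
  have h1 : S0 ≤ N := (Nat.le_ceil S0).trans (by exact_mod_cast hN)
  have h2 := mul_le_mul_of_nonneg_right (h N h1) (Real.exp_pos (-(c * N))).le
  rw [← Real.exp_add, add_neg_cancel, Real.exp_zero] at h2
  exact h2

variable {Γ : Type*} [Group Γ] {k : ℕ} {S : Set Γ} {π : Γ →* Multiplicative (Fin k → ℤ)}
  {M : BModel S π} {E : Type*} [NormedAddCommGroup E] [InnerProductSpace ℝ E]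

/-- (n2) comparison of norms -/
theorem exists_TD [FiniteDimensional ℝ E] (G : Geo M E) : ∃ D : ℝ, 1 ≤ D ∧
    (∀ v : Fin k → ℝ, ‖G.T v‖ ≤ D * ‖v‖) ∧ ∀ v : Fin k → ℝ, ‖v‖ ≤ D * ‖G.T v‖ := by
  let f : (Fin k → ℝ) →L[ℝ] E := LinearMap.toContinuousLinearMap (G.T : (Fin k → ℝ) →ₗ[ℝ] E)
  let g : E →L[ℝ] (Fin k → ℝ) := LinearMap.toContinuousLinearMap (G.T.symm : E →ₗ[ℝ] (Fin k → ℝ))
  have hf := norm_nonneg f
  have hg := norm_nonneg g
  refine ⟨‖f‖ + ‖g‖ + 1, by linarith, fun v => ?_, fun v => ?_⟩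
  · have h1 : ‖f v‖ ≤ ‖f‖ * ‖v‖ := f.le_opNorm v
    have h2 : f v = G.T v := rfl
    rw [h2] at h1
    have := norm_nonneg v
    nlinarith
  · have h1 : ‖g (G.T v)‖ ≤ ‖g‖ * ‖G.T v‖ := g.le_opNorm _
    have h2 : g (G.T v) = v := G.T.symm_apply_apply v
    rw [h2] at h1
    have := norm_nonneg (G.T v)
    nlinarith

/-- (n3) the size of unit legs -/
theorem unit_num (G : Geo M E) {RC Cb e₁ τ Sc : ℝ} (un : ElI.Unit G RC Cb e₁ τ Sc) {D : ℝ}
    (hD : 1 ≤ D) (hD1 : ∀ v : Fin k → ℝ, ‖G.T v‖ ≤ D * ‖v‖)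
    (hD2 : ∀ v : Fin k → ℝ, ‖v‖ ≤ D * ‖G.T v‖) (hτ : 0 < τ * Sc) (he : e₁ ≤ 1 / 2) (e : G.R) :
    τ * Sc / (2 * D) ≤ ‖M.h (un.u e)‖ ∧ ‖M.h (un.u e)‖ ≤ 2 * D * (τ * Sc) ∧
      ∀ J : ℕ, ‖G.T (M.h (un.u e ^ J)) - (J * τ * Sc) • (e : E)‖ ≤ e₁ * (J * τ * Sc) := by
  have hacc := un.acc e
  have hn : ‖(τ * Sc) • (e : E)‖ = τ * Sc := by
    rw [norm_smul, G.norm_ray, mul_one, Real.norm_of_nonneg hτ.le]
  have h1 : e₁ * (τ * Sc) ≤ 1 / 2 * (τ * Sc) := mul_le_mul_of_nonneg_right he hτ.le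
  have h2 : ‖G.T (M.h (un.u e))‖ ≤ τ * Sc + e₁ * (τ * Sc) := by
    have h3 := norm_le_norm_add_norm_sub' (G.T (M.h (un.u e))) ((τ * Sc) • (e : E))
    linarith
  have h3 : τ * Sc - e₁ * (τ * Sc) ≤ ‖G.T (M.h (un.u e))‖ := by
    have h4 := norm_le_norm_add_norm_sub ((τ * Sc) • (e : E)) (G.T (M.h (un.u e)))
    have h5 : ‖(τ * Sc) • (e : E) - G.T (M.h (un.u e))‖ =
        ‖G.T (M.h (un.u e)) - (τ * Sc) • (e : E)‖ := norm_sub_rev _ _
    have h6 := norm_sub_norm_le ((τ * Sc) • (e : E)) (G.T (M.h (un.u e)))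
    rw [h5] at h6
    linarith
  refine ⟨?_, ?_, fun J => ?_⟩
  · rw [div_le_iff₀ (by positivity)]
    have h4 := hD1 (M.h (un.u e))
    linarith
  · refine (hD2 _).trans ?_
    calc D * ‖G.T (M.h (un.u e))‖ ≤ D * (2 * (τ * Sc)) :=
          mul_le_mul_of_nonneg_left (by linarith) (by linarith)
      _ = _ := by ring
  · rw [ElI.h_pow, map_smul]
    have h4 : (J : ℝ) • G.T (M.h (un.u e)) - ((J : ℝ) * τ * Sc) • (e : E) =
        (J : ℝ) • (G.T (M.h (un.u e)) - (τ * Sc) • (e : E)) := by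
      rw [smul_sub, smul_smul, mul_assoc]
    rw [h4, norm_smul, Real.norm_of_nonneg (Nat.cast_nonneg _)]
    calc (J : ℝ) * ‖G.T (M.h (un.u e)) - (τ * Sc) • (e : E)‖ ≤ J * (e₁ * (τ * Sc)) :=
          mul_le_mul_of_nonneg_left hacc (Nat.cast_nonneg _)
      _ = e₁ * (J * τ * Sc) := by ring

/-- (n4) conjugation of bounded elements through the comparison words -/
theorem exists_conj_ww (G : Geo M E) (hX : XModel M) (K : ℕ) (b : G.R → M.G)
    (hb : ∀ e, b e ∈ M.CN) (R' Cp : ℝ) (J : ℕ) {δ : ℝ} (hδ : 0 < δ) :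
    ∃ N0 : ℕ, ∀ N : ℕ, N0 ≤ N → ∀ p : G.R → ℕ, (∀ e, (p e : ℝ) ≤ Cp * N) → ∀ Ψ : Γ → Γ,
      QIMap S S Ψ K → ∀ c ∈ M.C, M.len c ≤ R' → ∀ z o,
      dist (fh M Ψ (z * (c * ww G (fun e => b e ^ p e) J o)))
        (fh M Ψ (z * ww G (fun e => b e ^ p e) J o)) ≤ δ * N := by
  classical
  obtain ⟨N0, h⟩ := exists_conj_fh M hX K (insert 1 (Finset.univ.image b)) (by
    intro x hx
    rcases Finset.mem_insert.1 hx with rfl | hx
    · exact M.CN.one_mem
    · obtain ⟨e, -, rfl⟩ := Finset.mem_image.1 hx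
      exact hb e) R' (|Cp| * J) hδ
  refine ⟨N0, fun N hN p hp Ψ hΨ c hc hcR z o => ?_⟩
  rw [dist_pi_le_iff (by positivity)]
  intro i
  rw [Real.dist_eq]
  cases o with
  | none =>
    have h1 := h N hN 1 (Finset.mem_insert_self _ _) 0 (by simp; positivity) c hc hcR Ψ hΨ z i
    simpa [ww] using h1
  | some e =>
    have h1 := h N hN (b e) (Finset.mem_insert_of_mem (Finset.mem_image_of_mem _
      (Finset.mem_univ _))) (p e * J) (by
        push_cast
        have h2 : (p e : ℝ) ≤ |Cp| * N := (hp e).trans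
          (mul_le_mul_of_nonneg_right (le_abs_self _) (Nat.cast_nonneg _))
        have h3 := mul_le_mul_of_nonneg_right h2 (Nat.cast_nonneg (α := ℝ) J)
        linarith) c hc hcR Ψ hΨ z i
    have h2 : ww G (fun e => b e ^ p e) J (some e) = b e ^ (p e * J) := by
      simp only [ww, pow_mul]
    rw [h2]
    exact h1

end Crest.Agent.R182.HoleOne
end

-- ▼ part R182/ElMainInst
section

set_option autoImplicit false
set_option linter.unusedSectionVars false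

open MeasureTheory Set
open scoped Pointwise RealInnerProductSpace ENNReal

namespace Crest.Agent.R182.ElI

open Crest.GroupTheory Crest.Geometry Crest.Agent.R182.QI Crest.Agent.R182.Core
  Crest.Agent.R182.Nb Crest.Agent.R182.Gen

variable {Γ : Type*} [Group Γ] {k : ℕ} {S : Set Γ} {π : Γ →* Multiplicative (Fin k → ℤ)}
variable {M : BModel S π} {E : Type} [NormedAddCommGroup E] [InnerProductSpace ℝ E]


theorem adm_one {R : Type*} {τ ω : ℝ} (hω : 0 ≤ ω) (h : ∃ n : ℕ, (1 : ℝ) = n * τ) :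
    adm τ ω (fun _ : R => (1 : ℝ)) := by
  obtain ⟨n, hn⟩ := h
  exact ⟨⟨fun _ => n, fun _ => hn⟩, fun _ => by rw [sub_self, abs_zero]; exact hω⟩

theorem adm_lev {R : Type*} [Fintype R] [DecidableEq R] {τ ω ι : ℝ} {L : ℕ} (hι : 0 ≤ ι)
    (h : ∃ n : ℕ, (1 : ℝ) = n * τ) (h' : ∃ n : ℕ, ι = n * τ) (hL : L * ι ≤ ω) (w : R) {j : ℕ}
    (hj : j ≤ L) : adm τ ω (El.lev (fun _ : R => (1 : ℝ)) w ι j) := by
  obtain ⟨n, hn⟩ := h
  obtain ⟨n', hn'⟩ := h'
  refine ⟨⟨fun r => if r = w then n + j * n' else n, fun r => ?_⟩, fun r => ?_⟩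
  · by_cases hr : r = w
    · subst hr
      rw [El.lev_self]
      simp only [if_true]
      push_cast
      rw [add_mul, mul_assoc, ← hn, ← hn']
    · rw [El.lev_ne _ hr]
      simp only [if_neg hr]
      exact hn
  · by_cases hr : r = w
    · subst hr
      rw [El.lev_self, add_sub_cancel_left, abs_of_nonneg (by positivity)]
      refine le_trans ?_ hL
      exact mul_le_mul_of_nonneg_right (by exact_mod_cast hj) hι
    · rw [El.lev_ne _ hr, sub_self, abs_zero]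
      exact le_trans (by positivity) hL


end Crest.Agent.R182.ElI
end

-- ▼ part R182/BoxMulV
section

set_option autoImplicit false
set_option linter.unusedSectionVars false

open MeasureTheory Set
open scoped Pointwise ENNReal

namespace Crest.Agent.R182.BoxVol

open Crest.Agent.R182.Nb Crest.Agent.R182.Core

/-- splitting of boxes of families which are sums of a pure and a small part -/
theorem exists_pk_split (c : ℕ) (σ : Type*) [Fintype σ] (A : ℝ) (hA : 1 ≤ A) :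
    ∃ A' : ℝ, 1 ≤ A' ∧ ∀ {L : Type*} [LieRing L] [LieAlgebra ℝ L] (g f : σ → L) (w : σ → Prop)
      [DecidablePred w], NilC c L → ∀ e, 0 ≤ e → e ≤ 1 →
      (∀ i, ∃ p ∈ Bx c (rst g w) A, ∃ k ∈ Bx c g (A * e), f i = p + k) → ∀ s, 0 ≤ s →
      ∀ x ∈ Bx c f s, ∃ p ∈ Bx c (rst g w) (A' * s), ∃ k ∈ Bx c g (A' * (e * s)), x = p + k := by
  classical
  obtain ⟨A₁, hA₁, h₁⟩ := exists_Bx_comp c (σ ⊕ σ) σ (1 + A) (by linarith)
  obtain ⟨A₂, hA₂, h₂⟩ := exists_Bx_split c σ (σ ⊕ σ) A hA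
  obtain ⟨A₃, hA₃, h₃⟩ := exists_Bx_comp c σ (σ ⊕ σ) A hA
  refine ⟨A₃ * A₁ + A₂ * A₁, by nlinarith, ?_⟩
  intro L _ _ g f w _ hN e he he1 hf s hs x hx
  choose p hp k hk hpk using hf
  have hA0 : 0 < A := by linarith
  set G : σ ⊕ σ → L := Sum.elim p fun i => A⁻¹ • k i with hG
  have hfG : ∀ i, f i ∈ Bx c G (1 + A) := by
    intro i
    rw [hpk i]
    have h1 : p i ∈ Bx c G 1 := by
      have := gen_mem_Bx (hN.nil G) (Sum.inl i)
      exact this
    have h2 : k i ∈ Bx c G A := by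
      have := Bx_smul (gen_mem_Bx (hN.nil G) (Sum.inr i)) A
      have e1 : A • G (Sum.inr i) = k i := by
        change A • A⁻¹ • k i = k i
        rw [smul_smul, mul_inv_cancel₀ hA0.ne', one_smul]
      rw [e1, abs_of_pos hA0, mul_one] at this
      exact this
    exact Bx_add h1 h2
  have hx1 : x ∈ Bx c G (A₁ * s) := h₁ G f (hN.nil G) hfG s hs hx
  obtain ⟨u, hu, y, hy, rfl⟩ := h₂ g G (fun j => j.isLeft = true) (hN.nil g) e he he1
    (by
      intro j hj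
      cases j with
      | inl i => exact Bx_rst_le (by linarith) (hp i)
      | inr i => simp at hj)
    (by
      intro j hj
      cases j with
      | inl i => simp at hj
      | inr i =>
        have := Bx_smul (hk i) A⁻¹
        rw [abs_of_pos (inv_pos.2 hA0), ← mul_assoc, inv_mul_cancel₀ hA0.ne', one_mul] at this
        exact this) (A₁ * s) (by positivity) x hx1
  refine ⟨u, ?_, y, ?_, rfl⟩
  · have h4 := h₃ (rst g w) (rst G fun j => j.isLeft = true) (hN.nil _) (by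
      intro j
      cases j with
      | inl i =>
        have : rst G (fun j => j.isLeft = true) (Sum.inl i) = p i := by simp [rst, hG]
        rw [this]; exact hp i
      | inr i =>
        have : rst G (fun j => j.isLeft = true) (Sum.inr i) = 0 := by simp [rst]
        rw [this]; exact Bx_zero_mem (by linarith)) (A₁ * s) (by positivity) hu
    refine Bx_mono ?_ h4
    have : 0 ≤ A₂ * A₁ * s := by positivity
    nlinarith
  · refine Bx_mono ?_ hy
    have : 0 ≤ A₃ * A₁ * (e * s) := by positivity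
    nlinarith

variable {Γ : Type*} [Group Γ] {k : ℕ} {S : Set Γ} {π : Γ →* Multiplicative (Fin k → ℤ)}

/-- **`mul_V`**: the sup of the `lamV`-measures of cosets times the volume of the product. -/
theorem exists_mulV' (M : BModel S π) (w : GI M → Prop) [DecidablePred w] (R : RayQ M w) (A : ℝ)
    (hA : 1 ≤ A) :
    ∃ A₁ : ℝ, 1 ≤ A₁ ∧ ∀ B : ℝ, 1 ≤ B → ∃ C : ℝ, 0 < C ∧
      ∀ (g : GI M → M.L) (T : M.L →ₗ[ℝ] M.L), IsLie T → R.D.Pres T → R.D.qdet T ≠ 0 →
        (∀ i, ¬ w i → R.D.P (g i) = 0) → ∀ e : ℝ, 0 < e → e ≤ 1 →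
        (∀ i, w i → ∃ p ∈ Bx M.c (rst g w) A, ∃ k ∈ Bx M.c g (A * e), T (eg M i) = p + k) →
        (∀ x, R.D.P x = 0 → x ∈ Bx M.c (rst g w) A₁ → x ∈ Bx M.c g (B * e)) →
        ∃ m : ℝ≥0∞, (∀ ρ, 0 ≤ ρ → ρ ≤ A → ∀ y : M.NN,
            lamV R.D ρ T {v | y * v⁻¹ ∈ M.NB g (A * e)} ≤ m) ∧
          m * volume (M.NB g (A * e) * M.NB (rst (fun i => T (eg M i)) w) A) ≤
            ENNReal.ofReal C * volume (M.NB g e) := by
  obtain ⟨A₃, hA₃, h₃⟩ := exists_pk_split M.c (GI M) A hA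
  -- constants for the group law
  set T₁ : ℝ := A₃ * A + A with hT₁
  have hT₁1 : 1 ≤ T₁ := by nlinarith
  obtain ⟨A₂, H₂⟩ := M.star.exists_famConst M.c (GI M) T₁ hT₁1
  have hA₂ := H₂.one_le
  set a : ℝ := A₂ * T₁ with ha
  have ha1 : 1 ≤ a := by nlinarith
  have ha0 : 0 < a := by linarith
  set A₁ : ℝ := 2 * (A₃ * a) + a with hA₁
  refine ⟨A₁, by nlinarith, fun B hB => ?_⟩
  set T₂ : ℝ := A + (a + 2 * (A₃ * a) + B) with hT₂
  have hA₃a : 0 ≤ A₃ * a := by positivity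
  obtain ⟨A₅, H₅⟩ := M.star.exists_famConst M.c (GI M) T₂ (by linarith)
  have hA₅ := H₅.one_le
  set V₀ : ℝ := (vQ R.D w (eg M) a).toReal + 1 with hV₀
  have hV₀0 : 0 < V₀ := by positivity
  refine ⟨a ^ R.n * (V₀ * (A₅ * T₂) ^ M.r), by positivity, ?_⟩
  intro g T hT hP hdet hv e he he1 h1 h2
  have hNg : Nil M.c g := M.nilC.nil g
  set G : GI M → M.L := rst g w with hG
  have hNG : Nil M.c G := M.nilC.nil G
  set f : GI M → M.L := rst (fun i => T (eg M i)) w with hf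
  have hNf : Nil M.c f := M.nilC.nil f
  have hfG : ∀ i, ∃ p ∈ Bx M.c G A, ∃ k ∈ Bx M.c g (A * e), f i = p + k := by
    intro i
    rw [hf]; unfold Nb.rst
    split_ifs with hi
    · exact h1 i hi
    · exact ⟨0, Bx_zero_mem (by linarith), 0, Bx_zero_mem (by positivity), (add_zero _).symm⟩
  have hfw : ∀ i, w i → f i = T (eg M i) := fun i hi => if_pos hi
  have hfv : ∀ i, ¬ w i → R.D.P (f i) = 0 := fun i hi => by
    have : f i = 0 := if_neg hi
    rw [this, map_zero]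
  have hdet0 : 0 < R.D.qdet T := lt_of_le_of_ne (abs_nonneg _) (Ne.symm hdet)
  set Ps : Set R.D.QN := (prN R.D '' M.NB g e) ∩ (prN R.D '' M.NB f 1) with hPs
  set Pb : Set R.D.QN := (prN R.D '' M.NB g (a * e)) ∩ (prN R.D '' M.NB f (a * 1)) with hPb
  have hPbs : (volume : Measure R.D.QN) Pb ≤
      ENNReal.ofReal (a ^ R.n) * (volume : Measure R.D.QN) Ps := by
    have hsub : (Pb : Set (Fin R.n → ℝ)) ⊆ a • (Ps : Set (Fin R.n → ℝ)) := by
      intro q hq
      rw [Set.mem_smul_set]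
      refine ⟨(a⁻¹ • q : Fin R.n → ℝ), ⟨prN_image_smul R.D ha0 hq.1, prN_image_smul R.D ha0 hq.2⟩, ?_⟩
      rw [smul_smul, mul_inv_cancel₀ ha0.ne', one_smul]
    exact volume_le_of_subset_smul ha0 hsub
  have hPsm : MeasurableSet Ps :=
    (((BModel.isCompact_NB M g e).image (continuous_prN R.D)).inter
      ((BModel.isCompact_NB M f 1).image (continuous_prN R.D))).measurableSet
  refine ⟨ENNReal.ofReal (R.D.qdet T)⁻¹ * (volume : Measure R.D.QN) Pb, ?_, ?_⟩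
  · -- cosets
    intro ρ hρ hρA y
    have hm : MeasurableSet {v : M.NN | y * v⁻¹ ∈ M.NB g (A * e)} := by
      have : Continuous fun v : M.NN => y * v⁻¹ := by fun_prop
      exact this.measurable (BModel.measurableSet_NB M g _)
    unfold lamV
    rw [Measure.map_apply (continuous_move R.D T).measurable hm,
      Measure.restrict_apply' (MeasurableSet.univ_pi fun _ => measurableSet_Icc)]
    set Z : Set (Fin R.n → ℝ) := (fun q : Fin R.n → ℝ => M.E.symm (T (R.D.s q))) ⁻¹'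
      {v | y * v⁻¹ ∈ M.NB g (A * e)} ∩ Set.pi univ fun _ => Icc (-ρ) ρ with hZ
    by_cases hZe : Z = ∅
    · rw [hZe, measure_empty]; exact zero_le
    obtain ⟨q₀, hq₀1, hq₀2⟩ := Set.nonempty_iff_ne_empty.2 hZe
    have hmv : ∀ q : Fin R.n → ℝ, q ∈ (Set.pi univ fun _ => Icc (-ρ) ρ : Set (Fin R.n → ℝ)) →
        M.E.symm (T (R.D.s q)) ∈ M.NB f A := by
      intro q hq
      refine BModel.NB_mono hρA (R.mvs_subset hT hρ ?_)
      exact ⟨q, fun j => abs_le.2 (hq j (mem_univ j)), LinearEquiv.apply_symm_apply _ _⟩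
    set u₀ : M.NN := M.E.symm (T (R.D.s q₀)) with hu₀
    have hsub : Z ⊆ R.D.down T ⁻¹' (Pb * {prN R.D u₀} : Set R.D.QN) := by
      rintro q ⟨hq1, hq2⟩
      set u : M.NN := M.E.symm (T (R.D.s q)) with hu
      have e1 : u * u₀⁻¹ ∈ M.NB g (a * e) := by
        have e2 : u * u₀⁻¹ = (y * u⁻¹)⁻¹ * (y * u₀⁻¹) := by group
        rw [e2, BModel.mem_NB, BModel.E_mul]
        have hAT : A ≤ T₁ := by nlinarith
        have h4 := H₂.op_mem g hNg (A * e) (A * e) (by positivity) (by nlinarith) (by positivity)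
          (by nlinarith) _ (BModel.NB_inv hq1) _ hq₀1
        rw [max_self] at h4
        refine Bx_mono ?_ h4
        rw [ha, ← mul_assoc]
        gcongr
      have e3 : u * u₀⁻¹ ∈ M.NB f (a * 1) := by
        rw [BModel.mem_NB, BModel.E_mul]
        have hAT : A ≤ T₁ := by nlinarith
        have h4 := H₂.op_mem f hNf A A (by positivity) hAT (by positivity) hAT _ (hmv q hq2) _
          (BModel.NB_inv (hmv q₀ hq₀2))
        rw [max_self] at h4
        refine Bx_mono ?_ h4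
        rw [ha, mul_one]
        gcongr
      refine ⟨prN R.D (u * u₀⁻¹), ⟨mem_image_of_mem _ e1, mem_image_of_mem _ e3⟩, _, rfl, ?_⟩
      change prN R.D (u * u₀⁻¹) * prN R.D u₀ = R.D.down T q
      rw [← map_mul, inv_mul_cancel_right]
      exact prN_move R.D q
    refine (measure_mono hsub).trans ?_
    have hdet' : LinearMap.det (R.D.down T) ≠ 0 := by
      intro h
      apply hdet
      unfold QData.qdet
      rw [h, abs_zero]
    have h4 := Measure.addHaar_preimage_linearMap (volume : Measure (Fin R.n → ℝ)) hdet'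
      (Pb * {prN R.D u₀} : Set R.D.QN)
    rw [h4, abs_inv]
    have h5 : (volume : Measure (Fin R.n → ℝ)) (Pb * {prN R.D u₀} : Set R.D.QN) =
        (volume : Measure R.D.QN) Pb :=
      measure_mul_singleton (volume : Measure R.D.QN) Pb (prN R.D u₀)
    rw [h5]
    exact le_rfl
  · -- the product
    set U : Set M.NN := M.NB f A with hU
    set N₂ : Set M.NN := M.NB g ((a + 2 * (A₃ * a) + B) * e) with hN₂
    have hPU : Ps * prN R.D '' U ⊆ prN R.D '' M.NB f a := by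
      rintro _ ⟨_, ⟨_, n, hn, rfl⟩, _, ⟨u, hu, rfl⟩, rfl⟩
      refine ⟨n * u, ?_, map_mul _ _ _⟩
      rw [BModel.mem_NB, BModel.E_mul]
      have hAT : A ≤ T₁ := by nlinarith
      have h4 := H₂.op_mem f hNf 1 A zero_le_one hT₁1 (by positivity) hAT _ hn _ hu
      refine Bx_mono ?_ h4
      rw [ha, max_eq_right hA]
      gcongr
    have hPUv : (volume : Measure R.D.QN) (Ps * prN R.D '' U) ≤
        ENNReal.ofReal (R.D.qdet T) * ENNReal.ofReal V₀ := by
      refine (measure_mono hPU).trans ?_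
      rw [volume_prN_NB R.D hT hP hfw hfv ha0.le]
      gcongr
      rw [← ENNReal.ofReal_toReal (R.vQ_lt_top a).ne]
      exact ENNReal.ofReal_le_ofReal (by rw [hV₀]; linarith)
    have hmain : volume (M.NB g (A * e) * U) * (volume : Measure R.D.QN) Ps ≤
        (ENNReal.ofReal (R.D.qdet T) * ENNReal.ofReal V₀) *
          (ENNReal.ofReal ((A₅ * T₂) ^ M.r) * volume (M.NB g e)) := by
      by_cases hP0 : (volume : Measure R.D.QN) Ps = 0
      · rw [hP0, mul_zero]; exact zero_le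
      have hfin : (volume : Measure R.D.QN) (Ps * prN R.D '' U) ≠ ∞ :=
        (hPUv.trans_lt (ENNReal.mul_lt_top ENNReal.ofReal_lt_top ENNReal.ofReal_lt_top)).ne
      have key := measure_mul_upper (volume : Measure M.NN) (volume : Measure R.D.QN) (prN R.D)
        (N := M.NB g (A * e)) (U := U) (N₂ := N₂) hPsm hP0 hfin ?_
      · refine key.trans ?_
        have hNN : M.NB g (A * e) * N₂ ⊆ M.NB g ((A₅ * T₂) * e) := by
          rintro _ ⟨n, hn, n', hn', rfl⟩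
          rw [BModel.mem_NB, BModel.E_mul]
          have h4 := H₅.op_mem g hNg (A * e) ((a + 2 * (A₃ * a) + B) * e) (by positivity)
            (by nlinarith) (by positivity) (by nlinarith) _ hn _ hn'
          refine Bx_mono ?_ h4
          have h5 : max (A * e) ((a + 2 * (A₃ * a) + B) * e) ≤ T₂ * e := max_le
            (by gcongr; linarith) (by gcongr; linarith)
          calc A₅ * max (A * e) ((a + 2 * (A₃ * a) + B) * e) ≤ A₅ * (T₂ * e) := by gcongr
            _ = (A₅ * T₂) * e := by ring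
        calc (volume : Measure R.D.QN) (Ps * prN R.D '' U) * volume (M.NB g (A * e) * N₂)
            ≤ (ENNReal.ofReal (R.D.qdet T) * ENNReal.ofReal V₀) *
              volume (M.NB g ((A₅ * T₂) * e)) := by gcongr
          _ = _ := by rw [BModel.volume_NB_smul (by positivity)]
      · intro u hu u' hu' x hx y hy hxy
        obtain ⟨⟨n, hn, rfl⟩, -⟩ := hx
        obtain ⟨⟨n', hn', rfl⟩, -⟩ := hy
        rw [← map_inv, ← map_mul] at hxy
        have h3 : M.E (n⁻¹ * n') ∈ Bx M.c g (a * e) := by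
          rw [BModel.E_mul]
          have h4 := H₂.op_mem g hNg e e he.le (by linarith) he.le (by linarith) _
            (BModel.NB_inv hn) _ hn'
          rw [max_self] at h4
          refine Bx_mono ?_ h4
          rw [ha]
          have : A₂ ≤ A₂ * T₁ := le_mul_of_one_le_right (by linarith) hT₁1
          gcongr
        have h4 : R.D.P (M.E (n⁻¹ * n')) ∈ R.D.P '' Bx M.c G (a * e) := by
          rw [← P_image_Bx R.D hv (by positivity)]
          exact mem_image_of_mem _ h3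
        obtain ⟨z, hz, hz'⟩ := h4
        have h5 : M.E (u * u'⁻¹) ∈ Bx M.c f a := by
          rw [BModel.E_mul]
          have hAT : A ≤ T₁ := by nlinarith
          have h6 := H₂.op_mem f hNf A A (by linarith) hAT (by linarith) hAT _ hu _
            (BModel.NB_inv hu')
          rw [max_self] at h6
          refine Bx_mono ?_ h6
          rw [ha]; gcongr
        obtain ⟨p, hp, q, hq, hpq⟩ := h₃ g f w M.nilC e he.le he1 hfG a ha0.le _ h5
        have h6 : R.D.P q ∈ R.D.P '' Bx M.c G (A₃ * (e * a)) := by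
          rw [← P_image_Bx R.D hv (by positivity)]
          exact mem_image_of_mem _ hq
        obtain ⟨z₂, hz₂, hz₂'⟩ := h6
        have h7 : R.D.P (p + z₂ - z) = 0 := by
          have e1 : R.D.P (M.E (u * u'⁻¹)) = R.D.P p + R.D.P q := by rw [hpq, map_add]
          have e2 : R.D.P (M.E (n⁻¹ * n')) = R.D.P (M.E (u * u'⁻¹)) := hxy.symm
          rw [map_sub, map_add, hz₂', hz', e2, e1, sub_self]
        have h8 : p + z₂ - z ∈ Bx M.c G A₁ := by
          rw [sub_eq_add_neg]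
          refine Bx_mono ?_ (Bx_add (Bx_add hp hz₂) (Bx_neg hz))
          rw [hA₁]
          have e1 : a * e ≤ a := by nlinarith
          have e2 : A₃ * (e * a) ≤ A₃ * a := by
            have : e * a ≤ a := by nlinarith
            gcongr
          linarith
        have h9 := h2 _ h7 h8
        rw [hN₂, BModel.mem_NB]
        have h10 : M.E (u * u'⁻¹) = (p + z₂ - z) + z + -z₂ + q := by rw [hpq]; abel
        rw [h10]
        refine Bx_mono ?_ (Bx_add (Bx_add (Bx_add h9 (Bx_rst_subset g (a * e) (by positivity) hz))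
          (Bx_neg (Bx_rst_subset g _ (by positivity) hz₂))) hq)
        nlinarith
    calc ENNReal.ofReal (R.D.qdet T)⁻¹ * (volume : Measure R.D.QN) Pb * volume (M.NB g (A * e) * U)
        ≤ ENNReal.ofReal (R.D.qdet T)⁻¹ * (ENNReal.ofReal (a ^ R.n) *
          (volume : Measure R.D.QN) Ps) * volume (M.NB g (A * e) * U) := by gcongr
      _ = ENNReal.ofReal (R.D.qdet T)⁻¹ * ENNReal.ofReal (a ^ R.n) *
          (volume (M.NB g (A * e) * U) * (volume : Measure R.D.QN) Ps) := by ring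
      _ ≤ ENNReal.ofReal (R.D.qdet T)⁻¹ * ENNReal.ofReal (a ^ R.n) *
          ((ENNReal.ofReal (R.D.qdet T) * ENNReal.ofReal V₀) *
          (ENNReal.ofReal ((A₅ * T₂) ^ M.r) * volume (M.NB g e))) := by gcongr
      _ = ENNReal.ofReal (a ^ R.n * (V₀ * (A₅ * T₂) ^ M.r)) * volume (M.NB g e) := by
          rw [ENNReal.ofReal_mul (by positivity), ENNReal.ofReal_mul (by positivity)]
          have : ENNReal.ofReal (R.D.qdet T)⁻¹ * ENNReal.ofReal (R.D.qdet T) = 1 := by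
            rw [← ENNReal.ofReal_mul (by positivity), inv_mul_cancel₀ hdet, ENNReal.ofReal_one]
          calc _ = (ENNReal.ofReal (R.D.qdet T)⁻¹ * ENNReal.ofReal (R.D.qdet T)) *
                (ENNReal.ofReal (a ^ R.n) * (ENNReal.ofReal V₀ * ENNReal.ofReal ((A₅ * T₂) ^ M.r)) *
                volume (M.NB g e)) := by ring
            _ = _ := by rw [this, one_mul]

section mix

variable {M : BModel S π} {w : GI M → Prop} [DecidablePred w]

/-- vectors of a weight are combinations of monomials of this weight -/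
theorem mem_span_mon_wt (ν : (Fin k → ℝ) →ₗ[ℝ] ℝ) {x : M.L} (hx : ∀ i, M.bas.repr x i ≠ 0 → M.wt i = ν) :
    x ∈ Submodule.span ℝ (Set.range fun κ : {κ : KL (GI M) M.c //
      ((κ : List (GI M)).map (wg M)).sum = ν} => mon (eg M) (κ : List (GI M))) := by
  rw [← M.bas.sum_repr x]
  refine Submodule.sum_mem _ fun i _ => ?_
  by_cases h0 : M.bas.repr x i = 0
  · rw [h0, zero_smul]; exact Submodule.zero_mem _
  · refine Submodule.smul_mem _ _ ?_
    have h1 := M.monSpan i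
    have h2 := hx i h0
    refine (Submodule.span_le.2 ?_) h1
    rintro _ ⟨κ, hκ, rfl⟩
    by_cases h3 : κ.length ≤ M.c
    · exact Submodule.subset_span ⟨⟨⟨κ, mem_KL.2 h3⟩, hκ.trans h2⟩, rfl⟩
    · have : mon (eg M) κ = 0 := M.nilC.nil _ κ (by omega)
      change mon (eg M) κ ∈ _
      rw [this]; exact Submodule.zero_mem _

/-- **mixed vectors of a weight of the ray are small** -/
theorem exists_mix_small (M : BModel S π) (w : GI M → Prop) [DecidablePred w] :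
    ∃ C : ℝ, 1 ≤ C ∧ ∀ (fam : GI M → M.L) (Y : GI M → ℝ) (Λ : ℝ), 1 ≤ Λ →
      (∀ i, Real.exp (Y i) • eg M i ∈ Bx M.c fam Λ) →
      ∀ (B : ℝ) (v : Fin k → ℝ) (μ : ℝ), 0 < B → NearRound M w Y v (Real.log (C * Λ ^ M.c * B) + μ) →
      ∀ i₀ : GI M, w i₀ → 1 ≤ M.c → ∀ x ∈ Mw M w, (∀ i, M.bas.repr x i ≠ 0 → M.wt i = wg M i₀) →
      (∀ i, |M.bas.repr x i| ≤ B * Real.exp (wg M i₀ v)) → x ∈ Bx M.c fam (Real.exp (-μ)) := by
  classical
  let I := fun ν : (Fin k → ℝ) →ₗ[ℝ] ℝ => {κ : KL (GI M) M.c //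
      (¬ ∀ i ∈ (κ : List (GI M)), w i) ∧ ((κ : List (GI M)).map (wg M)).sum = ν}
  have hex : ∀ ν, ∃ a : M.L →ₗ[ℝ] (I ν → ℝ), ∀ y ∈ Submodule.span ℝ (Set.range fun κ : I ν =>
      mon (eg M) (κ : List (GI M))), ∑ i, a y i • mon (eg M) (i : List (GI M)) = y := fun ν =>
    exists_coeff _
  choose a ha using hex
  set Q : ℝ := ∑ i₀ : GI M, ∑ κ : I (wg M i₀), ∑ i, |a (wg M i₀) (M.bas i) κ| with hQ
  have hQ0 : 0 ≤ Q := by positivity
  have hbr := brC_pos (GI M) M.c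
  set b := brC (GI M) M.c ^ M.c with hb
  have hb0 : 0 ≤ b := by positivity
  refine ⟨Q * b + 1, by nlinarith [mul_nonneg hQ0 hb0], ?_⟩
  intro fam Y Λ hΛ hfam B v μ hB hNR i₀ hi₀ hc x hxM hwt hsize
  set C : ℝ := Q * b + 1 with hC
  have hC0 : 0 < C := by nlinarith [mul_nonneg hQ0 hb0]
  have hNil : Nil M.c fam := M.nilC.nil fam
  set ν := wg M i₀ with hν
  have hwprx : M.wpr ν x = x := by
    rw [M.wpr_apply]
    conv_rhs => rw [← M.bas.sum_repr x]
    refine Finset.sum_congr rfl fun i _ => ?_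
    by_cases h0 : M.bas.repr x i = 0
    · rw [h0, zero_smul, zero_smul]
    · rw [if_pos (hwt i h0)]
  have hy := ha ν _ (wpr_mem_Mw (w := w) ν hxM)
  rw [hwprx] at hy
  have hq : ∑ κ : I ν, ∑ i, |a ν (M.bas i) κ| ≤ Q := by
    rw [hQ, hν]
    exact Finset.single_le_sum (f := fun i₀ : GI M => ∑ κ : I (wg M i₀),
      ∑ i, |a (wg M i₀) (M.bas i) κ|) (fun i _ => Finset.sum_nonneg fun _ _ =>
        Finset.sum_nonneg fun _ _ => abs_nonneg _) (Finset.mem_univ i₀)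
  have key : x ∈ Bx M.c fam ((∑ κ : I ν, ∑ i, |a ν (M.bas i) κ|) * (b / C * Real.exp (-μ))) := by
    rw [← hy, Finset.sum_mul]
    refine Bx_sum _ _ _ fun κ _ => ?_
    obtain ⟨⟨κ, hκK⟩, hκw, hκν⟩ := κ
    rw [mem_KL] at hκK
    have h1 : |a ν x ⟨⟨κ, mem_KL.2 hκK⟩, hκw, hκν⟩| ≤
        (∑ i, |a ν (M.bas i) ⟨⟨κ, mem_KL.2 hκK⟩, hκw, hκν⟩|) *
          (B * Real.exp (ν v)) := abs_apply_le (a ν) _ hsize _
    have h2 : mon (eg M) κ = Real.exp (-(κ.map Y).sum) • mon (gZ (eg M) Y) κ := by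
      rw [mon_gZ, smul_smul, ← Real.exp_add, neg_add_cancel, Real.exp_zero, one_smul]
    have h3 : mon (gZ (eg M) Y) κ ∈ Bx M.c fam (b * Λ ^ M.c) := by
      refine Bx_mono ?_ (mon_comp_mem hNil (v := gZ (eg M) Y) (t := fun _ => Λ)
        (fun _ => by linarith) hfam κ)
      rw [List.map_const', List.prod_replicate]
      exact mul_le_mul (pow_le_pow_right₀ hbr hκK) (pow_le_pow_right₀ hΛ hκK) (by positivity) hb0
    have h4 := hNR [i₀] κ (by simp) (by simpa using hi₀) (by simpa using hc) hκK hκw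
      (by simpa using hκν.symm)
    have h4' : ν v + (Real.log (C * Λ ^ M.c * B) + μ) ≤ (κ.map Y).sum := by simpa using h4
    have hCL : 0 < C * Λ ^ M.c * B := by positivity
    have h5 : Real.exp (ν v) * (C * Λ ^ M.c * B) * Real.exp μ ≤ Real.exp ((κ.map Y).sum) := by
      rw [← Real.exp_log hCL, ← Real.exp_add, ← Real.exp_add]
      exact Real.exp_le_exp.2 (by linarith)
    change a ν x ⟨⟨κ, mem_KL.2 hκK⟩, hκw, hκν⟩ • mon (eg M) κ ∈ _
    rw [h2]
    refine Bx_mono ?_ (Bx_smul (Bx_smul h3 _) _)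
    rw [abs_of_pos (Real.exp_pos _)]
    set q := ∑ i, |a ν (M.bas i) ⟨⟨κ, mem_KL.2 hκK⟩, hκw, hκν⟩| with hq
    have hq0 : 0 ≤ q := by positivity
    calc |a ν x ⟨⟨κ, mem_KL.2 hκK⟩, hκw, hκν⟩| *
          (Real.exp (-(κ.map Y).sum) * (b * Λ ^ M.c))
        ≤ (q * (B * Real.exp (ν v))) *
          (Real.exp (-(κ.map Y).sum) * (b * Λ ^ M.c)) := by gcongr
      _ = q * (b / C) * (Real.exp (ν v) * (C * Λ ^ M.c * B) * Real.exp (-(κ.map Y).sum)) := by
          field_simp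
      _ ≤ q * (b / C) * Real.exp (-μ) := by
          refine mul_le_mul_of_nonneg_left ?_ (by positivity)
          have h6 : Real.exp (ν v) * (C * Λ ^ M.c * B) ≤
              Real.exp ((κ.map Y).sum) * Real.exp (-μ) := by
            have := mul_le_mul_of_nonneg_right h5 (Real.exp_pos (-μ)).le
            rwa [mul_assoc, ← Real.exp_add, add_neg_cancel, Real.exp_zero, mul_one] at this
          calc _ ≤ Real.exp ((κ.map Y).sum) * Real.exp (-μ) * Real.exp (-(κ.map Y).sum) := by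
                gcongr
            _ = Real.exp (-μ) := by
                rw [mul_right_comm, ← Real.exp_add, add_neg_cancel, Real.exp_zero, one_mul]
      _ = q * (b / C * Real.exp (-μ)) := by ring
  refine Bx_mono ?_ key
  calc (∑ κ : I ν, ∑ i, |a ν (M.bas i) κ|) * (b / C * Real.exp (-μ))
      ≤ Q * (b / C * Real.exp (-μ)) := by gcongr
    _ = (Q * b / C) * Real.exp (-μ) := by ring
    _ ≤ 1 * Real.exp (-μ) := by
        gcongr
        rw [div_le_one hC0, hC]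
        linarith
    _ = _ := one_mul _

/-- **pure and mixed part** of a letter which is moved by a contracting vertical. -/
theorem exists_pure_mixed (M : BModel S π) (w : GI M → Prop) [DecidablePred w] :
    ∃ C : ℝ, 1 ≤ C ∧ ∀ (fam : GI M → M.L) (Y : GI M → ℝ) (Λ : ℝ), 1 ≤ Λ →
      (∀ i, Real.exp (Y i) • eg M i ∈ Bx M.c fam Λ) →
      ∀ (T : M.L →ₗ[ℝ] M.L) (Λ' : ℝ) (v : Fin k → ℝ), IsLie T → (∀ x ∈ Mw M w, T x ∈ Mw M w) →
      1 ≤ Λ' → Grow M T Λ' v → ∀ T₁ : M.L →ₗ[ℝ] M.L, ∀ μ : ℝ,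
      NearRound M w Y v (Real.log (C * Λ ^ M.c * Λ') + μ) → ∀ i, w i →
      (∀ j, |M.bas.repr (T₁ (eg M i)) j| ≤ 1 ∧
        (M.bas.repr (T₁ (eg M i)) j ≠ 0 → M.wt j = wg M i)) →
      ∃ p ∈ Bx M.c (rst (fun i => T (eg M i)) w) C, ∃ x ∈ Bx M.c fam (Real.exp (-μ)),
        T (T₁ (eg M i)) = p + x := by
  classical
  obtain ⟨C₁, hC₁, h₁⟩ := exists_mix_small M w
  let I := fun ν : (Fin k → ℝ) →ₗ[ℝ] ℝ => {κ : KL (GI M) M.c //
      ((κ : List (GI M)).map (wg M)).sum = ν}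
  have hex : ∀ ν, ∃ a : M.L →ₗ[ℝ] (I ν → ℝ), ∀ y ∈ Submodule.span ℝ (Set.range fun κ : I ν =>
      mon (eg M) (κ : List (GI M))), ∑ i, a y i • mon (eg M) (i : List (GI M)) = y := fun ν =>
    exists_coeff _
  choose a ha using hex
  set Q : ℝ := ∑ i₀ : GI M, ∑ κ : I (wg M i₀), ∑ i, |a (wg M i₀) (M.bas i) κ| with hQ
  have hQ0 : 0 ≤ Q := by positivity
  set B : ℝ := ∑ κ ∈ KL (GI M) M.c, ∑ j, |M.bas.repr (mon (eg M) κ) j| with hB
  have hB0 : 0 ≤ B := by positivity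
  refine ⟨Q + C₁ * (Q * B + 1), by nlinarith [mul_nonneg hQ0 hB0], ?_⟩
  intro fam Y Λ hΛ hfam T Λ' v hT hTM hΛ' hG T₁ μ hNR i₀ hi₀ hT₁
  set C : ℝ := Q + C₁ * (Q * B + 1) with hC
  by_cases hc : 1 ≤ M.c
  swap
  · have h0 : eg M i₀ = 0 := by
      have := M.nilC.nil (eg M) [i₀] (by simp; omega)
      simpa using this
    refine ⟨0, Bx_zero_mem (by nlinarith [mul_nonneg hQ0 hB0]), 0, Bx_zero_mem (Real.exp_pos _).le, ?_⟩
    rw [h0, map_zero, map_zero, add_zero]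
  set ν := wg M i₀ with hν
  set y := T₁ (eg M i₀) with hy
  have hys := ha ν y (mem_span_mon_wt ν fun i hi => (hT₁ i).2 hi)
  have hq : ∑ κ : I ν, ∑ i, |a ν (M.bas i) κ| ≤ Q := by
    rw [hQ, hν]
    exact Finset.single_le_sum (f := fun i₀ : GI M => ∑ κ : I (wg M i₀),
      ∑ i, |a (wg M i₀) (M.bas i) κ|) (fun i _ => Finset.sum_nonneg fun _ _ =>
        Finset.sum_nonneg fun _ _ => abs_nonneg _) (Finset.mem_univ i₀)
  have haκ : ∀ κ, |a ν y κ| ≤ ∑ i, |a ν (M.bas i) κ| := fun κ => by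
    have := abs_apply_le (a ν) y (B := 1) (fun i => (hT₁ i).1) κ
    rwa [mul_one] at this
  set p : M.L := ∑ κ : I ν, (if ∀ i ∈ (κ : List (GI M)), w i then a ν y κ else 0) •
    T (mon (eg M) (κ : List (GI M))) with hp
  set x : M.L := ∑ κ : I ν, (if ∀ i ∈ (κ : List (GI M)), w i then 0 else a ν y κ) •
    T (mon (eg M) (κ : List (GI M))) with hx
  have hsum : T y = p + x := by
    conv_lhs => rw [← hys]
    rw [map_sum, hp, hx, ← Finset.sum_add_distrib]
    refine Finset.sum_congr rfl fun κ _ => ?_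
    rw [map_smul]
    split_ifs
    · rw [zero_smul, add_zero]
    · rw [zero_smul, zero_add]
  refine ⟨p, ?_, x, ?_, hsum⟩
  · -- the pure part
    have h1 : p ∈ Bx M.c (rst (fun i => T (eg M i)) w) (∑ κ : I ν, ∑ i, |a ν (M.bas i) κ|) := by
      refine Bx_sum _ _ _ fun κ _ => ?_
      split_ifs with hκ
      · have h2 := Bx_smul (mon_mem_Bx (M.nilC.nil (rst (fun i => T (eg M i)) w))
          (κ : List (GI M))) (a ν y κ)
        rw [mon_rst_of w hκ, hT.mon] at h2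
        refine Bx_mono ?_ h2
        rw [mul_one]; exact haκ κ
      · rw [zero_smul]
        exact Bx_zero_mem (by positivity)
    refine Bx_mono ?_ h1
    nlinarith [mul_nonneg hQ0 hB0]
  · -- the mixed part
    have hxM : x ∈ Mw M w := by
      refine Submodule.sum_mem _ fun κ _ => ?_
      split_ifs with hκ
      · rw [zero_smul]; exact Submodule.zero_mem _
      · exact Submodule.smul_mem _ _ (hTM _ (Submodule.subset_span ⟨_, hκ, rfl⟩))
    have hterm : ∀ κ : I ν, ∀ i, |M.bas.repr (T (mon (eg M) (κ : List (GI M)))) i| ≤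
        (∑ j, |M.bas.repr (mon (eg M) (κ : List (GI M))) j|) * (Λ' * Real.exp (ν v)) := by
      intro κ i
      exact hG.le (by linarith) ν _ (fun j hj => (repr_mon_wt _ j hj).trans κ.2) i
    have hwt : ∀ i, M.bas.repr x i ≠ 0 → M.wt i = ν := by
      intro i hi
      rw [hx, map_sum, Finsupp.finsetSum_apply] at hi
      obtain ⟨κ, _, hκ⟩ := Finset.exists_ne_zero_of_sum_ne_zero hi
      rw [map_smul, Finsupp.smul_apply, smul_eq_mul] at hκ
      have hκ' := right_ne_zero_of_mul hκ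
      have e1 : M.bas.repr (T (mon (eg M) (κ : List (GI M)))) i =
          ∑ j, M.bas.repr (mon (eg M) (κ : List (GI M))) j * M.bas.repr (T (M.bas j)) i := by
        conv_lhs => rw [← M.bas.sum_repr (mon (eg M) (κ : List (GI M)))]
        rw [map_sum, map_sum, Finsupp.finsetSum_apply]
        exact Finset.sum_congr rfl fun j _ => by rw [map_smul, map_smul]; rfl
      rw [e1] at hκ'
      obtain ⟨j, _, hj⟩ := Finset.exists_ne_zero_of_sum_ne_zero hκ'
      rw [(hG i j).2 (right_ne_zero_of_mul hj), repr_mon_wt _ j (left_ne_zero_of_mul hj), κ.2]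
    have hBκ : ∀ κ : I ν, ∑ j, |M.bas.repr (mon (eg M) (κ : List (GI M))) j| ≤ B := by
      intro κ
      rw [hB]
      exact Finset.single_le_sum (f := fun κ => ∑ j, |M.bas.repr (mon (eg M) κ) j|)
        (fun _ _ => Finset.sum_nonneg fun _ _ => abs_nonneg _) κ.1.2
    have hsize : ∀ i, |M.bas.repr x i| ≤ ((Q * B + 1) * Λ') * Real.exp (ν v) := by
      intro i
      rw [hx, map_sum, Finsupp.finsetSum_apply]
      refine (Finset.abs_sum_le_sum_abs _ _).trans ?_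
      calc ∑ κ : I ν, |M.bas.repr ((if ∀ i ∈ (κ : List (GI M)), w i then 0 else a ν y κ) •
            T (mon (eg M) (κ : List (GI M)))) i|
          ≤ ∑ κ : I ν, (∑ i, |a ν (M.bas i) κ|) * (B * (Λ' * Real.exp (ν v))) := by
            refine Finset.sum_le_sum fun κ _ => ?_
            rw [map_smul, Finsupp.smul_apply, smul_eq_mul, abs_mul]
            have h1 : |if ∀ i ∈ (κ : List (GI M)), w i then 0 else a ν y κ| ≤
                ∑ i, |a ν (M.bas i) κ| := by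
              split_ifs
              · rw [abs_zero]; positivity
              · exact haκ κ
            have h2 := (hterm κ i).trans (mul_le_mul_of_nonneg_right (hBκ κ)
              (by positivity : (0:ℝ) ≤ Λ' * Real.exp (ν v)))
            exact mul_le_mul h1 h2 (abs_nonneg _) (by positivity)
        _ = (∑ κ : I ν, ∑ i, |a ν (M.bas i) κ|) * (B * (Λ' * Real.exp (ν v))) :=
            (Finset.sum_mul _ _ _).symm
        _ ≤ Q * (B * (Λ' * Real.exp (ν v))) := by gcongr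
        _ ≤ _ := by
            have : 0 ≤ Λ' * Real.exp (ν v) := by positivity
            nlinarith
    refine h₁ fam Y Λ hΛ hfam ((Q * B + 1) * Λ') v μ (by positivity) ?_ i₀ hi₀ hc x hxM hwt hsize
    intro κ κ' k1 k2 k3 k4 k5 k6
    refine le_trans ?_ (hNR κ κ' k1 k2 k3 k4 k5 k6)
    have hl : Real.log (C₁ * Λ ^ M.c * ((Q * B + 1) * Λ')) ≤ Real.log (C * Λ ^ M.c * Λ') := by
      have hΛc : 0 < Λ ^ M.c := by positivity
      have hQB : 0 ≤ Q * B := by positivity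
      refine Real.log_le_log (by positivity) ?_
      calc C₁ * Λ ^ M.c * ((Q * B + 1) * Λ') = (C₁ * (Q * B + 1)) * Λ ^ M.c * Λ' := by ring
        _ ≤ C * Λ ^ M.c * Λ' := by
          gcongr
          rw [hC]; linarith
    linarith

end mix

end Crest.Agent.R182.BoxVol
end

-- ▼ part R182/BoxKCore
section

set_option autoImplicit false
set_option linter.unusedSectionVars false

open MeasureTheory Set
open scoped Pointwise ENNReal

namespace Crest.Agent.R182.BoxVol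

open Crest.Agent.R182.Nb Crest.Agent.R182.Core

variable {Γ : Type*} [Group Γ] {k : ℕ} {S : Set Γ} {π : Γ →* Multiplicative (Fin k → ℤ)}

theorem NB_mul_subset {M : BModel S π} {σ : Type*} [Fintype σ] {T A : ℝ}
    (H : M.star.FamConst M.c σ T A) (g : σ → M.L) {s t : ℝ} (hs : 0 ≤ s) (hsT : s ≤ T)
    (ht : 0 ≤ t) (htT : t ≤ T) : M.NB g s * M.NB g t ⊆ M.NB g (A * max s t) := by
  rintro _ ⟨x, hx, y, hy, rfl⟩
  rw [BModel.mem_NB, BModel.E_mul]
  exact H.op_mem g (M.nilC.nil g) s t hs hsT ht htT _ hx _ hy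

theorem exists_K_core (M : BModel S π) (w : GI M → Prop) [DecidablePred w] (R : RayQ M w)
    (A2 C₁ : ℝ) (hA2 : 1 ≤ A2) (hC₁ : 1 ≤ C₁) (ρ : ℝ) (hρ : 0 < ρ) (hρ1 : ρ ≤ 1) :
    ∃ A₁ : ℝ, 1 ≤ A₁ ∧ ∃ C : ℝ, 0 < C ∧ ∃ Ad : ℝ, 1 ≤ Ad ∧
      ∀ (g gY gZ' : GI M → M.L) (T : M.L →ₗ[ℝ] M.L), IsLie T → R.D.Pres T → R.D.qdet T ≠ 0 →
        (∀ i, ¬ w i → R.D.P (g i) = 0) →
        (∀ x : M.L, x ∈ Submodule.span ℝ (Set.range fun κ : List (GI M) => mon g κ)) →
        ∀ e : ℝ, 0 < e → e ≤ 1 → (∀ i, gY i ∈ Bx M.c g e) → (∀ i, w i → gZ' i = T (eg M i)) →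
        (∀ i, ¬ w i → gZ' i ∈ Bx M.c g e) →
        (∀ i, w i → ∃ p ∈ Bx M.c (rst g w) C₁, ∃ k ∈ Bx M.c g e, T (eg M i) = p + k) →
        (M.NB g (A2 * e) * M.NB gY 1 * M.NB gY 1 ⊆ M.NB g Ad) ∧
        (M.NB g (A2 * e) * M.NB gY 1 * mvs R.D ρ T * M.NB gZ' 1 ⊆ M.NB g Ad) ∧
        ((∀ x, R.D.P x = 0 → x ∈ Bx M.c (rst g w) A₁ → x ∈ Bx M.c g e) →
        ∃ m : ℝ≥0∞, m ≠ 0 ∧
          (∀ y : M.NN, lamV R.D ρ T {v | y * v⁻¹ ∈ M.NB g (A2 * e) * M.NB gY 1} ≤ m) ∧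
          m * volume (M.NB g (A2 * e) * M.NB gY 1 * mvs R.D ρ T * M.NB gZ' 1) ≤
            ENNReal.ofReal C * volume (M.NB g (A2 * e))) := by
  obtain ⟨a₁, ha₁, h₁⟩ := exists_Bx_small M.c (GI M) (GI M)
  obtain ⟨B₀, H₀⟩ := M.star.exists_famConst M.c (GI M) (A2 + a₁) (by linarith)
  have hB₀ := H₀.one_le
  set a₂ : ℝ := B₀ * (A2 + a₁) with ha₂
  have ha₂1 : 1 ≤ a₂ := by nlinarith
  set Tm : ℝ := a₂ + C₁ + 1 with hTm
  obtain ⟨A₃, hA₃, h₃⟩ := M.star.exists_S_op M.c (GI M) Tm (by linarith)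
  set A : ℝ := A₃ + C₁ + a₂ with hA
  obtain ⟨A₁, hA₁, h₄⟩ := exists_mulV' M w R A (by linarith)
  obtain ⟨C, hC, h₅⟩ := h₄ 1 le_rfl
  obtain ⟨A₄, hA₄, h₆⟩ := exists_Bx_comp M.c (GI M) (GI M) (C₁ + 1) (by linarith)
  obtain ⟨B₁, H₁⟩ := M.star.exists_famConst M.c (GI M) (A₃ + A₄ * A₃) (by nlinarith)
  obtain ⟨B₂, H₂⟩ := M.star.exists_famConst M.c (GI M) (a₂ + a₁) (by linarith)
  have hB₁ := H₁.one_le
  have hB₂ := H₂.one_le
  have hA₃₄ : 0 ≤ A₄ * A₃ := by positivity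
  refine ⟨A₁, hA₁, C, hC, B₁ * (A₃ + A₄ * A₃) + B₂ * (a₂ + a₁), by nlinarith, ?_⟩
  intro g gY gZ' T hT hP hdet hv hspan e he he1 hgY hgw hgn hpk
  have hNg : Nil M.c g := M.nilC.nil g
  -- `K * A Y`
  have hYg : M.NB gY 1 ⊆ M.NB g (a₁ * e) := by
    intro x hx
    have := h₁ g gY hNg e he.le he1 hgY 1 zero_le_one hx
    rwa [mul_one] at this
  have ha₁e : 0 ≤ a₁ * e := by positivity
  have hA2e : 0 ≤ A2 * e := by positivity
  have hKY : M.NB g (A2 * e) * M.NB gY 1 ⊆ M.NB g (a₂ * e) := by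
    refine (Set.mul_subset_mul_left hYg).trans ((NB_mul_subset H₀ g hA2e (by nlinarith) ha₁e
      (by nlinarith)).trans (BModel.NB_mono ?_))
    rw [ha₂, mul_assoc]
    refine mul_le_mul_of_nonneg_left (max_le ?_ ?_) (by linarith)
    · nlinarith
    · nlinarith
  have ha₂e : a₂ * e ≤ a₂ := by nlinarith
  -- the letters of the moves
  have hTg : ∀ i, w i → T (eg M i) ∈ Bx M.c g (C₁ + 1) := by
    intro i hi
    obtain ⟨p, hp, x, hx, hpx⟩ := hpk i hi
    rw [hpx]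
    refine Bx_mono ?_ (Bx_add (Bx_rst_subset g C₁ (by linarith) hp) hx)
    linarith
  have hrst : rst gZ' w = rst (fun i => T (eg M i)) w := rst_congr' hgw
  have hprod : M.NB g (A2 * e) * M.NB gY 1 * mvs R.D ρ T * M.NB gZ' 1 ⊆
      M.NB g (A₃ * e) * M.NB (rst (fun i => T (eg M i)) w) A₃ := by
    rintro _ ⟨_, ⟨k, hk, u, hu, rfl⟩, n, hn, rfl⟩
    have hk' := hKY hk
    have hu' := R.mvs_subset hT hρ.le hu
    obtain ⟨k', hk', u', hu', heq⟩ := h₃ g gZ' w hNg (M.nilC.nil _) e he.le he1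
      (fun i hi => by
        rw [hgw i hi]
        exact Bx_mono (by linarith) (hTg i hi)) hgn (M.E k)
      (Bx_mono (by
        have : a₂ * e ≤ Tm * e := by
          refine mul_le_mul_of_nonneg_right ?_ he.le
          linarith
        exact this) hk') (M.E u)
      (by
        rw [hrst]
        exact Bx_mono (by linarith) hu') (M.E n) (Bx_mono (by linarith) hn)
    refine ⟨M.E.symm k', ?_, M.E.symm u', ?_, ?_⟩
    · rw [BModel.mem_NB, LinearEquiv.apply_symm_apply]; exact hk'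
    · rw [BModel.mem_NB, LinearEquiv.apply_symm_apply, ← hrst]; exact hu'
    · apply M.E.injective
      change M.E (M.E.symm k' * M.E.symm u') = M.E (k * u * n)
      rw [BModel.E_mul, BModel.E_mul, BModel.E_mul, heq, LinearEquiv.apply_symm_apply,
        LinearEquiv.apply_symm_apply]
  have hfg : ∀ i, rst (fun i => T (eg M i)) w i ∈ Bx M.c g (C₁ + 1) := by
    intro i
    unfold rst
    split_ifs with hi
    · exact hTg i hi
    · exact Bx_zero_mem (by linarith)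
  have hUg : M.NB (rst (fun i => T (eg M i)) w) A₃ ⊆ M.NB g (A₄ * A₃) := by
    intro x hx
    exact h₆ g _ hNg hfg A₃ (by linarith) hx
  refine ⟨?_, ?_, ?_⟩
  · refine (Set.mul_subset_mul hKY hYg).trans ((NB_mul_subset H₂ g (by positivity) (by nlinarith)
      ha₁e (by nlinarith)).trans (BModel.NB_mono ?_))
    have h7 : max (a₂ * e) (a₁ * e) ≤ a₂ + a₁ := max_le (by nlinarith) (by nlinarith)
    have h8 : B₂ * max (a₂ * e) (a₁ * e) ≤ B₂ * (a₂ + a₁) :=
      mul_le_mul_of_nonneg_left h7 (by linarith)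
    have h9 : 0 ≤ B₁ * (A₃ + A₄ * A₃) := by positivity
    linarith
  · refine hprod.trans ((Set.mul_subset_mul_left hUg).trans ((NB_mul_subset H₁ g (by positivity)
      (by nlinarith) hA₃₄ (by linarith)).trans (BModel.NB_mono ?_)))
    have h7 : max (A₃ * e) (A₄ * A₃) ≤ A₃ + A₄ * A₃ := max_le (by nlinarith) (by linarith)
    have h8 : B₁ * max (A₃ * e) (A₄ * A₃) ≤ B₁ * (A₃ + A₄ * A₃) :=
      mul_le_mul_of_nonneg_left h7 (by linarith)
    have h9 : 0 ≤ B₂ * (a₂ + a₁) := by positivity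
    linarith
  · intro h2
    obtain ⟨m₀, hm1, hm2⟩ := h₅ g T hT hP hdet hv e he he1
      (fun i hi => by
        obtain ⟨p, hp, x, hx, hpx⟩ := hpk i hi
        refine ⟨p, Bx_mono (by linarith) hp, x, Bx_mono ?_ hx, hpx⟩
        have : 1 * e ≤ A * e := mul_le_mul_of_nonneg_right (by linarith) he.le
        linarith)
      (fun x hx1 hx2 => by rw [one_mul]; exact h2 x hx1 hx2)
    set P : Set M.NN := M.NB g (A * e) * M.NB (rst (fun i => T (eg M i)) w) A with hPdef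
    have hPc : IsCompact P := (BModel.isCompact_NB M _ _).mul (BModel.isCompact_NB M _ _)
    have hPt : volume P ≠ ∞ := hPc.measure_lt_top.ne
    have hsub1 : M.NB g e ⊆ P := by
      intro x hx
      refine ⟨x, BModel.NB_mono ?_ hx, 1, BModel.NB_one_mem (by linarith), mul_one x⟩
      have : 1 * e ≤ A * e := mul_le_mul_of_nonneg_right (by linarith) he.le
      linarith
    have hv0 : volume (M.NB g e) ≠ 0 := (BModel.volume_NB_pos hNg hspan he).ne'
    have hP0 : volume P ≠ 0 := fun h => hv0 (measure_mono_null hsub1 h)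
    refine ⟨ENNReal.ofReal C * volume (M.NB g e) / volume P, ?_, ?_, ?_⟩
    · refine ENNReal.div_ne_zero.2 ⟨mul_ne_zero ?_ hv0, hPt⟩
      rw [Ne, ENNReal.ofReal_eq_zero, not_le]; exact hC
    · intro y
      have h7 : m₀ ≤ ENNReal.ofReal C * volume (M.NB g e) / volume P :=
        (ENNReal.le_div_iff_mul_le (Or.inl hP0) (Or.inl hPt)).2 hm2
      refine (measure_mono ?_).trans ((hm1 ρ hρ.le (by linarith) y).trans h7)
      intro v hv'
      refine BModel.NB_mono ?_ (hKY hv')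
      exact mul_le_mul_of_nonneg_right (by linarith) he.le
    · have hsub2 : M.NB g (A₃ * e) * M.NB (rst (fun i => T (eg M i)) w) A₃ ⊆ P :=
        Set.mul_subset_mul (BModel.NB_mono (mul_le_mul_of_nonneg_right (by linarith) he.le))
          (BModel.NB_mono (by linarith))
      calc ENNReal.ofReal C * volume (M.NB g e) / volume P *
            volume (M.NB g (A2 * e) * M.NB gY 1 * mvs R.D ρ T * M.NB gZ' 1)
          ≤ ENNReal.ofReal C * volume (M.NB g e) / volume P * volume P := by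
            gcongr
            exact hprod.trans hsub2
        _ = ENNReal.ofReal C * volume (M.NB g e) := ENNReal.div_mul_cancel hP0 hPt
        _ ≤ ENNReal.ofReal C * volume (M.NB g (A2 * e)) := by
            gcongr
            refine BModel.NB_mono ?_
            nlinarith

end Crest.Agent.R182.BoxVol
end

-- ▼ part R182/ElK
section

set_option autoImplicit false
set_option linter.unusedSectionVars false

open MeasureTheory Set
open scoped Pointwise RealInnerProductSpace ENNReal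

namespace Crest.Agent.R182.ElI

open Crest.GroupTheory Crest.Geometry Crest.Agent.R182.QI Crest.Agent.R182.Core
  Crest.Agent.R182.Nb Crest.Agent.R182.Gen

variable {Γ : Type*} [Group Γ] {k : ℕ} {S : Set Γ} {π : Γ →* Multiplicative (Fin k → ℤ)}
variable {M : BModel S π}

section leg

variable {E : Type*} [NormedAddCommGroup E] [InnerProductSpace ℝ E]

/-- the legs: heights and growth of the adjoint action, up to `e^{δ S}` -/
def LegOK (G : Geo M E) (δ Sc τ : ℝ) (u : G.R → M.G) : Prop :=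
  ∀ r : G.R, ∀ n : ℕ, n * τ ≤ 2 → leg u τ r (n * τ) ∈ M.C ∧
    ‖G.T (M.h (leg u τ r (n * τ))) - (n * τ * Sc) • (r : E)‖ ≤ δ * Sc ∧
    BoxVol.Grow M (M.Ad (leg u τ r (n * τ)) : M.L →ₗ[ℝ] M.L) (Real.exp (δ * Sc))
      (M.h (leg u τ r (n * τ))) ∧
    BoxVol.Grow M (M.Ad (leg u τ r (n * τ))⁻¹ : M.L →ₗ[ℝ] M.L) (Real.exp (δ * Sc))
      (M.h (leg u τ r (n * τ))⁻¹)

theorem Grow.mono {T : M.L →ₗ[ℝ] M.L} {Λ Λ' : ℝ} {v : Fin k → ℝ} (h : BoxVol.Grow M T Λ v)
    (hΛ : Λ ≤ Λ') : BoxVol.Grow M T Λ' v := fun i j =>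
  ⟨(h i j).1.trans (mul_le_mul_of_nonneg_right hΛ (Real.exp_pos _).le), (h i j).2⟩

theorem ev_legOK (G : Geo M E) {δ : ℝ} (hδ : 0 < δ) (RC Cb : ℝ) :
    Ev G RC Cb fun Sc τ u => LegOK G δ Sc τ u := by
  obtain ⟨A, hA, h⟩ := BoxVol.exists_grow_Ad M RC
  refine ⟨1, one_pos, fun τ hτ _ => ?_⟩
  obtain ⟨S0, hS0, h1⟩ := exists_poly_le A (2 * |Cb|) M.d hδ
  refine ⟨δ / 2, by positivity, S0, fun Sc hSc un r n hn => ?_⟩
  have hSc0 : 0 < Sc := by linarith
  have hlen : ((un.wl r (num τ (n * τ))).length : ℝ) ≤ 2 * |Cb| * Sc := by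
    refine (un.wl_len_leg r hτ hSc0 (by positivity)).trans ?_
    calc Cb * (n * τ) * Sc ≤ |Cb| * (n * τ) * Sc := by
          gcongr
          exact le_abs_self _
      _ ≤ |Cb| * 2 * Sc := by gcongr
      _ = _ := by ring
  have hpoly : A * (1 + ((un.wl r (num τ (n * τ))).length : ℝ)) ^ M.d ≤ Real.exp (δ * Sc) := by
    refine le_trans ?_ (h1 Sc hSc)
    gcongr
  refine ⟨un.leg_mem_C r _, ?_, ?_, ?_⟩
  · refine (un.height_leg' r hτ n).trans ?_
    calc δ / 2 * (n * τ) * Sc ≤ δ / 2 * 2 * Sc := by gcongr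
      _ = δ * Sc := by ring
  · have h2 := h (un.wl r (num τ (n * τ))) (un.wl_mem r _)
    rw [un.wl_prod_leg] at h2
    exact Grow.mono h2 hpoly
  · set l := ((un.wl r (num τ (n * τ))).map fun x => x⁻¹).reverse with hl
    have h2 := h l (by
      intro s hs
      rw [hl, List.mem_reverse, List.mem_map] at hs
      obtain ⟨x, hx, rfl⟩ := hs
      have := un.wl_mem r _ x hx
      exact ⟨M.C.inv_mem this.1, by rw [M.isLen.inv]; exact this.2⟩)
    have e1 : l.prod = (leg un.u τ r (n * τ))⁻¹ := by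
      rw [← un.wl_prod_leg, List.prod_inv_reverse]
    have e2 : l.length = (un.wl r (num τ (n * τ))).length := by
      rw [hl, List.length_reverse, List.length_map]
    rw [e1, e2] at h2
    exact Grow.mono h2 hpoly

/-- **near-roundness** at the end of a leg -/
theorem nearRound_of (G : Geo M E) {γ : ℝ} (hγ : Gap G γ) {l0 l1 : ℝ} (hl0 : 0 < l0)
    (hl : ∀ i, l0 ≤ G.RS.lam i ∧ G.RS.lam i ≤ l1) {ω δ Sc : ℝ} (hSc : 0 ≤ Sc)
    (hω : (1 + (M.c : ℝ)) * l1 * (16 * ω) ≤ γ * l0) (hδ : (1 + (M.c : ℝ)) * l1 * (16 * δ) ≤ γ * l0)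
    (hω1 : ω ≤ 1 / 16) (hδ0 : 0 ≤ δ) {Z : G.R → ℝ}
    (hZ : ∀ r, |Z r - 1| ≤ ω) (w : G.R) {v : Fin k → ℝ}
    (hv : ‖G.T v - (Z w * Sc) • (w : E)‖ ≤ δ * Sc) :
    BoxVol.NearRound M (fun i => G.ray i = w) (sd G Sc Z) v (γ * l0 / 2 * Sc) := by
  intro κ κ' hne hκ hlen hlen' hκ' hsum
  have hω0 : 0 ≤ ω := (abs_nonneg _).trans (hZ w)
  have hl1 : 0 < l1 := by
    have hex : ∃ i : GI M, i ∈ κ := List.exists_mem_of_ne_nil κ hne
    obtain ⟨i, _⟩ := hex
    linarith [(hl i).1, (hl i).2]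
  set Λ : ℝ := (κ.map G.RS.lam).sum with hΛ
  -- the height of the pure word
  have h1 : (κ.map (wg M)).sum v = Λ * ⟪(w : E), G.T v⟫ := sum_wg_ray G w κ hκ v
  have h2 : ⟪(w : E), G.T v⟫ ≤ (Z w + δ) * Sc := by
    have e1 : ⟪(w : E), G.T v⟫ = ⟪(w : E), G.T v - (Z w * Sc) • (w : E)⟫ + Z w * Sc := by
      rw [inner_sub_right, inner_smul_right, real_inner_self_eq_norm_sq, G.norm_ray]; ring
    have e2 : ⟪(w : E), G.T v - (Z w * Sc) • (w : E)⟫ ≤ δ * Sc := by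
      refine (real_inner_le_norm _ _).trans ?_
      rw [G.norm_ray, one_mul]; exact hv
    rw [e1]; linarith
  have hΛ0 : 0 ≤ Λ := List.sum_nonneg fun x hx => by
    obtain ⟨j, _, rfl⟩ := List.mem_map.1 hx
    exact G.RS.lam_nonneg j
  have hΛc : Λ ≤ M.c * l1 := by
    have aux : ∀ κ : List (GI M), (κ.map G.RS.lam).sum ≤ κ.length * l1 := by
      intro κ
      induction κ with
      | nil => simp
      | cons i κ ih =>
        rw [List.map_cons, List.sum_cons, List.length_cons]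
        push_cast
        linarith [(hl i).2]
    refine (aux κ).trans ?_
    gcongr
  -- comparison with the mixed word
  have h3 : Λ = (κ'.map fun i => G.RS.lam i * ⟪(G.ray i : E), (w : E)⟫).sum := by
    have e1 := LinearMap.congr_fun hsum (G.T.symm (w : E))
    rw [sum_wg_ray G w κ hκ, LinearEquiv.apply_symm_apply, real_inner_self_eq_norm_sq,
      G.norm_ray, one_pow, mul_one] at e1
    rw [hΛ, e1, M.sum_wt_apply]
    congr 1
    refine List.map_congr_left fun i _ => ?_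
    rw [G.wg_ray, LinearEquiv.apply_symm_apply]
  have hin : ∀ i : GI M, ⟪(G.ray i : E), (w : E)⟫ ≤ 1 := fun i => by
    refine (real_inner_le_norm _ _).trans ?_
    rw [G.norm_ray, G.norm_ray, one_mul]
  have h4 : Λ + γ * l0 ≤ (κ'.map G.RS.lam).sum := by
    rw [h3]
    clear h3 hsum hlen'
    induction κ' with
    | nil => exact absurd (by simp) hκ'
    | cons i κ' ih =>
      rw [List.map_cons, List.sum_cons, List.map_cons, List.sum_cons]
      have h5 : ∀ κ' : List (GI M), (κ'.map fun i => G.RS.lam i * ⟪(G.ray i : E), (w : E)⟫).sum ≤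
          (κ'.map G.RS.lam).sum := by
        intro κ'
        refine List.sum_le_sum fun j _ => ?_
        have := hin j
        nlinarith [G.lam_pos j]
      by_cases hi : G.ray i = w
      · have h6 := ih fun h => hκ' (List.forall_mem_cons.2 ⟨hi, h⟩)
        have h7 : G.RS.lam i * ⟪(G.ray i : E), (w : E)⟫ ≤ G.RS.lam i := by
          have := hin i
          nlinarith [G.lam_pos i]
        linarith
      · have h6 := h5 κ'
        have h7 := hγ.2.2 (G.ray i) w hi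
        have h8 : G.RS.lam i * ⟪(G.ray i : E), (w : E)⟫ + γ * l0 ≤ G.RS.lam i := by
          have h9 := mul_le_mul_of_nonneg_left h7 (G.lam_pos i).le
          have h10 := mul_le_mul_of_nonneg_left (hl i).1 hγ.1.le
          linarith
        linarith
  have h5 : (1 - ω) * Sc * (κ'.map G.RS.lam).sum ≤ (κ'.map (sd G Sc Z)).sum := by
    rw [← List.sum_map_mul_left]
    refine List.sum_le_sum fun j _ => ?_
    unfold sd
    have h6 := (abs_le.1 (hZ (G.ray j))).1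
    have h7 : 0 ≤ Sc * G.RS.lam j := mul_nonneg hSc (G.lam_pos j).le
    nlinarith
  rw [h1]
  have hZw := (abs_le.1 (hZ w)).2
  have h6 : Λ * ⟪(w : E), G.T v⟫ ≤ Λ * ((1 + ω + δ) * Sc) := by
    refine mul_le_mul_of_nonneg_left (h2.trans ?_) hΛ0
    gcongr
    linarith
  have h7 : (1 - ω) * Sc * (Λ + γ * l0) ≤ (1 - ω) * Sc * (κ'.map G.RS.lam).sum := by
    have : 0 ≤ (1 - ω) * Sc := mul_nonneg (by linarith) hSc
    gcongr
  have h8 : Λ * (2 * ω + δ) ≤ 3 / 16 * (γ * l0) := by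
    have hc0 : (0:ℝ) ≤ M.c := Nat.cast_nonneg _
    have e1 : Λ ≤ (1 + (M.c : ℝ)) * l1 := by nlinarith
    have e2 : Λ * (2 * ω + δ) ≤ (1 + (M.c : ℝ)) * l1 * (2 * ω + δ) := by gcongr
    linarith
  have h9 : ω * (γ * l0) ≤ 1 / 16 * (γ * l0) := by
    have := hγ.1
    gcongr
  have h10 : 0 ≤ γ * l0 := by
    have := hγ.1
    positivity
  have h11 : Λ * (1 + ω + δ) + γ * l0 / 2 ≤ (1 - ω) * (Λ + γ * l0) := by nlinarith
  have h12 := mul_le_mul_of_nonneg_right h11 hSc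
  linarith

end leg

/-- pure relations are as small as one wants in near-round boxes -/
theorem exists_nr_small (M : BModel S π) (w : GI M → Prop) [DecidablePred w] (A₁ : ℝ)
    (hA₁ : 0 ≤ A₁) : ∃ C : ℝ, 1 ≤ C ∧ ∀ (fam : GI M → M.L) (Y : GI M → ℝ) (Λ : ℝ), 1 ≤ Λ →
      (∀ i, Real.exp (Y i) • eg M i ∈ Bx M.c fam Λ) →
      ∀ (T : M.L →ₗ[ℝ] M.L) (Λ' : ℝ) (v : Fin k → ℝ), BoxVol.IsLie T → 1 ≤ Λ' →
      BoxVol.Grow M T Λ' v → ∀ μ : ℝ, 0 ≤ μ →
      BoxVol.NearRound M w Y v (Real.log (C * Λ ^ M.c * Λ') + M.c * (M.c * μ)) →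
      ∀ x ∈ BoxVol.Mw M w, x ∈ Bx M.c (rst (fun i => T (eg M i)) w) A₁ →
        x ∈ Bx M.c fam (Real.exp (-μ)) := by
  obtain ⟨C, hC, h⟩ := BoxVol.exists_nearRound M w A₁ hA₁
  refine ⟨C, hC, ?_⟩
  intro fam Y Λ hΛ hfam T Λ' v hT hΛ' hG μ hμ hNR x hxM hx
  have he0 : 0 < Real.exp (-μ) := Real.exp_pos _
  have he1 : Real.exp (-μ) ≤ 1 := Real.exp_le_one_iff.2 (by linarith)
  have hμc : 0 ≤ (M.c : ℝ) * μ := by positivity
  have h1 := h (fun i => Real.exp (-μ) • fam i) Y (Λ * Real.exp (M.c * μ))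
    (by
      have : 1 ≤ Real.exp (M.c * μ) := Real.one_le_exp hμc
      nlinarith)
    (fun i => by
      refine Bx_small_fam he0 he1 (by positivity) ?_
      refine Bx_mono (le_of_eq ?_) (hfam i)
      rw [← Real.exp_nat_mul, mul_left_comm, ← Real.exp_add]
      have : (M.c : ℝ) * -μ + M.c * μ = 0 := by ring
      rw [this, Real.exp_zero, mul_one])
    T Λ' v hT hΛ' hG (by
      have e1 : Real.log (C * (Λ * Real.exp (M.c * μ)) ^ M.c * Λ') =
          Real.log (C * Λ ^ M.c * Λ') + M.c * (M.c * μ) := by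
        have e2 : C * (Λ * Real.exp (M.c * μ)) ^ M.c * Λ' =
            (C * Λ ^ M.c * Λ') * Real.exp (M.c * (M.c * μ)) := by
          rw [mul_pow, ← Real.exp_nat_mul]; ring
        rw [e2, Real.log_mul (by positivity) (Real.exp_pos _).ne', Real.log_exp]
      rw [e1]
      exact hNR) x hxM hx
  have h2 := Bx_of_small_fam he0 he1 zero_le_one h1
  rwa [mul_one] at h2

section dom

variable {E : Type*} [NormedAddCommGroup E] [InnerProductSpace ℝ E]

/-- boxes of near-round shapes lie in the domain -/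
theorem exists_dom (G : Geo M E) {l1 : ℝ} (hl1 : 1 ≤ l1) (hl : ∀ i, G.RS.lam i ≤ l1) (Ad : ℝ)
    (hAd : 0 ≤ Ad) : ∃ S0 : ℝ, 1 ≤ S0 ∧ ∀ Sc, S0 ≤ Sc → ∀ (u : G.R → M.G) (τ : ℝ) (Z : G.R → ℝ),
      (∀ r, 0 ≤ Z r) → (∀ r, Z r ≤ 2) →
      (∀ i, fm G u τ Z i ∈ Bx M.c (gZ (eg M) (sd G Sc Z)) (Real.exp (1 * Sc))) →
      M.NB (fm G u τ Z) Ad ⊆ {n | ‖n‖ ≤ Real.exp ((M.c * (2 * l1) + M.c + 1) * Sc)} := by
  classical
  set B : ℝ := ∑ κ ∈ KL (GI M) M.c, ∑ j, |M.bas.repr (mon (eg M) κ) j| with hB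
  have hB0 : 0 ≤ B := by positivity
  set D : ℝ := (KL (GI M) M.c).card * brC (GI M) M.c ^ M.c with hD
  have hbr := brC_pos (GI M) M.c
  have hD0 : 0 ≤ D := by positivity
  obtain ⟨S0, hS0, h⟩ := exists_poly_le (Ad * D * B) 0 0 one_pos
  refine ⟨S0, hS0, fun Sc hSc u τ Z hZ0 hZ2 hfm n hn => ?_⟩
  have hSc0 : 0 ≤ Sc := by linarith
  have h1 := h Sc hSc
  rw [pow_zero, mul_one] at h1
  have h2 := Bx_comp_poly (M.nilC.nil (gZ (eg M) (sd G Sc Z)))
    (Real.one_le_exp (by linarith : 0 ≤ 1 * Sc)) hfm (show M.E n ∈ Bx M.c (fm G u τ Z) Ad from hn)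
  refine (pi_norm_le_iff_of_nonneg (x := (n : Fin M.r → ℝ)) (Real.exp_pos _).le).2 fun i => ?_
  have hrep : |M.bas.repr (M.E n) i| ≤ Real.exp ((M.c * (2 * l1) + M.c + 1) * Sc) → 
      ‖(n : Fin M.r → ℝ) i‖ ≤ Real.exp ((M.c * (2 * l1) + M.c + 1) * Sc) := by
    rw [M.repr_E n i]; exact id
  refine hrep ?_
  obtain ⟨a, ha, hx⟩ := h2
  rw [hx, map_sum, Finsupp.finsetSum_apply]
  refine (Finset.abs_sum_le_sum_abs _ _).trans ?_
  have h3 : ∀ κ ∈ KL (GI M) M.c, |M.bas.repr (a κ • mon (gZ (eg M) (sd G Sc Z)) κ) i| ≤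
      (∑ j, |M.bas.repr (mon (eg M) κ) j|) *
        (Ad * (D * Real.exp (1 * Sc) ^ M.c) * Real.exp (M.c * (2 * l1) * Sc)) := by
    intro κ hκ
    rw [mem_KL] at hκ
    rw [mon_gZ, map_smul, map_smul, Finsupp.smul_apply, Finsupp.smul_apply, smul_eq_mul,
      smul_eq_mul, abs_mul, abs_mul, abs_of_pos (Real.exp_pos _)]
    have h4 : (κ.map (sd G Sc Z)).sum ≤ M.c * (2 * l1) * Sc := by
      have h5 : ∀ κ : List (GI M), (κ.map (sd G Sc Z)).sum ≤ κ.length * (2 * l1 * Sc) := by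
        intro κ
        induction κ with
        | nil => simp
        | cons j κ ih =>
          rw [List.map_cons, List.sum_cons, List.length_cons]
          push_cast
          have h6 : sd G Sc Z j ≤ 2 * l1 * Sc := by
            unfold sd
            have h7 : G.RS.lam j * Z (G.ray j) ≤ l1 * 2 :=
              mul_le_mul (hl j) (hZ2 _) (hZ0 _) (by linarith)
            nlinarith
          linarith
      refine (h5 κ).trans ?_
      have : (κ.length : ℝ) ≤ M.c := by exact_mod_cast hκ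
      have h8 : 0 ≤ 2 * l1 * Sc := by positivity
      nlinarith
    have h5 : |M.bas.repr (mon (eg M) κ) i| ≤ ∑ j, |M.bas.repr (mon (eg M) κ) j| :=
      Finset.single_le_sum (f := fun j => |M.bas.repr (mon (eg M) κ) j|)
        (fun _ _ => abs_nonneg _) (Finset.mem_univ i)
    have h6 := ha κ
    have h7 : 0 ≤ Ad * (D * Real.exp (1 * Sc) ^ M.c) := (abs_nonneg _).trans h6
    calc |a κ| * (Real.exp ((κ.map (sd G Sc Z)).sum) * |M.bas.repr (mon (eg M) κ) i|)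
        ≤ (Ad * (D * Real.exp (1 * Sc) ^ M.c)) * (Real.exp (M.c * (2 * l1) * Sc) *
          ∑ j, |M.bas.repr (mon (eg M) κ) j|) := by
          refine mul_le_mul h6 ?_ (by positivity) h7
          exact mul_le_mul (Real.exp_le_exp.2 h4) h5 (abs_nonneg _) (Real.exp_pos _).le
      _ = _ := by ring
  refine (Finset.sum_le_sum h3).trans ?_
  rw [← Finset.sum_mul, ← hB]
  calc B * (Ad * (D * Real.exp (1 * Sc) ^ M.c) * Real.exp (M.c * (2 * l1) * Sc))
      = (Ad * D * B) * Real.exp (M.c * Sc) * Real.exp (M.c * (2 * l1) * Sc) := by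
        rw [← Real.exp_nat_mul, one_mul]; ring
    _ ≤ Real.exp (1 * Sc) * Real.exp (M.c * Sc) * Real.exp (M.c * (2 * l1) * Sc) := by gcongr
    _ = _ := by rw [← Real.exp_add, ← Real.exp_add]; congr 1; ring

end dom

theorem exists_KYY (M : BModel S π) (σ : Type*) [Fintype σ] (A2 : ℝ) (hA2 : 1 ≤ A2) :
    ∃ Ad : ℝ, 0 ≤ Ad ∧ ∀ (g gY : σ → M.L) (e : ℝ), 0 < e → e ≤ 1 → (∀ i, gY i ∈ Bx M.c g e) →
      M.NB g (A2 * e) * M.NB gY 1 * M.NB gY 1 ⊆ M.NB g Ad := by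
  obtain ⟨a₁, ha₁, h₁⟩ := exists_Bx_small M.c σ σ
  obtain ⟨B₀, H₀⟩ := M.star.exists_famConst M.c σ (A2 + a₁) (by linarith)
  have hB₀ := H₀.one_le
  set a₂ : ℝ := B₀ * (A2 + a₁) with ha₂
  have ha₂1 : 1 ≤ a₂ := by nlinarith
  obtain ⟨B₂, H₂⟩ := M.star.exists_famConst M.c σ (a₂ + a₁) (by linarith)
  have hB₂ := H₂.one_le
  refine ⟨B₂ * (a₂ + a₁), by positivity, ?_⟩
  intro g gY e he he1 hgY
  have hYg : M.NB gY 1 ⊆ M.NB g a₁ := by
    intro x hx
    have := h₁ g gY (M.nilC.nil g) e he.le he1 hgY 1 zero_le_one hx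
    refine BModel.NB_mono ?_ this
    nlinarith
  have hKY : M.NB g (A2 * e) * M.NB gY 1 ⊆ M.NB g a₂ := by
    refine (Set.mul_subset_mul_left hYg).trans ((BoxVol.NB_mul_subset H₀ g (by positivity)
      (by nlinarith) (by linarith) (by linarith)).trans (BModel.NB_mono ?_))
    rw [ha₂]
    refine mul_le_mul_of_nonneg_left (max_le ?_ ?_) (by linarith)
    · nlinarith
    · linarith
  refine (Set.mul_subset_mul hKY hYg).trans ((BoxVol.NB_mul_subset H₂ g (by linarith)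
    (by linarith) (by linarith) (by linarith)).trans (BModel.NB_mono ?_))
  refine mul_le_mul_of_nonneg_left (max_le ?_ ?_) (by linarith)
  · linarith
  · linarith

section main

variable {E : Type} [NormedAddCommGroup E] [InnerProductSpace ℝ E]

theorem leg_split {G : Geo M E} (u : G.R → M.G) {τ : ℝ} (hτ : 0 < τ) (w : G.R) {m n : ℕ}
    (h : m ≤ n) : leg u τ w (m * τ) = leg u τ w (n * τ) * (leg u τ w ((n - m : ℕ) * τ))⁻¹ := by
  unfold leg
  rw [num_mul hτ, num_mul hτ, num_mul hτ, eq_mul_inv_iff_mul_eq, ← pow_add,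
    Nat.add_sub_cancel' h]

theorem Mw_Ad (G : Geo M E) (w : G.R) (R : BoxVol.RayQ M fun i => G.ray i = w) {g : M.G}
    (hg : g ∈ M.C) : ∀ x ∈ BoxVol.Mw M (fun i => G.ray i = w),
      (M.Ad g : M.L →ₗ[ℝ] M.L) x ∈ BoxVol.Mw M fun i => G.ray i = w := by
  classical
  intro x hx
  rw [← R.ker] at hx ⊢
  exact BoxVol.RayQ.pres_Ad R (isRay G w) hg x hx

/-- **letters of the moves**: pure part and small mixed part. -/
theorem pk_of (G : Geo M E) {γ : ℝ} (hγ : Gap G γ) {l0 l1 : ℝ} (hl0 : 0 < l0)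
    (hl : ∀ i, l0 ≤ G.RS.lam i ∧ G.RS.lam i ≤ l1) (w : G.R)
    [DecidablePred fun i : GI M => G.ray i = w]
    (R : BoxVol.RayQ M fun i => G.ray i = w) {C₁ : ℝ} (hC₁ : 1 ≤ C₁)
    (hPM : ∀ (fam : GI M → M.L) (Y : GI M → ℝ) (Λ : ℝ), 1 ≤ Λ →
      (∀ i, Real.exp (Y i) • eg M i ∈ Bx M.c fam Λ) →
      ∀ (T : M.L →ₗ[ℝ] M.L) (Λ' : ℝ) (v : Fin k → ℝ), BoxVol.IsLie T →
      (∀ x ∈ BoxVol.Mw M (fun i => G.ray i = w), T x ∈ BoxVol.Mw M fun i => G.ray i = w) →
      1 ≤ Λ' → BoxVol.Grow M T Λ' v → ∀ T₁ : M.L →ₗ[ℝ] M.L, ∀ μ : ℝ,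
      BoxVol.NearRound M (fun i => G.ray i = w) Y v (Real.log (C₁ * Λ ^ M.c * Λ') + μ) →
      ∀ i, G.ray i = w → (∀ j, |M.bas.repr (T₁ (eg M i)) j| ≤ 1 ∧
        (M.bas.repr (T₁ (eg M i)) j ≠ 0 → M.wt j = wg M i)) →
      ∃ p ∈ Bx M.c (rst (fun i => T (eg M i)) fun i => G.ray i = w) C₁,
        ∃ x ∈ Bx M.c fam (Real.exp (-μ)), T (T₁ (eg M i)) = p + x)
    {ω δ Sc τ ε μ : ℝ} (hSc : 0 < Sc) (hτ : 0 < τ)
    (hω : (1 + (M.c : ℝ)) * l1 * (16 * ω) ≤ γ * l0) (hδ : (1 + (M.c : ℝ)) * l1 * (16 * δ) ≤ γ * l0)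
    (hω1 : ω ≤ 1 / 16) (hδ0 : 0 < δ) (hδε : δ ≤ l0 * ε / 4) (hδε' : δ ≤ ε / 2) (hε : 0 < ε)
    {u : G.R → M.G} (hleg : LegOK G δ Sc τ u) {Z : G.R → ℝ} (hZ : adm τ ω Z)
    (hZ2 : ∀ r, Z r ≤ 2)
    (hg2 : ∀ i, gZ (eg M) (sd G Sc Z) i ∈ Bx M.c (fm G u τ Z) (Real.exp (δ * Sc)))
    (hμ : Real.log (C₁ * Real.exp (δ * Sc) ^ M.c * Real.exp (δ * Sc)) + μ ≤ γ * l0 / 2 * Sc)
    {m : ℕ} (hm : m * τ = Z w ∨ m * τ + ε ≤ Z w) :
    ∀ i, G.ray i = w → ∃ p ∈ Bx M.c (rst (fm G u τ Z) fun i => G.ray i = w) C₁,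
      ∃ x ∈ Bx M.c (fm G u τ Z) (Real.exp (-μ)),
        (M.Ad (leg u τ w (m * τ)) : M.L →ₗ[ℝ] M.L) (eg M i) = p + x := by
  intro i hi
  obtain ⟨⟨n, hn⟩, hNR⟩ := hZ
  have hmn : m ≤ n w := by
    have : (m : ℝ) * τ ≤ n w * τ := by
      rw [← hn]
      rcases hm with h | h
      · exact h.le
      · linarith
    exact_mod_cast le_of_mul_le_mul_right this hτ
  have hnw := hleg w (n w) (by rw [← hn]; exact hZ2 w)
  obtain ⟨hC, hht, hG, -⟩ := hnw
  have hgeq : rst (fun i => (M.Ad (leg u τ w (Z w)) : M.L →ₗ[ℝ] M.L) (eg M i))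
      (fun i => G.ray i = w) = rst (fm G u τ Z) fun i => G.ray i = w :=
    rst_congr' fun j hj => (fm_w u Z w j hj).symm
  have hge1 : 1 ≤ Real.exp (δ * Sc) := Real.one_le_exp (by positivity)
  have key := hPM (fm G u τ Z) (sd G Sc Z) (Real.exp (δ * Sc)) hge1 (fun j => hg2 j)
    (M.Ad (leg u τ w (Z w)) : M.L →ₗ[ℝ] M.L) (Real.exp (δ * Sc)) (M.h (leg u τ w (Z w)))
    (BoxVol.RayQ.isLie_Ad _) (Mw_Ad G w R (by rw [hn]; exact hC)) hge1 (by rw [hn]; exact hG)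
    (M.Ad (leg u τ w ((n w - m : ℕ) * τ))⁻¹ : M.L →ₗ[ℝ] M.L) μ
    (by
      have h1 := nearRound_of G hγ hl0 hl hSc.le hω hδ hω1 hδ0.le hNR w
        (v := M.h (leg u τ w (Z w))) (by
          have := hht
          rw [← hn] at this
          exact this)
      intro κ κ' k1 k2 k3 k4 k5 k6
      exact le_trans (by linarith) (h1 κ κ' k1 k2 k3 k4 k5 k6))
    i hi ?_
  · rw [hgeq] at key
    have hsplit : (M.Ad (leg u τ w (m * τ)) : M.L →ₗ[ℝ] M.L) (eg M i) =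
        (M.Ad (leg u τ w (Z w)) : M.L →ₗ[ℝ] M.L)
          ((M.Ad (leg u τ w ((n w - m : ℕ) * τ))⁻¹ : M.L →ₗ[ℝ] M.L) (eg M i)) := by
      rw [hn w, leg_split u hτ w hmn]
      change M.Ad (_ * _) (eg M i) = M.Ad _ (M.Ad _ (eg M i))
      rw [map_mul]; rfl
    rw [hsplit]
    exact key
  · -- the contracting vertical
    intro j
    rcases hm with hm | hm
    · have hmn' : n w - m = 0 := by
        have : (m : ℝ) * τ = n w * τ := by rw [← hn]; exact hm
        have := mul_right_cancel₀ hτ.ne' this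
        have : m = n w := by exact_mod_cast this
        omega
      rw [hmn', Nat.cast_zero, zero_mul, leg_zero, inv_one, map_one]
      change |M.bas.repr (eg M i) j| ≤ 1 ∧ (M.bas.repr (eg M i) j ≠ 0 → _)
      rw [eg, M.bas.repr_self, Finsupp.single_apply]
      split_ifs with h
      · refine ⟨by rw [abs_one], fun _ => ?_⟩
        rw [← h]; rfl
      · exact ⟨by rw [abs_zero]; exact zero_le_one, fun h => absurd rfl h⟩
    · have hsub : ((n w - m : ℕ) : ℝ) * τ = Z w - m * τ := by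
        rw [Nat.cast_sub hmn, sub_mul, hn]
      have h2 : ((n w - m : ℕ) : ℝ) * τ ≤ 2 := by
        rw [hsub]
        have : 0 ≤ (m : ℝ) * τ := by positivity
        linarith [hZ2 w]
      obtain ⟨hC', hht', -, hG'⟩ := hleg w (n w - m) h2
      have h3 := hG' j i
      refine ⟨?_, fun h => h3.2 h⟩
      by_cases h0 : M.bas.repr ((M.Ad (leg u τ w ((n w - m : ℕ) * τ))⁻¹ : M.L →ₗ[ℝ] M.L)
          (eg M i)) j = 0
      · rw [h0, abs_zero]; exact zero_le_one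
      · refine h3.1.trans ?_
        rw [← Real.exp_add]
        refine Real.exp_le_one_iff.2 ?_
        have hwt : M.wt j = M.wt i := h3.2 h0
        rw [hwt, M.h_inv, map_neg]
        have h4 : wg M i (M.h (leg u τ w ((n w - m : ℕ) * τ))) =
            G.RS.lam i * ⟪(w : E), G.T (M.h (leg u τ w ((n w - m : ℕ) * τ)))⟫ := by
          rw [G.wg_ray, hi]
        have h5 : ((n w - m : ℕ) * τ) * Sc - δ * Sc ≤
            ⟪(w : E), G.T (M.h (leg u τ w ((n w - m : ℕ) * τ)))⟫ := by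
          have e1 : ⟪(w : E), G.T (M.h (leg u τ w ((n w - m : ℕ) * τ)))⟫ =
              ⟪(w : E), G.T (M.h (leg u τ w ((n w - m : ℕ) * τ))) -
                ((n w - m : ℕ) * τ * Sc) • (w : E)⟫ + (n w - m : ℕ) * τ * Sc := by
            rw [inner_sub_right, inner_smul_right, real_inner_self_eq_norm_sq, G.norm_ray]; ring
          have e2 := (abs_le.1 (abs_real_inner_le_norm (w : E)
            (G.T (M.h (leg u τ w ((n w - m : ℕ) * τ))) -
                ((n w - m : ℕ) * τ * Sc) • (w : E)))).1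
          rw [G.norm_ray, one_mul] at e2
          rw [e1]
          linarith
        have h6 : ε / 2 * Sc ≤ ⟪(w : E), G.T (M.h (leg u τ w ((n w - m : ℕ) * τ)))⟫ := by
          refine le_trans ?_ h5
          rw [hsub, ← sub_mul]
          refine mul_le_mul_of_nonneg_right ?_ hSc.le
          linarith
        have h7 : l0 * (ε / 2 * Sc) ≤ wg M i (M.h (leg u τ w ((n w - m : ℕ) * τ))) := by
          rw [h4]
          exact mul_le_mul (hl i).1 h6 (by positivity) (G.lam_pos i).le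
        have h8 : δ * Sc ≤ l0 * ε / 4 * Sc := by gcongr
        have h9 : 0 ≤ l0 * ε * Sc := by positivity
        change δ * Sc + -(wg M i (M.h (leg u τ w ((n w - m : ℕ) * τ)))) ≤ 0
        linarith

end main

end Crest.Agent.R182.ElI
end

-- ▼ part R182/ElK2
section

set_option autoImplicit false
set_option linter.unusedSectionVars false

open MeasureTheory Set
open scoped Pointwise RealInnerProductSpace ENNReal

namespace Crest.Agent.R182.ElI

open Crest.GroupTheory Crest.Geometry Crest.Agent.R182.QI Crest.Agent.R182.Core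
  Crest.Agent.R182.Nb Crest.Agent.R182.Gen

variable {Γ : Type*} [Group Γ] {k : ℕ} {S : Set Γ} {π : Γ →* Multiplicative (Fin k → ℤ)}
variable {M : BModel S π} {E : Type} [NormedAddCommGroup E] [InnerProductSpace ℝ E]

/-- pure relations are small -/
theorem h2_of (G : Geo M E) {γ : ℝ} (hγ : Gap G γ) {l0 l1 : ℝ} (hl0 : 0 < l0)
    (hl : ∀ i, l0 ≤ G.RS.lam i ∧ G.RS.lam i ≤ l1) (w : G.R)
    [DecidablePred fun i : GI M => G.ray i = w]
    (R : BoxVol.RayQ M fun i => G.ray i = w) {Cn A₁ : ℝ}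
    (hNS : ∀ (fam : GI M → M.L) (Y : GI M → ℝ) (Λ : ℝ), 1 ≤ Λ →
      (∀ i, Real.exp (Y i) • eg M i ∈ Bx M.c fam Λ) →
      ∀ (T : M.L →ₗ[ℝ] M.L) (Λ' : ℝ) (v : Fin k → ℝ), BoxVol.IsLie T → 1 ≤ Λ' →
      BoxVol.Grow M T Λ' v → ∀ μ : ℝ, 0 ≤ μ →
      BoxVol.NearRound M (fun i => G.ray i = w) Y v
        (Real.log (Cn * Λ ^ M.c * Λ') + M.c * (M.c * μ)) →
      ∀ x ∈ BoxVol.Mw M (fun i => G.ray i = w),
        x ∈ Bx M.c (rst (fun i => T (eg M i)) fun i => G.ray i = w) A₁ →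
        x ∈ Bx M.c fam (Real.exp (-μ)))
    {ω δ Sc τ μ : ℝ} (hSc : 0 < Sc)
    (hω : (1 + (M.c : ℝ)) * l1 * (16 * ω) ≤ γ * l0) (hδ : (1 + (M.c : ℝ)) * l1 * (16 * δ) ≤ γ * l0)
    (hω1 : ω ≤ 1 / 16) (hδ0 : 0 < δ) (hμ0 : 0 ≤ μ)
    {u : G.R → M.G} (hleg : LegOK G δ Sc τ u) {Z : G.R → ℝ} (hZ : adm τ ω Z)
    (hZ2 : ∀ r, Z r ≤ 2)
    (hg2 : ∀ i, gZ (eg M) (sd G Sc Z) i ∈ Bx M.c (fm G u τ Z) (Real.exp (δ * Sc)))
    (hμ : Real.log (Cn * Real.exp (δ * Sc) ^ M.c * Real.exp (δ * Sc)) + M.c * (M.c * μ) ≤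
      γ * l0 / 2 * Sc) :
    ∀ x, R.D.P x = 0 → x ∈ Bx M.c (rst (fm G u τ Z) fun i => G.ray i = w) A₁ →
      x ∈ Bx M.c (fm G u τ Z) (Real.exp (-μ)) := by
  intro x hx hxA
  obtain ⟨⟨n, hn⟩, hNR⟩ := hZ
  have hnw := hleg w (n w) (by rw [← hn]; exact hZ2 w)
  obtain ⟨hC, hht, hG, -⟩ := hnw
  have hgeq : rst (fun i => (M.Ad (leg u τ w (Z w)) : M.L →ₗ[ℝ] M.L) (eg M i))
      (fun i => G.ray i = w) = rst (fm G u τ Z) fun i => G.ray i = w :=
    rst_congr' fun j hj => (fm_w u Z w j hj).symm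
  have hge1 : 1 ≤ Real.exp (δ * Sc) := Real.one_le_exp (by positivity)
  refine hNS (fm G u τ Z) (sd G Sc Z) (Real.exp (δ * Sc)) hge1 (fun j => hg2 j)
    (M.Ad (leg u τ w (Z w)) : M.L →ₗ[ℝ] M.L) (Real.exp (δ * Sc)) (M.h (leg u τ w (Z w)))
    (BoxVol.RayQ.isLie_Ad _) hge1 (by rw [hn]; exact hG) μ hμ0 ?_ x ((R.ker x).1 hx)
    (by rw [hgeq]; exact hxA)
  have h1 := nearRound_of G hγ hl0 hl hSc.le hω hδ hω1 hδ0.le hNR w
    (v := M.h (leg u τ w (Z w))) (by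
      have := hht
      rw [← hn] at this
      exact this)
  intro κ κ' k1 k2 k3 k4 k5 k6
  exact le_trans (by linarith) (h1 κ κ' k1 k2 k3 k4 k5 k6)

/-- the letters of `Y` are small in the box of `Y + b` -/
theorem tiny_of (G : Geo M E) {γ : ℝ} (hγ : Gap G γ) {l0 : ℝ} (hl0 : 0 < l0)
    (hl : ∀ i, l0 ≤ G.RS.lam i) {ω δ Sc τ b τ' : ℝ} (hSc : 0 < Sc) (hωγ : ω ≤ γ / 16)
    (hb : 0 < b) (hτ' : 0 < τ') (hτb : τ' < b) (hδ : δ ≤ l0 * τ')
    {u : G.R → M.G} {Y : G.R → ℝ} (hY : adm τ ω Y)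
    (h5 : ∀ r : G.R, ∀ m : ℕ, m * τ ≤ 2 → ∀ μ, 0 ≤ μ →
        (∀ i, Sc * (G.RS.lam i * (⟪(G.ray i : E), (r : E)⟫ * (m * τ))) + μ + δ * Sc ≤
          sd G Sc (fun r => Y r + b) i) →
          Sm M (fm G u τ fun r => Y r + b) (Real.exp (-μ)) (leg u τ r (m * τ))) (i : GI M) :
    fm G u τ Y i ∈ Bx M.c (fm G u τ fun r => Y r + b) (Real.exp (-(l0 * (b - τ') * Sc))) := by
  obtain ⟨⟨n, hn⟩, hNR⟩ := hY
  have hω1 : ω ≤ 1 / 16 := by linarith [hγ.2.1]
  have hYb : ∀ r, 1 - ω ≤ Y r ∧ Y r ≤ 1 + ω := fun r => by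
    have := abs_le.1 (hNR r)
    constructor <;> linarith [this.1, this.2]
  have hγ0 := hγ.1
  have hω0 : 0 ≤ ω := (abs_nonneg _).trans (hNR (G.ray i))
  set r := G.ray i with hr
  have hbτ : 0 < b - τ' := by linarith
  have h6 := h5 r (n r) (by rw [← hn]; linarith [(hYb r).2]) (l0 * (b - τ') * Sc) (by positivity)
    ?_ i
  · rw [← hn] at h6
    exact h6
  · intro j
    rw [← hn]
    have hlj := G.lam_pos j
    have key : G.RS.lam j * (⟪(G.ray j : E), (r : E)⟫ * Y r) + l0 * b ≤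
        G.RS.lam j * (Y (G.ray j) + b) := by
      have h7 : l0 * b ≤ G.RS.lam j * b := mul_le_mul_of_nonneg_right (hl j) hb.le
      by_cases hj : G.ray j = r
      · rw [hj, real_inner_self_eq_norm_sq, G.norm_ray, one_pow, one_mul]
        linarith
      · have h8 := hγ.2.2 (G.ray j) r hj
        have h9 : ⟪(G.ray j : E), (r : E)⟫ * Y r ≤ (1 - γ) * (1 + ω) := by
          calc ⟪(G.ray j : E), (r : E)⟫ * Y r ≤ (1 - γ) * Y r := by
                gcongr
                linarith [(hYb r).1]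
            _ ≤ (1 - γ) * (1 + ω) := by
                have : 0 ≤ 1 - γ := by linarith [hγ.2.1]
                gcongr
                exact (hYb r).2
        have h10 : (1 - γ) * (1 + ω) ≤ Y (G.ray j) := by
          have h11 := (hYb (G.ray j)).1
          have h12 := mul_nonneg hγ0.le hω0
          have h13 : (1 - γ) * (1 + ω) = 1 + ω - γ - γ * ω := by ring
          linarith
        have h11 := mul_le_mul_of_nonneg_left (h9.trans h10) hlj.le
        linarith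
    have h12 := mul_le_mul_of_nonneg_left key hSc.le
    unfold sd
    have h13 : δ * Sc ≤ l0 * τ' * Sc := by gcongr
    have h14 : Sc * (G.RS.lam j * (⟪(G.ray j : E), (r : E)⟫ * Y r) + l0 * b) =
        Sc * (G.RS.lam j * (⟪(G.ray j : E), (r : E)⟫ * Y r)) + l0 * (b - τ') * Sc +
          l0 * τ' * Sc := by ring
    linarith

/-- logarithmic bookkeeping -/
theorem log_bd {C δ Sc : ℝ} (c : ℕ) (hC : 1 ≤ C) :
    Real.log (C * Real.exp (δ * Sc) ^ c * Real.exp (δ * Sc)) = Real.log C + (c + 1) * (δ * Sc) := by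
  rw [← Real.exp_nat_mul, mul_assoc, ← Real.exp_add, Real.log_mul (by linarith)
    (Real.exp_pos _).ne', Real.log_exp]
  ring

set_option maxHeartbeats 1600000 in
/-- **`KFacts`** for `K = NB (fm (Y + b)) (A2 e^{-l0 (b - τ') S})`. -/
theorem kfacts_ev (G : Geo M E) [FiniteDimensional ℝ E] [DecidableEq G.R] {l0 : ℝ} (hl0 : 0 < l0)
    (hl : ∀ i, l0 ≤ G.RS.lam i) :
    ∃ κD0 ω0 b0 : ℝ, 0 ≤ κD0 ∧ 0 < ω0 ∧ 0 < b0 ∧ ∀ (cs : Cst G) (J : ℕ), C1ok M J cs.c1 →
      0 < cs.ρV → cs.ρV ≤ 1 → κD0 ≤ cs.κD → ∀ A2 : ℝ, 1 ≤ A2 → ∃ CK : ℝ, 1 ≤ CK ∧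
      ∀ (κ C c0 : ℝ) (J' : ℕ) (hκ : 1 ≤ κ) (hκ' : G.RS.Gt G.RS.lam ≤ κ) (hC : 1 ≤ C)
        (hc0 : 0 < c0), CK ≤ C → ∀ ω, ω ≤ ω0 → ∀ b, 0 < b → b ≤ b0 → ∀ τ', 0 < τ' → τ' < b →
      ∀ ε, 0 < ε → ε ≤ b → ∀ (δ : ℝ) (q : ℕ) (RC Cb : ℝ),
      Ev G RC Cb fun Sc τ u => ∀ Y : G.R → ℝ, adm τ ω Y → adm τ ω (fun r => Y r + b) →
        ∀ (Ψ : Γ → Γ) (x : M.G),
        El.KFacts (mdl cs κ C c0 J' hκ hκ' hC hc0) (data G cs Ψ x Sc τ u) (par Sc ε δ ω q τ) Y b
          (M.NB (fm G u τ fun r => Y r + b) (A2 * Real.exp (-(l0 * (b - τ') * Sc)))) := by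
  obtain ⟨γ, hγ⟩ := exists_gap G
  obtain ⟨_, l1, _, _, hl1, hlb⟩ := exists_lam G
  have hlu : ∀ i, G.RS.lam i ≤ l1 := fun i => (hlb i).2
  have hlc : ∀ i, l0 ≤ G.RS.lam i ∧ G.RS.lam i ≤ l1 := fun i => ⟨hl i, hlu i⟩
  have hγ0 := hγ.1
  set c : ℝ := (M.c : ℝ) with hc
  have hc0' : 0 ≤ c := Nat.cast_nonneg _
  set W : ℝ := γ * l0 / (16 * ((1 + c) * l1)) with hW
  have hW0 : 0 < W := by positivity
  have hWle : ∀ y, y ≤ W → (1 + c) * l1 * (16 * y) ≤ γ * l0 := by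
    intro y hy
    have h1 : W * (16 * ((1 + c) * l1)) = γ * l0 := div_mul_cancel₀ _ (by positivity)
    have h2 : y * (16 * ((1 + c) * l1)) ≤ W * (16 * ((1 + c) * l1)) := by gcongr
    linarith
  refine ⟨c * (2 * l1) + c + 1, min (γ / 16) W, γ / (8 * (1 + c) ^ 2), by positivity,
    lt_min (by positivity) hW0, by positivity, ?_⟩
  intro cs J hcJ hρ hρ1 hκD A2 hA2
  have hPM := fun w : G.R => BoxVol.exists_pure_mixed M (fun i => G.ray i = w)
  choose C₁ hC₁ hPM using hPM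
  have hCore := fun w : G.R => BoxVol.exists_K_core M (fun i => G.ray i = w) (cs.RQ w) A2 (C₁ w)
    hA2 (hC₁ w) cs.ρV hρ hρ1
  choose A₁ hA₁ CC hCC Ad hAd hCore using hCore
  have hNS := fun w : G.R => exists_nr_small M (fun i => G.ray i = w) (A₁ w) (by linarith [hA₁ w])
  choose Cn hCn hNS using hNS
  obtain ⟨Ad0, hAd0, hKYY⟩ := exists_KYY M (GI M) A2 hA2
  obtain ⟨CK, hCK1, hCK⟩ := exists_ge fun w : G.R => CC w / (2 * cs.ρV) ^ (cs.RQ w).n
  obtain ⟨AdM, hAdM1, hAdM⟩ := exists_ge Ad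
  have hAdT0 : 0 ≤ max Ad0 AdM := le_max_of_le_left hAd0
  obtain ⟨S1, hS1, hdom⟩ := exists_dom G hl1 hlu (max Ad0 AdM) hAdT0
  obtain ⟨L₁, hL₁, hL⟩ := exists_ge fun w : G.R => |Real.log (C₁ w)| + |Real.log (Cn w)|
  refine ⟨CK, hCK1, ?_⟩
  intro κ C c0 J' hκ hκ' hC hc0 hCKC ω hω b hb hbb τ' hτ' hτb ε hε hεb δ q RC Cb
  have hωγ : ω ≤ γ / 16 := hω.trans (min_le_left _ _)
  have hωW : ω ≤ W := hω.trans (min_le_right _ _)
  have hω1 : ω ≤ 1 / 16 := by linarith [hγ.2.1]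
  set δ₀ : ℝ := min (min W (l0 * τ')) (min (l0 * ε / 4) (min (ε / 2) 1)) with hδ₀
  have hδ₀0 : 0 < δ₀ := by positivity
  have hδW : δ₀ ≤ W := (min_le_left _ _).trans (min_le_left _ _)
  have hδτ : δ₀ ≤ l0 * τ' := (min_le_left _ _).trans (min_le_right _ _)
  have hδε : δ₀ ≤ l0 * ε / 4 := (min_le_right _ _).trans (min_le_left _ _)
  have hδε' : δ₀ ≤ ε / 2 := ((min_le_right _ _).trans (min_le_right _ _)).trans (min_le_left _ _)
  have hδ1 : δ₀ ≤ 1 := ((min_le_right _ _).trans (min_le_right _ _)).trans (min_le_right _ _)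
  refine (((ev_geo G hγ hδ₀0 0 RC Cb).and (ev_legOK G hδ₀0 RC Cb)).and
    (Ev.scale (max S1 (L₁ * 8 / (γ * l0))))).mono ?_
  rintro Sc τ u hτ hSc ⟨⟨hgeo, hleg⟩, hS⟩ Y hY hYb Ψ x
  have hSc1 : S1 ≤ Sc := (le_max_left _ _).trans hS
  have hScL : L₁ ≤ γ * l0 / 8 * Sc := by
    have h1 := (le_max_right _ _).trans hS
    rw [div_le_iff₀ (by positivity)] at h1
    linarith
  obtain ⟨-, g2, g3, -, g5⟩ := hgeo ω hωγ _ hYb
  have hY2 : ∀ r, Y r ≤ 2 := hY.le_two hω1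
  have hY0 : ∀ r, 0 ≤ Y r := hY.nonneg hω1
  have hYb2 : ∀ r, (fun r => Y r + b) r ≤ 2 := hYb.le_two hω1
  have hYb0 : ∀ r, 0 ≤ (fun r => Y r + b) r := hYb.nonneg hω1
  set g : GI M → M.L := fm G u τ fun r => Y r + b with hg
  set μ : ℝ := l0 * (b - τ') * Sc with hμ
  have hbτ : 0 < b - τ' := by linarith
  have hμ0 : 0 ≤ μ := by positivity
  set e : ℝ := Real.exp (-μ) with he
  have he0 : 0 < e := Real.exp_pos _
  have he1 : e ≤ 1 := Real.exp_le_one_iff.2 (by linarith)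
  have hgY : ∀ i, fm G u τ Y i ∈ Bx M.c g e :=
    tiny_of G hγ hl0 hl hSc hωγ hb hτ' hτb hδτ hY g5
  have hspan := fm_span g2
  have hNilg : Nil M.c g := M.nilC.nil g
  -- the small boxes
  have hAY : ∀ Z : G.R → ℝ, adm τ ω Z → M.NB (fm G u τ Z) (cs.c1 * rho G Z) ⊆
      M.NB (fm G u τ Z) 1 := fun Z hZ => (A_sub G hcJ u hω1 hZ).trans (BModel.NB_mono hcJ.2.1)
  -- the domain
  have hdom' : M.NB g (max Ad0 AdM) ⊆ {n | ‖n‖ ≤ Real.exp (cs.κD * Sc)} := by
    refine (hdom Sc hSc1 u τ _ hYb0 hYb2 (fun i => Bx_mono ?_ (g3 i))).trans fun n hn => ?_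
    · exact Real.exp_le_exp.2 (mul_le_mul_of_nonneg_right hδ1 hSc.le)
    · exact le_trans hn (Real.exp_le_exp.2 (mul_le_mul_of_nonneg_right hκD hSc.le))
  -- bounds for the logarithms
  have hlog : ∀ C' : ℝ, 1 ≤ C' → Real.log C' ≤ L₁ →
      Real.log (C' * Real.exp (δ₀ * Sc) ^ M.c * Real.exp (δ₀ * Sc)) ≤ γ * l0 / 4 * Sc := by
    intro C' hC' hC'L
    rw [log_bd M.c hC']
    have h1 := hWle δ₀ hδW
    have h2 : (1 + c) * δ₀ ≤ γ * l0 / 16 := by
      have h3 : (1 + c) * 1 * (16 * δ₀) ≤ (1 + c) * l1 * (16 * δ₀) := by gcongr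
      linarith
    have h3 : (1 + c) * δ₀ * Sc ≤ γ * l0 / 16 * Sc := by gcongr
    have h4 : ((M.c : ℝ) + 1) * (δ₀ * Sc) = (1 + c) * δ₀ * Sc := by rw [hc]; ring
    rw [h4]
    have h5 : 0 ≤ γ * l0 * Sc := by positivity
    linarith
  have hμb : c * (c * μ) ≤ γ * l0 / 8 * Sc ∧ μ ≤ γ * l0 / 8 * Sc := by
    have h1 : b * (8 * (1 + c) ^ 2) ≤ γ := by
      have := hbb
      rwa [le_div_iff₀ (by positivity)] at this
    have h2 : (b - τ') ≤ b := by linarith
    have h3 : μ ≤ l0 * b * Sc := by rw [hμ]; gcongr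
    have h4 : c * c ≤ (1 + c) ^ 2 := by nlinarith
    have h5 : (1:ℝ) ≤ (1 + c) ^ 2 := by nlinarith
    constructor
    · calc c * (c * μ) = c * c * μ := by ring
        _ ≤ (1 + c) ^ 2 * (l0 * b * Sc) := by gcongr
        _ = (b * (8 * (1 + c) ^ 2)) * (l0 / 8 * Sc) := by ring
        _ ≤ γ * (l0 / 8 * Sc) := by gcongr
        _ = _ := by ring
    · calc μ ≤ 1 * (l0 * b * Sc) := by linarith
        _ ≤ (1 + c) ^ 2 * (l0 * b * Sc) := by gcongr
        _ = (b * (8 * (1 + c) ^ 2)) * (l0 / 8 * Sc) := by ring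
        _ ≤ γ * (l0 / 8 * Sc) := by gcongr
        _ = _ := by ring
  have hLC : ∀ w, Real.log (C₁ w) ≤ L₁ := fun w => by
    have h1 := hL w
    have h2 := le_abs_self (Real.log (C₁ w))
    have h3 := abs_nonneg (Real.log (Cn w))
    beta_reduce at h1
    linarith
  have hLN : ∀ w, Real.log (Cn w) ≤ L₁ := fun w => by
    have h1 := hL w
    have h2 := le_abs_self (Real.log (Cn w))
    have h3 := abs_nonneg (Real.log (C₁ w))
    beta_reduce at h1
    linarith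
  -- the core statement
  have core : ∀ (w : G.R) (t : ℝ), t = 0 ∨ ε ≤ t → t = b ∨ t + ε ≤ b →
      adm τ ω (Function.update Y w (Y w + t)) →
      (M.NB g (A2 * e) * M.NB (fm G u τ Y) 1 *
        BoxVol.mvs (cs.RQ w).D cs.ρV (M.Ad (leg u τ w (Y w + t)) : M.L →ₗ[ℝ] M.L) *
        M.NB (fm G u τ (Function.update Y w (Y w + t))) 1 ⊆ M.NB g (Ad w)) ∧
      ∃ m : ℝ≥0∞, m ≠ 0 ∧
          (∀ y : M.NN, BoxVol.lamV (cs.RQ w).D cs.ρV
            (M.Ad (leg u τ w (Y w + t)) : M.L →ₗ[ℝ] M.L)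
            {v | y * v⁻¹ ∈ M.NB g (A2 * e) * M.NB (fm G u τ Y) 1} ≤ m) ∧
          m * volume (M.NB g (A2 * e) * M.NB (fm G u τ Y) 1 *
            BoxVol.mvs (cs.RQ w).D cs.ρV (M.Ad (leg u τ w (Y w + t)) : M.L →ₗ[ℝ] M.L) *
            M.NB (fm G u τ (Function.update Y w (Y w + t))) 1) ≤
            ENNReal.ofReal (CC w) * volume (M.NB g (A2 * e)) := by
    intro w t ht0 htb hadm
    obtain ⟨n, hn⟩ := hadm.1
    have hnw : (n w : ℝ) * τ = Y w + t := by
      have := hn w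
      rw [Function.update_self] at this
      exact this.symm
    have hlegC : leg u τ w (Y w + t) ∈ M.C := by
      rw [← hnw]
      refine (hleg w (n w) ?_).1
      have := hadm.le_two hω1 w
      rw [Function.update_self] at this
      rw [hnw]; exact this
    have hm : (n w : ℝ) * τ = (fun r => Y r + b) w ∨ n w * τ + ε ≤ (fun r => Y r + b) w := by
      rw [hnw]
      rcases htb with h | h
      · left; rw [h]
      · right
        change Y w + t + ε ≤ Y w + b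
        linarith
    have hpk := pk_of G hγ hl0 hlc w (cs.RQ w) (hC₁ w) (hPM w) hSc hτ (hWle ω hωW)
      (hWle δ₀ hδW) hω1 hδ₀0 hδε hδε' hε hleg hYb hYb2 g2 (μ := μ)
      (by
        have h1 := hlog (C₁ w) (hC₁ w) (hLC w)
        have h2 := hμb.2
        have h3 : 0 ≤ γ * l0 * Sc := by positivity
        linarith) (m := n w) hm
    rw [hnw] at hpk
    have hh2 := h2_of G hγ hl0 hlc w (cs.RQ w) (hNS w) hSc (hWle ω hωW)
      (hWle δ₀ hδW) hω1 hδ₀0 hμ0 hleg hYb hYb2 g2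
      (by
        have h1 := hlog (Cn w) (hCn w) (hLN w)
        have h2 := hμb.1
        have h3 : 0 ≤ γ * l0 * Sc := by positivity
        linarith)
    have hres := hCore w g (fm G u τ Y) (fm G u τ (Function.update Y w (Y w + t)))
      (M.Ad (leg u τ w (Y w + t)) : M.L →ₗ[ℝ] M.L) (BoxVol.RayQ.isLie_Ad _)
      (BoxVol.RayQ.pres_Ad (cs.RQ w) (isRay G w) hlegC)
      (by
        rw [BoxVol.RayQ.qdet_Ad (cs.RQ w) (isRay G w) hlegC]
        exact (Real.exp_pos _).ne')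
      (fun i hi => by
        obtain ⟨n', hn'⟩ := hYb.1
        have hC' : leg u τ (G.ray i) ((fun r => Y r + b) (G.ray i)) ∈ M.C := by
          rw [hn']
          refine (hleg (G.ray i) (n' (G.ray i)) ?_).1
          rw [← hn']; exact hYb2 _
        exact BoxVol.RayQ.pres_Ad (cs.RQ w) (isRay G w) hC' (eg M i)
          (BoxVol.RayQ.P_eg (cs.RQ w) hi))
      hspan e he0 he1 hgY
      (fun i hi => by
        rw [fm_w u _ w i hi, Function.update_self])
      (fun i hi => by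
        have e1 : fm G u τ (Function.update Y w (Y w + t)) i = fm G u τ Y i := by
          change M.Ad (leg u τ (G.ray i) (Function.update Y w (Y w + t) (G.ray i))) (M.bas i) =
            M.Ad (leg u τ (G.ray i) (Y (G.ray i))) (M.bas i)
          rw [Function.update_of_ne hi]
        rw [e1]; exact hgY i)
      hpk
    exact ⟨hres.2.1, hres.2.2 hh2⟩
  refine ⟨M.measurableSet_NB _ _, ?_, (M.volume_NB_lt_top _ _).ne, ?_, ?_, ?_, ?_⟩
  · exact (BModel.volume_NB_pos hNilg hspan (by positivity)).ne'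
  · exact ((BModel.isCompact_NB M _ _).mul (BModel.isCompact_NB M _ _)).measurableSet
  · refine subset_trans ?_ (((hKYY g (fm G u τ Y) e he0 he1 hgY).trans
      (BModel.NB_mono (le_max_left _ _))).trans hdom')
    exact Set.mul_subset_mul (Set.mul_subset_mul subset_rfl (hAY Y hY)) subset_rfl
  · intro w t ht0 htb hadm
    refine subset_trans ?_ (((core w t ht0 htb hadm).1.trans
      (BModel.NB_mono ((hAdM w).trans (le_max_right _ _)))).trans hdom')
    exact Set.mul_subset_mul (Set.mul_subset_mul (Set.mul_subset_mul subset_rfl (hAY Y hY))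
      subset_rfl) subset_rfl
  · intro w t ht0 htb hadm
    obtain ⟨m, hm0, hm1, hm2⟩ := (core w t ht0 htb hadm).2
    refine ⟨m, hm0, fun y => (measure_mono ?_).trans (hm1 y), ?_⟩
    · intro v hv
      exact Set.mul_subset_mul subset_rfl (hAY Y hY) hv
    · have h1 : CC w ≤ C * (2 * cs.ρV) ^ (cs.RQ w).n := by
        have h2 := (hCK w).trans hCKC
        beta_reduce at h2
        rwa [div_le_iff₀ (by positivity)] at h2
      have hvol : volume (M.NB g (A2 * e) * M.NB (fm G u τ Y) (cs.c1 * rho G Y) *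
            BoxVol.mvs (cs.RQ w).D cs.ρV (M.Ad (leg u τ w (Y w + t)) : M.L →ₗ[ℝ] M.L) *
            M.NB (fm G u τ (Function.update Y w (Y w + t)))
              (cs.c1 * rho G (Function.update Y w (Y w + t)))) ≤
          volume (M.NB g (A2 * e) * M.NB (fm G u τ Y) 1 *
            BoxVol.mvs (cs.RQ w).D cs.ρV (M.Ad (leg u τ w (Y w + t)) : M.L →ₗ[ℝ] M.L) *
            M.NB (fm G u τ (Function.update Y w (Y w + t))) 1) :=
        measure_mono (Set.mul_subset_mul (Set.mul_subset_mul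
          (Set.mul_subset_mul subset_rfl (hAY Y hY)) subset_rfl) (hAY _ hadm))
      have hlam : (data G cs Ψ x Sc τ u).lam w (Y w + t) univ =
          ENNReal.ofReal ((2 * cs.ρV) ^ (cs.RQ w).n) := by
        have := BoxVol.lamV_univ (cs.RQ w).D hρ.le
          (M.Ad (leg u τ w (Y w + t)) : M.L →ₗ[ℝ] M.L)
        rw [Fintype.card_fin] at this
        exact this
      rw [hlam]
      calc m * volume (M.NB g (A2 * e) * M.NB (fm G u τ Y) (cs.c1 * rho G Y) *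
            BoxVol.mvs (cs.RQ w).D cs.ρV (M.Ad (leg u τ w (Y w + t)) : M.L →ₗ[ℝ] M.L) *
            M.NB (fm G u τ (Function.update Y w (Y w + t)))
              (cs.c1 * rho G (Function.update Y w (Y w + t))))
          ≤ ENNReal.ofReal (CC w) * volume (M.NB g (A2 * e)) :=
            (mul_le_mul_right hvol m).trans hm2
        _ ≤ ENNReal.ofReal (C * (2 * cs.ρV) ^ (cs.RQ w).n) * volume (M.NB g (A2 * e)) := by
            gcongr
        _ = ENNReal.ofReal C * volume (M.NB g (A2 * e)) *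
            ENNReal.ofReal ((2 * cs.ρV) ^ (cs.RQ w).n) := by
            rw [ENNReal.ofReal_mul (by linarith)]; ring

end Crest.Agent.R182.ElI
end

-- ▼ part R182/ElHole

set_option autoImplicit false
set_option linter.unusedSectionVars false

open MeasureTheory Set
open scoped Pointwise RealInnerProductSpace ENNReal

namespace Crest.Agent.R182.ElI

open Crest.GroupTheory Crest.Geometry Crest.Agent.R182.QI Crest.Agent.R182.Core
  Crest.Agent.R182.Nb Crest.Agent.R182.Gen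

variable {Γ : Type*} [Group Γ] {k : ℕ} {S : Set Γ} {π : Γ →* Multiplicative (Fin k → ℤ)}
variable {M : BModel S π} {E : Type} [NormedAddCommGroup E] [InnerProductSpace ℝ E]

/-- the thin set `K_b` for the round shape `1`, enlarged by `A2` -/
def thin (G : Geo M E) (u : G.R → M.G) (τ Sc l0 b τ' A2 : ℝ) : Set M.NN :=
  M.NB (fm G u τ fun _ => 1 + b) (A2 * Real.exp (-(l0 * (b - τ') * Sc)))

/-- **the enlargement lemma for a model** -/
theorem el_hole (hS : S.Finite) (hcl : Subgroup.closure S = ⊤) [FiniteDimensional ℝ E]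
    (G : Geo M E) [DecidableEq G.R] [Nonempty G.R] (hD : CDist M) (K : ℕ) (RC Cb : ℝ)
    {A2 : ℝ} (hA2 : 1 ≤ A2) {l0 : ℝ} (hl0 : 0 < l0) (hl : ∀ i, l0 ≤ G.RS.lam i) :
    ∃ cs : Cst G, 0 < cs.c1 ∧ 2 * cs.c1 ≤ 1 ∧
    ∃ ω0 : ℝ, 0 < ω0 ∧ ∀ ω : ℝ, 0 < ω → ω ≤ ω0 → ∃ b0 : ℝ, 0 < b0 ∧ b0 ≤ ω ∧
    ∀ b : ℝ, 0 < b → b ≤ b0 → ∀ τ' : ℝ, 0 < τ' → τ' < b →
    ∀ η : ℝ, 0 < η → ∀ β : ℝ, 0 < β → ∃ L : ℕ, 0 < L ∧ ∃ ε1 : ℝ, 0 < ε1 ∧ ∃ δ1 : ℝ, 0 < δ1 ∧
    Ev G RC Cb fun Sc τ u => (∃ n : ℕ, (1 : ℝ) = n * τ) → (∃ n : ℕ, b / L = n * τ) →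
      ∀ Ψ : Γ → Γ, QIMap S S Ψ K → ∀ x : M.G, BoxAt G cs Ψ x Sc τ u ω ε1 δ1 →
      volume {n : M.NN | n ∈ thin G u τ Sc l0 b τ' A2 ∧
        ∃ (w : G.R) (σ σ' : Equiv.Perm G.R) (θ θ' : E),
        LawAt G cs Ψ x Sc τ u ε1 δ1 (fun _ => 1) n σ θ ∧
        LawAt G cs Ψ x Sc τ u ε1 δ1 (Function.update (fun _ => 1) w (1 + b)) n σ' θ' ∧
        ¬ (σ = σ' ∧ ‖θ - θ'‖ ≤ η)} ≤ ENNReal.ofReal β * volume (thin G u τ Sc l0 b τ' A2) := by
  classical
  have hcount : Countable Γ := countable_of_closure hS hcl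
  obtain ⟨CV, hCV, hfacts⟩ := exists_facts (S := S) (π := π) G
    (fun w => (BoxVol.exists_rayQ M (fun i => G.ray i = w)).some) hD K RC Cb
  obtain ⟨κD0, ωK, bK, hκD0, hωK, hbK, hkf⟩ := kfacts_ev G hl0 hl
  obtain ⟨c1, hc1⟩ := (exists_C1ok M).choose_spec
  have hc10 := hc1.1
  set cs : Cst G :=
    { c1 := c1, ρV := min c1 (1 / CV), TU := 1, κD := κD0,
      RQ := fun w => (BoxVol.exists_rayQ M (fun i => G.ray i = w)).some } with hcs
  have hCV0 : 0 < CV := by linarith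
  have hρ1 : CV * cs.ρV ≤ 1 := by
    have h1 : cs.ρV ≤ 1 / CV := min_le_right _ _
    calc CV * cs.ρV ≤ CV * (1 / CV) := mul_le_mul_of_nonneg_left h1 hCV0.le
      _ = 1 := by field_simp
  have hρ0 : 0 < cs.ρV := lt_min hc10 (by positivity)
  have hok : CstOk cs (exists_C1ok M).choose CV :=
    ⟨hc1, hρ0, min_le_left _ _, hρ1, hρ1, le_rfl, hκD0⟩
  have hρ1' : cs.ρV ≤ 1 := (min_le_left c1 (1 / CV)).trans (by linarith [hc1.2.1])
  obtain ⟨CK, hCK1, hkf2⟩ := hkf cs _ hc1 hρ0 hρ1' le_rfl A2 hA2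
  refine ⟨cs, hc10, hc1.2.1, ?_⟩
  obtain ⟨κ1, hκ1, hκG, hF⟩ := hfacts cs _ rfl hok
  obtain ⟨ω₀, hω₀, κ₀, hκ₀, hstick⟩ := exists_stick_ev hS hcl M.C_growth G cs hok.κD K RC Cb
  have hslab := fun {κ : ℝ} (hκ : 0 ≤ κ) {ε : ℝ} (hε : 0 < ε) =>
    exists_slab_ev hS hcl M.C_growth G cs hok.κD K RC Cb hl hκ hε
  obtain ⟨γ, hγ⟩ := exists_gap G
  have hγ0 := hγ.1
  have hκm1 : κ1 ≤ max κ1 κ₀ := le_max_left _ _
  have hκ : 1 ≤ max κ1 κ₀ := hκ1.trans hκm1
  have hκ' : G.RS.Gt G.RS.lam ≤ max κ1 κ₀ := hκG.trans hκm1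
  have hC : 1 ≤ max 1 (max CK (CA M cs.c1)) := le_max_left _ _
  have hCA : CA M cs.c1 ≤ max 1 (max CK (CA M cs.c1)) := le_max_of_le_right (le_max_right _ _)
  have hCK : CK ≤ max 1 (max CK (CA M cs.c1)) := le_max_of_le_right (le_max_left _ _)
  obtain ⟨ω1, hω1, hel⟩ := El.el_K.{0, 0} (mdl cs (max κ1 κ₀) (max 1 (max CK (CA M cs.c1))) l0
    (exists_C1ok M).choose hκ hκ' hC hl0)
  refine ⟨min (min ω1 ωK) (min ω₀ (γ / 16)), by positivity, fun ω hω hωm => ?_⟩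
  have hωω1 : ω ≤ ω1 := hωm.trans ((min_le_left _ _).trans (min_le_left _ _))
  have hωK' : ω ≤ ωK := hωm.trans ((min_le_left _ _).trans (min_le_right _ _))
  have hωω₀ : ω ≤ ω₀ := hωm.trans ((min_le_right _ _).trans (min_le_left _ _))
  have hωγ : ω ≤ γ / 16 := hωm.trans ((min_le_right _ _).trans (min_le_right _ _))
  obtain ⟨b0, hb0, helb⟩ := hel ω hω hωω1
  refine ⟨min (min b0 bK) ω, lt_min (lt_min hb0 hbK) hω, min_le_right _ _,
    fun b hb hbb τ' hτ' hτb η hη β hβ => ?_⟩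
  have hbb0 : b ≤ b0 := hbb.trans ((min_le_left _ _).trans (min_le_left _ _))
  have hbbK : b ≤ bK := hbb.trans ((min_le_left _ _).trans (min_le_right _ _))
  have hbω : b ≤ ω := hbb.trans (min_le_right _ _)
  obtain ⟨L, hL, ε1, hε1, δ1, hδ1, q0, hel3⟩ := helb b hb hbb0 η hη β hβ
  have hε1' : 0 < min ε1 b := lt_min hε1 hb
  refine ⟨L, hL, min ε1 b, hε1', δ1, hδ1, ?_⟩
  have hE1 := hF (max κ1 κ₀) (max 1 (max CK (CA M cs.c1))) l0 (exists_C1ok M).choose hκm1 hκ hκ' hC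
    hCA hl0 le_rfl γ hγ ω hω hωγ (min ε1 b) hε1' δ1 hδ1 q0
    ((hslab (by linarith : (0:ℝ) ≤ max κ1 κ₀) hε1').mono
      fun Sc τ u _ _ h Ψ hΨ x r s h0 h1 z hz0 hz1 X y y' _ r' t _ ht0 _ =>
        h Ψ hΨ x r s h0 h1 z hz0 hz1 X y y' r' t ht0)
    (hstick ω hωω₀ _ (le_max_right _ _) (min ε1 b) hε1')
  have hE2 := hkf2 (max κ1 κ₀) (max 1 (max CK (CA M cs.c1))) l0 (exists_C1ok M).choose hκ hκ' hC
    hl0 hCK ω hωK' b hb hbbK τ' hτ' hτb (min ε1 b) hε1' (min_le_right _ _) δ1 q0 RC Cb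
  refine (hE1.and hE2).mono ?_
  rintro Sc τ u hτ hSc ⟨h1, h2⟩ hone hb' Ψ hΨ x hbox
  have hFacts := h1 Ψ hΨ x hbox
  have hLpos : (0:ℝ) < L := by exact_mod_cast hL
  have hLb : (L : ℝ) * (b / L) = b := by field_simp
  have hAdm1 : adm τ ω (fun _ : G.R => (1:ℝ)) := adm_one hω.le hone
  have hAdm2 : adm τ ω (fun _ : G.R => (1:ℝ) + b) := by
    obtain ⟨n, hn⟩ := hone
    obtain ⟨n', hn'⟩ := hb'
    refine ⟨⟨fun _ => n + L * n', fun _ => ?_⟩, fun _ => ?_⟩
    · push_cast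
      rw [add_mul, mul_assoc, ← hn, ← hn', hLb]
    · rw [add_sub_cancel_left, abs_of_pos hb]; exact hbω
  have hKF := h2 (fun _ => 1) hAdm1 hAdm2 Ψ x
  exact hel3 M.NN M.NN (data G cs Ψ x Sc τ u) (par Sc (min ε1 b) δ1 ω q0 τ) hFacts rfl
    (min_le_left _ _) le_rfl le_rfl (fun _ => 1) (thin G u τ Sc l0 b τ' A2) (fun _ _ => rfl)
    (fun w j hj => adm_lev (by positivity) hone hb' (by rw [hLb]; exact hbω) w hj) hKF

end Crest.Agent.R182.ElI
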