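/-
R182, module HOLE (helper823): measure-theoretic core of "the law at every base point".
-/
import Mathlib

set_option autoImplicit false
set_option linter.unusedSectionVars false

open MeasureTheory Set
open scoped ENNReal

namespace Crest.Agent.R182.HoleNil

theorem measure_le_zero {α : Type*} [MeasurableSpace α] {μ : Measure α} {A : Set α}
    (h : ∀ a, a ∉ A) : μ A ≤ 0 := by
  rw [Set.eq_empty_of_forall_notMem h, measure_empty]

section grp

variable {N : Type*} [Group N] [MeasurableSpace N] [MeasurableMul₂ N] [MeasurableInv N]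
  {μ : Measure N} [SFinite μ] [μ.IsMulLeftInvariant] [μ.IsMulRightInvariant]
  {X : Type*} [PseudoMetricSpace X]

/-- conjugation does not change the measure (no measurability needed) -/
theorem measure_preimage_conj (u : N) (A : Set N) :
    μ ((fun n => u⁻¹ * n * u) ⁻¹' A) = μ A := by
  have : (fun n => u⁻¹ * n * u) ⁻¹' A = (fun n => u⁻¹ * n) ⁻¹' ((fun n => n * u) ⁻¹' A) := rfl
  rw [this, measure_preimage_mul, measure_preimage_mul_right]





/-- a class of functions which is closed under left translations -/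
structure Cls (𝓕 : Set (N → X)) : Prop where
  tr : ∀ f ∈ 𝓕, ∀ g : N, (fun n => f (g * n)) ∈ 𝓕

/-- moves along a word of generators -/
theorem adj_word {𝓕 : Set (N → X)} (h𝓕 : Cls 𝓕) {U K K' : Set N} {η : ℝ} {e : ℝ≥0∞}
    (hadj : ∀ f ∈ 𝓕, ∀ u ∈ U, μ {n | n ∈ K' ∧ η < dist (f (n * u)) (f n)} ≤ e) :
    ∀ l : List N, (∀ u ∈ l, u ∈ U) →
      (∀ l', l' <+: l → ∀ n ∈ K, l'.prod⁻¹ * n * l'.prod ∈ K') → ∀ f ∈ 𝓕,
      μ {n | n ∈ K ∧ l.length * η < dist (f (n * l.prod)) (f n)} ≤ l.length * e := by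
  intro l
  induction l using List.reverseRecOn with
  | nil => intro _ _ f _; simp
  | append_singleton l u ih =>
    intro hU hK f hf
    have ih' := ih (fun v hv => hU v (by simp [hv]))
      (fun l' hl' => hK l' (hl'.trans (List.prefix_append _ _))) f hf
    set g := l.prod with hg
    have hsub : {n | n ∈ K ∧ (l ++ [u]).length * η < dist (f (n * (l ++ [u]).prod)) (f n)} ⊆
        (fun n => g⁻¹ * n * g) ⁻¹' {n | n ∈ K' ∧
          η < dist ((fun n => f (g * n)) (n * u)) ((fun n => f (g * n)) n)} ∪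
        {n | n ∈ K ∧ l.length * η < dist (f (n * g)) (f n)} := by
      rintro n ⟨hn, hd⟩
      by_cases hc : l.length * η < dist (f (n * g)) (f n)
      · exact Or.inr ⟨hn, hc⟩
      · left
        refine ⟨hK l (List.prefix_append _ _) n hn, ?_⟩
        change η < dist (f (g * (g⁻¹ * n * g * u))) (f (g * (g⁻¹ * n * g)))
        have e1 : g * (g⁻¹ * n * g * u) = n * (g * u) := by group
        have e2 : g * (g⁻¹ * n * g) = n * g := by group
        rw [e1, e2]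
        have e3 : (l ++ [u]).prod = g * u := by simp [hg]
        rw [e3] at hd
        have e4 : ((l ++ [u]).length : ℝ) = l.length + 1 := by simp
        rw [e4] at hd
        have h3 := dist_triangle (f (n * (g * u))) (f (n * g)) (f n)
        linarith [not_lt.1 hc]
    refine (measure_mono hsub).trans ((measure_union_le _ _).trans ?_)
    rw [measure_preimage_conj]
    have h1 := hadj _ (h𝓕.tr f hf g) u (hU u (by simp))
    have e4 : ((l ++ [u]).length : ℝ≥0∞) = l.length + 1 := by simp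
    rw [e4, add_mul, one_mul, add_comm]
    exact add_le_add ih' h1

variable [MeasurableSpace X] [OpensMeasurableSpace X] [SecondCountableTopology X]

/-- (E2) spreading: the law of the big box holds at most points of the thin set `K`. -/
theorem spread {𝓕 : Set (N → X)} (h𝓕 : Cls 𝓕) {U K K' B B' : Set N} {η : ℝ} {e e' : ℝ≥0∞}
    {J : ℕ} (hη : 0 ≤ η) (hKm : MeasurableSet K) (hBm : MeasurableSet B)
    (hadj : ∀ f ∈ 𝓕, ∀ u ∈ U, μ {n | n ∈ K' ∧ η < dist (f (n * u)) (f n)} ≤ e)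
    (hconj : ∀ l : List N, l.length ≤ J → (∀ u ∈ l, u ∈ U) → ∀ n ∈ K,
      l.prod⁻¹ * n * l.prod ∈ K')
    (hB : ∀ g ∈ B, ∃ l : List N, l.length ≤ J ∧ (∀ u ∈ l, u ∈ U) ∧ l.prod = g)
    (hKB : ∀ k ∈ K, ∀ g ∈ B, k * g ∈ B')
    {f : N → X} (hf : f ∈ 𝓕) (hfm : Measurable f) {Λ : X}
    (hlaw : μ {g | g ∈ B' ∧ η < dist (f g) Λ} ≤ e') :
    μ {k | k ∈ K ∧ (J + 1) * η < dist (f k) Λ} * μ B ≤ J * e * μ B + e' * μ K := by
  -- pairs where the move changes the profile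
  have hS1 : (μ.prod μ) {p : N × N | p.1 ∈ K ∧ p.2 ∈ B ∧ J * η < dist (f (p.1 * p.2)) (f p.1)} ≤
      J * e * μ B := by
    have hm : MeasurableSet
        {p : N × N | p.1 ∈ K ∧ p.2 ∈ B ∧ J * η < dist (f (p.1 * p.2)) (f p.1)} := by
      refine (measurable_fst hKm).inter ((measurable_snd hBm).inter ?_)
      exact measurableSet_lt measurable_const
        ((hfm.comp (measurable_fst.mul measurable_snd)).dist (hfm.comp measurable_fst))
    rw [Measure.prod_apply_symm hm]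
    have h1 : ∀ g : N, μ ((fun x => (x, g)) ⁻¹'
        {p : N × N | p.1 ∈ K ∧ p.2 ∈ B ∧ J * η < dist (f (p.1 * p.2)) (f p.1)}) ≤
        B.indicator (fun _ => (J : ℝ≥0∞) * e) g := by
      intro g
      by_cases hg : g ∈ B
      · rw [indicator_of_mem hg]
        obtain ⟨l, hl, hlU, rfl⟩ := hB g hg
        have h2 := adj_word (K := K) h𝓕 hadj l hlU (fun l' hl' => hconj l'
          (hl'.length_le.trans hl) (fun u hu => hlU u (hl'.subset hu))) f hf
        refine (measure_mono ?_).trans (h2.trans ?_)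
        · rintro n ⟨hn, _, hd⟩
          refine ⟨hn, lt_of_le_of_lt ?_ hd⟩
          exact mul_le_mul_of_nonneg_right (by exact_mod_cast hl) hη
        · gcongr
      · rw [indicator_of_notMem hg]
        exact measure_le_zero fun n h => hg h.2.1
    refine (lintegral_mono h1).trans ?_
    rw [lintegral_indicator hBm, setLIntegral_const]
  -- pairs where the law fails
  have hS2 : (μ.prod μ) {p : N × N | p.1 ∈ K ∧ p.2 ∈ B ∧ η < dist (f (p.1 * p.2)) Λ} ≤
      e' * μ K := by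
    have hm : MeasurableSet
        {p : N × N | p.1 ∈ K ∧ p.2 ∈ B ∧ η < dist (f (p.1 * p.2)) Λ} := by
      refine (measurable_fst hKm).inter ((measurable_snd hBm).inter ?_)
      exact measurableSet_lt measurable_const
        ((hfm.comp (measurable_fst.mul measurable_snd)).dist measurable_const)
    rw [Measure.prod_apply hm]
    have h1 : ∀ k : N, μ (Prod.mk k ⁻¹'
        {p : N × N | p.1 ∈ K ∧ p.2 ∈ B ∧ η < dist (f (p.1 * p.2)) Λ}) ≤
        K.indicator (fun _ => e') k := by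
      intro k
      by_cases hk : k ∈ K
      · rw [indicator_of_mem hk]
        refine le_trans ?_ hlaw
        rw [← measure_preimage_mul μ k {g | g ∈ B' ∧ η < dist (f g) Λ}]
        refine measure_mono ?_
        rintro g ⟨_, hg, hd⟩
        exact ⟨hKB k hk g hg, hd⟩
      · rw [indicator_of_notMem hk]
        exact measure_le_zero fun n h => hk h.1
    refine (lintegral_mono h1).trans ?_
    rw [lintegral_indicator hKm, setLIntegral_const]
  have hsub : {k | k ∈ K ∧ (J + 1) * η < dist (f k) Λ} ×ˢ B ⊆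
      {p : N × N | p.1 ∈ K ∧ p.2 ∈ B ∧ J * η < dist (f (p.1 * p.2)) (f p.1)} ∪
      {p : N × N | p.1 ∈ K ∧ p.2 ∈ B ∧ η < dist (f (p.1 * p.2)) Λ} := by
    rintro ⟨k, g⟩ ⟨⟨hk, hd⟩, hg⟩
    change g ∈ B at hg
    by_cases hc : η < dist (f (k * g)) Λ
    · exact Or.inr ⟨hk, hg, hc⟩
    · left
      refine ⟨hk, hg, ?_⟩
      change J * η < dist (f (k * g)) (f k)
      have h3 := dist_triangle (f k) (f (k * g)) Λ
      rw [dist_comm (f k) (f (k * g))] at h3
      change (J + 1) * η < dist (f k) Λ at hd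
      linarith [not_lt.1 hc]
  calc μ {k | k ∈ K ∧ (J + 1) * η < dist (f k) Λ} * μ B
      = (μ.prod μ) ({k | k ∈ K ∧ (J + 1) * η < dist (f k) Λ} ×ˢ B) := by rw [Measure.prod_prod]
    _ ≤ _ := (measure_mono hsub).trans (measure_union_le _ _)
    _ ≤ _ := add_le_add hS1 hS2

/-- Two laws on overlapping boxes agree. -/
theorem law_overlap {f : N → X} {k : N} {B B' : Set N} {η η' : ℝ} {e e' : ℝ≥0∞} {Λ Λ' : X}
    (hkB : ∀ g ∈ B, k * g ∈ B')
    (h1 : μ {g | g ∈ B ∧ η < dist (f (k * g)) Λ} ≤ e)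
    (h2 : μ {g | g ∈ B' ∧ η' < dist (f g) Λ'} ≤ e') (he : e + e' < μ B) :
    dist Λ Λ' ≤ η + η' := by
  by_contra hc
  rw [not_le] at hc
  have hsub : B ⊆ {g | g ∈ B ∧ η < dist (f (k * g)) Λ} ∪
      (fun g => k * g) ⁻¹' {g | g ∈ B' ∧ η' < dist (f g) Λ'} := by
    intro g hg
    by_cases h : η < dist (f (k * g)) Λ
    · exact Or.inl ⟨hg, h⟩
    · right
      refine ⟨hkB g hg, ?_⟩
      have h3 := dist_triangle Λ (f (k * g)) Λ'
      rw [dist_comm Λ (f (k * g))] at h3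
      linarith [not_lt.1 h]
  have := (measure_mono (μ := μ) hsub).trans (measure_union_le _ _)
  rw [measure_preimage_mul] at this
  exact absurd (this.trans (add_le_add h1 h2)) (not_le.2 he)

/-- (E3), (E4) double law: if at every point `k` of `A` most points of `k B` have profile `Λ`, and
most points of `A' ⊇ A * B` have profile `Λ'`, then `Λ` and `Λ'` agree. -/
theorem law_double {f : N → X} (hfm : Measurable f) {A B A' : Set N} {η η' : ℝ} {e e' : ℝ≥0∞}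
    {Λ Λ' : X} (hAm : MeasurableSet A) (hBm : MeasurableSet B)
    (hAB : ∀ k ∈ A, ∀ g ∈ B, k * g ∈ A')
    (h1 : ∀ k ∈ A, μ {g | g ∈ B ∧ η < dist (f (k * g)) Λ} ≤ e)
    (h2 : μ {g | g ∈ A' ∧ η' < dist (f g) Λ'} ≤ e')
    (he : e * μ A + e' * μ B < μ A * μ B) : dist Λ Λ' ≤ η + η' := by
  by_contra hc
  rw [not_le] at hc
  have hS1 : (μ.prod μ) {p : N × N | p.1 ∈ A ∧ p.2 ∈ B ∧ η < dist (f (p.1 * p.2)) Λ} ≤
      e * μ A := by
    have hm : MeasurableSet {p : N × N | p.1 ∈ A ∧ p.2 ∈ B ∧ η < dist (f (p.1 * p.2)) Λ} := by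
      refine (measurable_fst hAm).inter ((measurable_snd hBm).inter ?_)
      exact measurableSet_lt measurable_const
        ((hfm.comp (measurable_fst.mul measurable_snd)).dist measurable_const)
    rw [Measure.prod_apply hm]
    have h3 : ∀ k : N, μ (Prod.mk k ⁻¹'
        {p : N × N | p.1 ∈ A ∧ p.2 ∈ B ∧ η < dist (f (p.1 * p.2)) Λ}) ≤
        A.indicator (fun _ => e) k := by
      intro k
      by_cases hk : k ∈ A
      · rw [indicator_of_mem hk]
        refine le_trans (measure_mono ?_) (h1 k hk)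
        rintro g ⟨_, hg, hd⟩
        exact ⟨hg, hd⟩
      · rw [indicator_of_notMem hk]
        exact measure_le_zero fun n h => hk h.1
    refine (lintegral_mono h3).trans ?_
    rw [lintegral_indicator hAm, setLIntegral_const]
  have hS2 : (μ.prod μ) {p : N × N | p.1 ∈ A ∧ p.2 ∈ B ∧ η' < dist (f (p.1 * p.2)) Λ'} ≤
      e' * μ B := by
    have hm : MeasurableSet {p : N × N | p.1 ∈ A ∧ p.2 ∈ B ∧ η' < dist (f (p.1 * p.2)) Λ'} := by
      refine (measurable_fst hAm).inter ((measurable_snd hBm).inter ?_)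
      exact measurableSet_lt measurable_const
        ((hfm.comp (measurable_fst.mul measurable_snd)).dist measurable_const)
    rw [Measure.prod_apply_symm hm]
    have h3 : ∀ g : N, μ ((fun x => (x, g)) ⁻¹'
        {p : N × N | p.1 ∈ A ∧ p.2 ∈ B ∧ η' < dist (f (p.1 * p.2)) Λ'}) ≤
        B.indicator (fun _ => e') g := by
      intro g
      by_cases hg : g ∈ B
      · rw [indicator_of_mem hg]
        refine le_trans ?_ h2
        rw [← measure_preimage_mul_right μ g {g | g ∈ A' ∧ η' < dist (f g) Λ'}]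
        refine measure_mono ?_
        rintro k ⟨hk, _, hd⟩
        exact ⟨hAB k hk g hg, hd⟩
      · rw [indicator_of_notMem hg]
        exact measure_le_zero fun n h => hg h.2.1
    refine (lintegral_mono h3).trans ?_
    rw [lintegral_indicator hBm, setLIntegral_const]
  have hsub : A ×ˢ B ⊆ {p : N × N | p.1 ∈ A ∧ p.2 ∈ B ∧ η < dist (f (p.1 * p.2)) Λ} ∪
      {p : N × N | p.1 ∈ A ∧ p.2 ∈ B ∧ η' < dist (f (p.1 * p.2)) Λ'} := by
    rintro ⟨k, g⟩ ⟨hk, hg⟩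
    change k ∈ A at hk
    change g ∈ B at hg
    by_cases h : η < dist (f (k * g)) Λ
    · exact Or.inl ⟨hk, hg, h⟩
    · right
      refine ⟨hk, hg, ?_⟩
      change η' < dist (f (k * g)) Λ'
      have h3 := dist_triangle Λ (f (k * g)) Λ'
      rw [dist_comm Λ (f (k * g))] at h3
      linarith [not_lt.1 h]
  have h4 : μ A * μ B ≤ e * μ A + e' * μ B := by
    rw [← Measure.prod_prod]
    exact (measure_mono hsub).trans ((measure_union_le _ _).trans (add_le_add hS1 hS2))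
  exact absurd h4 (not_le.2 he)

/-! ### versions with proportions -/

theorem law_overlap' {f : N → X} {k : N} {B B' : Set N} {η η' : ℝ} {ε ε' : ℝ≥0∞} {Λ Λ' : X}
    (hB0 : μ B ≠ 0) (hBt : μ B ≠ ∞) (hkB : ∀ g ∈ B, k * g ∈ B')
    (h1 : μ {g | g ∈ B ∧ η < dist (f (k * g)) Λ} ≤ ε * μ B)
    (h2 : μ {g | g ∈ B' ∧ η' < dist (f g) Λ'} ≤ ε' * μ B) (he : ε + ε' < 1) :
    dist Λ Λ' ≤ η + η' := by
  refine law_overlap hkB h1 h2 ?_
  rw [← add_mul]
  calc (ε + ε') * μ B < 1 * μ B := by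
        rw [ENNReal.mul_lt_mul_iff_left hB0 hBt]; exact he
    _ = μ B := one_mul _

theorem law_double' {f : N → X} (hfm : Measurable f) {A B A' : Set N} {η η' : ℝ} {ε ε' : ℝ≥0∞}
    {Λ Λ' : X} (hAm : MeasurableSet A) (hBm : MeasurableSet B)
    (hA0 : μ A ≠ 0) (hAt : μ A ≠ ∞) (hB0 : μ B ≠ 0) (hBt : μ B ≠ ∞)
    (hAB : ∀ k ∈ A, ∀ g ∈ B, k * g ∈ A')
    (h1 : ∀ k ∈ A, μ {g | g ∈ B ∧ η < dist (f (k * g)) Λ} ≤ ε * μ B)
    (h2 : μ {g | g ∈ A' ∧ η' < dist (f g) Λ'} ≤ ε' * μ A)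
    (he : ε + ε' < 1) : dist Λ Λ' ≤ η + η' := by
  refine law_double hfm hAm hBm hAB h1 h2 ?_
  have h0 : μ A * μ B ≠ 0 := mul_ne_zero hA0 hB0
  have ht : μ A * μ B ≠ ∞ := ENNReal.mul_ne_top hAt hBt
  calc ε * μ B * μ A + ε' * μ A * μ B = (ε + ε') * (μ A * μ B) := by ring
    _ < 1 * (μ A * μ B) := by
        rw [ENNReal.mul_lt_mul_iff_left h0 ht]; exact he
    _ = μ A * μ B := one_mul _

theorem spread' {𝓕 : Set (N → X)} (h𝓕 : Cls 𝓕) {U K K' B B' : Set N} {η : ℝ} {ε ε' : ℝ≥0∞}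
    {J : ℕ} (hη : 0 ≤ η) (hKm : MeasurableSet K) (hBm : MeasurableSet B)
    (hB0 : μ B ≠ 0) (hBt : μ B ≠ ∞)
    (hadj : ∀ f ∈ 𝓕, ∀ u ∈ U, μ {n | n ∈ K' ∧ η < dist (f (n * u)) (f n)} ≤ ε * μ K)
    (hconj : ∀ l : List N, l.length ≤ J → (∀ u ∈ l, u ∈ U) → ∀ n ∈ K,
      l.prod⁻¹ * n * l.prod ∈ K')
    (hB : ∀ g ∈ B, ∃ l : List N, l.length ≤ J ∧ (∀ u ∈ l, u ∈ U) ∧ l.prod = g)
    (hKB : ∀ k ∈ K, ∀ g ∈ B, k * g ∈ B')
    {f : N → X} (hf : f ∈ 𝓕) (hfm : Measurable f) {Λ : X}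
    (hlaw : μ {g | g ∈ B' ∧ η < dist (f g) Λ} ≤ ε' * μ B) :
    μ {k | k ∈ K ∧ (J + 1) * η < dist (f k) Λ} ≤ (J * ε + ε') * μ K := by
  have h := spread h𝓕 hη hKm hBm hadj hconj hB hKB hf hfm hlaw
  have h2 : μ {k | k ∈ K ∧ (J + 1) * η < dist (f k) Λ} * μ B ≤ (J * ε + ε') * μ K * μ B := by
    refine h.trans (le_of_eq ?_)
    ring
  exact (ENNReal.mul_le_mul_iff_left hB0 hBt).1 h2

/-- **(E3)** The laws of the two boxes `Z₁ ≤ Z₂` agree at every base point. -/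
theorem hole {𝓕 : Set (N → X)} (h𝓕 : Cls 𝓕) (hmeas : ∀ f ∈ 𝓕, Measurable f)
    {J : ℕ} {η : ℝ} (hη : 0 ≤ η) {ε : ℝ≥0∞} {Cv : ℝ≥0∞}
    {U₁ K₁ K₁' B₁ B₁' U₂ K₂ K₂' B₂ B₂' A : Set N}
    (mK₁ : MeasurableSet K₁) (mB₁ : MeasurableSet B₁) (mK₂ : MeasurableSet K₂)
    (mB₂ : MeasurableSet B₂) (mA : MeasurableSet A)
    (zK₁ : μ K₁ ≠ 0) (tK₁ : μ K₁ ≠ ∞) (zB₁ : μ B₁ ≠ 0) (tB₁ : μ B₁ ≠ ∞)
    (zB₂ : μ B₂ ≠ 0) (tB₂ : μ B₂ ≠ ∞) (zA : μ A ≠ 0) (tA : μ A ≠ ∞)
    -- adjacency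
    (adj₁ : ∀ f ∈ 𝓕, ∀ u ∈ U₁, μ {n | n ∈ K₁' ∧ η < dist (f (n * u)) (f n)} ≤ ε * μ K₁)
    (adj₂ : ∀ f ∈ 𝓕, ∀ u ∈ U₂, μ {n | n ∈ K₂' ∧ η < dist (f (n * u)) (f n)} ≤ ε * μ K₂)
    (conj₁ : ∀ l : List N, l.length ≤ J → (∀ u ∈ l, u ∈ U₁) → ∀ n ∈ K₁,
      l.prod⁻¹ * n * l.prod ∈ K₁')
    (conj₂ : ∀ l : List N, l.length ≤ J → (∀ u ∈ l, u ∈ U₂) → ∀ n ∈ K₂,
      l.prod⁻¹ * n * l.prod ∈ K₂')
    (gen₁ : ∀ g ∈ B₁, ∃ l : List N, l.length ≤ J ∧ (∀ u ∈ l, u ∈ U₁) ∧ l.prod = g)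
    (gen₂ : ∀ g ∈ B₂, ∃ l : List N, l.length ≤ J ∧ (∀ u ∈ l, u ∈ U₂) ∧ l.prod = g)
    (hKB₁ : ∀ k ∈ K₁, ∀ g ∈ B₁, k * g ∈ B₁') (hKB₂ : ∀ k ∈ K₂, ∀ g ∈ B₂, k * g ∈ B₂')
    -- the thin set of the large increment lies in the box of the small increment
    (hAB₁ : ∀ k ∈ A, ∀ g ∈ B₁, k * g ∈ B₁') (hB₁ : B₁ ⊆ B₁')
    (hAK : ∀ k ∈ A, ∀ g ∈ K₁, k * g ∈ K₂) (hCv : μ K₂ ≤ Cv * μ A)
    -- box theorem for the small increment, at every base point
    (box₁ : ∀ f ∈ 𝓕, ∃ Λ : X, μ {g | g ∈ B₁' ∧ η < dist (f g) Λ} ≤ ε * μ B₁)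
    (hε : (J + 1) * ε + (J + 1) * ε * Cv < 1) (hε2 : ε + ε < 1)
    {f : N → X} (hf : f ∈ 𝓕) {Λ₁ Λ₂ : X}
    (law₁ : μ {g | g ∈ B₁' ∧ η < dist (f g) Λ₁} ≤ ε * μ B₁)
    (law₂ : μ {g | g ∈ B₂' ∧ η < dist (f g) Λ₂} ≤ ε * μ B₂) :
    dist Λ₁ Λ₂ ≤ (2 * J + 4) * η := by
  have h2 := spread' h𝓕 hη mK₂ mB₂ zB₂ tB₂ adj₂ conj₂ gen₂ hKB₂ hf (hmeas f hf) law₂
  have h1 : ∀ k ∈ A, μ {g | g ∈ K₁ ∧ (J + 3) * η < dist (f (k * g)) Λ₁} ≤
      (J + 1) * ε * μ K₁ := by
    intro k hk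
    have hfk := h𝓕.tr f hf k
    obtain ⟨Λ, hΛ⟩ := box₁ _ hfk
    have hd : dist Λ Λ₁ ≤ η + η := by
      refine law_overlap' (f := f) (k := k) zB₁ tB₁ (hAB₁ k hk) ?_ law₁ hε2
      refine (measure_mono ?_).trans hΛ
      rintro g ⟨hg, hd⟩
      exact ⟨hB₁ hg, hd⟩
    have h3 := spread' h𝓕 hη mK₁ mB₁ zB₁ tB₁ adj₁ conj₁ gen₁ hKB₁ hfk (hmeas _ hfk) hΛ
    refine (measure_mono ?_).trans (h3.trans (le_of_eq (by ring)))
    rintro g ⟨hg, hg2⟩
    refine ⟨hg, ?_⟩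
    have h4 := dist_triangle (f (k * g)) Λ Λ₁
    linarith
  have h3 : μ {k | k ∈ K₂ ∧ (J + 1) * η < dist (f k) Λ₂} ≤ ((J + 1) * ε * Cv) * μ A := by
    refine h2.trans ?_
    calc (J * ε + ε) * μ K₂ ≤ (J * ε + ε) * (Cv * μ A) := by gcongr
      _ = ((J + 1) * ε * Cv) * μ A := by ring
  have := law_double' (hmeas f hf) mA mK₁ zA tA zK₁ tK₁ hAK h1 h3 hε
  refine this.trans (le_of_eq ?_)
  ring

/-! ### most points follow the law of their own box -/

/-- `Λ` is a law of `f` on the set `n B`. -/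
def Law (μ : Measure N) (f : N → X) (B : Set N) (τ : ℝ) (e : ℝ≥0∞) (n : N) (Λ : X) : Prop :=
  μ {m | m ∈ B ∧ τ < dist (f (n * m)) Λ} ≤ e

theorem Law.tr {f : N → X} {B : Set N} {τ : ℝ} {e : ℝ≥0∞} {n u : N} {Λ : X} :
    Law μ (fun n => f (u * n)) B τ e n Λ ↔ Law μ f B τ e (u * n) Λ := by
  unfold Law
  simp only [mul_assoc]

theorem Law.mono {f : N → X} {B B' : Set N} {τ τ' : ℝ} {e e' : ℝ≥0∞} {n : N} {Λ : X}
    (h : Law μ f B τ e n Λ) (hB : B' ⊆ B) (hτ : τ ≤ τ') (he : e ≤ e') :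
    Law μ f B' τ' e' n Λ := by
  refine (measure_mono ?_).trans (h.trans he)
  rintro m ⟨hm, hd⟩
  exact ⟨hB hm, hτ.trans_lt hd⟩

/-- overlap: a law at `n` and a law at `n * k` agree if `k * B ⊆ B'`. -/
theorem Law.overlap {f : N → X} {B B' : Set N} {τ τ' : ℝ} {e e' : ℝ≥0∞} {n k : N} {Λ Λ' : X}
    (h' : Law μ f B' τ' e' n Λ') (h : Law μ f B τ e (n * k) Λ) (hk : ∀ g ∈ B, k * g ∈ B')
    (he : e + e' < μ B) : dist Λ Λ' ≤ τ + τ' := by
  refine law_overlap (μ := μ) (f := fun g => f (n * g)) (k := k) (B := B) (B' := B') hk ?_ h' he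
  simpa only [Law, mul_assoc] using h

/-- Most points of `K` have the profile prescribed by the law of their own box. -/
theorem own_law {f : N → X} (hfm : Measurable f) {K K' A A' : Set N} {τ : ℝ} {e : ℝ≥0∞}
    (_hτ : 0 ≤ τ)
    (mK : MeasurableSet K) (mK' : MeasurableSet K') (mA : MeasurableSet A) (tA : μ A ≠ ∞)
    (hKK : ∀ n ∈ K, ∀ m ∈ A, n * m⁻¹ ∈ K') (hA : A ⊆ A') (hAA : ∀ a ∈ A, ∀ b ∈ A, a * b ∈ A')
    (law : ∀ n ∈ K', ∃ Λ, Law μ f A' τ e n Λ) (he : 2 * e ≤ μ A) :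
    μ {n | n ∈ K ∧ ∃ Λ, Law μ f A' τ e n Λ ∧ 3 * τ < dist (f n) Λ} * μ A ≤ 4 * e * μ K' := by
  by_cases hA0 : μ A = 0
  · rw [hA0, mul_zero]; exact zero_le
  -- the measurable function φ
  set T : Set (N × N) := {p | p.1 ∈ K ∧ p.2 ∈ A ∧ 2 * τ < dist (f (p.1 * p.2)) (f p.1)} with hT
  have mT : MeasurableSet T := by
    refine (measurable_fst mK).inter ((measurable_snd mA).inter ?_)
    exact measurableSet_lt measurable_const
      ((hfm.comp (measurable_fst.mul measurable_snd)).dist (hfm.comp measurable_fst))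
  -- triple integral
  have key : ∀ m₁ ∈ A, (μ.prod μ) T ≤ (μ.prod μ) {p : N × N | p.1 ∈ K' ∧ p.2 ∈ A ∧
      2 * τ < dist (f (p.1 * m₁ * p.2)) (f (p.1 * m₁))} := by
    intro m₁ hm₁
    have hmp : MeasurePreserving ((MeasurableEquiv.mulRight m₁).prodCongr (MeasurableEquiv.refl N))
        (μ.prod μ) (μ.prod μ) :=
      (measurePreserving_mul_right μ m₁).prod (MeasurePreserving.id μ)
    rw [← hmp.measure_preimage_equiv]
    refine measure_mono ?_
    rintro ⟨n, m⟩ ⟨h1, h2, h3⟩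
    change n * m₁ ∈ K at h1
    refine ⟨?_, h2, h3⟩
    have := hKK _ h1 m₁ hm₁
    simpa using this
  have hslice : ∀ n ∈ K', (μ.prod μ) {q : N × N | q.1 ∈ A ∧ q.2 ∈ A ∧
      2 * τ < dist (f (n * q.1 * q.2)) (f (n * q.1))} ≤ 2 * (e * μ A) := by
    intro n hn
    obtain ⟨Λ, hΛ⟩ := law n hn
    have hS1 : (μ.prod μ) {q : N × N | q.1 ∈ A ∧ q.2 ∈ A ∧ τ < dist (f (n * q.1)) Λ} ≤
        e * μ A := by
      have : {q : N × N | q.1 ∈ A ∧ q.2 ∈ A ∧ τ < dist (f (n * q.1)) Λ} ⊆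
          {m | m ∈ A' ∧ τ < dist (f (n * m)) Λ} ×ˢ A := by
        rintro ⟨a, b⟩ ⟨ha, hb, hd⟩
        exact ⟨⟨hA ha, hd⟩, hb⟩
      refine (measure_mono this).trans ?_
      rw [Measure.prod_prod]
      exact mul_le_mul_left hΛ _
    have hS2 : (μ.prod μ) {q : N × N | q.1 ∈ A ∧ q.2 ∈ A ∧ τ < dist (f (n * q.1 * q.2)) Λ} ≤
        e * μ A := by
      have mS : MeasurableSet
          {q : N × N | q.1 ∈ A ∧ q.2 ∈ A ∧ τ < dist (f (n * q.1 * q.2)) Λ} := by
        refine (measurable_fst mA).inter ((measurable_snd mA).inter ?_)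
        exact measurableSet_lt measurable_const ((hfm.comp
          ((measurable_fst.const_mul n).mul measurable_snd)).dist measurable_const)
      rw [Measure.prod_apply_symm mS]
      have h1 : ∀ b : N, μ ((fun x => (x, b)) ⁻¹'
          {q : N × N | q.1 ∈ A ∧ q.2 ∈ A ∧ τ < dist (f (n * q.1 * q.2)) Λ}) ≤
          A.indicator (fun _ => e) b := by
        intro b
        by_cases hb : b ∈ A
        · rw [indicator_of_mem hb]
          refine le_trans ?_ hΛ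
          rw [← measure_preimage_mul_right μ b {m | m ∈ A' ∧ τ < dist (f (n * m)) Λ}]
          refine measure_mono ?_
          rintro a ⟨ha, _, hd⟩
          refine ⟨hAA a ha b hb, ?_⟩
          rw [← mul_assoc]; exact hd
        · rw [indicator_of_notMem hb]
          exact measure_le_zero fun a h => hb h.2.1
      refine (lintegral_mono h1).trans ?_
      rw [lintegral_indicator mA, setLIntegral_const]
    have hsub : {q : N × N | q.1 ∈ A ∧ q.2 ∈ A ∧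
        2 * τ < dist (f (n * q.1 * q.2)) (f (n * q.1))} ⊆
        {q : N × N | q.1 ∈ A ∧ q.2 ∈ A ∧ τ < dist (f (n * q.1)) Λ} ∪
        {q : N × N | q.1 ∈ A ∧ q.2 ∈ A ∧ τ < dist (f (n * q.1 * q.2)) Λ} := by
      rintro ⟨a, b⟩ ⟨ha, hb, hd⟩
      by_cases hc : τ < dist (f (n * a)) Λ
      · exact Or.inl ⟨ha, hb, hc⟩
      · right
        refine ⟨ha, hb, ?_⟩
        change τ < dist (f (n * a * b)) Λ
        change 2 * τ < dist (f (n * a * b)) (f (n * a)) at hd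
        have h3 := dist_triangle (f (n * a * b)) Λ (f (n * a))
        rw [dist_comm Λ (f (n * a))] at h3
        linarith [not_lt.1 hc]
    refine (measure_mono hsub).trans ((measure_union_le _ _).trans ?_)
    rw [two_mul]
    exact add_le_add hS1 hS2
  have hint : (μ.prod μ) T * μ A ≤ 2 * (e * μ A) * μ K' := by
    set W : Set (N × N × N) := {p | p.1 ∈ K' ∧ p.2.1 ∈ A ∧ p.2.2 ∈ A ∧
      2 * τ < dist (f (p.1 * p.2.1 * p.2.2)) (f (p.1 * p.2.1))} with hW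
    have mW : MeasurableSet W := by
      refine (measurable_fst mK').inter (((measurable_fst.comp measurable_snd) mA).inter
        (((measurable_snd.comp measurable_snd) mA).inter ?_))
      exact measurableSet_lt measurable_const
        ((hfm.comp ((measurable_fst.mul (measurable_fst.comp measurable_snd)).mul
          (measurable_snd.comp measurable_snd))).dist
          (hfm.comp (measurable_fst.mul (measurable_fst.comp measurable_snd))))
    -- integrate first over n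
    have hW1 : (μ.prod (μ.prod μ)) W ≤ 2 * (e * μ A) * μ K' := by
      rw [Measure.prod_apply mW]
      have h1 : ∀ n : N, (μ.prod μ) (Prod.mk n ⁻¹' W) ≤
          K'.indicator (fun _ => 2 * (e * μ A)) n := by
        intro n
        by_cases hn : n ∈ K'
        · rw [indicator_of_mem hn]
          refine le_trans (measure_mono ?_) (hslice n hn)
          rintro ⟨a, b⟩ ⟨_, h2, h3, h4⟩
          exact ⟨h2, h3, h4⟩
        · rw [indicator_of_notMem hn]
          exact measure_le_zero fun a h => hn h.1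
      refine (lintegral_mono h1).trans ?_
      rw [lintegral_indicator mK', setLIntegral_const]
    refine le_trans ?_ hW1
    -- rearrange: W as a set of (m₁, (n, m))
    have hmp : MeasurePreserving (fun p : N × N × N => ((p.2.1, p.1, p.2.2) : N × N × N))
        (μ.prod (μ.prod μ)) (μ.prod (μ.prod μ)) := by
      have e1 := (measurePreserving_prodAssoc μ μ μ)
      have e2 := (measurePreserving_prodAssoc μ μ μ).symm MeasurableEquiv.prodAssoc
      have e3 : MeasurePreserving (Prod.map Prod.swap id : (N × N) × N → (N × N) × N)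
          ((μ.prod μ).prod μ) ((μ.prod μ).prod μ) :=
        Measure.measurePreserving_swap.prod (MeasurePreserving.id μ)
      exact (e1.comp e3).comp e2
    rw [← hmp.measure_preimage mW.nullMeasurableSet]
    have mW2 := hmp.measurable mW
    rw [Measure.prod_apply mW2]
    have h1 : ∀ m₁ : N, A.indicator (fun _ => (μ.prod μ) T) m₁ ≤
        (μ.prod μ) (Prod.mk m₁ ⁻¹' ((fun p : N × N × N =>
          ((p.2.1, p.1, p.2.2) : N × N × N)) ⁻¹' W)) := by
      intro m₁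
      by_cases hm₁ : m₁ ∈ A
      · rw [indicator_of_mem hm₁]
        refine (key m₁ hm₁).trans (measure_mono ?_)
        rintro ⟨n, m⟩ ⟨h2, h3, h4⟩
        exact ⟨h2, hm₁, h3, h4⟩
      · rw [indicator_of_notMem hm₁]; exact zero_le
    refine le_trans ?_ (lintegral_mono h1)
    rw [lintegral_indicator mA, setLIntegral_const]
  -- Markov
  have hT2 : (μ.prod μ) T ≤ 2 * e * μ K' := by
    have h2 : (μ.prod μ) T * μ A ≤ (2 * e * μ K') * μ A := by
      refine hint.trans (le_of_eq ?_); ring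
    exact (ENNReal.mul_le_mul_iff_left hA0 tA).1 h2
  have hφm : Measurable fun n => μ (Prod.mk n ⁻¹' T) := measurable_measure_prodMk_left mT
  have hbad : {n | n ∈ K ∧ ∃ Λ, Law μ f A' τ e n Λ ∧ 3 * τ < dist (f n) Λ} ⊆
      {n | μ A ≤ 2 * μ (Prod.mk n ⁻¹' T)} := by
    rintro n ⟨hn, Λ, hΛ, hd⟩
    change μ A ≤ 2 * μ (Prod.mk n ⁻¹' T)
    have hsub : A ⊆ {m | m ∈ A' ∧ τ < dist (f (n * m)) Λ} ∪ (Prod.mk n ⁻¹' T) := by
      intro m hm
      by_cases hc : τ < dist (f (n * m)) Λ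
      · exact Or.inl ⟨hA hm, hc⟩
      · right
        refine ⟨hn, hm, ?_⟩
        change 2 * τ < dist (f (n * m)) (f n)
        have h3 := dist_triangle (f n) (f (n * m)) Λ
        rw [dist_comm (f n) (f (n * m))] at h3
        linarith [not_lt.1 hc]
    have h1 : μ A ≤ e + μ (Prod.mk n ⁻¹' T) :=
      (measure_mono hsub).trans ((measure_union_le _ _).trans (add_le_add hΛ le_rfl))
    have h2 : μ A + μ A ≤ μ A + 2 * μ (Prod.mk n ⁻¹' T) := by
      calc μ A + μ A ≤ (e + μ (Prod.mk n ⁻¹' T)) + (e + μ (Prod.mk n ⁻¹' T)) :=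
            add_le_add h1 h1
        _ = 2 * e + 2 * μ (Prod.mk n ⁻¹' T) := by ring
        _ ≤ μ A + 2 * μ (Prod.mk n ⁻¹' T) := by gcongr
    exact (ENNReal.add_le_add_iff_left tA).1 h2
  have hmark : μ A * μ {n | μ A ≤ 2 * μ (Prod.mk n ⁻¹' T)} ≤ 2 * (μ.prod μ) T := by
    have := mul_meas_ge_le_lintegral₀ (μ := μ) (f := fun n => 2 * μ (Prod.mk n ⁻¹' T))
      ((hφm.const_mul 2).aemeasurable) (μ A)
    refine this.trans ?_
    rw [lintegral_const_mul _ hφm, Measure.prod_apply mT]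
  calc μ {n | n ∈ K ∧ ∃ Λ, Law μ f A' τ e n Λ ∧ 3 * τ < dist (f n) Λ} * μ A
      ≤ μ {n | μ A ≤ 2 * μ (Prod.mk n ⁻¹' T)} * μ A := by gcongr
    _ = μ A * μ {n | μ A ≤ 2 * μ (Prod.mk n ⁻¹' T)} := mul_comm _ _
    _ ≤ 2 * (μ.prod μ) T := hmark
    _ ≤ 2 * (2 * e * μ K') := by gcongr
    _ = 4 * e * μ K' := by ring

/-- (E1') adjacency from the comparison of the laws of the shapes `Y` and `Y + b e_w`. -/
theorem adj_of_laws {f : N → X} {u : N} {K K' AY' AW AW' : Set N} {τ η : ℝ} {eY eW e₁ : ℝ≥0∞}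
    (exY : ∀ n, ∃ Λ, Law μ f AY' τ eY n Λ) (exW : ∀ n, ∃ Λ, Law μ f AW' τ eW n Λ)
    (own : ∀ g : N, μ {n | n ∈ K' ∧ ∃ Λ, Law μ f AY' τ eY (g * n) Λ ∧
      3 * τ < dist (f (g * n)) Λ} ≤ e₁)
    (el : ∀ g : N, μ {n | n ∈ K' ∧ ∃ Λ Λ', Law μ f AY' τ eY (g * n) Λ ∧
      Law μ f AW' τ eW (g * n) Λ' ∧ η < dist Λ Λ'} ≤ e₁)
    (hKK : K ⊆ K') (hK : ∀ n ∈ K, u⁻¹ * n * u ∈ K')
    (hW : AW ⊆ AW') (huW : ∀ g ∈ AW, u * g ∈ AW') (heW : eW + eW < μ AW) :
    μ {n | n ∈ K ∧ 8 * τ + 2 * η < dist (f (n * u)) (f n)} ≤ 4 * e₁ := by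
  set P : N → Set N := fun g => {n | n ∈ K' ∧ ∃ Λ, Law μ f AY' τ eY (g * n) Λ ∧
      3 * τ < dist (f (g * n)) Λ} with hP
  set Q : N → Set N := fun g => {n | n ∈ K' ∧ ∃ Λ Λ', Law μ f AY' τ eY (g * n) Λ ∧
      Law μ f AW' τ eW (g * n) Λ' ∧ η < dist Λ Λ'} with hQ
  have hsub : {n | n ∈ K ∧ 8 * τ + 2 * η < dist (f (n * u)) (f n)} ⊆
      (P 1 ∪ Q 1) ∪ ((fun n => u⁻¹ * n * u) ⁻¹' (P u) ∪ (fun n => u⁻¹ * n * u) ⁻¹' (Q u)) := by
    rintro n ⟨hn, hd⟩
    by_contra hc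
    simp only [mem_union, not_or] at hc
    obtain ⟨⟨h1, h2⟩, h3, h4⟩ := hc
    obtain ⟨Λ, hΛ⟩ := exY n
    obtain ⟨Λw, hΛw⟩ := exW n
    obtain ⟨Λu, hΛu⟩ := exY (n * u)
    obtain ⟨Λwu, hΛwu⟩ := exW (n * u)
    have e1 : u * (u⁻¹ * n * u) = n * u := by group
    have d1 : dist (f n) Λ ≤ 3 * τ := by
      by_contra h
      exact h1 ⟨hKK hn, Λ, by simpa using hΛ, by simpa using not_le.1 h⟩
    have d2 : dist Λ Λw ≤ η := by
      by_contra h
      exact h2 ⟨hKK hn, Λ, Λw, by simpa using hΛ, by simpa using hΛw, not_le.1 h⟩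
    have d3 : dist (f (n * u)) Λu ≤ 3 * τ := by
      by_contra h
      refine h3 ⟨hK n hn, Λu, ?_, ?_⟩
      · simpa only [e1] using hΛu
      · simpa only [e1] using not_le.1 h
    have d4 : dist Λu Λwu ≤ η := by
      by_contra h
      refine h4 ⟨hK n hn, Λu, Λwu, ?_, ?_, not_le.1 h⟩
      · simpa only [e1] using hΛu
      · simpa only [e1] using hΛwu
    have d5 : dist Λwu Λw ≤ τ + τ :=
      Law.overlap hΛw (hΛwu.mono hW le_rfl le_rfl) huW heW
    have t1 := dist_triangle (f (n * u)) Λu (f n)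
    have t2 := dist_triangle Λu Λwu (f n)
    have t3 := dist_triangle Λwu Λw (f n)
    have t4 := dist_triangle Λw Λ (f n)
    rw [dist_comm Λw Λ, dist_comm Λ (f n)] at t4
    linarith
  refine (measure_mono hsub).trans ((measure_union_le _ _).trans ?_)
  have a1 : μ (P 1 ∪ Q 1) ≤ e₁ + e₁ := (measure_union_le _ _).trans (add_le_add (own 1) (el 1))
  have a2 : μ ((fun n => u⁻¹ * n * u) ⁻¹' (P u) ∪ (fun n => u⁻¹ * n * u) ⁻¹' (Q u)) ≤ e₁ + e₁ := by
    refine (measure_union_le _ _).trans ?_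
    rw [measure_preimage_conj, measure_preimage_conj]
    exact add_le_add (own u) (el u)
  calc _ ≤ (e₁ + e₁) + (e₁ + e₁) := add_le_add a1 a2
    _ = 4 * e₁ := by ring

end grp

end Crest.Agent.R182.HoleNil
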