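import Mathlib
import Crest.Agent.R182.HtCoc

-- ▼ part R182/HtAB
section

/-!
# Row 182, module HT (author: helper506): the main lemma

`A` abelian normal, centralised by `N`; `G` generated by `N` and `z_j`; `b` orthogonal to the
`A`-fixed vectors; controlled averages `p_n` on `A`.  Then `b` is an almost coboundary.
-/

set_option autoImplicit false

namespace Crest.Agent.R182.Ht

open Filter Topology

section Lc

variable {ι V : Type*} [NormedAddCommGroup V] [InnerProductSpace ℝ V]

/-- `ℓ¹` norm of a finitely supported function -/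
noncomputable def l1 (q : ι →₀ ℝ) : ℝ := q.sum fun _ r => |r|

theorem l1_nonneg (q : ι →₀ ℝ) : 0 ≤ l1 q := Finset.sum_nonneg fun _ _ => abs_nonneg _

theorem l1_of_nonneg {q : ι →₀ ℝ} (h : ∀ x, 0 ≤ q x) : l1 q = q.sum fun _ r => r :=
  Finset.sum_congr rfl fun x _ => abs_of_nonneg (h x)

/-- integral of `f` against `q` -/
noncomputable def E (f : ι → V) (q : ι →₀ ℝ) : V := q.sum fun x r => r • f x

theorem E_eq_lc (f : ι → V) (q : ι →₀ ℝ) : E f q = Finsupp.linearCombination ℝ f q := by
  rw [E, Finsupp.linearCombination_apply]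

theorem E_sub (f : ι → V) (q r : ι →₀ ℝ) : E f (q - r) = E f q - E f r := by
  rw [E_eq_lc, E_eq_lc, E_eq_lc, map_sub]

theorem E_add_fun (f g : ι → V) (q : ι →₀ ℝ) : E (fun x => f x + g x) q = E f q + E g q := by
  unfold E Finsupp.sum
  rw [← Finset.sum_add_distrib]
  exact Finset.sum_congr rfl fun x _ => smul_add _ _ _

theorem E_sub_fun (f g : ι → V) (q : ι →₀ ℝ) : E (fun x => f x - g x) q = E f q - E g q := by
  unfold E Finsupp.sum
  rw [← Finset.sum_sub_distrib]
  exact Finset.sum_congr rfl fun x _ => smul_sub _ _ _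

theorem E_congr {f g : ι → V} {q : ι →₀ ℝ} (h : ∀ x ∈ q.support, f x = g x) : E f q = E g q :=
  Finset.sum_congr rfl fun x hx => by
    show q x • f x = q x • g x
    rw [h x hx]

theorem E_const (v : V) (q : ι →₀ ℝ) : E (fun _ => v) q = (q.sum fun _ r => r) • v := by
  unfold E Finsupp.sum
  rw [Finset.sum_smul]

theorem E_mapDomain {κ : Type*} (φ : ι → κ) (f : κ → V) (q : ι →₀ ℝ) :
    E f (q.mapDomain φ) = E (fun x => f (φ x)) q := by
  unfold E
  exact Finsupp.sum_mapDomain_index (h := fun x (r : ℝ) => r • f x) (fun _ => zero_smul _ _)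
    (fun _ _ _ => add_smul _ _ _)

theorem map_E {W : Type*} [NormedAddCommGroup W] [InnerProductSpace ℝ W] (T : V →ₗ[ℝ] W)
    (f : ι → V) (q : ι →₀ ℝ) : T (E f q) = E (fun x => T (f x)) q := by
  unfold E Finsupp.sum
  rw [map_sum]
  exact Finset.sum_congr rfl fun x _ => map_smul _ _ _

theorem norm_E_le {f : ι → V} {q : ι →₀ ℝ} {C : ℝ} (h : ∀ x ∈ q.support, ‖f x‖ ≤ C) :
    ‖E f q‖ ≤ l1 q * C := by
  unfold E l1 Finsupp.sum
  rw [Finset.sum_mul]
  refine (norm_sum_le _ _).trans (Finset.sum_le_sum fun x hx => ?_)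
  rw [norm_smul, Real.norm_eq_abs]
  exact mul_le_mul_of_nonneg_left (h x hx) (abs_nonneg _)

theorem E_mem {K : Submodule ℝ V} {f : ι → V} {q : ι →₀ ℝ} (h : ∀ x ∈ q.support, f x ∈ K) :
    E f q ∈ K := K.sum_mem fun x hx => K.smul_mem _ (h x hx)

end Lc

section HB

variable {V : Type*} [NormedAddCommGroup V] [InnerProductSpace ℝ V]

/-- weak convergence to zero of finitely many sequences in a convex set gives small elements. -/
theorem exists_small_of_weak {σ : Type*} [Fintype σ] [CompleteSpace V] (R : Set (σ → V))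
    (hR : Convex ℝ R) (e : ℕ → σ → V) (he : ∀ n, e n ∈ R)
    (hw : ∀ s (y : V), Tendsto (fun n => inner ℝ y (e n s)) atTop (𝓝 0)) {ε : ℝ} (hε : 0 < ε) :
    ∃ x ∈ R, ∀ s, ‖x s‖ ≤ ε := by
  classical
  have h0 : (0 : σ → V) ∈ closure R := by
    by_contra h
    obtain ⟨f, u, hu, hf⟩ := geometric_hahn_banach_point_closed hR.closure isClosed_closure h
    rw [map_zero] at hu
    have h1 : Tendsto (fun n => f (e n)) atTop (𝓝 0) := by
      have h2 : ∀ n, f (e n) = ∑ s, f (Pi.single s (e n s)) := by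
        intro n
        rw [← map_sum]
        congr 1
        exact (Finset.univ_sum_single (e n)).symm
      have h3 : Tendsto (fun n => ∑ s, f (Pi.single s (e n s))) atTop (𝓝 (∑ _s : σ, (0 : ℝ))) := by
        refine tendsto_finsetSum _ fun s _ => ?_
        -- Riesz
        set g : V →L[ℝ] ℝ := f.comp (ContinuousLinearMap.single ℝ (fun _ : σ => V) s) with hg
        have h4 : ∀ v : V, f (Pi.single s v) = inner ℝ ((InnerProductSpace.toDual ℝ V).symm g) v := by
          intro v
          rw [InnerProductSpace.toDual_symm_apply]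
          rfl
        simp only [h4]
        exact hw s _
      simp only [Finset.sum_const_zero] at h3
      exact h3.congr fun n => (h2 n).symm
    have h5 : u ≤ 0 := ge_of_tendsto h1 (Filter.Eventually.of_forall fun n =>
      (hf _ (subset_closure (he n))).le)
    linarith
  rw [Metric.mem_closure_iff] at h0
  obtain ⟨x, hx, hd⟩ := h0 ε hε
  refine ⟨x, hx, fun s => ?_⟩
  rw [dist_comm, dist_zero_right] at hd
  exact (norm_le_pi_norm x s).trans hd.le

end HB

section AB

variable {G V : Type*} [Group G] [NormedAddCommGroup V] [InnerProductSpace ℝ V] [CompleteSpace V]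
  {U : G →* (V ≃ₗᵢ[ℝ] V)} {b : G → V}

/-- **Main lemma.** -/
theorem ac_of_averages (hb : Coc U b) (N A : Subgroup G) [A.Normal]
    (hcomm : ∀ a ∈ A, ∀ n ∈ N, a * n = n * a) (hAN : A ≤ N)
    (hbA : ∀ g, b g ∈ (fix U A)ᗮ) {Z : Set G} (hgen : Subgroup.closure ((N : Set G) ∪ Z) = ⊤)
    (p : ℕ → G →₀ ℝ) (hp0 : ∀ n x, 0 ≤ p n x) (hp1 : ∀ n, ((p n).sum fun _ r => r) = 1)
    (hpA : ∀ n, ∀ x ∈ (p n).support, x ∈ A)
    (hinv : ∀ a ∈ A, Tendsto (fun n => l1 (p n - (p n).mapDomain (fun x => a * x))) atTop (𝓝 0))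
    (hz : ∀ z ∈ Z, ∃ C : ℝ, ∀ n, ‖E (fun x => b (z * x * z⁻¹)) (p n) - E b (p n)‖ ≤ C) :
    AC U b := by
  classical
  set ξ : ℕ → V := fun n => E b (p n) with hξ
  set err : ℕ → G → V := fun n g => b g - (ξ n - U g (ξ n)) with herr
  set Q : ℕ → V → V := fun n v => E (fun x => U x v) (p n) with hQ
  have hl1 : ∀ n, l1 (p n) = 1 := fun n => by rw [l1_of_nonneg (hp0 n), hp1]
  have herr1 : ∀ n g, err n g = E (fun x => b (g * x) - b x) (p n) := by
    intro n g
    have h1 : E (fun x => b (g * x)) (p n) = b g + U g (ξ n) := by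
      have h2 : (fun x => b (g * x)) = fun x => (fun _ => b g) x + (fun x => U g (b x)) x := by
        ext x; exact hb g x
      rw [h2, E_add_fun, E_const, hp1, one_smul]
      congr 1
      exact (map_E (U g).toLinearEquiv.toLinearMap b (p n)).symm
    rw [E_sub_fun, h1]
    show b g - (ξ n - U g (ξ n)) = b g + U g (ξ n) - ξ n
    abel
  have hcoc : ∀ n, Coc U (err n) := fun n => hb.sub_cob (ξ n)
  -- `Q` bounds
  have hQle : ∀ n v, ‖Q n v‖ ≤ ‖v‖ := by
    intro n v
    have := norm_E_le (f := fun x => U x v) (q := p n) (C := ‖v‖) fun x _ => (U_norm x v).le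
    rwa [hl1, one_mul] at this
  have hQadd : ∀ n v w, Q n (v + w) = Q n v + Q n w := by
    intro n v w
    show E (fun x => U x (v + w)) (p n) = _
    simp only [map_add]
    exact E_add_fun _ _ _
  have hQsub : ∀ n v w, Q n (v - w) = Q n v - Q n w := by
    intro n v w
    show E (fun x => U x (v - w)) (p n) = _
    simp only [map_sub]
    exact E_sub_fun _ _ _
  have hQsmul : ∀ n (c : ℝ) v, Q n (c • v) = c • Q n v := by
    intro n c v
    show E (fun x => U x (c • v)) (p n) = _
    simp only [map_smul]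
    unfold Q E Finsupp.sum
    rw [Finset.smul_sum]
    exact Finset.sum_congr rfl fun x _ => smul_comm _ _ _
  -- elements centralising `A`
  have hN : ∀ n, ∀ g ∈ N, err n g = Q n (b g) := by
    intro n g hg
    rw [herr1]
    refine E_congr fun x hx => ?_
    rw [← hcomm x (hpA n x hx) g hg, hb x g]
    abel
  -- strong convergence of `Q n v` for `v` orthogonal to the fixed vectors
  have hQ0 : ∀ v ∈ (fix U A)ᗮ, Tendsto (fun n => Q n v) atTop (𝓝 0) := by
    intro v hv
    rw [orth_fix] at hv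
    have hspan : ∀ w ∈ dif U A, Tendsto (fun n => Q n w) atTop (𝓝 0) := by
      intro w hw
      induction hw using Submodule.span_induction with
      | mem x hx =>
        obtain ⟨a, ha, w, rfl⟩ := hx
        have h1 : ∀ n, Q n (w - U a w) = E (fun x => U x w) (p n - (p n).mapDomain (fun x => a * x)) := by
          intro n
          rw [E_sub, E_mapDomain, hQsub]
          congr 1
          refine E_congr fun x hx => ?_
          rw [hcomm a ha x (hAN (hpA n x hx)), U_mul]
        rw [tendsto_zero_iff_norm_tendsto_zero]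
        refine squeeze_zero (fun n => norm_nonneg _) (fun n => ?_)
          (by simpa using (hinv a ha).mul_const ‖w‖)
        rw [h1]
        exact norm_E_le fun x _ => (U_norm x w).le
      | zero =>
        have : ∀ n, Q n 0 = 0 := fun n => norm_le_zero_iff.1 ((hQle n 0).trans (by simp))
        simp [this]
      | add x y _ _ hx hy =>
        simp only [hQadd]
        simpa using hx.add hy
      | smul c x _ hx =>
        simp only [hQsmul]
        simpa using hx.const_smul c
    rw [Metric.tendsto_atTop]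
    intro ε hε
    obtain ⟨w, hw, hd⟩ := Metric.mem_closure_iff.1 hv (ε / 2) (by positivity)
    obtain ⟨M, hM⟩ := Metric.tendsto_atTop.1 (hspan w hw) (ε / 2) (by positivity)
    refine ⟨M, fun n hn => ?_⟩
    have h1 := hM n hn
    rw [dist_zero_right] at h1 ⊢
    have h2 : Q n v = Q n (v - w) + Q n w := by rw [hQsub]; abel
    rw [h2]
    have h3 := hQle n (v - w)
    rw [dist_eq_norm] at hd
    calc _ ≤ ‖Q n (v - w)‖ + ‖Q n w‖ := norm_add_le _ _
      _ < ε := by linarith
  -- strong convergence for elements of `N`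
  have hN0 : ∀ g ∈ N, Tendsto (fun n => err n g) atTop (𝓝 0) := by
    intro g hg
    exact (hQ0 _ (hbA g)).congr fun n => (hN n g hg).symm
  -- all errors are orthogonal to the fixed vectors
  have hξA : ∀ n, ξ n ∈ (fix U A)ᗮ := fun n => E_mem fun x _ => hbA x
  have herrA : ∀ n g, err n g ∈ (fix U A)ᗮ := fun n g =>
    Submodule.sub_mem _ (hbA g) (Submodule.sub_mem _ (hξA n) (U_mem_orth g (hξA n)))
  -- boundedness for `z ∈ Z`
  have hZb : ∀ z ∈ Z, ∃ C, ∀ n, ‖err n z‖ ≤ C := by
    intro z hzZ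
    obtain ⟨C, hC⟩ := hz z hzZ
    refine ⟨C + ‖b z‖, fun n => ?_⟩
    have h1 : err n z = (E (fun x => b (z * x * z⁻¹)) (p n) - E b (p n)) +
        E (fun x => U (z * x * z⁻¹) (b z)) (p n) := by
      rw [herr1, ← E_sub_fun, ← E_add_fun]
      refine E_congr fun x _ => ?_
      have h2 : z * x = z * x * z⁻¹ * z := by group
      have h3 := hb (z * x * z⁻¹) z
      rw [← h2] at h3
      rw [h3]
      abel
    rw [h1]
    refine (norm_add_le _ _).trans (add_le_add (hC n) ?_)
    have := norm_E_le (f := fun x => U (z * x * z⁻¹) (b z)) (q := p n) (C := ‖b z‖)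
      fun x _ => (U_norm _ _).le
    rwa [hl1, one_mul] at this
  -- asymptotic invariance
  have hZinv : ∀ z ∈ Z, ∀ a ∈ A, Tendsto (fun n => err n z - U a (err n z)) atTop (𝓝 0) := by
    intro z hzZ a ha
    have ha' : z⁻¹ * a * z ∈ A := by
      simpa using (inferInstance : A.Normal).conj_mem a ha z⁻¹
    have h1 : ∀ n, err n z - U a (err n z) = err n a - U z (err n (z⁻¹ * a * z)) := by
      intro n
      have h2 := hcoc n a z
      have h3 := hcoc n z (z⁻¹ * a * z)
      have h4 : z * (z⁻¹ * a * z) = a * z := by group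
      rw [h4, h2] at h3
      have h5 : err n z = err n a + U a (err n z) - U z (err n (z⁻¹ * a * z)) := by
        rw [h3]; abel
      calc err n z - U a (err n z) =
          (err n a + U a (err n z) - U z (err n (z⁻¹ * a * z))) - U a (err n z) := by rw [← h5]
        _ = _ := by abel
    have h6 := hN0 a (hAN ha)
    have h7 := hN0 _ (hAN ha')
    have h8 : Tendsto (fun n => U z (err n (z⁻¹ * a * z))) atTop (𝓝 0) := by
      rw [tendsto_zero_iff_norm_tendsto_zero] at h7 ⊢
      exact h7.congr fun n => (U_norm _ _).symm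
    have h9 := h6.sub h8
    rw [sub_zero] at h9
    exact h9.congr fun n => (h1 n).symm
  -- weak convergence to zero
  have hweak : ∀ g ∈ (N : Set G) ∪ Z, ∀ y : V, Tendsto (fun n => inner ℝ y (err n g)) atTop (𝓝 0) := by
    rintro g (hg | hg) y
    · have h1 := (hN0 g hg)
      have h2 := (tendsto_const_nhds (x := y)).inner (𝕜 := ℝ) h1
      rwa [inner_zero_right] at h2
    · obtain ⟨C, hC⟩ := hZb g hg
      have hC0 : 0 ≤ C := (norm_nonneg _).trans (hC 0)
      -- on the span of differences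
      have hspan : ∀ w ∈ dif U A, Tendsto (fun n => inner ℝ w (err n g)) atTop (𝓝 0) := by
        intro w hw
        induction hw using Submodule.span_induction with
        | mem x hx =>
          obtain ⟨a, ha, w, rfl⟩ := hx
          have h1 : ∀ n, inner ℝ (w - U a w) (err n g) =
              inner ℝ w (err n g - U a⁻¹ (err n g)) := by
            intro n
            rw [inner_sub_left, U_inner_left, ← inner_sub_right]
          have h2 := (tendsto_const_nhds (x := w)).inner (𝕜 := ℝ) (hZinv g hg a⁻¹ (A.inv_mem ha))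
          rw [inner_zero_right] at h2
          exact h2.congr fun n => (h1 n).symm
        | zero => simp
        | add x y _ _ hx hy =>
          simp only [inner_add_left]
          simpa using hx.add hy
        | smul c x _ hx =>
          simp only [inner_smul_left]
          simpa using hx.const_mul c
      -- decompose `y`
      have : (fix U A).HasOrthogonalProjection := inferInstance
      obtain ⟨y₁, hy₁, y₂, hy₂, rfl⟩ := (fix U A).exists_add_mem_mem_orthogonal y
      have h1 : ∀ n, inner ℝ (y₁ + y₂) (err n g) = inner ℝ y₂ (err n g) := by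
        intro n
        rw [inner_add_left, (Submodule.mem_orthogonal _ _).1 (herrA n g) y₁ hy₁, zero_add]
      simp only [h1]
      rw [orth_fix] at hy₂
      rw [Metric.tendsto_atTop]
      intro ε hε
      obtain ⟨w, hw, hd⟩ := Metric.mem_closure_iff.1 hy₂ (ε / 2 / (C + 1)) (by positivity)
      obtain ⟨M, hM⟩ := Metric.tendsto_atTop.1 (hspan w hw) (ε / 2) (by positivity)
      refine ⟨M, fun n hn => ?_⟩
      have h2 := hM n hn
      rw [dist_zero_right, Real.norm_eq_abs] at h2 ⊢
      have h3 : (inner ℝ y₂ (err n g) : ℝ) = inner ℝ (y₂ - w) (err n g) + inner ℝ w (err n g) := by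
        rw [← inner_add_left]; congr 1; abel
      rw [h3]
      have h4 : |(inner ℝ (y₂ - w) (err n g) : ℝ)| ≤ ε / 2 := by
        refine (abs_real_inner_le_norm _ _).trans ?_
        rw [dist_eq_norm] at hd
        have h5 := hC n
        calc ‖y₂ - w‖ * ‖err n g‖ ≤ (ε / 2 / (C + 1)) * C :=
              mul_le_mul hd.le h5 (norm_nonneg _) (by positivity)
          _ ≤ (ε / 2 / (C + 1)) * (C + 1) := by
              apply mul_le_mul_of_nonneg_left _ (by positivity); linarith
          _ = ε / 2 := by field_simp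
      calc _ ≤ |(inner ℝ (y₂ - w) (err n g) : ℝ)| + |(inner ℝ w (err n g) : ℝ)| := abs_add_le _ _
        _ < ε := by linarith
  -- Hahn–Banach
  refine AC.of_gen hb hgen fun S hS ε hε => ?_
  set R : Set (S → V) := {e | ∃ ξ : V, ∀ s : S, e s = b s - (ξ - U s ξ)} with hR
  have hRc : Convex ℝ R := by
    rintro x ⟨ξ₁, h1⟩ y ⟨ξ₂, h2⟩ s t hs ht hst
    refine ⟨s • ξ₁ + t • ξ₂, fun g => ?_⟩
    have h3 : b (g : G) = s • b g + t • b g := by rw [← add_smul, hst, one_smul]
    rw [Pi.add_apply, Pi.smul_apply, Pi.smul_apply, h1, h2, map_add, map_smul, map_smul]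
    conv_rhs => rw [h3]
    simp only [smul_sub]
    abel
  obtain ⟨x, ⟨ξ₀, h1⟩, h2⟩ := exists_small_of_weak R hRc (fun n (s : S) => err n s)
    (fun n => ⟨ξ n, fun s => rfl⟩) (fun s y => hweak s (hS s.2) y) hε
  refine ⟨ξ₀, fun s hs => ?_⟩
  have h3 := h2 ⟨s, hs⟩
  rw [h1] at h3
  exact h3

end AB

end Crest.Agent.R182.Ht
end

-- ▼ part R182/HtNil

/-!
# Row 182, module HT, block T5 (author: helper671)

`ac_nil`: cocycles orthogonal to the vectors fixed by a nilpotent normal subgroup `N ⊇ [G,G]` are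
almost coboundaries.
-/

set_option autoImplicit false

namespace Crest.Agent.R182.Ht

open Filter Topology

section Split

variable {G V : Type*} [Group G] [NormedAddCommGroup V] [InnerProductSpace ℝ V] [CompleteSpace V]
  {U : G →* (V ≃ₗᵢ[ℝ] V)} {b : G → V}

/-- orthogonal projection onto the fixed vectors -/
noncomputable def PF (U : G →* (V ≃ₗᵢ[ℝ] V)) (A : Subgroup G) : V →L[ℝ] V :=
  (fix U A).starProjection

theorem PF_mem (A : Subgroup G) (v : V) : PF U A v ∈ fix U A :=
  Submodule.starProjection_apply_mem _ _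

theorem sub_PF_mem (A : Subgroup G) (v : V) : v - PF U A v ∈ (fix U A)ᗮ :=
  Submodule.sub_starProjection_mem_orthogonal _

theorem PF_eq (A : Subgroup G) {u v : V} (hv : v ∈ fix U A) (h : u - v ∈ (fix U A)ᗮ) :
    PF U A u = v := Submodule.eq_starProjection_of_mem_orthogonal hv h


theorem PF_U (A : Subgroup G) [A.Normal] (g : G) (v : V) : PF U A (U g v) = U g (PF U A v) := by
  refine PF_eq A (U_mem_fix g (PF_mem A v)) ?_
  rw [← map_sub]
  exact U_mem_orth g (sub_PF_mem A v)

theorem Coc.PF (hb : Coc U b) (A : Subgroup G) [A.Normal] : Coc U (fun g => PF U A (b g)) := by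
  intro g h
  show Ht.PF U A (b (g * h)) = Ht.PF U A (b g) + U g (Ht.PF U A (b h))
  rw [hb g h, map_add, PF_U]

theorem Coc.subPF (hb : Coc U b) (A : Subgroup G) [A.Normal] :
    Coc U (fun g => b g - Ht.PF U A (b g)) := by
  intro g h
  show b (g * h) - Ht.PF U A (b (g * h)) = (b g - Ht.PF U A (b g)) + U g (b h - Ht.PF U A (b h))
  have h1 : Ht.PF U A (b (g * h)) = Ht.PF U A (b g) + U g (Ht.PF U A (b h)) := hb.PF A g h
  rw [h1, hb g h, map_sub]
  abel

theorem ac_split (A : Subgroup G)
    (h1 : AC U (fun g => b g - PF U A (b g))) (h2 : AC U (fun g => PF U A (b g))) : AC U b := by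
  have h := h1.add h2
  have e : (fun g => (b g - PF U A (b g)) + PF U A (b g)) = b := by
    ext g; abel
  rwa [e] at h

/-- the projected cocycle vanishes on a central subgroup. -/
theorem PF_vanish (hb : Coc U b) (N A : Subgroup G) [A.Normal] (hAN : A ≤ N)
    (hcomm : ∀ a ∈ A, ∀ n ∈ N, a * n = n * a) (hbN : ∀ g, b g ∈ (fix U N)ᗮ) {a : G} (ha : a ∈ A) :
    PF U A (b a) = 0 := by
  have h1 : PF U A (b a) ∈ fix U N := by
    intro n hn
    have h2 := hb.PF A a n
    have h3 := hb.PF A n a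
    simp only at h2 h3
    rw [← hcomm a ha n hn, h2, (PF_mem A (b n)) a ha, add_comm] at h3
    exact (add_left_cancel h3).symm
  have h2 : PF U A (b a) ∈ (fix U N)ᗮ := by
    have h3 : PF U A (b a) = b a - (b a - PF U A (b a)) := by abel
    rw [h3]
    exact Submodule.sub_mem _ (hbN a)
      (Submodule.orthogonal_le (fix_anti hAN) (sub_PF_mem A (b a)))
  have h3 := (Submodule.mem_orthogonal _ _).1 h2 _ h1
  exact inner_self_eq_zero.1 h3

omit [CompleteSpace V] in
/-- a cocycle with values in the vectors fixed by a torsion group vanishes there. -/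
theorem vanish_of_torsion (hb : Coc U b) (T : Subgroup G) (hbT : ∀ g, b g ∈ fix U T) {t : G}
    (ht : t ∈ T) (hfin : IsOfFinOrder t) : b t = 0 := by
  have h1 : ∀ n : ℕ, b (t ^ n) = (n : ℝ) • b t := by
    intro n
    induction n with
    | zero => simp [hb.one]
    | succ n ih =>
      rw [pow_succ, hb, ih, (hbT t) _ (T.pow_mem ht n)]
      push_cast
      rw [add_smul, one_smul]
  have h2 := h1 (orderOf t)
  rw [pow_orderOf_eq_one, hb.one] at h2
  have h3 : (orderOf t : ℝ) ≠ 0 := by exact_mod_cast hfin.orderOf_pos.ne'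
  exact (smul_eq_zero.1 h2.symm).resolve_left h3

omit [CompleteSpace V] in
/-- finite normal subgroup: exact coboundary. -/
theorem ac_finite (hb : Coc U b) (T : Subgroup G) [T.Normal] [Finite T]
    (hbT : ∀ g, b g ∈ (fix U T)ᗮ) : AC U b := by
  classical
  cases nonempty_fintype T
  have hc : (0 : ℝ) < Fintype.card T := by exact_mod_cast Fintype.card_pos
  set ξ : V := ((Fintype.card T : ℝ)⁻¹) • ∑ t : T, b (t : G) with hξ
  -- `Σ_t b (g t) = Σ_t b(t g)` for `g`
  have hav : ∀ v : V, v ∈ (fix U T)ᗮ → ∑ t : T, U (t : G) v = 0 := by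
    intro v hv
    have h1 : ∑ t : T, U (t : G) v ∈ fix U T := by
      intro a ha
      rw [map_sum]
      simp only [← U_mul]
      exact Fintype.sum_equiv (Equiv.mulLeft (⟨a, ha⟩ : T)) _ _ fun t => rfl
    have h2 : ∑ t : T, U (t : G) v ∈ (fix U T)ᗮ := Submodule.sum_mem _ fun t _ => U_mem_orth _ hv
    exact inner_self_eq_zero.1 ((Submodule.mem_orthogonal _ _).1 h2 _ h1)
  have key : ∀ g, b g = ξ - U g ξ := by
    intro g
    -- sum of `b (t g)` over `t`
    have h1 : ∑ t : T, b ((t : G) * g) = ∑ t : T, b (t : G) := by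
      simp only [hb _ g, Finset.sum_add_distrib]
      rw [hav _ (hbT g), add_zero]
    have h2 : ∑ t : T, b (g * (t : G)) = ∑ t : T, b ((t : G) * g) := by
      refine Fintype.sum_equiv (MulAut.conjNormal g).toEquiv _ _ fun t => ?_
      congr 1
      show g * (t : G) = ((MulAut.conjNormal g t : T) : G) * g
      rw [MulAut.conjNormal_apply]
      group
    have h3 : ∑ t : T, b (g * (t : G)) = (Fintype.card T : ℝ) • b g + U g (∑ t : T, b (t : G)) := by
      simp only [hb g, Finset.sum_add_distrib]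
      rw [Finset.sum_const, Finset.card_univ, map_sum, ← Nat.cast_smul_eq_nsmul ℝ]
    rw [h2, h1] at h3
    have h4 : (Fintype.card T : ℝ) • b g = ∑ t : T, b (t : G) - U g (∑ t : T, b (t : G)) :=
      (sub_eq_of_eq_add h3).symm
    rw [hξ, map_smul, ← smul_sub, ← h4, smul_smul, inv_mul_cancel₀ hc.ne', one_smul]
  intro S ε hε
  exact ⟨ξ, fun s _ => by rw [key s, sub_self, norm_zero]; exact hε.le⟩

end Split

section Quot

variable {G V : Type*} [Group G] [NormedAddCommGroup V] [InnerProductSpace ℝ V]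
  {U : G →* (V ≃ₗᵢ[ℝ] V)} {b : G → V}

/-- restriction of `U g` to the vectors fixed by a normal subgroup -/
noncomputable def resU (U : G →* (V ≃ₗᵢ[ℝ] V)) (T : Subgroup G) [T.Normal] :
    G →* (fix U T ≃ₗᵢ[ℝ] fix U T) where
  toFun g :=
    { toFun := fun v => ⟨U g v, U_mem_fix g v.2⟩
      invFun := fun v => ⟨U g⁻¹ v, U_mem_fix g⁻¹ v.2⟩
      map_add' := fun _ _ => Subtype.ext (map_add _ _ _)
      map_smul' := fun _ _ => Subtype.ext (map_smul _ _ _)
      left_inv := fun _ => Subtype.ext (U_inv_apply _ _)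
      right_inv := fun _ => Subtype.ext (U_apply_inv _ _)
      norm_map' := fun v => U_norm g (v : V) }
  map_one' := LinearIsometryEquiv.ext fun _ => Subtype.ext (U_one _)
  map_mul' _ _ := LinearIsometryEquiv.ext fun _ => Subtype.ext (U_mul _ _ _)


/-- the quotient representation on the fixed vectors. -/
noncomputable def quoU (U : G →* (V ≃ₗᵢ[ℝ] V)) (T : Subgroup G) [T.Normal] :
    G ⧸ T →* (fix U T ≃ₗᵢ[ℝ] fix U T) :=
  QuotientGroup.lift T (resU U T) fun t ht =>
    LinearIsometryEquiv.ext fun v => Subtype.ext (v.2 t ht)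

theorem quoU_coe (T : Subgroup G) [T.Normal] (g : G) (v : fix U T) :
    ((quoU U T (g : G ⧸ T) v : fix U T) : V) = U g v := rfl

theorem ac_quot (hb : Coc U b) (T : Subgroup G) [T.Normal] (hbT : ∀ g, b g ∈ fix U T)
    (hT0 : ∀ t ∈ T, b t = 0)
    (h : ∀ b' : G ⧸ T → fix U T, Coc (quoU U T) b' → (∀ g : G, (b' (g : G ⧸ T) : V) = b g) →
      AC (quoU U T) b') : AC U b := by
  classical
  have hinv : ∀ g g' : G, (g : G ⧸ T) = (g' : G ⧸ T) → b g = b g' := by
    intro g g' hg
    rw [QuotientGroup.eq] at hg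
    have h1 : g' = g * (g⁻¹ * g') := by group
    rw [h1, hb g, hT0 _ hg, map_zero, add_zero]
  set b' : G ⧸ T → fix U T := fun q => ⟨b q.out, hbT _⟩ with hb'
  have hb'g : ∀ g : G, (b' (g : G ⧸ T) : V) = b g := by
    intro g
    exact hinv _ _ (QuotientGroup.out_eq' _)
  have hcoc : Coc (quoU U T) b' := by
    intro p q
    induction p using QuotientGroup.induction_on with
    | H p =>
      induction q using QuotientGroup.induction_on with
      | H q =>
        refine Subtype.ext ?_
        rw [← QuotientGroup.mk_mul, hb'g, hb p q, Submodule.coe_add, quoU_coe, hb'g, hb'g]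
  have hAC := h b' hcoc hb'g
  intro S ε hε
  obtain ⟨ξ, hξ⟩ := hAC (S.image (QuotientGroup.mk' T)) ε hε
  refine ⟨(ξ : V), fun s hs => ?_⟩
  have h1 := hξ (s : G ⧸ T) (Finset.mem_image_of_mem (QuotientGroup.mk' T) hs)
  have h2 : ((b' (s : G ⧸ T) - (ξ - quoU U T (s : G ⧸ T) ξ) : fix U T) : V) =
      b s - ((ξ : V) - U s (ξ : V)) := by
    rw [Submodule.coe_sub, Submodule.coe_sub, quoU_coe, hb'g]
  rw [← h2, ← Submodule.coe_norm]
  exact h1

/-- orthogonality descends to the quotient. -/
theorem quot_orth (T M : Subgroup G) [T.Normal] (hM : ∀ g, b g ∈ (fix U M)ᗮ)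
    {b' : G ⧸ T → fix U T} (hb' : ∀ g : G, (b' (g : G ⧸ T) : V) = b g) (q : G ⧸ T) :
    b' q ∈ (fix (quoU U T) (M.map (QuotientGroup.mk' T)))ᗮ := by
  induction q using QuotientGroup.induction_on with
  | H g =>
    rw [Submodule.mem_orthogonal]
    intro w hw
    rw [Submodule.coe_inner, hb' g]
    refine (Submodule.mem_orthogonal _ _).1 (hM g) _ fun m hm => ?_
    have h1 := hw (m : G ⧸ T) (Subgroup.mem_map_of_mem (QuotientGroup.mk' T) hm)
    have h2 := congrArg (Subtype.val) h1
    rwa [quoU_coe] at h2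

end Quot

section Free

/-- the averages of block HtMeas -/
def MeasProp : Prop :=
  ∀ (d k : ℕ) (T : Fin k → ((Fin d → ℤ) ≃+ (Fin d → ℤ))) (ℓ : (Fin d → ℤ) → ℝ) (c : ℝ),
    (∀ i j x, T i (T j x) = T j (T i x)) → (∀ x, 0 ≤ ℓ x) → ℓ 0 = 0 → (∀ x, ℓ (-x) = ℓ x) →
    (∀ x y, ℓ (x + y) ≤ ℓ x + ℓ y) → (∀ j x, ℓ (T j x) ≤ ℓ x + c) →
    (∀ j x, ℓ ((T j).symm x) ≤ ℓ x + c) →
    ∃ C : ℝ, ∃ p : ℕ → ((Fin d → ℤ) →₀ ℝ), (∀ n x, 0 ≤ p n x) ∧
      (∀ n, ((p n).sum fun _ r => r) = 1) ∧ (∀ n, ∀ x ∈ (p n).support, ℓ x ≤ C * (n + 1)) ∧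
      (∀ a : Fin d → ℤ, Tendsto (fun n => l1 (p n - (p n).mapDomain (fun x => a + x))) atTop
        (𝓝 0)) ∧
      ∀ j n, l1 (p n - (p n).mapDomain (T j)) ≤ C / (n + 1)

theorem l1_mapDomain {ι κ : Type*} {φ : ι → κ} (hφ : Function.Injective φ) (q : ι →₀ ℝ) :
    l1 (q.mapDomain φ) = l1 q := by
  unfold l1
  exact Finsupp.sum_mapDomain_index_inj hφ

theorem l1_neg {ι : Type*} (q : ι →₀ ℝ) : l1 (-q) = l1 q := by
  unfold l1 Finsupp.sum
  rw [Finsupp.support_neg]
  exact Finset.sum_congr rfl fun x _ => by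
    show |(-q) x| = |q x|
    rw [Finsupp.neg_apply, abs_neg]

variable {G V : Type*} [Group G] [NormedAddCommGroup V] [InnerProductSpace ℝ V] [CompleteSpace V]
  {U : G →* (V ≃ₗᵢ[ℝ] V)} {b : G → V}

theorem ac_free (hM : MeasProp) (hfg : Group.FG G) (N A : Subgroup G) [A.Normal]
    (hcomm : ∀ a ∈ A, ∀ n ∈ N, a * n = n * a) (hAN : A ≤ N)
    (hab : ∀ g h : G, g * h * g⁻¹ * h⁻¹ ∈ N) {d : ℕ} (e : Additive A ≃+ (Fin d → ℤ))
    (hb : Coc U b) (hbA : ∀ g, b g ∈ (fix U A)ᗮ) : AC U b := by
  classical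
  obtain ⟨Z, hZ, hZf⟩ := Group.fg_iff.1 hfg
  -- enumeration of the generators
  obtain ⟨k, z, hz⟩ : ∃ (k : ℕ) (z : Fin k → G), Set.range z = Z := by
    have := hZf.to_subtype
    obtain ⟨k, ⟨f⟩⟩ := Finite.exists_equiv_fin Z
    exact ⟨k, fun i => ((f.symm i : Z) : G), by
      ext x; constructor
      · rintro ⟨i, rfl⟩; exact (f.symm i).2
      · intro hx; exact ⟨f ⟨x, hx⟩, by simp⟩⟩
  set ι : (Fin d → ℤ) → G := fun x => (((e.symm x).toMul : A) : G) with hι
  have hιadd : ∀ x y, ι (x + y) = ι x * ι y := by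
    intro x y
    show ((((e.symm (x + y))).toMul : A) : G) = _
    rw [map_add]; rfl
  have hι0 : ι 0 = 1 := by
    show ((((e.symm 0)).toMul : A) : G) = _
    rw [map_zero]; rfl
  have hιneg : ∀ x, ι (-x) = (ι x)⁻¹ := by
    intro x
    show ((((e.symm (-x))).toMul : A) : G) = _
    rw [map_neg]; rfl
  have hιA : ∀ x, ι x ∈ A := fun x => SetLike.coe_mem _
  have hιinj : Function.Injective ι := by
    intro x y hxy
    exact e.symm.injective (Subtype.ext hxy)
  have hιsurj : ∀ a ∈ A, ∃ x, ι x = a := by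
    intro a ha
    refine ⟨e (Additive.ofMul ⟨a, ha⟩), ?_⟩
    show ((((e.symm (e (Additive.ofMul ⟨a, ha⟩)))).toMul : A) : G) = a
    rw [AddEquiv.symm_apply_apply]; rfl
  set T : Fin k → ((Fin d → ℤ) ≃+ (Fin d → ℤ)) := fun j =>
    (e.symm.trans (MulEquiv.toAdditive (MulAut.conjNormal (z j) : A ≃* A))).trans e with hT
  have hιT : ∀ j x, ι (T j x) = z j * ι x * (z j)⁻¹ := by
    intro j x
    show ((((e.symm (e (MulEquiv.toAdditive (MulAut.conjNormal (z j) : A ≃* A) (e.symm x)))).toMul
      : A)) : G) = _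
    rw [AddEquiv.symm_apply_apply]
    exact MulAut.conjNormal_apply _ _
  have hιT' : ∀ j x, ι ((T j).symm x) = (z j)⁻¹ * ι x * z j := by
    intro j x
    have h1 := hιT j ((T j).symm x)
    rw [AddEquiv.apply_symm_apply] at h1
    rw [h1]; group
  have hTcomm : ∀ i j x, T i (T j x) = T j (T i x) := by
    intro i j x
    apply hιinj
    rw [hιT, hιT, hιT, hιT]
    have h1 : z j * (z i * ι x * (z i)⁻¹) * (z j)⁻¹ ∈ A := by
      have hn : A.Normal := inferInstance
      exact hn.conj_mem _ (hn.conj_mem _ (hιA x) _) _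
    have h2 := hcomm _ h1 _ (hab (z i) (z j))
    have h3 : z i * (z j * ι x * (z j)⁻¹) * (z i)⁻¹ =
        (z i * z j * (z i)⁻¹ * (z j)⁻¹) * (z j * (z i * ι x * (z i)⁻¹) * (z j)⁻¹) *
          (z i * z j * (z i)⁻¹ * (z j)⁻¹)⁻¹ := by group
    rw [h3, ← h2]; group
  set c : ℝ := ∑ j, 2 * ‖b (z j)‖ with hc
  have hcj : ∀ j, 2 * ‖b (z j)‖ ≤ c := fun j =>
    Finset.single_le_sum (f := fun j => 2 * ‖b (z j)‖) (fun i _ => by positivity)
      (Finset.mem_univ j)
  obtain ⟨C, q, hq0, hq1, hqs, hqA, hqT⟩ := hM d k T (fun x => ‖b (ι x)‖) c hTcomm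
    (fun x => norm_nonneg _) (by simp [hι0, hb.one]) (fun x => by rw [hιneg, hb.norm_inv])
    (fun x y => by rw [hιadd]; exact hb.norm_mul_le _ _)
    (fun j x => by
      rw [hιT]
      exact (hb.norm_conj_le _ _).trans (by linarith [hcj j]))
    (fun j x => by
      rw [hιT']
      have h1 := hb.norm_conj_le (z j)⁻¹ (ι x)
      rw [inv_inv, hb.norm_inv] at h1
      exact h1.trans (by linarith [hcj j]))
  have hc0 : 0 ≤ c := Finset.sum_nonneg fun j _ => by positivity
  set p : ℕ → G →₀ ℝ := fun n => (q n).mapDomain ι with hp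
  have hpA : ∀ n, ∀ x ∈ (p n).support, x ∈ A := by
    intro n x hx
    have h1 := Finsupp.mapDomain_support hx
    rw [Finset.mem_image] at h1
    obtain ⟨y, _, rfl⟩ := h1
    exact hιA y
  refine ac_of_averages hb N A hcomm hAN hbA (Z := Z) ?_ p ?_ ?_ hpA ?_ ?_
  · rw [eq_top_iff, ← hZ]
    exact Subgroup.closure_mono Set.subset_union_right
  · intro n x
    by_cases hx : x ∈ Set.range ι
    · obtain ⟨y, rfl⟩ := hx
      rw [hp]; simp only
      rw [Finsupp.mapDomain_apply hιinj]
      exact hq0 n y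
    · rw [hp]; simp only
      rw [Finsupp.mapDomain_of_notMem_range _ _ hx]
  · intro n
    rw [hp]; simp only
    rw [Finsupp.sum_mapDomain_index_inj hιinj]
    exact hq1 n
  · intro a ha
    obtain ⟨y, rfl⟩ := hιsurj a ha
    refine (hqA y).congr fun n => ?_
    have h1 : p n - (p n).mapDomain (fun x => ι y * x) =
        (q n - (q n).mapDomain (fun x => y + x)).mapDomain ι := by
      show (q n).mapDomain ι - ((q n).mapDomain ι).mapDomain (fun x => ι y * x) = _
      rw [← Finsupp.mapDomain_comp, Finsupp.mapDomain_sub, ← Finsupp.mapDomain_comp]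
      congr 2
      ext x
      exact (hιadd y x).symm
    rw [h1, l1_mapDomain hιinj]
  · intro w hw
    rw [← hz] at hw
    obtain ⟨j, rfl⟩ := hw
    refine ⟨C * (C + c), fun n => ?_⟩
    have hC0 : 0 ≤ C := by
      have h1 := (l1_nonneg _).trans (hqT j 0)
      simpa using h1
    have h1 : E (fun x => b (z j * x * (z j)⁻¹)) (p n) - E b (p n) =
        E (fun x => b (ι x)) ((q n).mapDomain (T j) - q n) := by
      rw [E_sub, hp]; simp only
      rw [E_mapDomain, E_mapDomain, E_mapDomain]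
      congr 1
      exact E_congr fun x _ => by rw [hιT]
    rw [h1]
    have h2 : l1 ((q n).mapDomain (T j) - q n) ≤ C / (n + 1) := by
      rw [← l1_neg, neg_sub]
      exact hqT j n
    have h3 : ∀ x ∈ ((q n).mapDomain (T j) - q n).support, ‖b (ι x)‖ ≤ C * (n + 1) + c := by
      intro x hx
      have h4 := Finsupp.support_sub hx
      rw [Finset.mem_union] at h4
      rcases h4 with h4 | h4
      · have h5 := Finsupp.mapDomain_support h4
        rw [Finset.mem_image] at h5
        obtain ⟨y, hy, rfl⟩ := h5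
        rw [hιT]
        have h6 := hb.norm_conj_le (z j) (ι y)
        have h7 : ‖b (ι y)‖ ≤ C * (n + 1) := hqs n y hy
        have h8 := hcj j
        linarith
      · have h5 : ‖b (ι x)‖ ≤ C * (n + 1) := hqs n x h4
        linarith
    refine (norm_E_le h3).trans ?_
    have hn : (0 : ℝ) < n + 1 := by positivity
    have hn1 : (1 : ℝ) ≤ n + 1 := by
      have : (0 : ℝ) ≤ n := Nat.cast_nonneg n
      linarith
    calc l1 ((q n).mapDomain (T j) - q n) * (C * (n + 1) + c)
        ≤ C / (n + 1) * (C * (n + 1) + c) :=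
          mul_le_mul_of_nonneg_right h2 (by positivity)
      _ = C * (C + c / (n + 1)) := by field_simp
      _ ≤ C * (C + c) := by
          apply mul_le_mul_of_nonneg_left _ hC0
          have : c / (n + 1) ≤ c := div_le_self hc0 hn1
          linarith

end Free

section Nil

theorem fg_map {G H : Type*} [Group G] [Group H] (f : G →* H) {K : Subgroup G} (h : K.FG) :
    (K.map f).FG := by
  rw [← Group.fg_iff_subgroup_fg] at h ⊢
  exact Group.fg_of_surjective (f.subgroupMap_surjective K)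

theorem fg_quot {G : Type*} [Group G] (hfg : ∀ H : Subgroup G, H.FG) (T : Subgroup G) [T.Normal]
    (H : Subgroup (G ⧸ T)) : H.FG := by
  have h1 := fg_map (QuotientGroup.mk' T) (hfg (H.comap (QuotientGroup.mk' T)))
  rwa [Subgroup.map_comap_eq_self_of_surjective (QuotientGroup.mk'_surjective T)] at h1

/-- a f.g. torsion-free commutative subgroup is free abelian. -/
theorem exists_free {G : Type*} [Group G] (A : Subgroup G) (hfg : A.FG)
    (hcomm : ∀ a ∈ A, ∀ n ∈ A, a * n = n * a) (htf : ∀ a ∈ A, IsOfFinOrder a → a = 1) :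
    ∃ d : ℕ, Nonempty (Additive A ≃+ (Fin d → ℤ)) := by
  let _i : CommGroup A :=
    { (inferInstance : Group A) with
      mul_comm := fun a b => Subtype.ext (hcomm a a.2 b b.2) }
  have : IsMulTorsionFree A := isMulTorsionFree_iff_not_isOfFinOrder.2 fun a ha hf => by
    have h1 : IsOfFinOrder (a : G) := (A.subtype).isOfFinOrder hf
    exact ha (Subtype.ext (htf a a.2 h1))
  have : Group.FG A := (Group.fg_iff_subgroup_fg A).2 hfg
  have : Module.Finite ℤ (Additive A) := Module.Finite.iff_addGroup_fg.2 inferInstance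
  exact ⟨_, ⟨(Module.finBasis ℤ (Additive A)).equivFun.toAddEquiv⟩⟩

variable {G V : Type*} [Group G] [NormedAddCommGroup V] [InnerProductSpace ℝ V] [CompleteSpace V]
  {U : G →* (V ≃ₗᵢ[ℝ] V)} {b : G → V}

theorem ac_abelian (hM : MeasProp) (hfg : ∀ H : Subgroup G, H.FG) (N A : Subgroup G) [A.Normal]
    (hcomm : ∀ a ∈ A, ∀ n ∈ N, a * n = n * a) (hAN : A ≤ N)
    (hab : ∀ g h : G, g * h * g⁻¹ * h⁻¹ ∈ N)
    (hb : Coc U b) (hbA : ∀ g, b g ∈ (fix U A)ᗮ) : AC U b := by
  classical
  -- torsion subgroup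
  set T : Subgroup G :=
    { carrier := {x | x ∈ A ∧ IsOfFinOrder x}
      mul_mem' := fun {x y} hx hy => ⟨A.mul_mem hx.1 hy.1,
        Commute.isOfFinOrder_mul (hcomm x hx.1 y (hAN hy.1)) hx.2 hy.2⟩
      one_mem' := ⟨A.one_mem, IsOfFinOrder.one⟩
      inv_mem' := fun {x} hx => ⟨A.inv_mem hx.1, hx.2.inv⟩ } with hT
  have hTA : T ≤ A := fun x hx => hx.1
  have : T.Normal := ⟨fun x hx g => ⟨(inferInstance : A.Normal).conj_mem x hx.1 g,
    (MulAut.conj g).toMonoidHom.isOfFinOrder hx.2⟩⟩
  have : Finite T := by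
    let _i : CommGroup T :=
      { (inferInstance : Group T) with
        mul_comm := fun a b => Subtype.ext (hcomm a (hTA a.2) b (hAN (hTA b.2))) }
    have : Group.FG T := (Group.fg_iff_subgroup_fg T).2 (hfg T)
    refine CommGroup.finite_of_fg_isMulTorsion T fun x => ?_
    exact (Submonoid.isOfFinOrder_coe).1 x.2.2
  refine ac_split T (ac_finite (hb.subPF T) T fun g => sub_PF_mem T _) ?_
  refine ac_quot (hb.PF T) T (fun g => PF_mem T _)
    (fun t ht => vanish_of_torsion (hb.PF T) T (fun g => PF_mem T _) ht ht.2) ?_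
  intro b' hb' hbb
  have : (A.map (QuotientGroup.mk' T)).Normal :=
    Subgroup.Normal.map inferInstance _ (QuotientGroup.mk'_surjective T)
  have hc' : ∀ a ∈ A.map (QuotientGroup.mk' T), ∀ n ∈ N.map (QuotientGroup.mk' T),
      a * n = n * a := by
    rintro _ ⟨a, ha, rfl⟩ _ ⟨n, hn, rfl⟩
    rw [← map_mul, ← map_mul, hcomm a ha n hn]
  have hAN' : A.map (QuotientGroup.mk' T) ≤ N.map (QuotientGroup.mk' T) := Subgroup.map_mono hAN
  obtain ⟨d, ⟨e⟩⟩ := exists_free (A.map (QuotientGroup.mk' T)) (fg_map _ (hfg A))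
    (fun a ha n hn => hc' a ha n (hAN' hn)) (by
      rintro _ ⟨a, ha, rfl⟩ hf
      obtain ⟨n, hn, h1⟩ := isOfFinOrder_iff_pow_eq_one.1 hf
      rw [← map_pow] at h1
      have h2 : a ^ n ∈ T := (QuotientGroup.eq_one_iff _).1 h1
      have h3 : IsOfFinOrder a := (isOfFinOrder_pow.1 h2.2).resolve_right hn.ne'
      exact (QuotientGroup.eq_one_iff _).2 ⟨ha, h3⟩)
  have : Group.FG G := Group.fg_def.2 (hfg ⊤)
  refine ac_free hM inferInstance (N.map (QuotientGroup.mk' T)) (A.map (QuotientGroup.mk' T))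
    hc' hAN' ?_ e hb' (quot_orth T A (b := fun g => PF U T (b g)) ?_ hbb)
  · intro p q
    obtain ⟨p, rfl⟩ := QuotientGroup.mk'_surjective T p
    obtain ⟨q, rfl⟩ := QuotientGroup.mk'_surjective T q
    rw [← map_mul, ← map_inv, ← map_mul, ← map_inv, ← map_mul]
    exact Subgroup.mem_map_of_mem _ (hab p q)
  · intro g
    have h3 : PF U T (b g) = b g - (b g - PF U T (b g)) := by abel
    rw [h3]
    exact Submodule.sub_mem _ (hbA g)
      (Submodule.orthogonal_le (fix_anti hTA) (sub_PF_mem T (b g)))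

end Nil

section Main

universe u v

theorem ac_nil_aux (hM : MeasProp) (c : ℕ) : ∀ {G : Type u} [Group G]
    (_ : ∀ H : Subgroup G, H.FG) (N : Subgroup G) [N.Normal] [Group.IsNilpotent N]
    (_ : Group.nilpotencyClass N ≤ c) (_ : ∀ g h : G, g * h * g⁻¹ * h⁻¹ ∈ N)
    {V : Type v} [NormedAddCommGroup V] [InnerProductSpace ℝ V] [CompleteSpace V]
    {U : G →* (V ≃ₗᵢ[ℝ] V)} {b : G → V} (_ : Coc U b) (_ : ∀ g, b g ∈ (fix U N)ᗮ), AC U b := by
  induction c with
  | zero =>
    intro G _ hfg N _ _ hc hab V _ _ _ U b hb hbN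
    have h1 : Subsingleton N := Group.nilpotencyClass_zero_iff_subsingleton.1 (Nat.le_zero.1 hc)
    have h2 : ∀ g, b g = 0 := by
      intro g
      have h3 : b g ∈ fix U N := by
        intro a ha
        have h4 : (⟨a, ha⟩ : N) = 1 := Subsingleton.elim _ _
        have h5 : a = 1 := congrArg Subtype.val h4
        rw [h5, U_one]
      exact inner_self_eq_zero.1 ((Submodule.mem_orthogonal _ _).1 (hbN g) _ h3)
    intro S ε hε
    exact ⟨0, fun s _ => by simp [h2, hε.le]⟩
  | succ c ih =>
    intro G _ hfg N _ _ hc hab V _ _ _ U b hb hbN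
    set A : Subgroup G := (Subgroup.center N).map N.subtype with hA
    have : A.Normal := inferInstance
    have hAN : A ≤ N := by
      rintro _ ⟨a, _, rfl⟩
      exact a.2
    have hcomm : ∀ a ∈ A, ∀ n ∈ N, a * n = n * a := by
      rintro _ ⟨a, ha, rfl⟩ n hn
      have h1 := Subgroup.mem_center_iff.1 ha ⟨n, hn⟩
      exact (congrArg Subtype.val h1).symm
    refine ac_split A (ac_abelian hM hfg N A hcomm hAN hab (hb.subPF A) fun g => sub_PF_mem A _) ?_
    refine ac_quot (hb.PF A) A (fun g => PF_mem A _)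
      (fun t ht => PF_vanish hb N A hAN hcomm hbN ht) ?_
    intro b' hb' hbb
    have : (N.map (QuotientGroup.mk' A)).Normal :=
      Subgroup.Normal.map inferInstance _ (QuotientGroup.mk'_surjective A)
    -- nilpotency class
    set f : N →* N.map (QuotientGroup.mk' A) := (QuotientGroup.mk' A).subgroupMap N with hf
    have hfs : Function.Surjective f := (QuotientGroup.mk' A).subgroupMap_surjective N
    set f' : N ⧸ Subgroup.center N →* N.map (QuotientGroup.mk' A) :=
      QuotientGroup.lift (Subgroup.center N) f (fun x hx => Subtype.ext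
        ((QuotientGroup.eq_one_iff _).2 ⟨x, hx, rfl⟩)) with hf'
    have hfs' : Function.Surjective f' := by
      intro y
      obtain ⟨x, hx⟩ := hfs y
      exact ⟨(x : N ⧸ Subgroup.center N), hx⟩
    have : Group.IsNilpotent (N.map (QuotientGroup.mk' A)) :=
      Group.nilpotent_of_surjective f hfs
    have hcl : Group.nilpotencyClass (N.map (QuotientGroup.mk' A)) ≤ c := by
      have h1 := Group.nilpotencyClass_le_of_surjective f' hfs'
      rw [Group.nilpotencyClass_quotient_center] at h1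
      omega
    refine ih (fg_quot hfg A) (N.map (QuotientGroup.mk' A)) hcl ?_ hb'
      (quot_orth A N (b := fun g => PF U A (b g)) ?_ hbb)
    · intro p q
      obtain ⟨p, rfl⟩ := QuotientGroup.mk'_surjective A p
      obtain ⟨q, rfl⟩ := QuotientGroup.mk'_surjective A q
      rw [← map_mul, ← map_inv, ← map_mul, ← map_inv, ← map_mul]
      exact Subgroup.mem_map_of_mem _ (hab p q)
    · intro g
      have h3 : PF U A (b g) = b g - (b g - PF U A (b g)) := by abel
      rw [h3]
      exact Submodule.sub_mem _ (hbN g)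
        (Submodule.orthogonal_le (fix_anti hAN) (sub_PF_mem A (b g)))

/-- **T5.** -/
theorem ac_nil (hM : MeasProp) {G : Type u} [Group G] (hfg : ∀ H : Subgroup G, H.FG)
    (N : Subgroup G) [N.Normal] (hnil : Group.IsNilpotent N)
    (hab : ∀ g h : G, g * h * g⁻¹ * h⁻¹ ∈ N)
    {V : Type v} [NormedAddCommGroup V] [InnerProductSpace ℝ V] [CompleteSpace V]
    {U : G →* (V ≃ₗᵢ[ℝ] V)} {b : G → V} (hb : Coc U b) (hbN : ∀ g, b g ∈ (fix U N)ᗮ) : AC U b :=
  ac_nil_aux hM _ hfg N le_rfl hab hb hbN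

end Main

end Crest.Agent.R182.Ht
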