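import Mathlib
import Crest.Agent.R182.ErgCoc
import Crest.Agent.R182.MicDefs
import Crest.Agent.R182.FinRed
import Crest.Agent.R182.PolycRoot

-- ▼ part R182/HtMeas
section

/-!
# R182 / MICRO: almost invariant, linearly bounded measures on `ℤ^d` with a `ℤ^k`-action

`ℤ^k` acts on `A = ℤ^d`; `ℓ` is a length on `A` that is changed by at most `c |v|₁` by `v ∈ ℤ^k`
(the word length of a group in which the action is by conjugation).  There are probability
measures `p_n` on `A`, supported in `{ℓ ≤ C (n+1)}`, asymptotically translation invariant, and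
with `‖T_j p_n - p_n‖₁ ≤ 2/(n+1)`.
-/

open Finset
open scoped Pointwise

namespace Crest.Agent.R182.HtMeas

variable {d k : ℕ}

/-- `ℤ^d → ℝ^d`. -/
def ι (a : Fin d → ℤ) : Fin d → ℝ := fun i => (a i : ℝ)

@[simp] theorem ι_apply (a : Fin d → ℤ) (i : Fin d) : ι a i = (a i : ℝ) := rfl

@[simp] theorem ι_zero : ι (0 : Fin d → ℤ) = 0 := by ext i; simp

theorem ι_add (a b : Fin d → ℤ) : ι (a + b) = ι a + ι b := by ext i; simp


theorem ι_sub (a b : Fin d → ℤ) : ι (a - b) = ι a - ι b := by ext i; simp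

theorem ι_smul (n : ℤ) (a : Fin d → ℤ) : ι (n • a) = (n : ℝ) • ι a := by ext i; simp

theorem ι_sum {α : Type*} (s : Finset α) (f : α → Fin d → ℤ) :
    ι (∑ i ∈ s, f i) = ∑ i ∈ s, ι (f i) := by
  ext i; simp [Finset.sum_apply]


theorem ι_single (j : Fin d) : ι (Pi.single j 1 : Fin d → ℤ) = Pi.single j 1 := by
  ext i
  by_cases h : i = j
  · subst h; simp
  · simp [h]

/-- Real extension of an additive endomorphism of `ℤ^d`. -/
noncomputable def ex (f : (Fin d → ℤ) →+ (Fin d → ℤ)) : (Fin d → ℝ) →ₗ[ℝ] (Fin d → ℝ) :=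
  Matrix.toLin' (Matrix.of fun i j => ((f (Pi.single j 1) i : ℤ) : ℝ))

theorem ex_ι (f : (Fin d → ℤ) →+ (Fin d → ℤ)) (a : Fin d → ℤ) : ex f (ι a) = ι (f a) := by
  have ha : a = ∑ j, a j • (Pi.single j 1 : Fin d → ℤ) := by
    ext i
    simp [Finset.sum_apply, Pi.single_apply]
  have hf : f a = ∑ j, a j • f (Pi.single j 1) := by
    conv_lhs => rw [ha]
    rw [map_sum]
    exact Finset.sum_congr rfl fun j _ => map_zsmul f _ _
  ext i
  rw [hf]
  simp only [ex, Matrix.toLin'_apply, Matrix.mulVec, dotProduct, Matrix.of_apply, ι_apply,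
    Finset.sum_apply, Pi.smul_apply, smul_eq_mul, Int.cast_sum, Int.cast_mul]
  exact Finset.sum_congr rfl fun j _ => mul_comm _ _

theorem ex_ext {f g : (Fin d → ℝ) →ₗ[ℝ] (Fin d → ℝ)} (h : ∀ a, f (ι a) = g (ι a)) : f = g := by
  apply LinearMap.pi_ext'
  intro j
  apply LinearMap.ext_ring
  simp only [LinearMap.comp_apply, LinearMap.single_apply]
  have := h (Pi.single j 1)
  rwa [ι_single] at this

/-- An action of `ℤ^k` on `ℤ^d`. -/
structure Act (k d : ℕ) where
  /-- the automorphism of `v` -/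
  ac : (Fin k → ℤ) → (Fin d → ℤ) →+ (Fin d → ℤ)
  ac_zero : ∀ a, ac 0 a = a
  ac_add : ∀ v w a, ac (v + w) a = ac v (ac w a)

variable (φ : Act k d)

namespace Act

theorem ac_neg_cancel (v : Fin k → ℤ) (a : Fin d → ℤ) : φ.ac v (φ.ac (-v) a) = a := by
  rw [← φ.ac_add, add_neg_cancel, φ.ac_zero]

theorem ac_cancel_neg (v : Fin k → ℤ) (a : Fin d → ℤ) : φ.ac (-v) (φ.ac v a) = a := by
  rw [← φ.ac_add, neg_add_cancel, φ.ac_zero]

/-- The action of `v ∈ ℤ^k` on `ℝ^d`. -/
noncomputable def E (v : Fin k → ℤ) : (Fin d → ℝ) →ₗ[ℝ] (Fin d → ℝ) := ex (φ.ac v)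

theorem E_ι (v : Fin k → ℤ) (a : Fin d → ℤ) : φ.E v (ι a) = ι (φ.ac v a) := by
  rw [E, ex_ι]

theorem E_add (v w : Fin k → ℤ) : φ.E (v + w) = φ.E v ∘ₗ φ.E w := by
  apply ex_ext
  intro a
  rw [LinearMap.comp_apply, E_ι, E_ι, E_ι, φ.ac_add]

theorem E_zero : φ.E (0 : Fin k → ℤ) = LinearMap.id := by
  apply ex_ext
  intro a
  rw [E_ι, φ.ac_zero]; rfl

end Act

/-- **Carathéodory** with signs: a combination with coefficients of total mass `≤ W` can be
written with `d+1` terms and the same bound on the mass. -/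
theorem car {Ω : Type*} [Fintype Ω] [Nonempty Ω] (u : Ω → Fin d → ℝ) (x : Ω → ℝ) :
    ∃ (α : Fin (d + 1) → Ω) (y : Fin (d + 1) → ℝ), ∑ i, |y i| ≤ ∑ ω, |x ω| ∧
      ∑ i, y i • u (α i) = ∑ ω, x ω • u ω := by
  classical
  set W : ℝ := ∑ ω, |x ω| with hW
  have hW0 : 0 ≤ W := Finset.sum_nonneg fun _ _ => abs_nonneg _
  rcases hW0.eq_or_lt with h0 | hpos
  · have hx : ∀ ω, x ω = 0 := by
      intro ω
      have := (Finset.sum_eq_zero_iff_of_nonneg (fun ω _ => abs_nonneg (x ω))).1 h0.symm ω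
        (Finset.mem_univ _)
      simpa using this
    refine ⟨fun _ => Classical.arbitrary Ω, fun _ => 0, ?_, ?_⟩
    · simpa using hW0
    · simp [hx]
  · -- the point `(1/W) ∑ |x| (sign x u)` lies in the convex hull
    set z : Ω → Fin d → ℝ := fun ω => (SignType.sign (x ω) : ℝ) • u ω with hz
    have hmem : (1 / W) • ∑ ω, x ω • u ω ∈ convexHull ℝ (Set.range z) := by
      have h1 : (1 / W) • ∑ ω, x ω • u ω = ∑ ω, (|x ω| / W) • z ω := by
        rw [Finset.smul_sum]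
        refine Finset.sum_congr rfl fun ω _ => ?_
        rw [hz]
        simp only [smul_smul]
        congr 1
        have : x ω = |x ω| * (SignType.sign (x ω) : ℝ) := (abs_mul_sign _).symm
        conv_lhs => rw [this]
        ring
      rw [h1]
      refine (convex_convexHull ℝ _).sum_mem (fun ω _ => by positivity) ?_
        (fun ω _ => subset_convexHull ℝ _ ⟨ω, rfl⟩)
      rw [← Finset.sum_div, ← hW, div_self hpos.ne']
    obtain ⟨ι', _, zz, w, hrange, haff, hwpos, hwsum, hweq⟩ :=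
      eq_pos_convex_span_of_mem_convexHull hmem
    have hcard : Fintype.card ι' ≤ d + 1 := by
      have h2 := haff.card_le_finrank_succ
      have h3 : Module.finrank ℝ (vectorSpan ℝ (Set.range zz)) ≤ d := by
        have := Submodule.finrank_le (vectorSpan ℝ (Set.range zz))
        simpa using this
      omega
    -- embed `ι'` into `Fin (d+1)`
    obtain ⟨emb⟩ : Nonempty (ι' ↪ Fin (d + 1)) :=
      Function.Embedding.nonempty_of_card_le (by simpa using hcard)
    have hex : ∀ i : ι', ∃ ω, z ω = zz i := fun i => hrange ⟨i, rfl⟩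
    choose om hom using hex
    let α : Fin (d + 1) → Ω := fun i => if h : ∃ s, emb s = i then om h.choose
      else Classical.arbitrary Ω
    let y : Fin (d + 1) → ℝ := fun i => if h : ∃ s, emb s = i then
      W * w h.choose * (SignType.sign (x (om h.choose)) : ℝ) else 0
    have hα : ∀ s, α (emb s) = om s := by
      intro s
      have h : ∃ s', emb s' = emb s := ⟨s, rfl⟩
      have hs : h.choose = s := emb.injective h.choose_spec
      simp only [α, dif_pos h, hs]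
    have hy : ∀ s, y (emb s) = W * w s * (SignType.sign (x (om s)) : ℝ) := by
      intro s
      have h : ∃ s', emb s' = emb s := ⟨s, rfl⟩
      have hs : h.choose = s := emb.injective h.choose_spec
      simp only [y, dif_pos h, hs]
    have hy0 : ∀ i, i ∉ Set.range emb → y i = 0 := by
      intro i hi
      simp only [y]
      rw [dif_neg]
      intro h
      exact hi h
    refine ⟨α, y, ?_, ?_⟩
    · have hsum : ∑ i, |y i| = ∑ s, |y (emb s)| := by
        rw [← Finset.sum_image (s := Finset.univ) (g := emb) (f := fun i => |y i|)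
          (fun a _ b _ h => emb.injective h)]
        symm
        apply Finset.sum_subset (Finset.subset_univ _)
        intro i _ hi
        rw [hy0 i (by simpa using hi), abs_zero]
      rw [hsum]
      calc ∑ s, |y (emb s)| ≤ ∑ s, W * w s := by
            refine Finset.sum_le_sum fun s _ => ?_
            rw [hy, abs_mul, abs_of_pos (mul_pos hpos (hwpos s))]
            have : |(SignType.sign (x (om s)) : ℝ)| ≤ 1 := by
              rcases SignType.sign (x (om s)) with _ | _ | _ <;> simp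
            nlinarith [mul_pos hpos (hwpos s)]
        _ = W := by rw [← Finset.mul_sum, hwsum, mul_one]
    · have hsum : ∑ i, y i • u (α i) = ∑ s, y (emb s) • u (α (emb s)) := by
        rw [← Finset.sum_image (s := Finset.univ) (g := emb) (f := fun i => y i • u (α i))
          (fun a _ b _ h => emb.injective h)]
        symm
        apply Finset.sum_subset (Finset.subset_univ _)
        intro i _ hi
        rw [hy0 i (by simpa using hi), zero_smul]
      rw [hsum]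
      have h4 : ∀ s, y (emb s) • u (α (emb s)) = W • (w s • zz s) := by
        intro s
        rw [hy, hα, ← hom s, hz]
        simp only [smul_smul]
        ring_nf
      rw [Finset.sum_congr rfl fun s _ => h4 s, ← Finset.smul_sum, hweq, smul_smul,
        mul_one_div_cancel hpos.ne', one_smul]


/-- A length on `ℤ^d` changed by at most `c |v|₁` by `v ∈ ℤ^k`. -/
structure Len (φ : Act k d) where
  /-- the length -/
  ℓ : (Fin d → ℤ) → ℝ
  /-- the constant -/
  c : ℝ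
  ℓ_zero : ℓ 0 = 0
  ℓ_nonneg : ∀ a, 0 ≤ ℓ a
  ℓ_neg : ∀ a, ℓ (-a) ≤ ℓ a
  ℓ_add : ∀ a b, ℓ (a + b) ≤ ℓ a + ℓ b
  c_nonneg : 0 ≤ c
  ℓ_ac : ∀ v a, ℓ (φ.ac v a) ≤ ℓ a + c * ∑ j, |(v j : ℝ)|

variable {φ} (L : Len φ)

namespace Len

theorem ℓ_nsmul (n : ℕ) (a : Fin d → ℤ) : L.ℓ (n • a) ≤ n * L.ℓ a := by
  induction n with
  | zero => simp [L.ℓ_zero]
  | succ n ih =>
    rw [succ_nsmul]
    push_cast
    have := L.ℓ_add (n • a) a
    linarith

theorem ℓ_zsmul (n : ℤ) (a : Fin d → ℤ) : L.ℓ (n • a) ≤ |(n : ℝ)| * L.ℓ a := by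
  rcases Int.eq_nat_or_neg n with ⟨m, rfl | rfl⟩
  · have := L.ℓ_nsmul m a
    rw [natCast_zsmul]
    simpa using this
  · have h1 := L.ℓ_nsmul m a
    have h2 := L.ℓ_neg (m • a)
    rw [neg_smul, natCast_zsmul]
    push_cast
    rw [abs_neg]
    have h3 : |(m : ℝ)| = m := abs_of_nonneg (by positivity)
    rw [h3]
    linarith

theorem ℓ_sum {α : Type*} (s : Finset α) (f : α → Fin d → ℤ) :
    L.ℓ (∑ i ∈ s, f i) ≤ ∑ i ∈ s, L.ℓ (f i) := by
  classical
  induction s using Finset.induction_on with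
  | empty => simp [L.ℓ_zero]
  | insert a s ha ih =>
    rw [Finset.sum_insert ha, Finset.sum_insert ha]
    have := L.ℓ_add (f a) (∑ i ∈ s, f i)
    linarith

theorem ℓ_le (a : Fin d → ℤ) : L.ℓ a ≤ ∑ j, |(a j : ℝ)| * L.ℓ (Pi.single j 1) := by
  have ha : a = ∑ j, a j • (Pi.single j 1 : Fin d → ℤ) := by
    ext i
    simp [Finset.sum_apply, Pi.single_apply]
  conv_lhs => rw [ha]
  exact (L.ℓ_sum _ _).trans (Finset.sum_le_sum fun j _ => L.ℓ_zsmul _ _)

end Len

/-- One step towards the origin. -/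
noncomputable def sg (v : Fin k → ℤ) : Fin k → ℤ := fun t => (v t).sign

theorem sub_sg_le {v : Fin k → ℤ} {m : ℕ} (h : ∀ t, |v t| ≤ (m : ℤ) + 1) (t : Fin k) :
    |(v - sg v) t| ≤ (m : ℤ) := by
  have ht := h t
  simp only [Pi.sub_apply, sg]
  rcases lt_trichotomy (v t) 0 with h0 | h0 | h0
  · rw [Int.sign_eq_neg_one_of_neg h0]
    rw [abs_le] at ht ⊢
    omega
  · simp [h0]
  · rw [Int.sign_eq_one_of_pos h0]
    rw [abs_le] at ht ⊢
    omega

theorem abs_sg_le (v : Fin k → ℤ) (t : Fin k) : |((sg v t : ℤ) : ℝ)| ≤ 1 := by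
  have : |(sg v t : ℤ)| ≤ 1 := by
    simp only [sg]
    rcases lt_trichotomy (v t) 0 with h0 | h0 | h0
    · rw [Int.sign_eq_neg_one_of_neg h0]; simp
    · simp [h0]
    · rw [Int.sign_eq_one_of_pos h0]; simp
  exact_mod_cast this

theorem sum_abs_sg_le (v : Fin k → ℤ) : ∑ t, |((sg v t : ℤ) : ℝ)| ≤ k := by
  calc ∑ t, |((sg v t : ℤ) : ℝ)| ≤ ∑ _t : Fin k, (1 : ℝ) :=
        Finset.sum_le_sum fun t _ => abs_sg_le v t
    _ = k := by simp

/-- The small steps. -/
noncomputable def Step (k : ℕ) : Finset (Fin k → ℤ) := Fintype.piFinset fun _ => Finset.Icc (-1) 1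

theorem sg_mem (v : Fin k → ℤ) : sg v ∈ Step k := by
  rw [Step, Fintype.mem_piFinset]
  intro t
  rw [Finset.mem_Icc]
  simp only [sg]
  rcases lt_trichotomy (v t) 0 with h0 | h0 | h0
  · rw [Int.sign_eq_neg_one_of_neg h0]; simp
  · simp [h0]
  · rw [Int.sign_eq_one_of_pos h0]; simp

/-- bound for the coefficients of `T^{-s} e_j`, `s` a small step. -/
noncomputable def C0 (φ : Act k d) : ℝ :=
  ∑ s ∈ Step k, ∑ j : Fin d, ∑ l : Fin d, |(φ.ac (-s) (Pi.single j 1) l : ℝ)|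

theorem C0_nonneg : 0 ≤ C0 φ :=
  Finset.sum_nonneg fun _ _ => Finset.sum_nonneg fun _ _ => Finset.sum_nonneg fun _ _ =>
    abs_nonneg _

theorem le_C0 (v : Fin k → ℤ) (j : Fin d) :
    ∑ l : Fin d, |(φ.ac (-(sg v)) (Pi.single j 1) l : ℝ)| ≤ C0 φ := by
  have h1 : ∑ j : Fin d, ∑ l : Fin d, |(φ.ac (-(sg v)) (Pi.single j 1) l : ℝ)| ≤ C0 φ :=
    Finset.single_le_sum (f := fun s => ∑ j : Fin d, ∑ l : Fin d,
      |(φ.ac (-s) (Pi.single j 1) l : ℝ)|)
      (fun s _ => Finset.sum_nonneg fun _ _ => Finset.sum_nonneg fun _ _ => abs_nonneg _)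
      (sg_mem v)
  refine le_trans ?_ h1
  exact Finset.single_le_sum (f := fun j => ∑ l : Fin d,
      |(φ.ac (-(sg v)) (Pi.single j 1) l : ℝ)|)
      (fun s _ => Finset.sum_nonneg fun _ _ => abs_nonneg _) (Finset.mem_univ j)

/-- The mass of the remaining strands. -/
noncomputable def TT (φ : Act k d) : ℝ := (d + 1) * C0 φ + 1

theorem TT_pos : 0 < TT φ := by
  have := C0_nonneg (φ := φ)
  unfold TT
  positivity

theorem one_le_TT : 1 ≤ TT φ := by
  have := C0_nonneg (φ := φ)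
  unfold TT
  have : 0 ≤ ((d : ℝ) + 1) * C0 φ := by positivity
  linarith

/-- The lengths of the basis vectors. -/
noncomputable def L1 (L : Len φ) : ℝ := ∑ j, L.ℓ (Pi.single j 1)

theorem L1_nonneg : 0 ≤ L1 L := Finset.sum_nonneg fun _ _ => L.ℓ_nonneg _

theorem le_L1 (j : Fin d) : L.ℓ (Pi.single j 1) ≤ L1 L :=
  Finset.single_le_sum (f := fun j => L.ℓ (Pi.single j 1)) (fun _ _ => L.ℓ_nonneg _)
    (Finset.mem_univ j)

/-- The constant of `strands`. -/
noncomputable def C1 (L : Len φ) : ℝ := (d + 1) * ((TT φ + 1) * L1 L) + (d + 1) * (L.c * k)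

theorem C1_nonneg : 0 ≤ C1 L := by
  have h1 := L1_nonneg L
  have h2 := TT_pos (φ := φ)
  have h3 := L.c_nonneg
  unfold C1
  positivity

/-- **Strands.**  A lattice point that is a combination of `d+1` vectors `T^{-v_i} e_{j_i}`,
`|v_i| ≤ m`, with bounded coefficients, splits into pieces based at the `v_i` of total length
`O(m)`. -/
theorem strands (m : ℕ) : ∀ (v : Fin (d + 1) → Fin k → ℤ) (j : Fin (d + 1) → Fin d)
    (x : Fin (d + 1) → ℝ) (a : Fin d → ℤ), (∀ i t, |v i t| ≤ (m : ℤ)) →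
    (∀ i, |x i| ≤ TT φ) →
    ∑ i, x i • φ.E (-(v i)) (Pi.single (j i) 1) = ι a →
    ∃ b : Fin (d + 1) → Fin d → ℤ, ∑ i, b i = a ∧
      ∑ i, L.ℓ (φ.ac (v i) (b i)) ≤ C1 L * (m + 1) := by
  have hL1 := L1_nonneg L
  have hT := TT_pos (φ := φ)
  have hc := L.c_nonneg
  induction m with
  | zero =>
    intro v j x a hv hx hsum
    have hv0 : ∀ i, v i = 0 := by
      intro i
      ext t
      have := hv i t
      simpa using this
    refine ⟨Pi.single 0 a, ?_, ?_⟩
    · rw [Finset.sum_pi_single']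
      simp
    · have h1 : ∑ i, L.ℓ (φ.ac (v i) ((Pi.single 0 a : Fin (d + 1) → Fin d → ℤ) i)) = L.ℓ a := by
        rw [Finset.sum_eq_single 0]
        · simp [hv0, φ.ac_zero]
        · intro i _ hi
          rw [Pi.single_eq_of_ne hi, map_zero, L.ℓ_zero]
        · simp
      rw [h1]
      have h2 : ∀ l, |(a l : ℝ)| ≤ (d + 1) * TT φ := by
        intro l
        have h3 : (a l : ℝ) = ∑ i, x i * (Pi.single (j i) (1 : ℝ) : Fin d → ℝ) l := by
          have := congrFun hsum l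
          simp only [hv0, neg_zero, φ.E_zero, LinearMap.id_apply, Finset.sum_apply,
            Pi.smul_apply, smul_eq_mul, ι_apply] at this
          rw [this]
        rw [h3]
        calc |∑ i, x i * (Pi.single (j i) (1 : ℝ) : Fin d → ℝ) l|
            ≤ ∑ i, |x i * (Pi.single (j i) (1 : ℝ) : Fin d → ℝ) l| :=
              Finset.abs_sum_le_sum_abs _ _
          _ ≤ ∑ _i : Fin (d + 1), TT φ := by
              refine Finset.sum_le_sum fun i _ => ?_
              rw [abs_mul]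
              have h4 : |(Pi.single (j i) (1 : ℝ) : Fin d → ℝ) l| ≤ 1 := by
                by_cases h : l = j i
                · subst h; simp
                · simp [h]
              have h5 := hx i
              have h6 := abs_nonneg (x i)
              nlinarith [abs_nonneg ((Pi.single (j i) (1 : ℝ) : Fin d → ℝ) l)]
          _ = (d + 1) * TT φ := by simp
      have h7 : L.ℓ a ≤ ((d + 1) * TT φ) * L1 L := by
        refine (L.ℓ_le a).trans ?_
        rw [L1, Finset.mul_sum]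
        exact Finset.sum_le_sum fun l _ =>
          mul_le_mul_of_nonneg_right (h2 l) (L.ℓ_nonneg _)
      unfold C1
      have h8 : 0 ≤ ((d : ℝ) + 1) * L1 L := by positivity
      have h9 : 0 ≤ ((d : ℝ) + 1) * (L.c * k) := by positivity
      push_cast
      nlinarith
  | succ m ih =>
    intro v j x a hv hx hsum
    have hv' : ∀ i t, |v i t| ≤ (m : ℤ) + 1 := by
      intro i t
      have := hv i t
      push_cast at this
      exact this
    -- new positions and coefficients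
    let w : Fin (d + 1) → Fin k → ℤ := fun i => v i - sg (v i)
    let u : Fin (d + 1) × Fin d → Fin d → ℝ := fun p => φ.E (-(w p.1)) (Pi.single p.2 1)
    let M : Fin (d + 1) → Fin d → ℤ := fun i => φ.ac (-(sg (v i))) (Pi.single (j i) 1)
    let y : Fin (d + 1) × Fin d → ℝ := fun p => Int.fract (x p.1) * (M p.1 p.2 : ℝ)
    let a' : Fin d → ℤ := a - ∑ i, ⌊x i⌋ • φ.ac (-(v i)) (Pi.single (j i) 1)
    have hexp : ∀ i, φ.E (-(v i)) (Pi.single (j i) 1) =
        ∑ l, (M i l : ℝ) • φ.E (-(w i)) (Pi.single l 1) := by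
      intro i
      have h1 : -(v i) = -(w i) + -(sg (v i)) := by
        simp only [w]; abel
      rw [h1, φ.E_add, LinearMap.comp_apply]
      have h2 : φ.E (-(sg (v i))) (Pi.single (j i) 1) =
          ∑ l, (M i l : ℝ) • (Pi.single l 1 : Fin d → ℝ) := by
        rw [← ι_single, φ.E_ι]
        ext t
        simp only [Finset.sum_apply, Pi.smul_apply, smul_eq_mul, ι_apply, Pi.single_apply]
        simp [M]
      rw [h2, map_sum]
      exact Finset.sum_congr rfl fun l _ => by rw [map_smul]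
    have hsum' : ∑ p, y p • u p = ι a' := by
      have h1 : ∑ p, y p • u p = ∑ i, Int.fract (x i) • φ.E (-(v i)) (Pi.single (j i) 1) := by
        rw [Fintype.sum_prod_type]
        refine Finset.sum_congr rfl fun i _ => ?_
        rw [hexp i, Finset.smul_sum]
        refine Finset.sum_congr rfl fun l _ => ?_
        simp only [y, u, smul_smul]
      rw [h1]
      simp only [a', ι_sub, ι_sum, ι_smul]
      rw [← hsum, ← Finset.sum_sub_distrib]
      refine Finset.sum_congr rfl fun i _ => ?_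
      rw [← φ.E_ι, ι_single, ← sub_smul]
      rfl
    have hmass : ∑ p, |y p| ≤ (d + 1) * C0 φ := by
      rw [Fintype.sum_prod_type]
      calc ∑ i, ∑ l, |y (i, l)| ≤ ∑ _i : Fin (d + 1), C0 φ := by
            refine Finset.sum_le_sum fun i _ => ?_
            refine le_trans (Finset.sum_le_sum fun l _ => ?_) (le_C0 (v i) (j i))
            simp only [y, abs_mul]
            have h1 : |Int.fract (x i)| ≤ 1 := by
              rw [abs_of_nonneg (Int.fract_nonneg _)]
              exact (Int.fract_lt_one _).le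
            calc |Int.fract (x i)| * |(M i l : ℝ)| ≤ 1 * |(M i l : ℝ)| :=
                  mul_le_mul_of_nonneg_right h1 (abs_nonneg _)
              _ = _ := by rw [one_mul]
        _ = (d + 1) * C0 φ := by simp
    have : Nonempty (Fin (d + 1) × Fin d) := ⟨(0, j 0)⟩
    obtain ⟨α, z, hzmass, hzsum⟩ := car u y
    have hz : ∀ i, |z i| ≤ TT φ := by
      intro i
      have h1 : |z i| ≤ ∑ i, |z i| :=
        Finset.single_le_sum (f := fun i => |z i|) (fun _ _ => abs_nonneg _) (Finset.mem_univ i)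
      unfold TT
      linarith
    obtain ⟨b, hb1, hb2⟩ := ih (fun i => w (α i).1) (fun i => (α i).2) z a'
      (fun i t => sub_sg_le (hv' _) t) hz (by rw [← hsum', ← hzsum])
    classical
    refine ⟨fun i => ⌊x i⌋ • φ.ac (-(v i)) (Pi.single (j i) 1) +
      ∑ i' ∈ Finset.univ.filter (fun i' => (α i').1 = i), b i', ?_, ?_⟩
    · rw [Finset.sum_add_distrib, Finset.sum_fiberwise, hb1]
      simp only [a']
      abel
    · have h1 : ∀ i, L.ℓ (φ.ac (v i) (⌊x i⌋ • φ.ac (-(v i)) (Pi.single (j i) 1) +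
          ∑ i' ∈ Finset.univ.filter (fun i' => (α i').1 = i), b i')) ≤
          (TT φ + 1) * L1 L + ∑ i' ∈ Finset.univ.filter (fun i' => (α i').1 = i),
            (L.ℓ (φ.ac (w (α i').1) (b i')) + L.c * k) := by
        intro i
        rw [map_add, map_zsmul, φ.ac_neg_cancel, map_sum]
        refine (L.ℓ_add _ _).trans (add_le_add ?_ ?_)
        · refine (L.ℓ_zsmul _ _).trans ?_
          have h2 : |((⌊x i⌋ : ℤ) : ℝ)| ≤ TT φ + 1 := by
            have h3 := hx i
            rw [abs_le] at h3 ⊢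
            have h4 := Int.floor_le (x i)
            have h5 := Int.lt_floor_add_one (x i)
            constructor <;> linarith
          exact mul_le_mul h2 (le_L1 L _) (L.ℓ_nonneg _) (by linarith)
        · refine (L.ℓ_sum _ _).trans (Finset.sum_le_sum fun i' hi' => ?_)
          have hi : (α i').1 = i := (Finset.mem_filter.1 hi').2
          have h2 : φ.ac (v i) (b i') = φ.ac (sg (v i)) (φ.ac (w (α i').1) (b i')) := by
            rw [← φ.ac_add, hi]
            congr 2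
            simp only [w]; abel
          rw [h2]
          refine (L.ℓ_ac _ _).trans ?_
          have h3 := sum_abs_sg_le (v i)
          have h4 := mul_le_mul_of_nonneg_left h3 hc
          linarith
      calc ∑ i, L.ℓ (φ.ac (v i) (⌊x i⌋ • φ.ac (-(v i)) (Pi.single (j i) 1) +
          ∑ i' ∈ Finset.univ.filter (fun i' => (α i').1 = i), b i'))
          ≤ ∑ i, ((TT φ + 1) * L1 L + ∑ i' ∈ Finset.univ.filter (fun i' => (α i').1 = i),
            (L.ℓ (φ.ac (w (α i').1) (b i')) + L.c * k)) := Finset.sum_le_sum fun i _ => h1 i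
        _ = (d + 1) * ((TT φ + 1) * L1 L) + (∑ i', L.ℓ (φ.ac (w (α i').1) (b i')) +
            (d + 1) * (L.c * k)) := by
            rw [Finset.sum_add_distrib, Finset.sum_fiberwise, Finset.sum_add_distrib]
            simp
        _ ≤ C1 L * ((m + 1 : ℕ) + 1) := by
            push_cast
            have h5 : C1 L * ((m : ℝ) + 1 + 1) = C1 L * (m + 1) + C1 L := by ring
            rw [h5]
            have h6 : C1 L = (d + 1) * ((TT φ + 1) * L1 L) + (d + 1) * (L.c * k) := rfl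
            linarith

/-- The box `[-m, m]^k`. -/
noncomputable def bx (k m : ℕ) : Finset (Fin k → ℤ) :=
  Fintype.piFinset fun _ => Finset.Icc (-(m : ℤ)) m

theorem mem_bx {m : ℕ} {v : Fin k → ℤ} : v ∈ bx k m ↔ ∀ t, |v t| ≤ (m : ℤ) := by
  rw [bx, Fintype.mem_piFinset]
  simp only [Finset.mem_Icc, abs_le]

theorem zero_mem_bx (m : ℕ) : (0 : Fin k → ℤ) ∈ bx k m := by
  rw [mem_bx]; intro t; simp

/-- The convex body spanned by `± T^{-v} e_j`, `|v| ≤ m`, scaled by `R`. -/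
def P (φ : Act k d) (m : ℕ) (R : ℝ) : Set (Fin d → ℝ) :=
  {x | ∃ y : (bx k m) × Fin d → ℝ, ∑ p, |y p| ≤ R ∧
    ∑ p, y p • φ.E (-(p.1 : Fin k → ℤ)) (Pi.single p.2 1) = x}

theorem sum_abs_le_of_mem_bx {m : ℕ} {v : Fin k → ℤ} (hv : v ∈ bx k m) :
    ∑ t, |(v t : ℝ)| ≤ k * m := by
  rw [mem_bx] at hv
  calc ∑ t, |(v t : ℝ)| ≤ ∑ _t : Fin k, (m : ℝ) :=
        Finset.sum_le_sum fun t _ => by exact_mod_cast hv t
    _ = k * m := by simp

/-- The constant of `len_le`. -/
noncomputable def C2 (L : Len φ) : ℝ := 2 * (d + 1) * (L.c * k) + C1 L + (d + 2) * L1 L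

theorem C2_nonneg : 0 ≤ C2 L := by
  have h1 := L1_nonneg L
  have h2 := C1_nonneg L
  have h3 := L.c_nonneg
  unfold C2
  positivity

/-- **Length of the lattice points of `P m R`.** -/
theorem len_le {m : ℕ} {R : ℝ} {a : Fin d → ℤ} (ha : ι a ∈ P φ m R) :
    L.ℓ a ≤ C2 L * (m + 1 + R) := by
  have hL1 := L1_nonneg L
  have hc := L.c_nonneg
  have hC1 := C1_nonneg L
  have hC2 := C2_nonneg L
  obtain ⟨y, hy, hya⟩ := ha
  have hR : 0 ≤ R := le_trans (Finset.sum_nonneg fun _ _ => abs_nonneg _) hy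
  rcases Nat.eq_zero_or_pos d with hd | hd
  · subst hd
    have : a = 0 := Subsingleton.elim _ _
    rw [this, L.ℓ_zero]
    positivity
  have : Nonempty ((bx k m) × Fin d) := ⟨(⟨0, zero_mem_bx m⟩, ⟨0, hd⟩)⟩
  obtain ⟨α, z, hzm, hz⟩ := car
    (fun p : (bx k m) × Fin d => φ.E (-(p.1 : Fin k → ℤ)) (Pi.single p.2 1)) y
  rw [hya] at hz
  let a' : Fin d → ℤ := a - ∑ i, ⌊z i⌋ •
    φ.ac (-((α i).1 : Fin k → ℤ)) (Pi.single (α i).2 1)
  have hsum : ∑ i, Int.fract (z i) • φ.E (-((α i).1 : Fin k → ℤ)) (Pi.single (α i).2 1) =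
      ι a' := by
    simp only [a', ι_sub, ι_sum, ι_smul]
    rw [← hz, ← Finset.sum_sub_distrib]
    refine Finset.sum_congr rfl fun i _ => ?_
    rw [← φ.E_ι, ι_single, ← sub_smul]
    rfl
  obtain ⟨b, hb1, hb2⟩ := strands L m (fun i => (α i).1) (fun i => (α i).2)
    (fun i => Int.fract (z i)) a' (fun i t => mem_bx.1 (α i).1.2 t)
    (fun i => by
      rw [abs_of_nonneg (Int.fract_nonneg _)]
      exact (Int.fract_lt_one _).le.trans one_le_TT) hsum
  have hmove : ∀ (i : Fin (d + 1)) (x : Fin d → ℤ),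
      L.ℓ (φ.ac (-((α i).1 : Fin k → ℤ)) x) ≤ L.ℓ x + L.c * (k * m) := by
    intro i x
    refine (L.ℓ_ac _ _).trans ?_
    have h1 : ∑ j, |((-((α i).1 : Fin k → ℤ)) j : ℝ)| ≤ k * m := by
      refine le_trans (le_of_eq ?_) (sum_abs_le_of_mem_bx (α i).1.2)
      refine Finset.sum_congr rfl fun t _ => ?_
      simp
    have h2 := mul_le_mul_of_nonneg_left h1 hc
    linarith
  have ha : a = ∑ i, b i + ∑ i, ⌊z i⌋ •
      φ.ac (-((α i).1 : Fin k → ℤ)) (Pi.single (α i).2 1) := by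
    rw [hb1]; simp only [a']; abel
  have h1 : L.ℓ (∑ i, b i) ≤ C1 L * (m + 1) + (d + 1) * (L.c * (k * m)) := by
    refine (L.ℓ_sum _ _).trans ?_
    calc ∑ i, L.ℓ (b i) ≤ ∑ i, (L.ℓ (φ.ac ((α i).1 : Fin k → ℤ) (b i)) + L.c * (k * m)) := by
          refine Finset.sum_le_sum fun i _ => ?_
          have := hmove i (φ.ac ((α i).1 : Fin k → ℤ) (b i))
          rwa [φ.ac_cancel_neg] at this
      _ = ∑ i, L.ℓ (φ.ac ((α i).1 : Fin k → ℤ) (b i)) + (d + 1) * (L.c * (k * m)) := by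
          rw [Finset.sum_add_distrib]; simp
      _ ≤ _ := by linarith
  have h2 : L.ℓ (∑ i, ⌊z i⌋ • φ.ac (-((α i).1 : Fin k → ℤ)) (Pi.single (α i).2 1)) ≤
      (R + (d + 1)) * L1 L + (d + 1) * (L.c * (k * m)) := by
    refine (L.ℓ_sum _ _).trans ?_
    calc ∑ i, L.ℓ (⌊z i⌋ • φ.ac (-((α i).1 : Fin k → ℤ)) (Pi.single (α i).2 1))
        ≤ ∑ i, ((|z i| + 1) * L1 L + L.c * (k * m)) := by
          refine Finset.sum_le_sum fun i _ => ?_
          rw [← map_zsmul]
          refine (hmove i _).trans ?_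
          have h3 : L.ℓ (⌊z i⌋ • (Pi.single (α i).2 1 : Fin d → ℤ)) ≤ (|z i| + 1) * L1 L := by
            refine (L.ℓ_zsmul _ _).trans ?_
            have h4 : |((⌊z i⌋ : ℤ) : ℝ)| ≤ |z i| + 1 := by
              have h5 := Int.floor_le (z i)
              have h6 := Int.lt_floor_add_one (z i)
              rw [abs_le]
              constructor
              · have := neg_abs_le (z i); linarith
              · have := le_abs_self (z i); linarith
            exact mul_le_mul h4 (le_L1 L _) (L.ℓ_nonneg _) (by positivity)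
          linarith
      _ = (∑ i, |z i| + (d + 1)) * L1 L + (d + 1) * (L.c * (k * m)) := by
          rw [Finset.sum_add_distrib, ← Finset.sum_mul, Finset.sum_add_distrib]
          simp
      _ ≤ (R + (d + 1)) * L1 L + (d + 1) * (L.c * (k * m)) := by
          have h7 : ∑ i, |z i| ≤ R := hzm.trans hy
          have h8 := mul_le_mul_of_nonneg_right h7 hL1
          nlinarith
  have h3 : L.ℓ a ≤ (C1 L * (m + 1) + (d + 1) * (L.c * (k * m))) +
      ((R + (d + 1)) * L1 L + (d + 1) * (L.c * (k * m))) := by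
    have h0 := (L.ℓ_add _ _).trans (add_le_add h1 h2)
    rw [← ha] at h0
    exact h0
  refine h3.trans ?_
  have h4 : C2 L * (m + 1 + R) = 2 * (d + 1) * (L.c * k) * (m + 1 + R) + C1 L * (m + 1 + R) +
      (d + 2) * L1 L * (m + 1 + R) := by
    unfold C2; ring
  rw [h4]
  have h5 : 2 * (d + 1) * (L.c * k) * (m : ℝ) ≤ 2 * (d + 1) * (L.c * k) * (m + 1 + R) := by
    apply mul_le_mul_of_nonneg_left
    · linarith
    · positivity
  have h6 : C1 L * (m + 1) ≤ C1 L * (m + 1 + R) := mul_le_mul_of_nonneg_left (by linarith) hC1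
  have h7 : (R + (d + 1)) * L1 L ≤ (d + 2) * L1 L * (m + 1 + R) := by
    have h8 : (R + (d + 1)) ≤ (d + 2) * (m + 1 + R) := by
      have hm : (0 : ℝ) ≤ m := by positivity
      have hd' : (0 : ℝ) ≤ d := by positivity
      nlinarith [mul_nonneg hd' hR, mul_nonneg hd' hm]
    have := mul_le_mul_of_nonneg_right h8 hL1
    linarith
  nlinarith

/-! ### The bodies `P m R` -/

theorem P_mono {m : ℕ} {R R' : ℝ} (h : R ≤ R') : P φ m R ⊆ P φ m R' :=
  fun _ ⟨y, hy, hx⟩ => ⟨y, hy.trans h, hx⟩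

theorem P_add {m : ℕ} {R R' : ℝ} {x x' : Fin d → ℝ} (hx : x ∈ P φ m R) (hx' : x' ∈ P φ m R') :
    x + x' ∈ P φ m (R + R') := by
  obtain ⟨y, hy, rfl⟩ := hx
  obtain ⟨y', hy', rfl⟩ := hx'
  refine ⟨fun p => y p + y' p, ?_, ?_⟩
  · calc ∑ p, |y p + y' p| ≤ ∑ p, (|y p| + |y' p|) :=
          Finset.sum_le_sum fun p _ => abs_add_le _ _
      _ ≤ R + R' := by rw [Finset.sum_add_distrib]; linarith
  · rw [← Finset.sum_add_distrib]
    exact Finset.sum_congr rfl fun p _ => add_smul _ _ _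

theorem P_neg {m : ℕ} {R : ℝ} {x : Fin d → ℝ} (hx : x ∈ P φ m R) : -x ∈ P φ m R := by
  obtain ⟨y, hy, rfl⟩ := hx
  refine ⟨fun p => - y p, ?_, ?_⟩
  · simpa using hy
  · rw [← Finset.sum_neg_distrib]
    exact Finset.sum_congr rfl fun p _ => neg_smul _ _

theorem P_sub {m : ℕ} {R R' : ℝ} {x x' : Fin d → ℝ} (hx : x ∈ P φ m R) (hx' : x' ∈ P φ m R') :
    x - x' ∈ P φ m (R + R') := by
  rw [sub_eq_add_neg]
  exact P_add hx (P_neg hx')

theorem E_mem_P {m : ℕ} {v : Fin k → ℤ} (hv : ∀ t, |v t| ≤ (m : ℤ)) (x : Fin d → ℝ) :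
    φ.E (-v) x ∈ P φ m (∑ j, |x j|) := by
  classical
  have hv' : v ∈ bx k m := mem_bx.2 hv
  refine ⟨fun p => if p.1 = ⟨v, hv'⟩ then x p.2 else 0, ?_, ?_⟩
  · rw [Fintype.sum_prod_type]
    rw [Finset.sum_eq_single ⟨v, hv'⟩]
    · simp
    · intro w _ hw
      simp [hw]
    · simp
  · rw [Fintype.sum_prod_type]
    rw [Finset.sum_eq_single ⟨v, hv'⟩]
    · simp only [if_true]
      have hx : x = ∑ j, x j • (Pi.single j 1 : Fin d → ℝ) := by
        ext i
        simp [Finset.sum_apply, Pi.single_apply]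
      conv_rhs => rw [hx, map_sum]
      exact Finset.sum_congr rfl fun j _ => by rw [map_smul]
    · intro w _ hw
      simp [hw]
    · simp

theorem mem_P (m : ℕ) (x : Fin d → ℝ) : x ∈ P φ m (∑ j, |x j|) := by
  have := E_mem_P (φ := φ) (m := m) (v := 0) (by simp) x
  rwa [neg_zero, φ.E_zero, LinearMap.id_apply] at this

theorem P_smul (m : ℕ) {t : ℝ} (ht : 0 < t) : P φ m t = t • P φ m 1 := by
  ext x
  rw [Set.mem_smul_set]
  constructor
  · rintro ⟨y, hy, rfl⟩
    refine ⟨t⁻¹ • ∑ p, y p • φ.E (-(p.1 : Fin k → ℤ)) (Pi.single p.2 1),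
      ⟨fun p => t⁻¹ * y p, ?_, ?_⟩, ?_⟩
    · have : ∀ p, |t⁻¹ * y p| = t⁻¹ * |y p| := fun p => by
        rw [abs_mul, abs_of_pos (inv_pos.2 ht)]
      rw [Finset.sum_congr rfl fun p _ => this p, ← Finset.mul_sum]
      rw [inv_mul_le_iff₀ ht]
      simpa using hy
    · rw [Finset.smul_sum]
      exact Finset.sum_congr rfl fun p _ => by rw [smul_smul]
    · rw [smul_smul, mul_inv_cancel₀ ht.ne', one_smul]
  · rintro ⟨x, ⟨y, hy, rfl⟩, rfl⟩
    refine ⟨fun p => t * y p, ?_, ?_⟩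
    · have : ∀ p, |t * y p| = t * |y p| := fun p => by
        rw [abs_mul, abs_of_pos ht]
      rw [Finset.sum_congr rfl fun p _ => this p, ← Finset.mul_sum]
      nlinarith
    · rw [Finset.smul_sum]
      exact Finset.sum_congr rfl fun p _ => by rw [smul_smul]

/-- `P m R` is bounded. -/
theorem P_bdd (m : ℕ) : ∃ B : ℝ, 0 ≤ B ∧ ∀ R x, x ∈ P φ m R → ∀ i, |x i| ≤ R * B := by
  refine ⟨∑ p : (bx k m) × Fin d, ∑ i, |φ.E (-(p.1 : Fin k → ℤ)) (Pi.single p.2 1) i|,
    Finset.sum_nonneg fun _ _ => Finset.sum_nonneg fun _ _ => abs_nonneg _, ?_⟩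
  rintro R x ⟨y, hy, rfl⟩ i
  simp only [Finset.sum_apply, Pi.smul_apply, smul_eq_mul]
  have hB : ∀ p : (bx k m) × Fin d, |φ.E (-(p.1 : Fin k → ℤ)) (Pi.single p.2 1) i| ≤
      ∑ p : (bx k m) × Fin d, ∑ i, |φ.E (-(p.1 : Fin k → ℤ)) (Pi.single p.2 1) i| := by
    intro p
    refine le_trans ?_ (Finset.single_le_sum
      (f := fun p : (bx k m) × Fin d => ∑ i, |φ.E (-(p.1 : Fin k → ℤ)) (Pi.single p.2 1) i|)
      (fun _ _ => Finset.sum_nonneg fun _ _ => abs_nonneg _) (Finset.mem_univ p))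
    exact Finset.single_le_sum
      (f := fun i => |φ.E (-(p.1 : Fin k → ℤ)) (Pi.single p.2 1) i|)
      (fun _ _ => abs_nonneg _) (Finset.mem_univ i)
  calc |∑ p, y p * φ.E (-(p.1 : Fin k → ℤ)) (Pi.single p.2 1) i|
      ≤ ∑ p, |y p * φ.E (-(p.1 : Fin k → ℤ)) (Pi.single p.2 1) i| :=
        Finset.abs_sum_le_sum_abs _ _
    _ ≤ ∑ p, |y p| * ∑ p : (bx k m) × Fin d,
          ∑ i, |φ.E (-(p.1 : Fin k → ℤ)) (Pi.single p.2 1) i| := by
        refine Finset.sum_le_sum fun p _ => ?_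
        rw [abs_mul]
        exact mul_le_mul_of_nonneg_left (hB p) (abs_nonneg _)
    _ ≤ _ := by
        rw [← Finset.sum_mul]
        exact mul_le_mul_of_nonneg_right hy
          (Finset.sum_nonneg fun _ _ => Finset.sum_nonneg fun _ _ => abs_nonneg _)

/-- The lattice points of `P m R`. -/
def lat (φ : Act k d) (m : ℕ) (R : ℝ) : Set (Fin d → ℤ) := {a | ι a ∈ P φ m R}

theorem lat_finite (m : ℕ) (R : ℝ) : (lat φ m R).Finite := by
  obtain ⟨B, hB, h⟩ := P_bdd (φ := φ) m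
  refine (Fintype.piFinset fun _ : Fin d => Finset.Icc (-⌈R * B⌉) ⌈R * B⌉).finite_toSet.subset ?_
  intro a ha
  rw [Finset.mem_coe, Fintype.mem_piFinset]
  intro i
  have h1 := h R (ι a) ha i
  rw [ι_apply, abs_le] at h1
  rw [Finset.mem_Icc]
  have h2 := Int.le_ceil (R * B)
  constructor
  · have : ((-⌈R * B⌉ : ℤ) : ℝ) ≤ a i := by push_cast; linarith
    exact_mod_cast this
  · have : (a i : ℝ) ≤ (⌈R * B⌉ : ℤ) := by linarith
    exact_mod_cast this

/-- The lattice points of `P m R`, as a finset. -/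
noncomputable def latF (φ : Act k d) (m : ℕ) (R : ℝ) : Finset (Fin d → ℤ) :=
  (lat_finite (φ := φ) m R).toFinset

theorem mem_latF {m : ℕ} {R : ℝ} {a : Fin d → ℤ} : a ∈ latF φ m R ↔ ι a ∈ P φ m R := by
  rw [latF, Set.Finite.mem_toFinset]; rfl

open MeasureTheory

/-- The unit cube. -/
def Q (d : ℕ) : Set (Fin d → ℝ) := Set.univ.pi fun _ => Set.Ico 0 1

theorem vol_Q : volume (Q d) = 1 := by
  rw [Q, volume_pi_pi]
  simp

theorem Q_subset (m : ℕ) {x : Fin d → ℝ} (hx : x ∈ Q d) : x ∈ P φ m d := by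
  refine P_mono ?_ (mem_P (φ := φ) m x)
  calc ∑ j, |x j| ≤ ∑ _j : Fin d, (1 : ℝ) := by
        refine Finset.sum_le_sum fun j _ => ?_
        have := hx j (Set.mem_univ j)
        rw [abs_of_nonneg this.1]
        exact this.2.le
    _ = d := by simp

/-- The unit cube at `a`. -/
def Qa (a : Fin d → ℤ) : Set (Fin d → ℝ) := {x | x - ι a ∈ Q d}

theorem mem_Qa {a : Fin d → ℤ} {x : Fin d → ℝ} :
    x ∈ Qa a ↔ ∀ i, ⌊x i⌋ = a i := by
  simp only [Qa, Q, Set.mem_ofPred_eq, Set.mem_pi, Set.mem_univ, true_imp_iff, Set.mem_Ico,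
    Pi.sub_apply, ι_apply, Int.floor_eq_iff]
  refine forall_congr' fun i => ?_
  constructor
  · rintro ⟨h1, h2⟩; constructor <;> linarith
  · rintro ⟨h1, h2⟩; constructor <;> linarith

theorem vol_Qa (a : Fin d → ℤ) : volume (Qa a) = 1 := by
  have : Qa a = (fun x => x - ι a) ⁻¹' Q d := rfl
  simp only [sub_eq_add_neg] at this
  rw [this, measure_preimage_add_right, vol_Q]

theorem meas_Qa (a : Fin d → ℤ) : MeasurableSet (Qa a) := by
  have : Qa a = (fun x => x - ι a) ⁻¹' Q d := rfl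
  rw [this]
  exact (measurable_id.sub_const _) (MeasurableSet.univ_pi fun _ => measurableSet_Ico)

theorem card_le_vol (m : ℕ) (R : ℝ) :
    ((latF φ m R).card : ENNReal) ≤ volume (P φ m (R + d)) := by
  have h1 : volume (⋃ a ∈ latF φ m R, Qa a) = (latF φ m R).card := by
    rw [measure_biUnion_finset]
    · simp [vol_Qa]
    · intro a _ b _ hab
      rw [Function.onFun, Set.disjoint_left]
      intro x hxa hxb
      apply hab
      ext i
      rw [← mem_Qa.1 hxa i, ← mem_Qa.1 hxb i]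
    · intro a _
      exact meas_Qa a
  rw [← h1]
  apply measure_mono
  intro x hx
  simp only [Set.mem_iUnion] at hx
  obtain ⟨a, ha, hxa⟩ := hx
  have h2 : x = ι a + (x - ι a) := by abel
  rw [h2]
  exact P_add (mem_latF.1 ha) (Q_subset m hxa)

theorem vol_le_card (m : ℕ) (R : ℝ) :
    volume (P φ m (R - d)) ≤ (latF φ m R).card := by
  calc volume (P φ m (R - d)) ≤ volume (⋃ a ∈ latF φ m R, Qa a) := by
        apply measure_mono
        intro x hx
        have h1 : x ∈ Qa (fun i => ⌊x i⌋) := mem_Qa.2 fun i => rfl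
        simp only [Set.mem_iUnion]
        refine ⟨fun i => ⌊x i⌋, ?_, h1⟩
        rw [mem_latF]
        have h2 : ι (fun i => ⌊x i⌋) = x - (x - ι (fun i => ⌊x i⌋)) := by abel
        rw [h2]
        have := P_sub hx (Q_subset (φ := φ) m h1)
        rwa [sub_add_cancel] at this
    _ ≤ ∑ a ∈ latF φ m R, volume (Qa a) := measure_biUnion_finset_le _ _
    _ = (latF φ m R).card := by simp [vol_Qa]

theorem vol_P (m : ℕ) {t : ℝ} (ht : 0 < t) :
    volume (P φ m t) = ENNReal.ofReal (t ^ d) * volume (P φ m 1) := by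
  rw [P_smul m ht, Measure.addHaar_smul]
  congr 2
  rw [Module.finrank_fin_fun, abs_of_pos (pow_pos ht _)]

theorem vol_P_lt_top (m : ℕ) (t : ℝ) : volume (P φ m t) < ⊤ := by
  obtain ⟨B, hB, h⟩ := P_bdd (φ := φ) m
  have : P φ m t ⊆ Set.univ.pi fun _ => Set.Icc (-(t * B)) (t * B) := by
    intro x hx i _
    have := h t x hx i
    rwa [abs_le] at this
  refine lt_of_le_of_lt (measure_mono this) ?_
  rw [volume_pi_pi]
  apply ENNReal.prod_lt_top
  intro i _
  simp

theorem vol_P_pos (m : ℕ) : 0 < volume (P φ m 1) := by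
  have h0 : (0 : ℝ) < (1 + d) := by positivity
  have h1 : volume (P φ m (1 + d)) = _ := vol_P (φ := φ) m h0
  have h2 := card_le_vol (φ := φ) m 1
  rw [h1] at h2
  have h3 : 1 ≤ (latF φ m 1).card := by
    rw [Nat.one_le_iff_ne_zero, Finset.card_ne_zero]
    refine ⟨0, mem_latF.2 ?_⟩
    refine P_mono zero_le_one ?_
    have := mem_P (φ := φ) m (0 : Fin d → ℝ)
    simpa using this
  by_contra h
  rw [not_lt, nonpos_iff_eq_zero] at h
  rw [h, mul_zero] at h2
  simp only [nonpos_iff_eq_zero, Nat.cast_eq_zero] at h2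
  omega

/-- The Følner defect. -/
noncomputable def fd (d : ℕ) (s R : ℝ) : ℝ := ((R + s + d) / (R - d)) ^ d - 1

theorem card_growth (m : ℕ) {s R : ℝ} (hs : 0 ≤ s) (hR : (d : ℝ) < R) :
    ((latF φ m (R + s)).card : ℝ) - (latF φ m R).card ≤ fd d s R * (latF φ m R).card := by
  have hd : (0 : ℝ) ≤ d := by positivity
  have h1 : (0 : ℝ) < R - d := by linarith
  have h2 : (0 : ℝ) < R + s + d := by linarith
  have hV0 := vol_P_pos (φ := φ) m
  have hV1 := vol_P_lt_top (φ := φ) m 1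
  set V : ℝ := (volume (P φ m 1)).toReal with hV
  have hVpos : 0 < V := ENNReal.toReal_pos hV0.ne' hV1.ne
  have hup : ((latF φ m (R + s)).card : ℝ) ≤ (R + s + d) ^ d * V := by
    have h3 := card_le_vol (φ := φ) m (R + s)
    rw [vol_P m h2] at h3
    have h4 := ENNReal.toReal_mono (ENNReal.mul_lt_top ENNReal.ofReal_lt_top hV1).ne h3
    rw [ENNReal.toReal_mul, ENNReal.toReal_ofReal (by positivity)] at h4
    simpa using h4
  have hlow : (R - d) ^ d * V ≤ (latF φ m R).card := by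
    have h3 := vol_le_card (φ := φ) m R
    rw [vol_P m h1] at h3
    have h4 := ENNReal.toReal_mono (by simp) h3
    rw [ENNReal.toReal_mul, ENNReal.toReal_ofReal (by positivity)] at h4
    simpa using h4
  have h5 : (R + s + d) ^ d * V = ((R + s + d) / (R - d)) ^ d * ((R - d) ^ d * V) := by
    rw [div_pow, ← mul_assoc, div_mul_cancel₀]
    positivity
  have h6 : ((R + s + d) / (R - d)) ^ d * ((R - d) ^ d * V) ≤
      ((R + s + d) / (R - d)) ^ d * (latF φ m R).card :=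
    mul_le_mul_of_nonneg_left hlow (by positivity)
  unfold fd
  rw [sub_mul, one_mul]
  linarith

theorem fd_tendsto (d : ℕ) (s : ℝ) :
    Filter.Tendsto (fun n : ℕ => fd d s (n + 1)) Filter.atTop (nhds 0) := by
  have h1 : Filter.Tendsto (fun n : ℕ => ((n : ℝ) + 1 + s + d) / ((n : ℝ) + 1 - d))
      Filter.atTop (nhds 1) := by
    have h2 : Filter.Tendsto (fun n : ℕ => (1 : ℝ) + (s + 2 * d) / ((n : ℝ) + (1 - d)))
        Filter.atTop (nhds (1 + 0)) := by
      refine Filter.Tendsto.const_add _ ?_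
      refine Filter.Tendsto.div_atTop tendsto_const_nhds ?_
      exact Filter.tendsto_atTop_add_const_right _ _ tendsto_natCast_atTop_atTop
    rw [add_zero] at h2
    refine h2.congr' ?_
    filter_upwards [Filter.eventually_ge_atTop d] with n hn
    have hn' : (d : ℝ) ≤ n := by exact_mod_cast hn
    have h3 : (n : ℝ) + 1 - d ≠ 0 := by
      have : (0 : ℝ) < n + 1 - d := by linarith
      exact this.ne'
    have h4 : (n : ℝ) + (1 - d) = n + 1 - d := by ring
    rw [h4]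
    field_simp
    ring
  have h5 := (h1.pow d).sub_const 1
  simpa [fd] using h5

theorem latF_nonempty {m : ℕ} {R : ℝ} (hR : 0 ≤ R) : (latF φ m R).Nonempty := by
  refine ⟨0, mem_latF.2 ?_⟩
  refine P_mono hR ?_
  have := mem_P (φ := φ) m (0 : Fin d → ℝ)
  simpa using this

/-- translation defect of the lattice points of `P m R`. -/
theorem shift_le {m : ℕ} {s R : ℝ} (hs : 0 ≤ s) (hR : (d : ℝ) < R) {u : Fin d → ℤ}
    (hu : ι u ∈ P φ m s) (G : Finset (Fin d → ℤ)) :
    ∑ y ∈ G, |(if y - u ∈ latF φ m R then (1 : ℝ) else 0) -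
      (if y ∈ latF φ m R then (1 : ℝ) else 0)| ≤ 2 * (fd d s R * (latF φ m R).card) := by
  classical
  set F := latF φ m R with hF
  set F' := latF φ m (R + s) with hF'
  have hs1 : F ⊆ F' := by
    intro y hy
    rw [hF, mem_latF] at hy
    rw [hF', mem_latF]
    exact P_mono (by linarith) hy
  have hs2 : F.image (fun y => y + u) ⊆ F' := by
    intro y hy
    rw [Finset.mem_image] at hy
    obtain ⟨z, hz, rfl⟩ := hy
    rw [hF, mem_latF] at hz
    rw [hF', mem_latF, ι_add]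
    exact P_add hz hu
  have hc2 : (F.image (fun y => y + u)).card = F.card :=
    Finset.card_image_of_injective _ (add_left_injective u)
  have h1 : ∀ y, |(if y - u ∈ F then (1 : ℝ) else 0) - (if y ∈ F then (1 : ℝ) else 0)| ≤
      (if y ∈ F' \ F then (1 : ℝ) else 0) +
        (if y ∈ F' \ F.image (fun y => y + u) then (1 : ℝ) else 0) := by
    intro y
    have hiff : y - u ∈ F ↔ y ∈ F.image (fun y => y + u) := by
      rw [Finset.mem_image]
      constructor
      · intro h; exact ⟨y - u, h, by simp⟩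
      · rintro ⟨z, hz, rfl⟩; simpa using hz
    have hs2' := @hs2 y
    by_cases ha : y - u ∈ F <;> by_cases hb : y ∈ F
    · rw [if_pos ha, if_pos hb, sub_self, abs_zero]
      positivity
    · have h1 := hs2' (hiff.1 ha)
      rw [if_pos ha, if_neg hb, sub_zero, abs_one, if_pos (Finset.mem_sdiff.2 ⟨h1, hb⟩)]
      have : (0 : ℝ) ≤ (if y ∈ F' \ F.image (fun y => y + u) then (1 : ℝ) else 0) := by
        positivity
      linarith
    · have h1 := hs1 hb
      rw [if_neg ha, if_pos hb, zero_sub, abs_neg, abs_one,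
        if_pos (Finset.mem_sdiff.2 ⟨h1, fun h => ha (hiff.2 h)⟩)]
      have : (0 : ℝ) ≤ (if y ∈ F' \ F then (1 : ℝ) else 0) := by
        positivity
      linarith
    · rw [if_neg ha, if_neg hb, sub_self, abs_zero]
      positivity
  have h2 : ∀ S : Finset (Fin d → ℤ), ∑ y ∈ G, (if y ∈ S then (1 : ℝ) else 0) ≤ S.card := by
    intro S
    rw [Finset.sum_ite_mem, Finset.sum_const, nsmul_eq_mul, mul_one]
    exact_mod_cast Finset.card_le_card Finset.inter_subset_right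
  have h3 : ((F' \ F).card : ℝ) ≤ fd d s R * F.card := by
    rw [Finset.cast_card_sdiff hs1]
    exact card_growth m hs hR
  have h4 : ((F' \ F.image (fun y => y + u)).card : ℝ) ≤ fd d s R * F.card := by
    rw [Finset.cast_card_sdiff hs2, hc2]
    exact card_growth m hs hR
  calc _ ≤ ∑ y ∈ G, ((if y ∈ F' \ F then (1 : ℝ) else 0) +
        (if y ∈ F' \ F.image (fun y => y + u) then (1 : ℝ) else 0)) :=
        Finset.sum_le_sum fun y _ => h1 y
    _ ≤ _ := by
      rw [Finset.sum_add_distrib]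
      have := h2 (F' \ F)
      have := h2 (F' \ F.image (fun y => y + u))
      linarith

/-- The box `[0, n]^k`. -/
noncomputable def bp (k n : ℕ) : Finset (Fin k → ℤ) :=
  Fintype.piFinset fun _ => Finset.Icc 0 (n : ℤ)

theorem mem_bp {n : ℕ} {v : Fin k → ℤ} : v ∈ bp k n ↔ ∀ t, 0 ≤ v t ∧ v t ≤ (n : ℤ) := by
  rw [bp, Fintype.mem_piFinset]
  simp only [Finset.mem_Icc]

theorem card_bp (k n : ℕ) : (bp k n).card = (n + 1) ^ k := by
  rw [bp, Fintype.card_piFinset]
  simp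

/-- The faces of the box. -/
theorem card_face (k n : ℕ) (j : Fin k) (c : ℤ) :
    (n + 1) * ((bp k n).filter fun v => v j = c).card ≤ (n + 1) ^ k := by
  classical
  have h1 : ((bp k n).filter fun v => v j = c) ⊆
      Fintype.piFinset (Function.update (fun _ : Fin k => Finset.Icc 0 (n : ℤ)) j {c}) := by
    intro v hv
    rw [Finset.mem_filter, mem_bp] at hv
    rw [Fintype.mem_piFinset]
    intro t
    by_cases h : t = j
    · subst h; simp [hv.2]
    · rw [Function.update_of_ne h, Finset.mem_Icc]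
      exact hv.1 t
  have h2 := Finset.card_le_card h1
  rw [Fintype.card_piFinset] at h2
  have h3 : ∏ i, (Function.update (fun _ : Fin k => Finset.Icc 0 (n : ℤ)) j {c} i).card =
      ∏ i ∈ Finset.univ.erase j, (n + 1) := by
    rw [← Finset.mul_prod_erase Finset.univ _ (Finset.mem_univ j)]
    simp only [Function.update_self, Finset.card_singleton, one_mul]
    refine Finset.prod_congr rfl fun t ht => ?_
    rw [Function.update_of_ne (Finset.ne_of_mem_erase ht)]
    simp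
  rw [h3] at h2
  calc (n + 1) * ((bp k n).filter fun v => v j = c).card
      ≤ (n + 1) * ∏ i ∈ Finset.univ.erase j, (n + 1) := Nat.mul_le_mul_left _ h2
    _ = ∏ _i : Fin k, (n + 1) :=
        Finset.mul_prod_erase Finset.univ (fun _ => n + 1) (Finset.mem_univ j)
    _ = (n + 1) ^ k := by simp

/-- The basic sets. -/
noncomputable def FF (φ : Act k d) (n : ℕ) : Finset (Fin d → ℤ) := latF φ n (n + 1)

theorem FF_card_pos (n : ℕ) : 0 < (FF φ n).card :=
  Finset.card_pos.2 (latF_nonempty (by positivity))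

/-- The measures. -/
noncomputable def pp (φ : Act k d) (n : ℕ) (x : Fin d → ℤ) : ℝ :=
  (∑ v ∈ bp k n, if φ.ac (-v) x ∈ FF φ n then (1 : ℝ) else 0) /
    (((n : ℝ) + 1) ^ k * (FF φ n).card)

/-- The supports. -/
noncomputable def FS (φ : Act k d) (n : ℕ) : Finset (Fin d → ℤ) :=
  (bp k n ×ˢ FF φ n).image fun q => φ.ac q.1 q.2

theorem mem_FS {n : ℕ} {x : Fin d → ℤ} :
    x ∈ FS φ n ↔ ∃ v ∈ bp k n, φ.ac (-v) x ∈ FF φ n := by
  rw [FS, Finset.mem_image]
  constructor
  · rintro ⟨⟨v, a⟩, h, rfl⟩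
    rw [Finset.mem_product] at h
    exact ⟨v, h.1, by simpa [φ.ac_cancel_neg] using h.2⟩
  · rintro ⟨v, hv, h⟩
    exact ⟨(v, φ.ac (-v) x), Finset.mem_product.2 ⟨hv, h⟩, φ.ac_neg_cancel v x⟩

theorem pp_nonneg (n : ℕ) (x : Fin d → ℤ) : 0 ≤ pp φ n x := by
  unfold pp
  apply div_nonneg
  · exact Finset.sum_nonneg fun v _ => by split_ifs <;> norm_num
  · positivity

theorem pp_eq_zero {n : ℕ} {x : Fin d → ℤ} (h : x ∉ FS φ n) : pp φ n x = 0 := by
  unfold pp
  rw [Finset.sum_eq_zero, zero_div]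
  intro v hv
  rw [if_neg]
  intro h'
  exact h (mem_FS.2 ⟨v, hv, h'⟩)

theorem ac_injective (v : Fin k → ℤ) : Function.Injective (φ.ac v) := by
  intro a b h
  have := congrArg (φ.ac (-v)) h
  rwa [φ.ac_cancel_neg, φ.ac_cancel_neg] at this

theorem den_pos (n : ℕ) : 0 < ((n : ℝ) + 1) ^ k * (FF φ n).card := by
  have := FF_card_pos (φ := φ) n
  positivity

/-- sum over `G` of the indicator of `F` at `T^{-v} x` is at most `|F|`. -/
theorem sum_ind_le (n : ℕ) (v : Fin k → ℤ) (G : Finset (Fin d → ℤ)) :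
    ∑ x ∈ G, (if φ.ac (-v) x ∈ FF φ n then (1 : ℝ) else 0) ≤ (FF φ n).card := by
  classical
  rw [← Finset.sum_filter, Finset.sum_const, nsmul_eq_mul, mul_one]
  have h1 : (G.filter fun x => φ.ac (-v) x ∈ FF φ n).card ≤ (FF φ n).card := by
    apply Finset.card_le_card_of_injOn (φ.ac (-v))
    · intro x hx
      exact (Finset.mem_filter.1 hx).2
    · exact (ac_injective _).injOn
  exact_mod_cast h1

theorem sum_pp (n : ℕ) : ∑ x ∈ FS φ n, pp φ n x = 1 := by
  classical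
  unfold pp
  rw [← Finset.sum_div, Finset.sum_comm]
  have h1 : ∀ v ∈ bp k n, ∑ x ∈ FS φ n, (if φ.ac (-v) x ∈ FF φ n then (1 : ℝ) else 0) =
      (FF φ n).card := by
    intro v hv
    apply le_antisymm (sum_ind_le n v _)
    rw [← Finset.sum_filter, Finset.sum_const, nsmul_eq_mul, mul_one]
    have h2 : (FF φ n).card ≤ ((FS φ n).filter fun x => φ.ac (-v) x ∈ FF φ n).card := by
      apply Finset.card_le_card_of_injOn (φ.ac v)
      · intro x hx
        have hx' : x ∈ FF φ n := hx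
        rw [Finset.mem_coe, Finset.mem_filter, mem_FS]
        exact ⟨⟨v, hv, by rwa [φ.ac_cancel_neg]⟩, by rwa [φ.ac_cancel_neg]⟩
      · exact (ac_injective _).injOn
    exact_mod_cast h2
  rw [Finset.sum_congr rfl h1, Finset.sum_const, card_bp, nsmul_eq_mul]
  push_cast
  exact div_self (den_pos n).ne'

theorem FS_len (L : Len φ) {n : ℕ} {x : Fin d → ℤ} (hx : x ∈ FS φ n) :
    L.ℓ x ≤ (2 * C2 L + L.c * k) * (n + 1) := by
  obtain ⟨v, hv, h⟩ := mem_FS.1 hx
  have h1 := len_le L (mem_latF.1 h)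
  have h2 := L.ℓ_ac v (φ.ac (-v) x)
  rw [φ.ac_neg_cancel] at h2
  have h3 : ∑ j, |(v j : ℝ)| ≤ k * n := by
    calc ∑ t, |(v t : ℝ)| ≤ ∑ _t : Fin k, (n : ℝ) := by
          refine Finset.sum_le_sum fun t _ => ?_
          have := mem_bp.1 hv t
          rw [abs_of_nonneg (by exact_mod_cast this.1)]
          exact_mod_cast this.2
      _ = k * n := by simp
  have h4 := mul_le_mul_of_nonneg_left h3 L.c_nonneg
  have hc := L.c_nonneg
  have hk : 0 ≤ L.c * k := by positivity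
  nlinarith

/-- asymptotic translation invariance. -/
theorem pp_shift (n : ℕ) (a : Fin d → ℤ) (hn : d ≤ n) (G : Finset (Fin d → ℤ)) :
    ∑ x ∈ G, |pp φ n (x - a) - pp φ n x| ≤ 2 * fd d (∑ j, |(a j : ℝ)|) (n + 1) := by
  classical
  have hden := den_pos (φ := φ) n
  have hs : 0 ≤ ∑ j, |(a j : ℝ)| := Finset.sum_nonneg fun _ _ => abs_nonneg _
  have hR : (d : ℝ) < n + 1 := by
    have : (d : ℝ) ≤ n := by exact_mod_cast hn
    linarith
  have h1 : ∀ x, |pp φ n (x - a) - pp φ n x| ≤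
      (∑ v ∈ bp k n, |(if φ.ac (-v) x - φ.ac (-v) a ∈ FF φ n then (1 : ℝ) else 0) -
        (if φ.ac (-v) x ∈ FF φ n then (1 : ℝ) else 0)|) /
        (((n : ℝ) + 1) ^ k * (FF φ n).card) := by
    intro x
    unfold pp
    rw [← sub_div, abs_div, abs_of_pos hden, ← Finset.sum_sub_distrib]
    apply div_le_div_of_nonneg_right _ hden.le
    refine (Finset.abs_sum_le_sum_abs _ _).trans (le_of_eq ?_)
    refine Finset.sum_congr rfl fun v _ => ?_
    rw [map_sub]
  have h2 : ∀ v ∈ bp k n,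
      ∑ x ∈ G, |(if φ.ac (-v) x - φ.ac (-v) a ∈ FF φ n then (1 : ℝ) else 0) -
        (if φ.ac (-v) x ∈ FF φ n then (1 : ℝ) else 0)| ≤
      2 * (fd d (∑ j, |(a j : ℝ)|) (n + 1) * (FF φ n).card) := by
    intro v hv
    have h3 : ι (φ.ac (-v) a) ∈ P φ n (∑ j, |(a j : ℝ)|) := by
      rw [← φ.E_ι]
      have := E_mem_P (φ := φ) (m := n) (v := v) (fun t => by
        have := mem_bp.1 hv t
        rw [abs_of_nonneg this.1]
        exact this.2) (ι a)
      simpa using this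
    have h4 := shift_le hs hR h3 (G.image (φ.ac (-v)))
    rw [Finset.sum_image (fun x _ y _ h => ac_injective _ h)] at h4
    exact h4
  calc ∑ x ∈ G, |pp φ n (x - a) - pp φ n x|
      ≤ ∑ x ∈ G, (∑ v ∈ bp k n,
        |(if φ.ac (-v) x - φ.ac (-v) a ∈ FF φ n then (1 : ℝ) else 0) -
        (if φ.ac (-v) x ∈ FF φ n then (1 : ℝ) else 0)|) /
        (((n : ℝ) + 1) ^ k * (FF φ n).card) := Finset.sum_le_sum fun x _ => h1 x
    _ = (∑ v ∈ bp k n, ∑ x ∈ G,
        |(if φ.ac (-v) x - φ.ac (-v) a ∈ FF φ n then (1 : ℝ) else 0) -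
        (if φ.ac (-v) x ∈ FF φ n then (1 : ℝ) else 0)|) /
        (((n : ℝ) + 1) ^ k * (FF φ n).card) := by
        rw [← Finset.sum_div, Finset.sum_comm]
    _ ≤ (∑ _v ∈ bp k n, 2 * (fd d (∑ j, |(a j : ℝ)|) (n + 1) * (FF φ n).card)) /
        (((n : ℝ) + 1) ^ k * (FF φ n).card) := by
        apply div_le_div_of_nonneg_right _ hden.le
        exact Finset.sum_le_sum h2
    _ = 2 * fd d (∑ j, |(a j : ℝ)|) (n + 1) := by
        have hF : (0 : ℝ) < (FF φ n).card := by exact_mod_cast FF_card_pos (φ := φ) n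
        rw [Finset.sum_const, card_bp, nsmul_eq_mul]
        push_cast
        rw [div_eq_iff hden.ne']
        ring

/-- almost invariance under the action. -/
theorem pp_act (n : ℕ) (j : Fin k) (G : Finset (Fin d → ℤ)) :
    ∑ x ∈ G, |pp φ n (φ.ac (-(Pi.single j 1)) x) - pp φ n x| ≤ 2 / ((n : ℝ) + 1) := by
  classical
  have hden := den_pos (φ := φ) n
  set e : Fin k → ℤ := Pi.single j 1 with he
  set B := bp k n with hB
  set B' := B.image (fun v => v + e) with hB'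
  have h0 : ∀ x, ∑ v ∈ B, (if φ.ac (-v) (φ.ac (-e) x) ∈ FF φ n then (1 : ℝ) else 0) =
      ∑ v ∈ B', (if φ.ac (-v) x ∈ FF φ n then (1 : ℝ) else 0) := by
    intro x
    rw [hB', Finset.sum_image (fun x _ y _ h => add_left_injective e h)]
    refine Finset.sum_congr rfl fun v _ => ?_
    rw [← φ.ac_add, neg_add]
  have h1 : ∀ x, |pp φ n (φ.ac (-e) x) - pp φ n x| ≤
      (∑ v ∈ (B' \ B) ∪ (B \ B'), (if φ.ac (-v) x ∈ FF φ n then (1 : ℝ) else 0)) /
        (((n : ℝ) + 1) ^ k * (FF φ n).card) := by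
    intro x
    unfold pp
    rw [h0 x, ← sub_div, abs_div, abs_of_pos hden]
    apply div_le_div_of_nonneg_right _ hden.le
    have hpos : ∀ v, 0 ≤ (if φ.ac (-v) x ∈ FF φ n then (1 : ℝ) else 0) := fun v => by
      split_ifs <;> norm_num
    rw [Finset.sum_union (by
      rw [Finset.disjoint_left]
      intro v hv hv'
      exact (Finset.mem_sdiff.1 hv').2 (Finset.mem_sdiff.1 hv).1)]
    rw [← Finset.sum_sdiff_sub_sum_sdiff]
    rw [abs_le]
    have h2 : 0 ≤ ∑ v ∈ B' \ B, (if φ.ac (-v) x ∈ FF φ n then (1 : ℝ) else 0) :=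
      Finset.sum_nonneg fun v _ => hpos v
    have h3 : 0 ≤ ∑ v ∈ B \ B', (if φ.ac (-v) x ∈ FF φ n then (1 : ℝ) else 0) :=
      Finset.sum_nonneg fun v _ => hpos v
    constructor <;> linarith
  have hk1 : B' \ B ⊆ (B.filter fun v => v j = (n : ℤ)).image (fun v => v + e) := by
    intro v hv
    rw [Finset.mem_sdiff, hB', Finset.mem_image] at hv
    obtain ⟨⟨w, hw, rfl⟩, hv2⟩ := hv
    rw [Finset.mem_image]
    refine ⟨w, Finset.mem_filter.2 ⟨hw, ?_⟩, rfl⟩
    by_contra hne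
    apply hv2
    rw [hB, mem_bp] at hw ⊢
    intro t
    have := hw t
    by_cases h : t = j
    · subst h
      simp only [he, Pi.add_apply, Pi.single_eq_same]
      omega
    · simp only [he, Pi.add_apply, Pi.single_eq_of_ne h]
      omega
  have hk2 : B \ B' ⊆ B.filter fun v => v j = 0 := by
    intro v hv
    rw [Finset.mem_sdiff] at hv
    refine Finset.mem_filter.2 ⟨hv.1, ?_⟩
    by_contra hne
    apply hv.2
    rw [hB', Finset.mem_image]
    refine ⟨v - e, ?_, by simp⟩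
    have hw := hv.1
    rw [hB, mem_bp] at hw ⊢
    intro t
    have := hw t
    by_cases h : t = j
    · subst h
      simp only [he, Pi.sub_apply, Pi.single_eq_same]
      omega
    · simp only [he, Pi.sub_apply, Pi.single_eq_of_ne h]
      omega
  have hcard : ((n : ℝ) + 1) * ((B' \ B) ∪ (B \ B')).card ≤ 2 * ((n : ℝ) + 1) ^ k := by
    have h2 : ((B' \ B) ∪ (B \ B')).card ≤ (B.filter fun v => v j = (n : ℤ)).card +
        (B.filter fun v => v j = 0).card := by
      refine (Finset.card_union_le _ _).trans (add_le_add ?_ (Finset.card_le_card hk2))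
      exact (Finset.card_le_card hk1).trans Finset.card_image_le
    have h3 := card_face k n j n
    have h4 := card_face k n j 0
    have h5 : (n + 1) * ((B' \ B) ∪ (B \ B')).card ≤ 2 * (n + 1) ^ k := by
      calc (n + 1) * ((B' \ B) ∪ (B \ B')).card ≤ (n + 1) *
          ((B.filter fun v => v j = (n : ℤ)).card + (B.filter fun v => v j = 0).card) :=
            Nat.mul_le_mul_left _ h2
        _ ≤ _ := by rw [mul_add]; rw [hB]; omega
    exact_mod_cast h5
  calc ∑ x ∈ G, |pp φ n (φ.ac (-e) x) - pp φ n x|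
      ≤ ∑ x ∈ G, (∑ v ∈ (B' \ B) ∪ (B \ B'),
        (if φ.ac (-v) x ∈ FF φ n then (1 : ℝ) else 0)) /
        (((n : ℝ) + 1) ^ k * (FF φ n).card) := Finset.sum_le_sum fun x _ => h1 x
    _ = (∑ v ∈ (B' \ B) ∪ (B \ B'), ∑ x ∈ G,
        (if φ.ac (-v) x ∈ FF φ n then (1 : ℝ) else 0)) /
        (((n : ℝ) + 1) ^ k * (FF φ n).card) := by
        rw [← Finset.sum_div, Finset.sum_comm]
    _ ≤ (∑ _v ∈ (B' \ B) ∪ (B \ B'), ((FF φ n).card : ℝ)) /
        (((n : ℝ) + 1) ^ k * (FF φ n).card) := by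
        apply div_le_div_of_nonneg_right _ hden.le
        exact Finset.sum_le_sum fun v _ => sum_ind_le n v G
    _ ≤ 2 / ((n : ℝ) + 1) := by
        rw [Finset.sum_const, nsmul_eq_mul]
        have hF : (0 : ℝ) < (FF φ n).card := by exact_mod_cast FF_card_pos (φ := φ) n
        have hn : (0 : ℝ) < (n : ℝ) + 1 := by positivity
        rw [div_le_div_iff₀ hden hn]
        nlinarith

/-! ### Final form -/

theorem exists_measure_act (L : Len φ) :
    ∃ (C : ℝ) (p : ℕ → (Fin d → ℤ) →₀ ℝ), 0 ≤ C ∧ (∀ n x, 0 ≤ p n x) ∧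
      (∀ n, ((p n).sum fun _ r => r) = 1) ∧
      (∀ n, ∀ x ∈ (p n).support, L.ℓ x ≤ C * (n + 1)) ∧
      (∀ a, Filter.Tendsto (fun n => (p n - (p n).mapDomain (fun x => a + x)).sum fun _ r => |r|)
        Filter.atTop (nhds 0)) ∧
      (∀ n (j : Fin k), ((p n - (p n).mapDomain (φ.ac (Pi.single j 1))).sum fun _ r => |r|) ≤
        2 / ((n : ℝ) + 1)) := by
  classical
  have hC : 0 ≤ 2 * C2 L + L.c * k := by
    have h1 := C2_nonneg L
    have h2 := L.c_nonneg
    positivity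
  let p : ℕ → (Fin d → ℤ) →₀ ℝ := fun n =>
    Finsupp.onFinset (FS φ n) (pp φ n) (fun x hx => by
      by_contra h
      exact hx (pp_eq_zero h))
  have hp : ∀ n x, p n x = pp φ n x := fun n x => rfl
  refine ⟨2 * C2 L + L.c * k, p, hC, fun n x => pp_nonneg n x, ?_, ?_, ?_, ?_⟩
  · intro n
    rw [← sum_pp (φ := φ) n]
    exact Finsupp.onFinset_sum _ (fun _ => rfl)
  · intro n x hx
    have h1 : x ∈ FS φ n := by
      by_contra h
      rw [Finsupp.mem_support_iff] at hx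
      exact hx (pp_eq_zero h)
    exact FS_len L h1
  · intro a
    have h1 : ∀ n, d ≤ n → ((p n - (p n).mapDomain (fun x => a + x)).sum fun _ r => |r|) ≤
        2 * fd d (∑ j, |(a j : ℝ)|) (n + 1) := by
      intro n hn
      refine le_trans (le_of_eq ?_) (pp_shift (φ := φ) n a hn
        (p n - (p n).mapDomain (fun x => a + x)).support)
      rw [Finsupp.sum]
      refine Finset.sum_congr rfl fun x _ => ?_
      rw [Finsupp.sub_apply, abs_sub_comm]
      congr 2
      have h2 : x = a + (x - a) := by abel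
      conv_lhs => rw [h2]
      exact Finsupp.mapDomain_apply (add_right_injective a) _ _
    have h2 : Filter.Tendsto (fun n : ℕ => 2 * fd d (∑ j, |(a j : ℝ)|) (n + 1))
        Filter.atTop (nhds 0) := by
      have := (fd_tendsto d (∑ j, |(a j : ℝ)|)).const_mul 2
      simpa using this
    refine squeeze_zero' (Filter.Eventually.of_forall fun n => ?_) ?_ h2
    · exact Finset.sum_nonneg fun _ _ => abs_nonneg _
    · filter_upwards [Filter.eventually_ge_atTop d] with n hn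
      exact h1 n hn
  · intro n j
    refine le_trans (le_of_eq ?_) (pp_act (φ := φ) n j
      (p n - (p n).mapDomain (φ.ac (Pi.single j 1))).support)
    rw [Finsupp.sum]
    refine Finset.sum_congr rfl fun x _ => ?_
    rw [Finsupp.sub_apply, abs_sub_comm]
    congr 2
    have h2 : x = φ.ac (Pi.single j 1) (φ.ac (-(Pi.single j 1)) x) :=
      (φ.ac_neg_cancel _ _).symm
    conv_lhs => rw [h2]
    exact Finsupp.mapDomain_apply (ac_injective _) _ _

/-- an automorphism as a unit of the endomorphism monoid. -/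
def toU (t : (Fin d → ℤ) ≃+ (Fin d → ℤ)) : (AddMonoid.End (Fin d → ℤ))ˣ where
  val := t.toAddMonoidHom
  inv := t.symm.toAddMonoidHom
  val_inv := by ext1 x; exact t.apply_symm_apply x
  inv_val := by ext1 x; exact t.symm_apply_apply x

theorem toU_comm (T : Fin k → ((Fin d → ℤ) ≃+ (Fin d → ℤ)))
    (hT : ∀ i j x, T i (T j x) = T j (T i x)) :
    Pairwise fun i j => ∀ x y : Multiplicative ℤ,
      Commute (zpowersHom _ (toU (T i)) x) (zpowersHom _ (toU (T j)) y) := by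
  intro i j _ x y
  have : Commute (toU (T i)) (toU (T j)) := by
    apply Units.ext
    ext1 x
    exact hT i j x
  simp only [zpowersHom_apply]
  exact this.zpow_zpow _ _

/-- The homomorphism generated by commuting automorphisms. -/
noncomputable def homOf (T : Fin k → ((Fin d → ℤ) ≃+ (Fin d → ℤ)))
    (hT : ∀ i j x, T i (T j x) = T j (T i x)) :
    (Fin k → Multiplicative ℤ) →* (AddMonoid.End (Fin d → ℤ))ˣ :=
  MonoidHom.noncommPiCoprod (fun j => zpowersHom _ (toU (T j))) (toU_comm T hT)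

theorem homOf_single (T : Fin k → ((Fin d → ℤ) ≃+ (Fin d → ℤ)))
    (hT : ∀ i j x, T i (T j x) = T j (T i x)) (j : Fin k) :
    homOf T hT (Pi.mulSingle j (Multiplicative.ofAdd (1 : ℤ))) = toU (T j) := by
  rw [homOf, MonoidHom.noncommPiCoprod_mulSingle]
  simp

/-- The action generated by commuting automorphisms. -/
noncomputable def actOf (T : Fin k → ((Fin d → ℤ) ≃+ (Fin d → ℤ)))
    (hT : ∀ i j x, T i (T j x) = T j (T i x)) : Act k d where
  ac v := (homOf T hT (fun j => Multiplicative.ofAdd (v j))).val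
  ac_zero := by
    intro a
    have h1 : (fun j : Fin k => Multiplicative.ofAdd ((0 : Fin k → ℤ) j)) = 1 := rfl
    rw [h1, map_one]
    rfl
  ac_add := by
    intro v w a
    have h1 : (fun j : Fin k => Multiplicative.ofAdd ((v + w) j)) =
      (fun j : Fin k => Multiplicative.ofAdd (v j)) *
        (fun j : Fin k => Multiplicative.ofAdd (w j)) := rfl
    rw [h1, map_mul]
    rfl

theorem actOf_single (T : Fin k → ((Fin d → ℤ) ≃+ (Fin d → ℤ)))
    (hT : ∀ i j x, T i (T j x) = T j (T i x)) (j : Fin k) (x : Fin d → ℤ) :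
    (actOf T hT).ac (Pi.single j 1) x = T j x := by
  classical
  have h1 : (fun i : Fin k => Multiplicative.ofAdd ((Pi.single j 1 : Fin k → ℤ) i)) =
      Pi.mulSingle j (Multiplicative.ofAdd (1 : ℤ)) := by
    ext i
    by_cases h : i = j
    · subst h; simp
    · simp [h]
  have h2 : (actOf T hT).ac (Pi.single j 1) = (toU (T j)).val := by
    change (homOf T hT (fun i : Fin k =>
      Multiplicative.ofAdd ((Pi.single j 1 : Fin k → ℤ) i))).val = _
    rw [h1, homOf_single]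
  rw [h2]
  rfl

/-- **Controlled almost invariant measures.** -/
theorem exists_measure (T : Fin k → ((Fin d → ℤ) ≃+ (Fin d → ℤ)))
    (hT : ∀ i j x, T i (T j x) = T j (T i x)) (ℓ : (Fin d → ℤ) → ℝ) (c : ℝ)
    (h0 : ℓ 0 = 0) (hnn : ∀ a, 0 ≤ ℓ a) (hneg : ∀ a, ℓ (-a) ≤ ℓ a)
    (hadd : ∀ a b, ℓ (a + b) ≤ ℓ a + ℓ b)
    (hT1 : ∀ j a, ℓ (T j a) ≤ ℓ a + c) (hT2 : ∀ j a, ℓ ((T j).symm a) ≤ ℓ a + c) :
    ∃ (C : ℝ) (p : ℕ → (Fin d → ℤ) →₀ ℝ), 0 ≤ C ∧ (∀ n x, 0 ≤ p n x) ∧
      (∀ n, ((p n).sum fun _ r => r) = 1) ∧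
      (∀ n, ∀ x ∈ (p n).support, ℓ x ≤ C * (n + 1)) ∧
      (∀ a, Filter.Tendsto (fun n => (p n - (p n).mapDomain (fun x => a + x)).sum fun _ r => |r|)
        Filter.atTop (nhds 0)) ∧
      (∀ n (j : Fin k), ((p n - (p n).mapDomain (T j)).sum fun _ r => |r|) ≤
        2 / ((n : ℝ) + 1)) := by
  classical
  set φ := actOf T hT with hφ
  have hj : ∀ j x, φ.ac (Pi.single j 1) x = T j x := actOf_single T hT
  have hj' : ∀ j x, φ.ac (-(Pi.single j 1)) x = (T j).symm x := by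
    intro j x
    apply (T j).injective
    rw [← hj, φ.ac_neg_cancel, AddEquiv.apply_symm_apply]
  have h1 : ∀ j (t : ℕ) a, ℓ (φ.ac (Pi.single j (t : ℤ)) a) ≤ ℓ a + |c| * t := by
    intro j t
    induction t with
    | zero => intro a; simp [φ.ac_zero]
    | succ t ih =>
      intro a
      have h2 : (Pi.single j ((t + 1 : ℕ) : ℤ) : Fin k → ℤ) =
          Pi.single j 1 + Pi.single j (t : ℤ) := by
        rw [← Pi.single_add]; push_cast; rw [add_comm]
      rw [h2, φ.ac_add, hj]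
      have h3 := hT1 j (φ.ac (Pi.single j (t : ℤ)) a)
      have h4 := ih a
      have h5 := le_abs_self c
      push_cast
      linarith
  have h2 : ∀ j (t : ℕ) a, ℓ (φ.ac (Pi.single j (-(t : ℤ))) a) ≤ ℓ a + |c| * t := by
    intro j t
    induction t with
    | zero => intro a; simp [φ.ac_zero]
    | succ t ih =>
      intro a
      have h2 : (Pi.single j (-((t + 1 : ℕ) : ℤ)) : Fin k → ℤ) =
          -(Pi.single j 1) + Pi.single j (-(t : ℤ)) := by
        rw [← Pi.single_neg, ← Pi.single_add]; push_cast; congr 1; ring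
      rw [h2, φ.ac_add, hj']
      have h3 := hT2 j (φ.ac (Pi.single j (-(t : ℤ))) a)
      have h4 := ih a
      have h5 := le_abs_self c
      push_cast
      linarith
  have h3 : ∀ j (t : ℤ) a, ℓ (φ.ac (Pi.single j t) a) ≤ ℓ a + |c| * |(t : ℝ)| := by
    intro j t a
    rcases Int.eq_nat_or_neg t with ⟨m, rfl | rfl⟩
    · have := h1 j m a
      simpa using this
    · have := h2 j m a
      simpa using this
  have h4 : ∀ (s : Finset (Fin k)) (v : Fin k → ℤ) a,
      ℓ (φ.ac (∑ j ∈ s, Pi.single j (v j)) a) ≤ ℓ a + |c| * ∑ j ∈ s, |(v j : ℝ)| := by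
    intro s v
    induction s using Finset.induction_on with
    | empty => intro a; simp [φ.ac_zero]
    | insert j s hjs ih =>
      intro a
      rw [Finset.sum_insert hjs, Finset.sum_insert hjs, φ.ac_add]
      have h5 := h3 j (v j) (φ.ac (∑ j ∈ s, Pi.single j (v j)) a)
      have h6 := ih a
      rw [mul_add]
      linarith
  let L : Len φ :=
    { ℓ := ℓ
      c := |c|
      ℓ_zero := h0
      ℓ_nonneg := hnn
      ℓ_neg := hneg
      ℓ_add := hadd
      c_nonneg := abs_nonneg _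
      ℓ_ac := by
        intro v a
        have h5 := h4 Finset.univ v a
        rwa [Finset.univ_sum_single] at h5 }
  obtain ⟨C, p, hC, hp0, hp1, hp2, hp3, hp4⟩ := exists_measure_act L
  refine ⟨C, p, hC, hp0, hp1, hp2, hp3, fun n j => ?_⟩
  have h5 : (φ.ac (Pi.single j 1) : (Fin d → ℤ) → (Fin d → ℤ)) = T j := by
    funext x; exact hj j x
  have := hp4 n j
  rwa [h5] at this

end Crest.Agent.R182.HtMeas
end

-- ▼ part R182/HtExt
section

set_option autoImplicit false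
set_option linter.unusedSectionVars false

namespace Crest.Agent.R182.Ht

open Filter Topology Crest.Agent.R182.Erg

variable {G X : Type*} [Group G]

/-- the algebra `𝓐` with the seminorm of `L²(m)`. -/
def PreV {ρ : X → G → X} {𝓐 : Subalgebra ℝ (X → ℝ)} {m : (X → ℝ) → ℝ}
    (_ha : Alg ρ 𝓐) (_hm : IMean ρ 𝓐 m) : Type _ := 𝓐

section

variable {ρ : X → G → X} {𝓐 : Subalgebra ℝ (X → ℝ)} {m : (X → ℝ) → ℝ}
  (ha : Alg ρ 𝓐) (hm : IMean ρ 𝓐 m)

noncomputable instance : AddCommGroup (PreV ha hm) := inferInstanceAs (AddCommGroup 𝓐)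
noncomputable instance : Module ℝ (PreV ha hm) := inferInstanceAs (Module ℝ 𝓐)

/-- the underlying function. -/
def fn {ha : Alg ρ 𝓐} {hm : IMean ρ 𝓐 m} (φ : PreV ha hm) : X → ℝ := ((show 𝓐 from φ) : X → ℝ)

theorem fn_mem {ha : Alg ρ 𝓐} {hm : IMean ρ 𝓐 m} (φ : PreV ha hm) : fn φ ∈ 𝓐 :=
  (show 𝓐 from φ).2

theorem fn_add {ha : Alg ρ 𝓐} {hm : IMean ρ 𝓐 m} (φ χ : PreV ha hm) :
    fn (φ + χ) = fn φ + fn χ := rfl

theorem fn_smul {ha : Alg ρ 𝓐} {hm : IMean ρ 𝓐 m} (c : ℝ) (φ : PreV ha hm) :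
    fn (c • φ) = c • fn φ := rfl

/-- an element of `𝓐` as element of `PreV`. -/
def mkV {φ : X → ℝ} (hφ : φ ∈ 𝓐) : PreV ha hm := (⟨φ, hφ⟩ : 𝓐)

@[simp] theorem fn_mkV {φ : X → ℝ} (hφ : φ ∈ 𝓐) : fn (mkV ha hm hφ) = φ := rfl

/-- the inner product of `L²(m)`. -/
@[reducible] noncomputable def preCore : PreInnerProductSpace.Core ℝ (PreV ha hm) where
  inner φ χ := m (fn φ * fn χ)
  conj_inner_symm φ χ := by
    change m _ = m _
    rw [mul_comm]
  re_inner_nonneg φ := hm.toPInv.sq_nonneg (fn_mem φ)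
  add_left φ χ ψ := by
    change m _ = m _ + m _
    rw [fn_add, add_mul, hm.add _ (mul_mem (fn_mem φ) (fn_mem ψ)) _
      (mul_mem (fn_mem χ) (fn_mem ψ))]
  smul_left φ χ r := by
    change m _ = r * m _
    rw [fn_smul, smul_mul_assoc, hm.smul _ _ (mul_mem (fn_mem φ) (fn_mem χ))]

noncomputable instance instSNG : SeminormedAddCommGroup (PreV ha hm) :=
  @InnerProductSpace.Core.toSeminormedAddCommGroup ℝ (PreV ha hm) _ _ _ (preCore ha hm)

noncomputable instance instIPS : InnerProductSpace ℝ (PreV ha hm) :=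
  InnerProductSpace.ofCore (preCore ha hm)


/-- `L²(m)`. -/
abbrev V : Type _ := UniformSpace.Completion (PreV ha hm)

/-- the class of a function of `𝓐` in `L²(m)`. -/
noncomputable def ofP : PreV ha hm →ₗ[ℝ] V ha hm :=
  (UniformSpace.Completion.toComplₗᵢ (𝕜 := ℝ) (E := PreV ha hm)).toLinearMap

/-- the class of a function of `𝓐` in `L²(m)`. -/
noncomputable def ofA : 𝓐 →ₗ[ℝ] V ha hm := ofP ha hm

theorem inner_ofA (φ χ : 𝓐) : inner ℝ (ofA ha hm φ) (ofA ha hm χ) = m ((φ : X → ℝ) * χ) :=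
  UniformSpace.Completion.inner_coe (𝕜 := ℝ) (E := PreV ha hm) _ _

theorem norm_ofA (φ : 𝓐) : ‖ofA ha hm φ‖ = nrm m (φ : X → ℝ) := by
  rw [nrm, ← inner_ofA ha hm, real_inner_self_eq_norm_sq, Real.sqrt_sq (norm_nonneg _)]

theorem denseRange_ofA : DenseRange (ofA ha hm) := by
  have h : DenseRange ((↑) : PreV ha hm → V ha hm) := UniformSpace.Completion.denseRange_coe
  exact h


/-- the shift on `𝓐`. -/
def sh (g : G) : 𝓐 ≃ₗ[ℝ] 𝓐 where
  toFun φ := ⟨fun x => (φ : X → ℝ) (ρ x g), ha.shift g _ φ.2⟩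
  invFun φ := ⟨fun x => (φ : X → ℝ) (ρ x g⁻¹), ha.shift g⁻¹ _ φ.2⟩
  map_add' φ χ := rfl
  map_smul' c φ := rfl
  left_inv φ := by
    apply Subtype.ext
    funext x
    show (φ : X → ℝ) (ρ (ρ x g⁻¹) g) = _
    rw [← ha.mul, inv_mul_cancel, ha.one]
  right_inv φ := by
    apply Subtype.ext
    funext x
    show (φ : X → ℝ) (ρ (ρ x g) g⁻¹) = _
    rw [← ha.mul, mul_inv_cancel, ha.one]

theorem sh_apply (g : G) (φ : 𝓐) (x : X) : (sh ha g φ : X → ℝ) x = (φ : X → ℝ) (ρ x g) := rfl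

theorem norm_sh (g : G) (φ : 𝓐) : ‖ofA ha hm (sh ha g φ)‖ = ‖ofA ha hm φ‖ := by
  rw [norm_ofA, norm_ofA]
  exact hm.toPInv.nrm_shift φ.2 g

/-- the unitary operator of `g`. -/
noncomputable def U₀ (g : G) : V ha hm ≃ₗᵢ[ℝ] V ha hm :=
  (sh ha g).extendOfIsometry (ofA ha hm) (ofA ha hm) (denseRange_ofA ha hm) (denseRange_ofA ha hm)
    (norm_sh ha hm g)

theorem U₀_ofA (g : G) (φ : 𝓐) : U₀ ha hm g (ofA ha hm φ) = ofA ha hm (sh ha g φ) :=
  LinearEquiv.extendOfIsometry_eq _ _ _ _ _ _ φ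


/-- the orthogonal representation of `G` on `L²(m)`. -/
noncomputable def U : G →* (V ha hm ≃ₗᵢ[ℝ] V ha hm) where
  toFun := U₀ ha hm
  map_one' := by
    apply LinearIsometryEquiv.ext
    intro v
    refine congrFun ((denseRange_ofA ha hm).equalizer (U₀ ha hm 1).continuous continuous_id
      (funext fun φ => ?_)) v
    show U₀ ha hm 1 (ofA ha hm φ) = ofA ha hm φ
    rw [U₀_ofA]
    congr 1
    apply Subtype.ext
    funext x
    rw [sh_apply, ha.one]
  map_mul' g h := by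
    apply LinearIsometryEquiv.ext
    intro v
    refine congrFun ((denseRange_ofA ha hm).equalizer (U₀ ha hm (g * h)).continuous
      ((U₀ ha hm g).continuous.comp (U₀ ha hm h).continuous) (funext fun φ => ?_)) v
    show U₀ ha hm (g * h) (ofA ha hm φ) = U₀ ha hm g (U₀ ha hm h (ofA ha hm φ))
    rw [U₀_ofA, U₀_ofA, U₀_ofA]
    congr 1
    apply Subtype.ext
    funext x
    rw [sh_apply, sh_apply, sh_apply, ha.mul]

@[simp] theorem U_ofA (g : G) (φ : 𝓐) : U ha hm g (ofA ha hm φ) = ofA ha hm (sh ha g φ) :=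
  U₀_ofA ha hm g φ

/-! ### Truncation -/

/-- the algebra is closed under truncations. -/
def TrClosed (𝓐 : Subalgebra ℝ (X → ℝ)) : Prop :=
  ∀ φ ∈ 𝓐, ∀ c : ℝ, (fun x => max (-c) (min (φ x) c)) ∈ 𝓐

theorem TrClosed.of_abs {𝓐 : Subalgebra ℝ (X → ℝ)} (h : ∀ φ ∈ 𝓐, (fun x => |φ x|) ∈ 𝓐) :
    TrClosed 𝓐 := by
  have hmin : ∀ φ ∈ 𝓐, ∀ χ ∈ 𝓐, (fun x => min (φ x) (χ x)) ∈ 𝓐 := by
    intro φ hφ χ hχ
    have h1 : (fun x => min (φ x) (χ x)) = (2⁻¹ : ℝ) • (φ + χ - fun x => |(φ - χ) x|) := by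
      funext x
      simp only [Pi.smul_apply, Pi.sub_apply, Pi.add_apply, smul_eq_mul]
      rcases le_total (φ x) (χ x) with h2 | h2
      · rw [min_eq_left h2, abs_of_nonpos (sub_nonpos.2 h2)]; ring
      · rw [min_eq_right h2, abs_of_nonneg (sub_nonneg.2 h2)]; ring
    rw [h1]
    exact 𝓐.smul_mem (sub_mem (add_mem hφ hχ) (h _ (sub_mem hφ hχ))) _
  intro φ hφ c
  have h1 : (fun x => max (-c) (min (φ x) c)) =
      -(fun x => min ((fun _ => c : X → ℝ) x) ((-fun x => min (φ x) c) x)) := by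
    funext x
    simp only [Pi.neg_apply]
    rw [← max_neg_neg, neg_neg]
  rw [h1]
  exact neg_mem (hmin _ (const_mem 𝓐 c) _ (neg_mem (hmin _ hφ _ (const_mem 𝓐 c))))

variable (ht : TrClosed 𝓐)

/-- truncation on `𝓐`. -/
noncomputable def clA (c : ℝ) (φ : 𝓐) : 𝓐 := ⟨_, ht _ φ.2 c⟩

theorem clA_apply (c : ℝ) (φ : 𝓐) (x : X) :
    (clA ht c φ : X → ℝ) x = max (-c) (min ((φ : X → ℝ) x) c) := rfl

theorem abs_clamp_sub (c a b : ℝ) : |max (-c) (min a c) - max (-c) (min b c)| ≤ |a - b| := by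
  have h1 := abs_max_sub_max_le_max (-c) (min a c) (-c) (min b c)
  have h2 := abs_min_sub_min_le_max a c b c
  rw [sub_self, abs_zero] at h1 h2
  exact (h1.trans (max_le (abs_nonneg _) le_rfl)).trans (h2.trans (max_le le_rfl (abs_nonneg _)))

theorem nrm_mono (hm : PInv ρ 𝓐 m) {φ χ : X → ℝ} (hφ : φ ∈ 𝓐) (hχ : χ ∈ 𝓐)
    (h : ∀ x, |φ x| ≤ |χ x|) : nrm m φ ≤ nrm m χ := by
  refine Real.sqrt_le_sqrt (hm.mono (mul_mem hφ hφ) (mul_mem hχ hχ) fun x => ?_)
  show φ x * φ x ≤ χ x * χ x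
  rw [← abs_mul_abs_self (φ x), ← abs_mul_abs_self (χ x)]
  exact mul_self_le_mul_self (abs_nonneg _) (h x)

theorem norm_clA_sub (c : ℝ) (φ χ : 𝓐) :
    ‖ofA ha hm (clA ht c φ) - ofA ha hm (clA ht c χ)‖ ≤ ‖ofA ha hm φ - ofA ha hm χ‖ := by
  rw [← map_sub, ← map_sub, norm_ofA, norm_ofA]
  exact nrm_mono hm.toPInv (clA ht c φ - clA ht c χ).2 (φ - χ).2 fun x => abs_clamp_sub c _ _

/-- truncation on `PreV`. -/
noncomputable def clP (c : ℝ) (φ : PreV ha hm) : PreV ha hm := clA ht c φ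

theorem lip_clP (c : ℝ) : LipschitzWith 1 (clP ha hm ht c) := by
  refine LipschitzWith.of_dist_le_mul fun φ χ => ?_
  rw [NNReal.coe_one, one_mul, dist_eq_norm, dist_eq_norm]
  have h1 := norm_clA_sub ha hm ht c φ χ
  have h2 : ∀ φ χ : PreV ha hm, ‖ofA ha hm φ - ofA ha hm χ‖ = ‖φ - χ‖ := by
    intro φ χ
    have h3 : ofA ha hm φ - ofA ha hm χ = ((φ - χ : PreV ha hm) : V ha hm) := by
      rw [UniformSpace.Completion.coe_sub]; rfl
    rw [h3, UniformSpace.Completion.norm_coe]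
  rw [← h2, ← h2]
  exact h1

/-- truncation on `L²(m)`. -/
noncomputable def Tc (c : ℝ) : V ha hm → V ha hm := UniformSpace.Completion.map (clP ha hm ht c)

theorem Tc_ofA (c : ℝ) (φ : 𝓐) : Tc ha hm ht c (ofA ha hm φ) = ofA ha hm (clA ht c φ) :=
  UniformSpace.Completion.map_coe (lip_clP ha hm ht c).uniformContinuous _

theorem continuous_Tc (c : ℝ) : Continuous (Tc ha hm ht c) := UniformSpace.Completion.continuous_map

theorem norm_Tc_sub (c : ℝ) (v w : V ha hm) :
    ‖Tc ha hm ht c v - Tc ha hm ht c w‖ ≤ ‖v - w‖ := by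
  have hc := continuous_Tc ha hm ht c
  refine (denseRange_ofA ha hm).induction_on₂ (p := fun v w =>
    ‖Tc ha hm ht c v - Tc ha hm ht c w‖ ≤ ‖v - w‖) ?_ ?_ v w
  · exact isClosed_le (((hc.comp continuous_fst).sub (hc.comp continuous_snd)).norm)
      ((continuous_fst.sub continuous_snd).norm)
  · intro φ χ
    rw [Tc_ofA, Tc_ofA]
    exact norm_clA_sub ha hm ht c φ χ

theorem Tc_U (c : ℝ) (g : G) (v : V ha hm) :
    Tc ha hm ht c (U ha hm g v) = U ha hm g (Tc ha hm ht c v) := by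
  have hc := continuous_Tc ha hm ht c
  refine congrFun ((denseRange_ofA ha hm).equalizer (hc.comp (U ha hm g).continuous)
    ((U ha hm g).continuous.comp hc) (funext fun φ => ?_)) v
  show Tc ha hm ht c (U ha hm g (ofA ha hm φ)) = U ha hm g (Tc ha hm ht c (ofA ha hm φ))
  rw [U_ofA, Tc_ofA, Tc_ofA, U_ofA]
  rfl

theorem abs_inner_Tc_le {c : ℝ} (hc : 0 ≤ c) (v : V ha hm) (χ : 𝓐) (hχ : ∀ x, 0 ≤ (χ : X → ℝ) x) :
    |inner ℝ (Tc ha hm ht c v) (ofA ha hm χ)| ≤ c * m χ := by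
  refine (denseRange_ofA ha hm).induction_on (p := fun v =>
    |inner ℝ (Tc ha hm ht c v) (ofA ha hm χ)| ≤ c * m χ) v ?_ ?_
  · exact isClosed_le (((continuous_Tc ha hm ht c).inner continuous_const).abs) continuous_const
  · intro φ
    rw [Tc_ofA, inner_ofA, abs_le, ← hm.smul _ _ χ.2]
    have hmem := mul_mem (clA ht c φ).2 χ.2
    constructor
    · rw [← neg_le_neg_iff, neg_neg, ← hm.toPInv.neg hmem]
      refine hm.toPInv.mono (neg_mem hmem) (𝓐.smul_mem χ.2 c) fun x => ?_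
      show -((clA ht c φ : X → ℝ) x * (χ : X → ℝ) x) ≤ c * (χ : X → ℝ) x
      rw [← neg_mul]
      refine mul_le_mul_of_nonneg_right ?_ (hχ x)
      rw [clA_apply, neg_le]
      exact le_max_left _ _
    · refine hm.toPInv.mono hmem (𝓐.smul_mem χ.2 c) fun x => ?_
      show (clA ht c φ : X → ℝ) x * (χ : X → ℝ) x ≤ c * (χ : X → ℝ) x
      refine mul_le_mul_of_nonneg_right ?_ (hχ x)
      rw [clA_apply]
      exact max_le (by linarith) (min_le_right _ _)


/-- a bounded invariant vector is constant. -/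
theorem Tc_const (hE : Ext ρ 𝓐 m) {c : ℝ} (hc : 0 < c) {v : V ha hm}
    (hv : ∀ g, U ha hm g v = v) :
    ∃ κ : ℝ, Tc ha hm ht c v = κ • ofA ha hm 1 := by
  classical
  set w := Tc ha hm ht c v with hw
  have hwi : ∀ g, U ha hm g w = w := fun g => by rw [hw, ← Tc_U, hv]
  have hle := fun χ hχ => abs_le.1 (abs_inner_Tc_le ha hm ht hc.le v χ hχ)
  set m' : (X → ℝ) → ℝ := fun φ => if h : φ ∈ 𝓐 then
    (2 * c)⁻¹ * (c * m φ + inner ℝ w (ofA ha hm ⟨φ, h⟩)) else 0 with hm'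
  have hval : ∀ φ (h : φ ∈ 𝓐), m' φ = (2 * c)⁻¹ * (c * m φ + inner ℝ w (ofA ha hm ⟨φ, h⟩)) := by
    intro φ h
    simp only [hm', dif_pos h]
  have hpos : 0 < (2 * c)⁻¹ := by positivity
  have hP : PInv ρ 𝓐 m' := by
    refine ⟨?_, ?_, ?_, ?_⟩
    · intro φ hφ χ hχ
      have h1 : ofA ha hm ⟨φ + χ, add_mem hφ hχ⟩ = ofA ha hm ⟨φ, hφ⟩ + ofA ha hm ⟨χ, hχ⟩ := by
        rw [← map_add]; rfl
      rw [hval _ hφ, hval _ hχ, hval _ (add_mem hφ hχ), hm.add _ hφ _ hχ, h1, inner_add_right]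
      ring
    · intro a φ hφ
      have h1 : ofA ha hm ⟨a • φ, 𝓐.smul_mem hφ a⟩ = a • ofA ha hm ⟨φ, hφ⟩ := by
        rw [← map_smul]; rfl
      rw [hval _ hφ, hval _ (𝓐.smul_mem hφ a), hm.smul _ _ hφ, h1, real_inner_smul_right]
      ring
    · intro φ hφ h0
      rw [hval _ hφ]
      have h1 := (hle ⟨φ, hφ⟩ h0).1
      exact mul_nonneg hpos.le (by linarith)
    · intro g φ hφ
      rw [hval _ hφ, hval _ (ha.shift g _ hφ), hm.inv g _ hφ]
      have h1 : ofA ha hm ⟨_, ha.shift g _ hφ⟩ = U ha hm g (ofA ha hm ⟨φ, hφ⟩) := by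
        rw [U_ofA]; rfl
      rw [h1]
      conv_lhs => rw [← hwi g]
      rw [(U ha hm g).inner_map_map]
  obtain ⟨κ, hκ⟩ := hE m' hP fun φ hφ h0 => by
    rw [hval _ hφ]
    have h1 := (hle ⟨φ, hφ⟩ h0).2
    rw [inv_mul_le_iff₀ (by positivity)]
    linarith
  refine ⟨2 * c * κ - c, ?_⟩
  have h1 : ∀ φ : 𝓐, inner ℝ w (ofA ha hm φ) = inner ℝ ((2 * c * κ - c) • ofA ha hm 1)
      (ofA ha hm φ) := by
    intro φ
    have h2 := hκ φ φ.2
    rw [hval _ φ.2, inv_mul_eq_iff_eq_mul₀ (by positivity)] at h2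
    rw [real_inner_smul_left, inner_ofA]
    have h3 : ((1 : 𝓐) : X → ℝ) * (φ : X → ℝ) = φ := one_mul _
    rw [h3]
    have h4 : inner ℝ w (ofA ha hm ⟨φ, φ.2⟩) = inner ℝ w (ofA ha hm φ) := rfl
    rw [h4] at h2
    linarith
  refine ext_inner_right ℝ fun u => ?_
  exact congrFun ((denseRange_ofA ha hm).equalizer (continuous_const.inner continuous_id)
    (continuous_const.inner continuous_id) (funext h1)) u

theorem norm_one : ‖ofA ha hm 1‖ = 1 := by
  rw [norm_ofA, nrm]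
  have h3 : ((1 : 𝓐) : X → ℝ) * ((1 : 𝓐) : X → ℝ) = 1 := one_mul _
  rw [h3, hm.one, Real.sqrt_one]

/-- truncations converge. -/
theorem tendsto_Tc (v : V ha hm) {ε : ℝ} (hε : 0 < ε) :
    ∃ C : ℝ, ∀ c ≥ C, ‖Tc ha hm ht c v - v‖ ≤ ε := by
  obtain ⟨φ, hφ⟩ := (denseRange_ofA ha hm).exists_dist_lt v (half_pos hε)
  obtain ⟨C, hC⟩ := ha.bdd φ φ.2
  refine ⟨C, fun c hc => ?_⟩
  have h1 : clA ht c φ = φ := by
    apply Subtype.ext
    funext x
    rw [clA_apply]
    have h2 := abs_le.1 ((hC x).trans hc)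
    rw [min_eq_left h2.2, max_eq_right h2.1]
  have h3 := norm_Tc_sub ha hm ht c v (ofA ha hm φ)
  rw [Tc_ofA, h1] at h3
  rw [dist_eq_norm] at hφ
  calc ‖Tc ha hm ht c v - v‖ = ‖(Tc ha hm ht c v - ofA ha hm φ) - (v - ofA ha hm φ)‖ := by
        congr 1; abel
    _ ≤ ‖Tc ha hm ht c v - ofA ha hm φ‖ + ‖v - ofA ha hm φ‖ := norm_sub_le _ _
    _ ≤ ε := by linarith

include ht in
/-- **Ergodicity**: for an extreme invariant mean the invariant vectors are the constants. -/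
theorem fixed_const_of_tr (hE : Ext ρ 𝓐 m) {v : V ha hm} (hv : ∀ g, U ha hm g v = v) :
    v = (inner ℝ (ofA ha hm 1) v) • ofA ha hm 1 := by
  have key : ∀ ε > 0, ‖v - (inner ℝ (ofA ha hm 1) v) • ofA ha hm 1‖ ≤ ε := by
    intro ε hε
    obtain ⟨C, hC⟩ := tendsto_Tc ha hm ht v (half_pos hε)
    set c := max C 1 with hc
    have hc0 : 0 < c := lt_of_lt_of_le one_pos (le_max_right _ _)
    obtain ⟨κ, hκ⟩ := Tc_const ha hm ht hE hc0 hv
    have h1 := hC c (le_max_left _ _)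
    rw [hκ] at h1
    have h2 : v - (inner ℝ (ofA ha hm 1) v) • ofA ha hm 1 =
        -(κ • ofA ha hm 1 - v) +
          (inner ℝ (ofA ha hm 1) (κ • ofA ha hm 1 - v)) • ofA ha hm 1 := by
      rw [inner_sub_right, real_inner_smul_right, real_inner_self_eq_norm_sq, norm_one]
      module
    rw [h2]
    refine (norm_add_le _ _).trans ?_
    rw [norm_neg, norm_smul, norm_one, mul_one]
    have h3 := norm_inner_le_norm (𝕜 := ℝ) (ofA ha hm 1) (κ • ofA ha hm 1 - v)
    rw [norm_one, one_mul] at h3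
    linarith
  have h0 : ‖v - (inner ℝ (ofA ha hm 1) v) • ofA ha hm 1‖ ≤ 0 :=
    le_of_forall_pos_le_add fun ε hε => by rw [zero_add]; exact key ε hε
  exact sub_eq_zero.1 (norm_le_zero_iff.1 h0)

/-- **Ergodicity**: for an extreme invariant mean the invariant vectors are the constants. -/
theorem fixed_const (habs : ∀ φ ∈ 𝓐, (fun x => |φ x|) ∈ 𝓐) (hE : Ext ρ 𝓐 m) {v : V ha hm}
    (hv : ∀ g, U ha hm g v = v) : v = (inner ℝ v (ofA ha hm 1)) • ofA ha hm 1 := by
  rw [real_inner_comm]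
  exact fixed_const_of_tr ha hm (TrClosed.of_abs habs) hE hv

/-! ### Back from `L²` to `L¹` -/

theorem mean_abs_le (habs : ∀ φ ∈ 𝓐, (fun x => |φ x|) ∈ 𝓐) (φ : 𝓐) :
    m (fun x => |(φ : X → ℝ) x|) ≤ ‖ofA ha hm φ‖ := by
  have h1 := (le_abs_self _).trans (hm.toPInv.abs_le (habs _ φ.2) (one_mem 𝓐))
  have h2 : nrm m (1 : X → ℝ) = 1 := by
    rw [nrm, one_mul, hm.one, Real.sqrt_one]
  have h3 : nrm m (fun x => |(φ : X → ℝ) x|) = nrm m (φ : X → ℝ) := by
    rw [nrm, nrm]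
    congr 2
    funext x
    exact abs_mul_abs_self _
  rw [mul_one, h2, mul_one, h3] at h1
  rwa [norm_ofA]

theorem mean_abs_sub_le (habs : ∀ φ ∈ 𝓐, (fun x => |φ x|) ∈ 𝓐) (φ χ : 𝓐) :
    m (fun x => |(φ : X → ℝ) x - (χ : X → ℝ) x|) ≤ ‖ofA ha hm φ - ofA ha hm χ‖ := by
  rw [← map_sub]
  exact mean_abs_le ha hm habs (φ - χ)

theorem exists_near (v : V ha hm) {ε : ℝ} (hε : 0 < ε) : ∃ ξ : 𝓐, ‖v - ofA ha hm ξ‖ < ε := by
  obtain ⟨φ, hφ⟩ := (denseRange_ofA ha hm).exists_dist_lt v hε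
  exact ⟨φ, by rwa [← dist_eq_norm]⟩

/-- almost coboundaries in `L²` give almost coboundaries of functions of `𝓐` in `L¹`. -/
theorem exists_cob (habs : ∀ φ ∈ 𝓐, (fun x => |φ x|) ∈ 𝓐) (v : V ha hm) {ε : ℝ} (hε : 0 < ε) :
    ∃ ξ : 𝓐, ∀ (g : G) (a : 𝓐),
      m (fun x => |(a : X → ℝ) x - ((ξ : X → ℝ) x - (ξ : X → ℝ) (ρ x g))|) ≤
        ‖ofA ha hm a - (v - U ha hm g v)‖ + ε := by
  obtain ⟨ξ, hξ⟩ := exists_near ha hm v (half_pos hε)
  refine ⟨ξ, fun g a => ?_⟩
  refine (mean_abs_sub_le ha hm habs a (ξ - sh ha g ξ)).trans ?_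
  have h1 : ofA ha hm a - ofA ha hm (ξ - sh ha g ξ) =
      (ofA ha hm a - (v - U ha hm g v)) + ((v - ofA ha hm ξ) - U ha hm g (v - ofA ha hm ξ)) := by
    rw [map_sub, map_sub, U_ofA]
    abel
  rw [h1]
  refine (norm_add_le _ _).trans (add_le_add_right ?_ _)
  refine (norm_sub_le _ _).trans ?_
  rw [(U ha hm g).norm_map]
  linarith

/-! ### Cocycles -/

/-- the vector valued cocycle of a bounded cocycle. -/
noncomputable def bco {A : G → X → ℝ} (hA : Coc ρ 𝓐 A) (g : G) : V ha hm :=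
  ofA ha hm ⟨A g, hA.mem g⟩

theorem bco_mul {A : G → X → ℝ} (hA : Coc ρ 𝓐 A) (g h : G) :
    bco ha hm hA (g * h) = bco ha hm hA g + U ha hm g (bco ha hm hA h) := by
  rw [bco, bco, bco, U_ofA, ← map_add]
  congr 1
  apply Subtype.ext
  funext x
  exact hA.coc g h x


end

end Crest.Agent.R182.Ht
end

-- ▼ part R182/ZdSlab

/-!
# Row 182, module ZD, block Z2 (author: helper671): counting ends of chains in a slab

`card_le`: the number of end points of chains of `J` steps of length `≤ ℓ` whose images under a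
quasi-isometry stay in a slab of height `H` is at most `C exp(c(H+ℓ)) (Jℓ+1)^d`.
-/

set_option autoImplicit false

namespace Crest.Agent.R182.Zd

open Crest.GroupTheory Crest.Geometry Crest.Agent.R182.QI Crest.Agent.R182.FinPath
  Crest.Agent.R182.FinNil Crest.Agent.R182.FinRed Crest.Agent.R182.Polyc
open scoped Pointwise

variable {Γ : Type*} [Group Γ]

section Fib

variable {k : ℕ} {π : Γ →* Multiplicative (Fin k → ℤ)} {A : Set Γ} {S : Set Γ}
  {x : Fin k → Γ} {μ M D₁ L : ℕ}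

/-- the fibre component along a word -/
theorem fib_word (hA : Sym A)
    (hM : ∀ s, (s ∈ S ∨ s⁻¹ ∈ S) → ∀ v : Fin k → ℤ,
        z x v * s * (z x (v + hgt π s))⁻¹ ∈ A ^ (M * μ ^ n1 v)) (hμ : 1 ≤ μ)
    (hD : ∀ s, (s ∈ S ∨ s⁻¹ ∈ S) → n1 (hgt π s) ≤ D₁) (l : List Γ) :
    ∀ (g : Γ) (p : ℕ), IsWord S l → n1 (hgt π g) + D₁ * l.length ≤ L →
      g * (z x (hgt π g))⁻¹ ∈ A ^ p →
      (g * l.prod) * (z x (hgt π (g * l.prod)))⁻¹ ∈ A ^ (p + l.length * (M * μ ^ L)) := by
  induction l with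
  | nil =>
    intro g p _ _ hg
    simpa using hg
  | cons s l ih =>
    intro g p hl hL hg
    rw [isWord_cons] at hl
    rw [List.length_cons] at hL
    have h1 := hM s hl.1 (hgt π g)
    rw [← hgt_mul] at h1
    have h2 := pow_mul_mem hg h1
    have h3 : g * (z x (hgt π g))⁻¹ * (z x (hgt π g) * s * (z x (hgt π (g * s)))⁻¹) =
        (g * s) * (z x (hgt π (g * s)))⁻¹ := by group
    rw [h3] at h2
    have h4 : n1 (hgt π (g * s)) ≤ n1 (hgt π g) + D₁ := by
      rw [hgt_mul]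
      exact (n1_add_le _ _).trans (Nat.add_le_add_left (hD s hl.1) _)
    have h5 := ih (g * s) (p + M * μ ^ n1 (hgt π g)) hl.2 (by
      rw [mul_add, mul_one] at hL; omega) h2
    have h6 : g * (s :: l).prod = g * s * l.prod := by rw [List.prod_cons, mul_assoc]
    rw [h6]
    refine hA.mono ?_ h5
    rw [List.length_cons]
    have h7 : μ ^ n1 (hgt π g) ≤ μ ^ L := Nat.pow_le_pow_right hμ (by omega)
    calc p + M * μ ^ n1 (hgt π g) + l.length * (M * μ ^ L)
        ≤ p + M * μ ^ L + l.length * (M * μ ^ L) := by gcongr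
      _ = p + (l.length + 1) * (M * μ ^ L) := by ring

end Fib

theorem card_le_of_pgr {S : Finset Γ} (hS : Subgroup.closure (S : Set Γ) = ⊤) {k : ℕ}
    (π : Γ →* Multiplicative (Fin k → ℤ)) (hπ : Function.Surjective π) (hN : PGr π.ker) (K : ℕ) :
    ∃ (C c : ℝ) (d : ℕ), 0 ≤ C ∧ 0 ≤ c ∧ ∀ (w : Mic.Om (S : Set Γ) K) (ι : Type) [Fintype ι]
      (P : ι → ℕ → Γ) (J : ℕ) (ℓ H : ℝ), 1 ≤ ℓ → 0 ≤ H → (∀ i, P i 0 = 1) →
      (∀ i, ∀ j < J, (nd (S : Set Γ) (P i j) (P i (j+1)) : ℝ) ≤ ℓ) →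
      (∀ i, ∀ j ≤ J, ∀ a, |hgtR π (w.F (P i j)) a| ≤ H) → Function.Injective (fun i => P i J) →
      (Fintype.card ι : ℝ) ≤ C * Real.exp (c * (H + ℓ)) * (J * ℓ + 1) ^ d := by
  classical
  obtain ⟨A, hA, hAf, hcl, C₀, d, hgrow⟩ := hN
  obtain ⟨x, μ, hμ, hx, hq⟩ := exists_q_bound hA hAf hcl hπ
  set B : Set Γ := {s | s ∈ (S : Set Γ) ∨ s⁻¹ ∈ (S : Set Γ)} with hB
  have hBf : B.Finite := by
    have h1 : B ⊆ (S : Set Γ) ∪ (S : Set Γ)⁻¹ := by
      intro s hs
      rcases hs with h | h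
      · exact Or.inl h
      · exact Or.inr h
    exact (S.finite_toSet.union S.finite_toSet.inv).subset h1
  obtain ⟨M, hM⟩ := exists_unif hBf hA hq
  obtain ⟨D₁, hD₁⟩ : ∃ m, ∀ s ∈ B, n1 (hgt π s) ≤ m := by
    obtain ⟨m, hm⟩ := (hBf.image (fun s => n1 (hgt π s))).bddAbove
    exact ⟨m, fun s hs => hm ⟨s, hs, rfl⟩⟩
  set Pc : ℕ := (2 * S.card + 1) ^ (3 * K) with hPc
  have hlogμ : 0 ≤ Real.log μ := Real.log_nonneg (by exact_mod_cast hμ)
  refine ⟨Pc * C₀ * ((2 * K + 1) * (M + 1)) ^ d,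
    d * ((k + 2 * D₁ * K) * Real.log μ) + 2 * k, d, by positivity, by positivity, ?_⟩
  intro w ι _ P J ℓ H hℓ hH hP0 hPs hPH hinj
  have hℓ0 : (0 : ℝ) ≤ ℓ := by linarith
  set W : ℕ := K * ⌊ℓ⌋₊ + K with hW
  set L : ℕ := k * ⌊H⌋₊ + D₁ * W with hL
  have hn1 : ∀ i, ∀ j ≤ J, n1 (hgt π (w.F (P i j))) ≤ k * ⌊H⌋₊ := fun i j hj =>
    n1_le_of_abs fun a => hPH i j hj a
  -- the fibre component
  have hfib : ∀ i, ∀ j ≤ J, w.F (P i j) * (z x (hgt π (w.F (P i j))))⁻¹ ∈
      A ^ (j * (W * (M * μ ^ L))) := by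
    intro i j
    induction j with
    | zero =>
      intro _
      rw [hP0, w.F_one, hgt_one, z_zero]
      simp
    | succ j ih =>
      intro hj
      have h1 := ih (by omega)
      obtain ⟨l, hl1, hl2, hl3⟩ := wordLength_spec hS ((w.F (P i j))⁻¹ * w.F (P i (j+1)))
      have h2 : l.length ≤ W := by
        rw [hl1]
        have h3 := w.F_up (P i j) (P i (j + 1))
        have h4 : nd (S : Set Γ) (P i j) (P i (j+1)) ≤ ⌊ℓ⌋₊ := Nat.le_floor (hPs i j (by omega))
        refine (show _ ≤ _ from h3).trans ?_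
        rw [hW]
        gcongr
      have h5 := fib_word (L := L) hA (fun s hs => hM s hs) hμ hD₁ l (w.F (P i j))
        (j * (W * (M * μ ^ L))) hl2 (by
          rw [hL]
          exact Nat.add_le_add (hn1 i j (by omega)) (Nat.mul_le_mul_left _ h2)) h1
      rw [hl3, mul_inv_cancel_left] at h5
      refine hA.mono ?_ h5
      calc j * (W * (M * μ ^ L)) + l.length * (M * μ ^ L)
          ≤ j * (W * (M * μ ^ L)) + W * (M * μ ^ L) := by gcongr
        _ = (j + 1) * (W * (M * μ ^ L)) := by ring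
  -- counting
  set m : ℕ := J * (W * (M * μ ^ L)) + 1 with hm
  have hAm : (A ^ m).Finite := pow_finite hAf m
  set f : ι → Γ := fun i => w.F (P i J) with hf
  have hc1 : Fintype.card ι ≤ Pc * (Finset.univ.image f).card := by
    rw [← Finset.card_univ]
    refine Finset.card_le_mul_card_image Finset.univ Pc ?_
    intro p hp
    obtain ⟨i₀, -, hi₀⟩ := Finset.mem_image.1 hp
    have h1 : (Finset.univ.filter fun i => f i = p).card =
        ((Finset.univ.filter fun i => f i = p).image fun i => P i J).card :=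
      (Finset.card_image_of_injective _ hinj).symm
    have h2 : (((Finset.univ.filter fun i => f i = p).image fun i => P i J : Finset Γ) : Set Γ) ⊆
        {y | nd (S : Set Γ) (P i₀ J) y ≤ 3 * K} := by
      intro y hy
      rw [Finset.mem_coe, Finset.mem_image] at hy
      obtain ⟨i, hi, rfl⟩ := hy
      have h3 : f i = p := (Finset.mem_filter.1 hi).2
      have h4 := w.F_lo hS (P i₀ J) (P i J)
      have h5 : nd (S : Set Γ) (w.F (P i₀ J)) (w.F (P i J)) = 0 := by
        rw [nd_eq_zero hS]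
        exact hi₀.trans h3.symm
      rw [h5, mul_zero, zero_add] at h4
      exact h4
    have h3 := Set.ncard_le_ncard h2 (nd_ball_finite hS _ _)
    rw [Set.ncard_coe_finset, nd_ball_ncard] at h3
    rw [h1]
    exact h3.trans (ncard_ball_le hS _)
  have hc2 : (Finset.univ.image f).card ≤ (A ^ m).ncard * (2 * ⌊H⌋₊ + 1) ^ k := by
    let bx : Finset (Fin k → ℤ) := Fintype.piFinset fun _ => Finset.Icc (-(⌊H⌋₊ : ℤ)) ⌊H⌋₊
    have hbx : bx.card = (2 * ⌊H⌋₊ + 1) ^ k := by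
      rw [Fintype.card_piFinset]
      simp only [Int.card_Icc, Finset.prod_const, Finset.card_univ, Fintype.card_fin]
      congr 1
      omega
    have h1 : Finset.univ.image f ⊆ (hAm.toFinset ×ˢ bx).image fun p => p.1 * z x p.2 := by
      intro p hp
      obtain ⟨i, -, rfl⟩ := Finset.mem_image.1 hp
      refine Finset.mem_image.2 ⟨(f i * (z x (hgt π (f i)))⁻¹, hgt π (f i)), ?_, by simp⟩
      rw [Finset.mem_product]
      refine ⟨?_, ?_⟩
      · rw [Set.Finite.mem_toFinset]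
        exact hA.mono (Nat.le_succ _) (hfib i J le_rfl)
      · rw [Fintype.mem_piFinset]
        intro a
        have h2 : |((hgt π (f i) a : ℤ) : ℝ)| ≤ H := hPH i J le_rfl a
        have h3 : (hgt π (f i) a).natAbs ≤ ⌊H⌋₊ := by
          refine Nat.le_floor ?_
          rw [Nat.cast_natAbs, Int.cast_abs]
          exact h2
        rw [Finset.mem_Icc]
        show -(⌊H⌋₊ : ℤ) ≤ hgt π (f i) a ∧ hgt π (f i) a ≤ ⌊H⌋₊
        omega
    refine (Finset.card_le_card h1).trans (Finset.card_image_le.trans ?_)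
    rw [Finset.card_product, hbx, Set.ncard_eq_toFinset_card _ hAm]
  have hc3 := hgrow m (by omega)
  have hc4 : Fintype.card ι ≤ Pc * ((C₀ * m ^ d) * (2 * ⌊H⌋₊ + 1) ^ k) :=
    hc1.trans (Nat.mul_le_mul_left _ (hc2.trans (Nat.mul_le_mul_right _ hc3)))
  -- real estimates
  have hWr : (W : ℝ) ≤ 2 * K * ℓ := by
    rw [hW]; push_cast
    have h1 : (⌊ℓ⌋₊ : ℝ) ≤ ℓ := Nat.floor_le hℓ0
    have h2 : (0 : ℝ) ≤ K := Nat.cast_nonneg _
    nlinarith
  have hLr : (L : ℝ) ≤ (k + 2 * D₁ * K) * (H + ℓ) := by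
    rw [hL]; push_cast
    have h1 : (⌊H⌋₊ : ℝ) ≤ H := Nat.floor_le hH
    have h2 : (k : ℝ) * ⌊H⌋₊ ≤ k * H := mul_le_mul_of_nonneg_left h1 (Nat.cast_nonneg _)
    have h3 : (D₁ : ℝ) * W ≤ D₁ * (2 * K * ℓ) := mul_le_mul_of_nonneg_left hWr (Nat.cast_nonneg _)
    have h4 : (0 : ℝ) ≤ k * ℓ := by positivity
    have h5 : (0 : ℝ) ≤ 2 * D₁ * K * H := by positivity
    nlinarith
  have hμ0 : (0 : ℝ) < μ := by exact_mod_cast hμ
  have hμL : (μ : ℝ) ^ L ≤ Real.exp ((k + 2 * D₁ * K) * Real.log μ * (H + ℓ)) := by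
    have h1 : (μ : ℝ) ^ L = Real.exp (L * Real.log μ) := by
      rw [Real.exp_nat_mul, Real.exp_log hμ0]
    rw [h1]
    refine Real.exp_le_exp.2 ?_
    have := mul_le_mul_of_nonneg_right hLr hlogμ
    linarith
  have hμL1 : (1 : ℝ) ≤ (μ : ℝ) ^ L := one_le_pow₀ (by exact_mod_cast hμ)
  have hmr : (m : ℝ) ≤ ((2 * K + 1) * (M + 1)) * (J * ℓ + 1) *
      Real.exp ((k + 2 * D₁ * K) * Real.log μ * (H + ℓ)) := by
    refine le_trans ?_ (mul_le_mul_of_nonneg_left hμL (by positivity))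
    rw [hm]; push_cast
    have hJ : (0 : ℝ) ≤ J := Nat.cast_nonneg _
    have hK : (0 : ℝ) ≤ K := Nat.cast_nonneg _
    have hM0 : (0 : ℝ) ≤ M := Nat.cast_nonneg _
    have h1 : (J : ℝ) * (W * (M * μ ^ L)) ≤ J * ((2 * K * ℓ) * (M * μ ^ L)) := by gcongr
    have h2 : (J : ℝ) * ((2 * K * ℓ) * (M * μ ^ L)) + 1 ≤
        (2 * K * (J * ℓ) * M + 1) * μ ^ L := by nlinarith
    have h3 : 2 * (K : ℝ) * (J * ℓ) * M + 1 ≤ ((2 * K + 1) * (M + 1)) * (J * ℓ + 1) := by
      have hJl : (0 : ℝ) ≤ J * ℓ := by positivity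
      have : 0 ≤ (K : ℝ) * (J * ℓ) := by positivity
      have : 0 ≤ (M : ℝ) * (J * ℓ) := by positivity
      have : 0 ≤ (K : ℝ) * M := by positivity
      nlinarith
    have h4 : (2 * (K : ℝ) * (J * ℓ) * M + 1) * μ ^ L ≤
        ((2 * K + 1) * (M + 1)) * (J * ℓ + 1) * μ ^ L :=
      mul_le_mul_of_nonneg_right h3 (by positivity)
    linarith
  have hHr : ((2 * ⌊H⌋₊ + 1 : ℕ) : ℝ) ^ k ≤ Real.exp (2 * k * (H + ℓ)) := by
    have h1 : ((2 * ⌊H⌋₊ + 1 : ℕ) : ℝ) ≤ Real.exp (2 * (H + ℓ)) := by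
      push_cast
      have h2 : (⌊H⌋₊ : ℝ) ≤ H := Nat.floor_le hH
      have h3 := Real.add_one_le_exp (2 * (H + ℓ))
      linarith
    calc ((2 * ⌊H⌋₊ + 1 : ℕ) : ℝ) ^ k ≤ (Real.exp (2 * (H + ℓ))) ^ k := by gcongr
      _ = Real.exp (2 * k * (H + ℓ)) := by
        rw [← Real.exp_nat_mul]; congr 1; ring
  have hfin : (Fintype.card ι : ℝ) ≤
      Pc * ((C₀ * (m : ℝ) ^ d) * ((2 * ⌊H⌋₊ + 1 : ℕ) : ℝ) ^ k) := by exact_mod_cast hc4
  refine hfin.trans ?_
  calc (Pc : ℝ) * ((C₀ * (m : ℝ) ^ d) * ((2 * ⌊H⌋₊ + 1 : ℕ) : ℝ) ^ k)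
      ≤ Pc * ((C₀ * (((2 * K + 1) * (M + 1)) * (J * ℓ + 1) *
        Real.exp ((k + 2 * D₁ * K) * Real.log μ * (H + ℓ))) ^ d) *
          Real.exp (2 * k * (H + ℓ))) := by gcongr
    _ = Pc * C₀ * ((2 * K + 1) * (M + 1)) ^ d *
        (Real.exp ((k + 2 * D₁ * K) * Real.log μ * (H + ℓ)) ^ d *
          Real.exp (2 * k * (H + ℓ))) * (J * ℓ + 1) ^ d := by
        rw [mul_pow, mul_pow]; ring
    _ = Pc * C₀ * ((2 * K + 1) * (M + 1)) ^ d *
        Real.exp ((d * ((k + 2 * D₁ * K) * Real.log μ) + 2 * k) * (H + ℓ)) *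
          (J * ℓ + 1) ^ d := by
        rw [← Real.exp_nat_mul, ← Real.exp_add]
        congr 3
        ring

/-- **Z2.** -/
theorem card_le (R : RootData Γ) {S : Finset Γ} (hS : Subgroup.closure (S : Set Γ) = ⊤) (K : ℕ) :
    ∃ (C c : ℝ) (d : ℕ), 0 ≤ C ∧ 0 ≤ c ∧ ∀ (w : Mic.Om (S : Set Γ) K) (ι : Type) [Fintype ι]
      (P : ι → ℕ → Γ) (J : ℕ) (ℓ H : ℝ), 1 ≤ ℓ → 0 ≤ H → (∀ i, P i 0 = 1) →
      (∀ i, ∀ j < J, (nd (S : Set Γ) (P i j) (P i (j+1)) : ℝ) ≤ ℓ) →
      (∀ i, ∀ j ≤ J, ∀ a, |hgtR R.π (w.F (P i j)) a| ≤ H) → Function.Injective (fun i => P i J) →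
      (Fintype.card ι : ℝ) ≤ C * Real.exp (c * (H + ℓ)) * (J * ℓ + 1) ^ d := by
  refine card_le_of_pgr hS R.π R.surj ?_ K
  have hker : R.π.ker = R.N := by
    ext g; rw [MonoidHom.mem_ker]; exact R.mem_N g
  rw [hker]
  exact pgr_of_nilpotent (R.pz.pc.mono le_top) R.nilp

end Crest.Agent.R182.Zd
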