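import Mathlib
import Crest.Agent.R182.ZdSlab_Mg
import Crest.Agent.R182.HtNil
import Crest.Agent.R182.MicDefs
import Crest.Agent.R182.FinRed

-- ▼ part R182/HtMeasProp
section

/-!
# Row 182, module HT: `MeasProp` holds (helper247)
-/

set_option autoImplicit false

namespace Crest.Agent.R182.Ht

open Filter Topology

/-- The controlled almost invariant measures exist. -/
theorem measProp : MeasProp := by
  intro d k T ℓ c hT hnn h0 hneg hadd h1 h2
  obtain ⟨C, p, hC, hp0, hp1, hp2, hp3, hp4⟩ := HtMeas.exists_measure T hT ℓ c h0 hnn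
    (fun a => (hneg a).le) hadd h1 h2
  refine ⟨max C 2, p, hp0, hp1, fun n x hx => ?_, fun a => hp3 a, fun j n => ?_⟩
  · refine (hp2 n x hx).trans ?_
    exact mul_le_mul_of_nonneg_right (le_max_left _ _) (by positivity)
  · refine (hp4 n j).trans ?_
    exact div_le_div_of_nonneg_right (le_max_right _ _) (by positivity)

end Crest.Agent.R182.Ht
end

-- ▼ part R182/HtDec
section

/-!
# Row 182, module HT (author: helper506): decomposition of a cocycle

`b = βW + L + r`, `βW` in the finite dimensional span of `β (N)`, `L` a homomorphism into the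
fixed vectors vanishing on `N`, `r` an almost coboundary.
-/

set_option autoImplicit false

namespace Crest.Agent.R182.Ht

open Filter Topology

universe u v

section Proj

variable {G : Type u} [Group G] {V : Type v} [NormedAddCommGroup V] [InnerProductSpace ℝ V]
  {U : G →* (V ≃ₗᵢ[ℝ] V)} {b : G → V}

/-- projection onto an invariant finite dimensional subspace commutes with the action -/
theorem starProj_U (W : Submodule ℝ V) [FiniteDimensional ℝ W] (hW : ∀ g, ∀ v ∈ W, U g v ∈ W)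
    (g : G) (v : V) : W.starProjection (U g v) = U g (W.starProjection v) := by
  refine Submodule.eq_starProjection_of_mem_orthogonal
    (hW g _ (Submodule.starProjection_apply_mem _ _)) ?_
  rw [← map_sub]
  have h1 : v - W.starProjection v ∈ Wᗮ := Submodule.sub_starProjection_mem_orthogonal _
  rw [Submodule.mem_orthogonal] at h1 ⊢
  intro w hw
  rw [real_inner_comm, U_inner_left, real_inner_comm]
  exact h1 _ (hW g⁻¹ w hw)

theorem coc_proj (hb : Coc U b) (W : Submodule ℝ V) [FiniteDimensional ℝ W]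
    (hW : ∀ g, ∀ v ∈ W, U g v ∈ W) : Coc U (fun g => W.starProjection (b g)) := by
  intro g h
  show W.starProjection (b (g * h)) = _
  rw [hb g h, map_add, starProj_U W hW]

theorem coc_sub {b' : G → V} (hb : Coc U b) (hb' : Coc U b') : Coc U (fun g => b g - b' g) := by
  intro g h
  show b (g * h) - b' (g * h) = (b g - b' g) + U g (b h - b' h)
  rw [hb g h, hb' g h, map_sub]
  abel

end Proj

theorem isNilpotent_top_of_comm {Q : Type u} [Group Q] (h : ∀ x y : Q, x * y = y * x) :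
    Group.IsNilpotent (⊤ : Subgroup Q) := by
  let _i : CommGroup (⊤ : Subgroup Q) :=
    { (inferInstance : Group (⊤ : Subgroup Q)) with
      mul_comm := fun a b => Subtype.ext (h a b) }
  exact CommGroup.isNilpotent

/-- **Decomposition.** -/
theorem exists_dec {G : Type u} [Group G] (hfg : ∀ H : Subgroup G, H.FG) (N : Subgroup G)
    [N.Normal] (hnil : Group.IsNilpotent N) (hab : ∀ g h : G, g * h * g⁻¹ * h⁻¹ ∈ N)
    {V : Type v} [NormedAddCommGroup V] [InnerProductSpace ℝ V] [CompleteSpace V]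
    {U : G →* (V ≃ₗᵢ[ℝ] V)} {b : G → V} (hb : Coc U b) :
    ∃ (W : Submodule ℝ V) (β L r : G → V), FiniteDimensional ℝ W ∧
      (∀ g, b g = β g + L g + r g) ∧ (∀ g, β g ∈ W) ∧ W ≤ fix U N ∧
      (∀ g, ∀ v ∈ W, U g v ∈ W) ∧ Coc U β ∧ Submodule.span ℝ (β '' N) = W ∧
      (∀ g, L g ∈ fix U ⊤) ∧ (∀ g h, L (g * h) = L g + L h) ∧ (∀ n ∈ N, L n = 0) ∧
      Coc U r ∧ AC U r := by
  classical
  set β₀ : G → V := fun g => PF U N (b g) with hβ₀
  have hβ₀c : Coc U β₀ := hb.PF N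
  have hβ₀N : ∀ g, β₀ g ∈ fix U N := fun g => PF_mem N (b g)
  set W : Submodule ℝ V := Submodule.span ℝ (β₀ '' N) with hW
  have hWN : W ≤ fix U N := by
    rw [hW, Submodule.span_le]
    rintro _ ⟨n, _, rfl⟩
    exact hβ₀N n
  -- finite dimension
  have hfd : FiniteDimensional ℝ W := by
    obtain ⟨X, hX⟩ := hfg N
    have h1 : W = Submodule.span ℝ (β₀ '' (X : Set G)) := by
      apply le_antisymm
      · rw [hW, Submodule.span_le]
        rintro _ ⟨n, hn, rfl⟩
        have hn' : n ∈ N := hn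
        have hXN : (X : Set G) ⊆ N := by rw [← hX]; exact Subgroup.subset_closure
        rw [← hX] at hn'
        have key : n ∈ N ∧ β₀ n ∈ Submodule.span ℝ (β₀ '' (X : Set G)) := by
          induction hn' using Subgroup.closure_induction with
          | mem x hx => exact ⟨hXN hx, Submodule.subset_span ⟨x, hx, rfl⟩⟩
          | one => exact ⟨N.one_mem, by rw [hβ₀c.one]; exact Submodule.zero_mem _⟩
          | mul x y hx' hy' hx hy =>
            have hx := hx (by rw [← hX]; exact hx')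
            have hy := hy (by rw [← hX]; exact hy')
            refine ⟨N.mul_mem hx.1 hy.1, ?_⟩
            rw [hβ₀c x y, hβ₀N y x hx.1]
            exact Submodule.add_mem _ hx.2 hy.2
          | inv x hx' hx =>
            have hx := hx (by rw [← hX]; exact hx')
            refine ⟨N.inv_mem hx.1, ?_⟩
            rw [hβ₀c.inv x, hβ₀N x _ (N.inv_mem hx.1)]
            exact Submodule.neg_mem _ hx.2
        exact key.2
      · rw [Submodule.span_le]
        rintro _ ⟨n, hn, rfl⟩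
        refine Submodule.subset_span ⟨n, ?_, rfl⟩
        rw [← hX]; exact Subgroup.subset_closure hn
    rw [h1]
    exact FiniteDimensional.span_of_finite ℝ (X.finite_toSet.image _)
  -- invariance
  have hWU : ∀ g, ∀ v ∈ W, U g v ∈ W := by
    intro g v hv
    rw [hW] at hv
    induction hv using Submodule.span_induction with
    | mem x hx =>
      obtain ⟨n, hn, rfl⟩ := hx
      have h1 : U g (β₀ n) = β₀ (g * n * g⁻¹) := by
        rw [hβ₀c (g * n) g⁻¹, hβ₀c g n, hβ₀c.inv g, map_neg, U_mul,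
          U_mem_fix g⁻¹ (hβ₀N g) n hn, U_apply_inv]
        abel
      rw [h1]
      exact Submodule.subset_span ⟨_, (inferInstance : N.Normal).conj_mem n hn g, rfl⟩
    | zero => rw [map_zero]; exact Submodule.zero_mem _
    | add x y _ _ hx hy => rw [map_add]; exact Submodule.add_mem _ hx hy
    | smul c x _ hx => rw [map_smul]; exact Submodule.smul_mem _ _ hx
  set β : G → V := fun g => W.starProjection (β₀ g) with hβ
  have hβc : Coc U β := coc_proj hβ₀c W hWU
  have hβn : ∀ n ∈ N, β n = β₀ n := by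
    intro n hn
    exact Submodule.starProjection_eq_self_iff.2 (Submodule.subset_span ⟨n, hn, rfl⟩)
  set β₂ : G → V := fun g => β₀ g - β g with hβ₂
  have hβ₂c : Coc U β₂ := coc_sub hβ₀c hβc
  have hβ₂N : ∀ g, β₂ g ∈ fix U N := fun g =>
    Submodule.sub_mem _ (hβ₀N g) (hWN (Submodule.starProjection_apply_mem _ _))
  have hβ₂0 : ∀ n ∈ N, β₂ n = 0 := fun n hn => by rw [hβ₂]; simp only [hβn n hn, sub_self]
  set L : G → V := fun g => PF U ⊤ (β₂ g) with hL
  have hLc : Coc U L := hβ₂c.PF ⊤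
  have hLtop : ∀ g, L g ∈ fix U ⊤ := fun g => PF_mem ⊤ (β₂ g)
  have hLmul : ∀ g h, L (g * h) = L g + L h := by
    intro g h
    rw [hLc g h, hLtop h g (Subgroup.mem_top g)]
  have hL0 : ∀ n ∈ N, L n = 0 := fun n hn => by rw [hL]; simp only [hβ₂0 n hn, map_zero]
  set r₂ : G → V := fun g => β₂ g - L g with hr₂
  have hr₂c : Coc U r₂ := coc_sub hβ₂c hLc
  have hr₂N : ∀ g, r₂ g ∈ fix U N := fun g =>
    Submodule.sub_mem _ (hβ₂N g) (fix_anti le_top (hLtop g))
  have hr₂0 : ∀ n ∈ N, r₂ n = 0 := fun n hn => by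
    rw [hr₂]; simp only [hβ₂0 n hn, hL0 n hn, sub_self]
  have hr₂top : ∀ g, r₂ g ∈ (fix U ⊤)ᗮ := fun g => sub_PF_mem ⊤ (β₂ g)
  have hAC₂ : AC U r₂ := by
    refine ac_quot hr₂c N hr₂N hr₂0 fun b' hb' hbb' => ?_
    have hcomm : ∀ x y : G ⧸ N, x * y = y * x := by
      intro x y
      induction x using QuotientGroup.induction_on with
      | H x =>
        induction y using QuotientGroup.induction_on with
        | H y =>
          rw [← QuotientGroup.mk_mul, ← QuotientGroup.mk_mul, QuotientGroup.eq]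
          have h1 := hab y⁻¹ x⁻¹
          have h2 : (x * y)⁻¹ * (y * x) = y⁻¹ * x⁻¹ * y⁻¹⁻¹ * x⁻¹⁻¹ := by group
          rw [h2]; exact h1
    refine ac_nil measProp (fg_quot hfg N) (⊤ : Subgroup (G ⧸ N)) (isNilpotent_top_of_comm hcomm)
      (fun _ _ => Subgroup.mem_top _) hb' ?_
    intro q
    have h1 := quot_orth N ⊤ hr₂top hbb' q
    rwa [Subgroup.map_top_of_surjective _ (QuotientGroup.mk'_surjective N)] at h1
  set r₁ : G → V := fun g => b g - β₀ g with hr₁
  have hr₁c : Coc U r₁ := hb.subPF N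
  have hAC₁ : AC U r₁ := ac_nil measProp hfg N hnil hab hr₁c fun g => sub_PF_mem N (b g)
  refine ⟨W, β, L, fun g => r₁ g + r₂ g, hfd, ?_, fun g => Submodule.starProjection_apply_mem _ _,
    hWN, hWU, hβc, ?_, hLtop, hLmul, hL0, hr₁c.add hr₂c, hAC₁.add hAC₂⟩
  · intro g
    rw [hr₁, hr₂, hβ₂]
    simp only
    abel
  · rw [hW]
    congr 1
    exact Set.image_congr fun n hn => hβn n hn

end Crest.Agent.R182.Ht
end

-- ▼ part R182/HtVec
section

/-!
# Row 182, module HT (author: helper506): vector valued cocycles over an extreme mean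
-/

set_option autoImplicit false

namespace Crest.Agent.R182.Ht

open Filter Topology Crest.Agent.R182.FinRed Crest.Agent.R182.FinPath

universe u v

section VK

variable {G : Type u} [Group G] {V : Type v} [NormedAddCommGroup V] [InnerProductSpace ℝ V]

/-- `V^k` -/
abbrev VK (k : ℕ) (V : Type v) : Type v := PiLp 2 (fun _ : Fin k => V)

/-- the diagonal action -/
noncomputable def UK (U : G →* (V ≃ₗᵢ[ℝ] V)) (k : ℕ) : G →* (VK k V ≃ₗᵢ[ℝ] VK k V) where
  toFun g := LinearIsometryEquiv.piLpCongrRight 2 (fun _ => U g)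
  map_one' := by
    ext v i
    simp [LinearIsometryEquiv.piLpCongrRight_apply]
  map_mul' g h := by
    ext v i
    simp [LinearIsometryEquiv.piLpCongrRight_apply]


theorem norm_coord_le {k : ℕ} (v : VK k V) (i : Fin k) : ‖v i‖ ≤ ‖v‖ :=
  PiLp.norm_apply_le v i


end VK

/-- a homomorphism to `ℝ` which vanishes on the kernel of a surjection onto `ℤ^l` is linear -/
theorem exists_linear {G : Type u} [Group G] {l : ℕ} {π : G →* Multiplicative (Fin l → ℤ)}
    (hπ : Function.Surjective π) (c : G → ℝ) (hc : ∀ g h, c (g * h) = c g + c h)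
    (h0 : ∀ g, π g = 1 → c g = 0) : ∃ a : (Fin l → ℝ) →ₗ[ℝ] ℝ, ∀ g, c g = a (hgtR π g) := by
  classical
  have h1 : c 1 = 0 := by
    have := hc 1 1
    rw [mul_one] at this
    linarith
  have hinv : ∀ g, c g⁻¹ = - c g := by
    intro g
    have := hc g g⁻¹
    rw [mul_inv_cancel, h1] at this
    linarith
  choose x hx using fun j : Fin l => hπ (Multiplicative.ofAdd (Pi.single j (1 : ℤ)))
  have hz : ∀ (g : G) (n : ℤ), c (g ^ n) = n * c g := by
    intro g n
    let f : G →* Multiplicative ℝ :=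
      { toFun := fun g => Multiplicative.ofAdd (c g)
        map_one' := by rw [h1]; rfl
        map_mul' := fun g h => by rw [hc]; rfl }
    have h2 : f (g ^ n) = (f g) ^ n := map_zpow f g n
    have h3 := congrArg Multiplicative.toAdd h2
    rw [toAdd_zpow] at h3
    have h4 : c (g ^ n) = n • c g := h3
    rw [h4, zsmul_eq_mul]
  refine ⟨LinearMap.lsum ℝ (fun _ => ℝ) ℝ (fun j => (LinearMap.toSpanSingleton ℝ ℝ (c (x j)))), ?_⟩
  intro g
  set v : Fin l → ℤ := Multiplicative.toAdd (π g) with hv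
  set p : G := (List.ofFn fun j => x j ^ v j).prod with hp
  have hπp : π p = π g := by
    rw [hp, map_list_prod, List.map_ofFn, List.prod_ofFn]
    apply Multiplicative.toAdd.injective
    rw [toAdd_prod]
    ext i
    rw [Finset.sum_apply]
    simp only [Function.comp, map_zpow, hx, toAdd_zpow, toAdd_ofAdd, Pi.smul_apply,
      smul_eq_mul, Pi.single_apply]
    rw [Finset.sum_eq_single i]
    · simp [hv]
    · intro j _ hj
      simp [hj.symm]
    · intro h; exact absurd (Finset.mem_univ _) h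
  have hcp : c p = c g := by
    have h2 : c (g * p⁻¹) = 0 := h0 _ (by rw [map_mul, map_inv, hπp, mul_inv_cancel])
    rw [hc, hinv] at h2
    linarith
  have hcp2 : c p = ∑ j, (v j : ℝ) * c (x j) := by
    have hl : ∀ l : List G, c l.prod = (l.map c).sum := by
      intro l
      induction l with
      | nil => simp [h1]
      | cons a l ih => rw [List.prod_cons, hc, ih, List.map_cons, List.sum_cons]
    rw [hp, hl, List.map_ofFn, List.sum_ofFn]
    exact Finset.sum_congr rfl fun j _ => hz _ _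
  rw [← hcp, hcp2, LinearMap.lsum_apply, LinearMap.sum_apply]
  refine Finset.sum_congr rfl fun j _ => ?_
  simp [LinearMap.toSpanSingleton_apply, hgtR, hgt, hv]

section Dec

open Crest.Agent.R182.Erg

variable {G : Type u} [Group G] {X : Type v} {ρ : X → G → X} {𝓐 : Subalgebra ℝ (X → ℝ)}
  {m : (X → ℝ) → ℝ}

/-- the vector valued cocycle in `V^k` -/
noncomputable def bvec (ha : Alg ρ 𝓐) (hm : IMean ρ 𝓐 m) {k : ℕ} {A : Fin k → G → X → ℝ}
    (hA : ∀ i, Erg.Coc ρ 𝓐 (A i)) (g : G) : VK k (V ha hm) :=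
  WithLp.toLp 2 fun i => bco ha hm (hA i) g

theorem bvec_apply (ha : Alg ρ 𝓐) (hm : IMean ρ 𝓐 m) {k : ℕ} {A : Fin k → G → X → ℝ}
    (hA : ∀ i, Erg.Coc ρ 𝓐 (A i)) (g : G) (i : Fin k) :
    bvec ha hm hA g i = bco ha hm (hA i) g := rfl

theorem coc_bvec (ha : Alg ρ 𝓐) (hm : IMean ρ 𝓐 m) {k : ℕ} {A : Fin k → G → X → ℝ}
    (hA : ∀ i, Erg.Coc ρ 𝓐 (A i)) : Coc (UK (U ha hm) k) (bvec ha hm hA) := by
  intro g h
  ext i
  show bco ha hm (hA i) (g * h) = bco ha hm (hA i) g + U ha hm g (bco ha hm (hA i) h)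
  exact bco_mul ha hm (hA i) g h

/-- **Decomposition over an extreme mean.** -/
theorem exists_dec_mean (ha : Alg ρ 𝓐) (hm : IMean ρ 𝓐 m) (hE : Ext ρ 𝓐 m)
    (habs : ∀ φ ∈ 𝓐, (fun x => |φ x|) ∈ 𝓐) (hfg : ∀ H : Subgroup G, H.FG) (N : Subgroup G)
    [N.Normal] (hnil : Group.IsNilpotent N) {l : ℕ} {π : G →* Multiplicative (Fin l → ℤ)}
    (hπ : Function.Surjective π) (hker : ∀ g, π g = 1 ↔ g ∈ N) {k : ℕ} {A : Fin k → G → X → ℝ}
    (hA : ∀ i, Erg.Coc ρ 𝓐 (A i)) :
    ∃ (W : Submodule ℝ (VK k (V ha hm))) (β r : G → VK k (V ha hm))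
      (Lb : (Fin l → ℝ) →ₗ[ℝ] (Fin k → ℝ)), FiniteDimensional ℝ W ∧
      (∀ g i, bco ha hm (hA i) g = β g i + (Lb (hgtR π g) i) • ofA ha hm 1 + r g i) ∧
      (∀ g, β g ∈ W) ∧ W ≤ fix (UK (U ha hm) k) N ∧
      (∀ g, ∀ v ∈ W, UK (U ha hm) k g v ∈ W) ∧ Coc (UK (U ha hm) k) β ∧
      Submodule.span ℝ (β '' N) = W ∧ Coc (UK (U ha hm) k) r ∧ AC (UK (U ha hm) k) r := by
  have hab : ∀ g h : G, g * h * g⁻¹ * h⁻¹ ∈ N := by
    intro g h
    rw [← hker, map_mul, map_mul, map_mul, map_inv, map_inv, mul_comm (π g) (π h)]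
    group
  obtain ⟨W, β, L, r, hfd, hb, hβ, hWN, hWU, hβc, hspan, hLt, hLm, hL0, hrc, hr⟩ :=
    exists_dec hfg N hnil hab (coc_bvec ha hm hA)
  -- coordinates of `L` are constants
  have hone : ‖ofA ha hm 1‖ = 1 := norm_one ha hm
  have hcoord : ∀ g i, L g i = (inner ℝ (L g i) (ofA ha hm 1)) • ofA ha hm 1 := by
    intro g i
    refine fixed_const ha hm habs hE fun g' => ?_
    have h1 := hLt g g' (Subgroup.mem_top g')
    exact congrFun (congrArg WithLp.ofLp h1) i
  choose a hac using fun i : Fin k => exists_linear hπ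
    (fun g => inner ℝ (L g i) (ofA ha hm 1)) (fun g h => by
      show (inner ℝ (L (g * h) i) (ofA ha hm 1) : ℝ) = _
      rw [hLm, PiLp.add_apply, inner_add_left]) (fun g hg => by
      show (inner ℝ (L g i) (ofA ha hm 1) : ℝ) = 0
      rw [hL0 g ((hker g).1 hg), PiLp.zero_apply, inner_zero_left])
  refine ⟨W, β, r, LinearMap.pi a, hfd, fun g i => ?_, hβ, hWN, hWU, hβc, hspan, hrc, hr⟩
  have h1 : bvec ha hm hA g i = (β g + L g + r g) i := by rw [hb g]
  rw [bvec_apply, PiLp.add_apply, PiLp.add_apply] at h1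
  rw [h1, hcoord g i]
  congr 2
  rw [LinearMap.pi_apply, ← hac i g]

end Dec

end Crest.Agent.R182.Ht
end

-- ▼ part R182/HtEss

/-!
# Row 182, module ZD (author: helper506): essential values of vector valued `L²`-functions
-/

set_option autoImplicit false

namespace Crest.Agent.R182.Ht

open Filter Topology Crest.Agent.R182.Erg Crest.Agent.R182.Mic

universe u v

variable {G : Type u} [Group G] {X : Type v} {ρ : X → G → X} {m : (X → ℝ) → ℝ}


theorem ind_mem {X : Type*} (s : Set X) : s.indicator (1 : X → ℝ) ∈ bddAlg X := by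
  refine ⟨1, fun x => ?_⟩
  by_cases h : x ∈ s
  · rw [Set.indicator_of_mem h]; simp
  · rw [Set.indicator_of_notMem h]; simp

theorem abs_mem_bdd {X : Type*} : ∀ φ ∈ bddAlg X, (fun x => |φ x|) ∈ bddAlg X := by
  rintro φ ⟨C, hC⟩
  exact ⟨C, fun x => by rw [abs_abs]; exact hC x⟩

/-- `e` is an essential value of `t` -/
def EssVal (ha : Alg ρ (bddAlg X)) (hm : IMean ρ (bddAlg X) m) {k : ℕ} (t : VK k (V ha hm))
    (e : Fin k → ℝ) : Prop :=
  ∀ ε > 0, ∃ κ > 0, ∀ η > 0, ∃ τ : Fin k → bddAlg X, (∀ i, ‖t i - ofA ha hm (τ i)‖ ≤ η) ∧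
    κ ≤ m (Set.indicator {x | ∀ i, |(τ i : X → ℝ) x - e i| ≤ ε} 1)

theorem essVal_zero (ha : Alg ρ (bddAlg X)) (hm : IMean ρ (bddAlg X) m) (k : ℕ) :
    EssVal ha hm (0 : VK k (V ha hm)) 0 := by
  intro ε hε
  refine ⟨1, one_pos, fun η hη => ⟨fun _ => 0, fun i => ?_, ?_⟩⟩
  · rw [map_zero, PiLp.zero_apply, sub_zero, norm_zero]; exact hη.le
  · have h1 : Set.indicator {x : X | ∀ i : Fin k, |((0 : bddAlg X) : X → ℝ) x - (0 : Fin k → ℝ) i| ≤ ε}
        (1 : X → ℝ) = 1 := by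
      ext x
      rw [Set.indicator_of_mem]
      intro i
      simp [hε.le]
    rw [h1, hm.one]

theorem exists_pos_le {ι : Type*} (t : Finset ι) (f : ι → ℝ) (hf : ∀ i ∈ t, 0 < f i) {δ : ℝ}
    (hδ : 0 < δ) : ∃ η, 0 < η ∧ η ≤ δ ∧ ∀ i ∈ t, η ≤ f i := by
  classical
  induction t using Finset.induction_on with
  | empty => exact ⟨δ, hδ, le_rfl, fun i hi => absurd hi (Finset.notMem_empty i)⟩
  | insert a s _ ih =>
    obtain ⟨η, h1, h2, h3⟩ := ih fun i hi => hf i (Finset.mem_insert_of_mem hi)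
    refine ⟨min η (f a), lt_min h1 (hf a (Finset.mem_insert_self _ _)),
      (min_le_left _ _).trans h2, fun i hi => ?_⟩
    rcases Finset.mem_insert.1 hi with rfl | hi
    · exact min_le_right _ _
    · exact (min_le_left _ _).trans (h3 i hi)

/-- **Essential values exist.** -/
theorem exists_ess (ha : Alg ρ (bddAlg X)) (hm : IMean ρ (bddAlg X) m) {k : ℕ}
    (t : VK k (V ha hm)) (ht : t ≠ 0) : ∃ e : Fin k → ℝ, e ≠ 0 ∧ EssVal ha hm t e := by
  classical
  by_contra hcon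
  obtain ⟨i₁, hi₁⟩ : ∃ i, t i ≠ 0 := by
    by_contra h
    push Not at h
    exact ht (by ext i; exact h i)
  set θ : ℝ := ‖t i₁‖ with hθ
  have hθ0 : 0 < θ := norm_pos_iff.2 hi₁
  set δs : ℝ := θ / (16 * (k + 1)) with hδs
  have hδs0 : 0 < δs := by positivity
  have hδle : δs ≤ θ / 16 := by
    rw [hδs]
    apply div_le_div_of_nonneg_left hθ0.le (by norm_num)
    have : (0 : ℝ) ≤ k := Nat.cast_nonneg k
    linarith
  choose τs hτs using fun i => exists_near ha hm (t i) hδs0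
  -- a common bound for the approximants
  obtain ⟨M, hM, hMθ⟩ : ∃ M : ℝ, (∀ i x, 2 * |(τs i : X → ℝ) x| ≤ M) ∧ θ ≤ M := by
    have h1 : ∀ i, ∃ C, ∀ x, |(τs i : X → ℝ) x| ≤ C := fun i => (τs i).2
    choose C hC using h1
    refine ⟨2 * ∑ i, |C i| + θ, fun i x => ?_, ?_⟩
    · have h2 := hC i x
      have h3 : |C i| ≤ ∑ i, |C i| :=
        Finset.single_le_sum (f := fun i => |C i|) (fun _ _ => abs_nonneg _) (Finset.mem_univ i)
      have h4 := le_abs_self (C i)
      linarith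
    · have : 0 ≤ ∑ i, |C i| := Finset.sum_nonneg fun _ _ => abs_nonneg _
      linarith
  have hM0 : 0 < M := lt_of_lt_of_le hθ0 hMθ
  -- negation
  have hneg : ∀ e : Fin k → ℝ, e ≠ 0 → ∃ ε > 0, ∀ κ > 0, ∃ η > 0, ∀ τ : Fin k → bddAlg X,
      (∀ i, ‖t i - ofA ha hm (τ i)‖ ≤ η) →
        m (Set.indicator {x | ∀ i, |(τ i : X → ℝ) x - e i| ≤ ε} 1) < κ := by
    intro e he
    by_contra h
    apply hcon
    refine ⟨e, he, ?_⟩
    intro ε hε
    by_contra h2
    apply h
    refine ⟨ε, hε, fun κ hκ => ?_⟩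
    by_contra h3
    apply h2
    refine ⟨κ, hκ, fun η hη => ?_⟩
    by_contra h4
    apply h3
    refine ⟨η, hη, fun τ hτ => ?_⟩
    by_contra h5
    exact h4 ⟨τ, hτ, not_lt.1 h5⟩
  set A : Set (Fin k → ℝ) := {e | θ / 4 ≤ ‖e‖ ∧ ‖e‖ ≤ M} with hA
  have hAc : IsCompact A := by
    apply Metric.isCompact_of_isClosed_isBounded
    · exact (isClosed_le continuous_const continuous_norm).inter
        (isClosed_le continuous_norm continuous_const)
    · exact (Metric.isBounded_closedBall (x := (0 : Fin k → ℝ)) (r := M)).subset fun e he => by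
        rw [mem_closedBall_zero_iff]; exact he.2
  have hA0 : ∀ e ∈ A, e ≠ 0 := by
    rintro e ⟨h1, -⟩ rfl
    rw [norm_zero] at h1
    linarith
  choose! εf hεf0 hεf using hneg
  obtain ⟨tt, htt, hcov⟩ := hAc.elim_nhds_subcover (fun e => Metric.ball e (εf e))
    (fun e he => Metric.ball_mem_nhds e (hεf0 e (hA0 e he)))
  set p : ℝ := (tt.card : ℝ) with hp
  have hp0 : 0 ≤ p := Nat.cast_nonneg _
  set κ : ℝ := θ ^ 2 / (16 * (p + 1) * M ^ 2) with hκ
  have hκ0 : 0 < κ := by positivity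
  have h1 : ∀ e ∈ tt, ∃ η > 0, ∀ τ : Fin k → bddAlg X,
      (∀ i, ‖t i - ofA ha hm (τ i)‖ ≤ η) →
        m (Set.indicator {x | ∀ i, |(τ i : X → ℝ) x - e i| ≤ εf e} 1) < κ :=
    fun e he => hεf e (hA0 e (htt e he)) κ hκ0
  choose! ηf hηf0 hηf using h1
  obtain ⟨η, hη0, hηδ, hηle⟩ := exists_pos_le tt ηf hηf0 hδs0
  choose τ hτ using fun i => exists_near ha hm (t i) hη0
  have hind : ∀ e ∈ tt, m (Set.indicator {x | ∀ i, |(τ i : X → ℝ) x - e i| ≤ εf e} 1) ≤ κ :=
    fun e he => (hηf e he τ fun i => (hτ i).le.trans (hηle e he)).le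
  -- functions in the algebra
  set Ie : (Fin k → ℝ) → X → ℝ :=
    fun e => Set.indicator {x | ∀ i, |(τ i : X → ℝ) x - e i| ≤ εf e} 1 with hIe
  have hIem : ∀ e, Ie e ∈ bddAlg X := fun e => ind_mem _
  have hIe0 : ∀ e x, 0 ≤ Ie e x := fun e x => Set.indicator_nonneg (fun _ _ => zero_le_one) x
  set D : Fin k → X → ℝ := fun i => (τ i : X → ℝ) - (τs i : X → ℝ) with hD
  have hDm : ∀ i, D i ∈ bddAlg X := fun i => sub_mem (τ i).2 (τs i).2
  set Φ : X → ℝ := (fun _ => θ ^ 2 / 16) + ((M ^ 2) • ∑ e ∈ tt, Ie e + (4 : ℝ) • ∑ i, D i * D i)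
    with hΦ
  have hm' := hm.toPInv
  have hs1 : (∑ e ∈ tt, Ie e) ∈ bddAlg X := sum_mem fun e _ => hIem e
  have hs2 : (∑ i, D i * D i) ∈ bddAlg X := sum_mem fun i _ => mul_mem (hDm i) (hDm i)
  have hΦm : Φ ∈ bddAlg X := add_mem (const_mem _ _)
    (add_mem ((bddAlg X).smul_mem hs1 _) ((bddAlg X).smul_mem hs2 _))
  have hle : ∀ x, ((τ i₁ : X → ℝ) * (τ i₁ : X → ℝ)) x ≤ Φ x := by
    intro x
    set w : Fin k → ℝ := fun i => (τ i : X → ℝ) x with hw
    have hΦx : Φ x = θ ^ 2 / 16 + (M ^ 2 * ∑ e ∈ tt, Ie e x + 4 * ∑ i, D i x * D i x) := by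
      simp only [hΦ, Pi.add_apply, Pi.smul_apply, smul_eq_mul, Finset.sum_apply, Pi.mul_apply]
    have hi : |w i₁| ≤ ‖w‖ := norm_le_pi_norm w i₁
    have hsq : ((τ i₁ : X → ℝ) * (τ i₁ : X → ℝ)) x ≤ ‖w‖ ^ 2 := by
      show w i₁ * w i₁ ≤ _
      rw [← abs_mul_abs_self, ← sq]
      exact pow_le_pow_left₀ (abs_nonneg _) hi 2
    have hnn1 : 0 ≤ ∑ e ∈ tt, Ie e x := Finset.sum_nonneg fun e _ => hIe0 e x
    have hnn2 : 0 ≤ ∑ i, D i x * D i x := Finset.sum_nonneg fun i _ => mul_self_nonneg _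
    rw [hΦx]
    rcases le_or_gt ‖w‖ (θ / 4) with h1 | h1
    · have : ‖w‖ ^ 2 ≤ (θ / 4) ^ 2 := pow_le_pow_left₀ (norm_nonneg _) h1 2
      have h2 : 0 ≤ M ^ 2 * ∑ e ∈ tt, Ie e x := by positivity
      nlinarith
    · rcases le_or_gt ‖w‖ M with h2 | h2
      · have hwA : w ∈ A := ⟨h1.le, h2⟩
        obtain ⟨e, he, hwe⟩ := Set.mem_iUnion₂.1 (hcov hwA)
        have h3 : Ie e x = 1 := by
          rw [hIe]
          simp only
          rw [Set.indicator_of_mem]
          · rfl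
          · intro i
            rw [Metric.mem_ball, dist_eq_norm] at hwe
            exact (norm_le_pi_norm (w - e) i).trans hwe.le
        have h4 : 1 ≤ ∑ e ∈ tt, Ie e x := by
          rw [← h3]
          exact Finset.single_le_sum (f := fun e => Ie e x) (fun e _ => hIe0 e x) he
        have h5 : ‖w‖ ^ 2 ≤ M ^ 2 := pow_le_pow_left₀ (norm_nonneg _) h2 2
        have h6 : M ^ 2 ≤ M ^ 2 * ∑ e ∈ tt, Ie e x := le_mul_of_one_le_right (by positivity) h4
        have h7 : 0 ≤ θ ^ 2 / 16 := by positivity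
        linarith
      · -- the maximal coordinate
        have hne : Nonempty (Fin k) := ⟨i₁⟩
        obtain ⟨i₂, hi₂⟩ : ∃ i₂, ‖w‖ = |w i₂| := by
          obtain ⟨i₂, -, h3⟩ := Finset.exists_max_image Finset.univ (fun i => |w i|)
            ⟨i₁, Finset.mem_univ i₁⟩
          refine ⟨i₂, le_antisymm ?_ (norm_le_pi_norm w i₂)⟩
          exact (pi_norm_le_iff_of_nonneg (abs_nonneg _)).2 fun i => h3 i (Finset.mem_univ i)
        have h3 : ‖w‖ / 2 ≤ |D i₂ x| := by
          have h4 := hM i₂ x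
          have h5 : |w i₂| - |(τs i₂ : X → ℝ) x| ≤ |w i₂ - (τs i₂ : X → ℝ) x| :=
            abs_sub_abs_le_abs_sub _ _
          have h6 : D i₂ x = w i₂ - (τs i₂ : X → ℝ) x := rfl
          rw [h6]
          rw [← hi₂] at h5
          linarith
        have h4 : (‖w‖ / 2) ^ 2 ≤ D i₂ x * D i₂ x := by
          rw [← abs_mul_abs_self (D i₂ x), ← sq]
          exact pow_le_pow_left₀ (by positivity) h3 2
        have h5 : D i₂ x * D i₂ x ≤ ∑ i, D i x * D i x :=
          Finset.single_le_sum (f := fun i => D i x * D i x) (fun i _ => mul_self_nonneg _)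
            (Finset.mem_univ i₂)
        have h6 : 0 ≤ M ^ 2 * ∑ e ∈ tt, Ie e x := by positivity
        have h7 : 0 ≤ θ ^ 2 / 16 := by positivity
        nlinarith
  have h2 := hm'.mono (mul_mem (τ i₁).2 (τ i₁).2) hΦm hle
  -- evaluate
  have h3 : m Φ = θ ^ 2 / 16 + (M ^ 2 * ∑ e ∈ tt, m (Ie e) + 4 * ∑ i, m (D i * D i)) := by
    rw [hΦ, hm'.add _ (const_mem _ _) _ (add_mem ((bddAlg X).smul_mem hs1 _)
      ((bddAlg X).smul_mem hs2 _)), hm.const, hm'.add _ ((bddAlg X).smul_mem hs1 _) _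
      ((bddAlg X).smul_mem hs2 _), hm'.smul _ _ hs1, hm'.smul _ _ hs2,
      hm'.sum _ _ (fun e _ => hIem e), hm'.sum _ _ (fun i _ => mul_mem (hDm i) (hDm i))]
  have h4 : ∑ e ∈ tt, m (Ie e) ≤ p * κ := by
    refine (Finset.sum_le_sum fun e he => hind e he).trans ?_
    rw [Finset.sum_const, nsmul_eq_mul]
  have h5 : ∀ i, m (D i * D i) ≤ (2 * δs) ^ 2 := by
    intro i
    have e1 : m (D i * D i) = ‖ofA ha hm (τ i - τs i)‖ ^ 2 := by
      rw [norm_ofA]
      exact (hm'.nrm_sq (hDm i)).symm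
    rw [e1]
    refine pow_le_pow_left₀ (norm_nonneg _) ?_ 2
    have e2 : ofA ha hm (τ i - τs i) = (t i - ofA ha hm (τs i)) - (t i - ofA ha hm (τ i)) := by
      rw [map_sub]; abel
    rw [e2]
    refine (norm_sub_le _ _).trans ?_
    have e3 := (hτs i).le
    have e4 := (hτ i).le
    linarith
  have h6 : ∑ i, m (D i * D i) ≤ k * (2 * δs) ^ 2 := by
    refine (Finset.sum_le_sum fun i _ => h5 i).trans ?_
    rw [Finset.sum_const, Finset.card_univ, Fintype.card_fin, nsmul_eq_mul]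
  have h7 : (θ - θ / 16) ^ 2 ≤ m ((τ i₁ : X → ℝ) * (τ i₁ : X → ℝ)) := by
    have e1 : m ((τ i₁ : X → ℝ) * (τ i₁ : X → ℝ)) = ‖ofA ha hm (τ i₁)‖ ^ 2 := by
      rw [norm_ofA]
      exact (hm'.nrm_sq (τ i₁).2).symm
    rw [e1]
    refine pow_le_pow_left₀ (by linarith) ?_ 2
    have e2 : ‖t i₁‖ ≤ ‖t i₁ - ofA ha hm (τ i₁)‖ + ‖ofA ha hm (τ i₁)‖ := by
      have := norm_add_le (t i₁ - ofA ha hm (τ i₁)) (ofA ha hm (τ i₁))
      rwa [sub_add_cancel] at this
    have e3 := (hτ i₁).le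
    have e4 : η ≤ θ / 16 := hηδ.trans hδle
    linarith
  have h8 : M ^ 2 * (p * κ) ≤ θ ^ 2 / 16 := by
    rw [hκ]
    have : M ^ 2 * (p * (θ ^ 2 / (16 * (p + 1) * M ^ 2))) = (p / (p + 1)) * (θ ^ 2 / 16) := by
      field_simp
    rw [this]
    have h9 : p / (p + 1) ≤ 1 := by
      rw [div_le_one (by positivity)]; linarith
    have : 0 ≤ θ ^ 2 / 16 := by positivity
    nlinarith
  have h9 : 4 * (k * (2 * δs) ^ 2) ≤ θ ^ 2 / 16 := by
    rw [hδs]
    have hk : (0 : ℝ) ≤ k := Nat.cast_nonneg k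
    have : 4 * ((k : ℝ) * (2 * (θ / (16 * (k + 1)))) ^ 2) = (k / (k + 1) ^ 2) * (θ ^ 2 / 16) := by
      field_simp
      ring
    rw [this]
    have h10 : (k : ℝ) / (k + 1) ^ 2 ≤ 1 := by
      rw [div_le_one (by positivity)]; nlinarith
    have : 0 ≤ θ ^ 2 / 16 := by positivity
    nlinarith
  have h10 : M ^ 2 * ∑ e ∈ tt, m (Ie e) ≤ M ^ 2 * (p * κ) :=
    mul_le_mul_of_nonneg_left h4 (by positivity)
  have h11 : 0 < θ ^ 2 := by positivity
  rw [h3] at h2
  nlinarith

end Crest.Agent.R182.Ht
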