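import Mathlib
import Crest.Agent.R182.PolycRoot
import Crest.Agent.R182.FinRed
import Crest.Agent.R182.HtCoc
import Crest.Agent.R182.QIMap
import Crest.Agent.R182.MicDual

-- ▼ part R182/ZdChain
section

/-!
# Row 182, module ZD, block Z1: exponentially many chains with prescribed drift (author: helper56)
-/

set_option autoImplicit false

namespace Crest.Agent.R182.Zd

open Crest.GroupTheory Crest.Geometry Crest.Agent.R182.QI Crest.Agent.R182.FinRed
  Crest.Agent.R182.FinPath Crest.Agent.R182.Polyc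

/-! ### lacunary sums -/

theorem lac_norm {c : ℕ → ℂ} (hc : ∀ r, 3 * ‖c r‖ ≤ ‖c (r + 1)‖) {d : ℕ → ℂ}
    (hd : ∀ r, ‖d r‖ ≤ 1) (L : ℕ) : ‖∑ r ∈ Finset.range L, d r * c r‖ ≤ ‖c L‖ / 2 := by
  induction L with
  | zero => simpa using by positivity
  | succ L ih =>
    rw [Finset.sum_range_succ]
    have h1 : ‖d L * c L‖ ≤ ‖c L‖ := by
      rw [norm_mul]
      exact mul_le_of_le_one_left (norm_nonneg _) (hd L)
    have h2 := norm_add_le (∑ r ∈ Finset.range L, d r * c r) (d L * c L)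
    have h3 := hc L
    linarith

theorem lac_inj {c : ℕ → ℂ} (hc0 : ∀ r, c r ≠ 0) (hc : ∀ r, 3 * ‖c r‖ ≤ ‖c (r + 1)‖)
    {d : ℕ → ℂ} (hd : ∀ r, d r = 0 ∨ ‖d r‖ = 1) (L : ℕ)
    (h : ∑ r ∈ Finset.range L, d r * c r = 0) : ∀ r < L, d r = 0 := by
  induction L with
  | zero => intro r hr; omega
  | succ L ih =>
    have hd' : ∀ r, ‖d r‖ ≤ 1 := fun r => by
      rcases hd r with h | h
      · rw [h]; simp
      · exact h.le
    rw [Finset.sum_range_succ] at h
    have hL : d L = 0 := by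
      rcases hd L with h1 | h1
      · exact h1
      · exfalso
        have h2 : ‖d L * c L‖ = ‖∑ r ∈ Finset.range L, d r * c r‖ := by
          rw [← norm_neg, ← eq_neg_of_add_eq_zero_left h]
        rw [norm_mul, h1, one_mul] at h2
        have h3 := lac_norm hc hd' L
        have h4 : 0 < ‖c L‖ := norm_pos_iff.2 (hc0 L)
        linarith
    rw [hL, zero_mul, add_zero] at h
    intro r hr
    rcases Nat.lt_succ_iff_lt_or_eq.1 hr with h1 | h1
    · exact ih h r h1
    · rw [h1]; exact hL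

variable {Γ : Type*} [Group Γ]

/-! ### prefix products -/

/-- prefix products -/
def pre (u : Γ) (e : ℕ → ℕ) (Y : ℕ → Γ) : ℕ → Γ
  | 0 => 1
  | l + 1 => pre u e Y l * (u ^ e l * Y l)

theorem pre_zero (u : Γ) (e : ℕ → ℕ) (Y : ℕ → Γ) : pre u e Y 0 = 1 := rfl

theorem pre_succ (u : Γ) (e : ℕ → ℕ) (Y : ℕ → Γ) (l : ℕ) :
    pre u e Y (l + 1) = pre u e Y l * (u ^ e l * Y l) := rfl

theorem pre_add (u : Γ) (e : ℕ → ℕ) (Y : ℕ → Γ) (m l : ℕ) :
    pre u e Y (m + l) = pre u e Y m * pre u (fun r => e (m + r)) (fun r => Y (m + r)) l := by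
  induction l with
  | zero => simp [pre_zero]
  | succ l ih => rw [← add_assoc, pre_succ, ih, pre_succ, mul_assoc]

theorem pre_congr (u : Γ) (e : ℕ → ℕ) {Y Y' : ℕ → Γ} {l : ℕ} (h : ∀ r < l, Y r = Y' r) :
    pre u e Y l = pre u e Y' l := by
  induction l with
  | zero => rfl
  | succ l ih =>
    rw [pre_succ, pre_succ, ih fun r hr => h r (by omega), h l (by omega)]

theorem pre_len {S : Set Γ} (hS : Subgroup.closure S = ⊤) {u : Γ} {e : ℕ → ℕ} {Y : ℕ → Γ}
    {a : ℕ} (h : ∀ r, wordLength S (u ^ e r * Y r) ≤ a) (l : ℕ) :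
    wordLength S (pre u e Y l) ≤ l * a := by
  induction l with
  | zero => simp [pre_zero]
  | succ l ih =>
    rw [pre_succ]
    refine (wordLength_mul_le hS _ _).trans ?_
    have := h l
    calc _ ≤ l * a + a := by omega
      _ = (l + 1) * a := by ring

theorem pre_hgt {k : ℕ} {π : Γ →* Multiplicative (Fin k → ℤ)} {u : Γ} (hu : hgt π u = 0)
    {e : ℕ → ℕ} {Y : ℕ → Γ} {v : ℕ → Fin k → ℤ} (hv0 : v 0 = 0)
    (hY : ∀ l, hgt π (Y l) = v (l + 1) - v l) (l : ℕ) : hgt π (pre u e Y l) = v l := by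
  have hp : ∀ m : ℕ, hgt π (u ^ m) = 0 := by
    intro m
    induction m with
    | zero => simp [hgt_one]
    | succ m ih => rw [pow_succ, hgt_mul, ih, hu, add_zero]
  induction l with
  | zero => rw [pre_zero, hgt_one, hv0]
  | succ l ih => rw [pre_succ, hgt_mul, hgt_mul, ih, hp, hY]; abel

/-! ### the weight functional on products -/

section Root

variable (R : RootData Γ)

open Classical in
/-- the functional `ℓ i` extended by zero -/
noncomputable def el (i : Fin R.m) (g : Γ) : ℂ := if h : g ∈ R.N then R.ℓ i ⟨g, h⟩ else 0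

theorem el_mul (i : Fin R.m) {a b : Γ} (ha : a ∈ R.N) (hb : b ∈ R.N) :
    el R i (a * b) = el R i a + el R i b := by
  unfold el
  rw [dif_pos ha, dif_pos hb, dif_pos (R.N.mul_mem ha hb), ← R.ℓ_mul]
  rfl

theorem el_conj (i : Fin R.m) (g : Γ) {n : Γ} (hn : n ∈ R.N) :
    el R i (g * n * g⁻¹) = (R.χ i g : ℂ) * el R i n := by
  unfold el
  rw [dif_pos hn, dif_pos (R.normal.conj_mem n hn g)]
  exact R.ℓ_conj i g ⟨n, hn⟩

theorem el_one (i : Fin R.m) : el R i 1 = 0 := by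
  have := el_mul R i R.N.one_mem R.N.one_mem
  rw [mul_one] at this
  simpa using this

theorem el_inv (i : Fin R.m) {a : Γ} (ha : a ∈ R.N) : el R i a⁻¹ = - el R i a := by
  have := el_mul R i ha (R.N.inv_mem ha)
  rw [mul_inv_cancel, el_one] at this
  exact eq_neg_of_add_eq_zero_right this.symm

theorem el_pow (i : Fin R.m) {a : Γ} (ha : a ∈ R.N) (n : ℕ) : el R i (a ^ n) = n * el R i a := by
  induction n with
  | zero => simp [el_one]
  | succ n ih => rw [pow_succ, el_mul R i (R.N.pow_mem ha n) ha, ih]; push_cast; ring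

theorem exists_el_ne (i : Fin R.m) : ∃ u ∈ R.N, el R i u ≠ 0 := by
  obtain ⟨n, hn⟩ := R.ℓ_ne i
  refine ⟨n, n.2, ?_⟩
  unfold el
  rw [dif_pos n.2]
  exact hn

theorem pre_chi (i : Fin R.m) {u : Γ} (hu : u ∈ R.N) (e : ℕ → ℕ) (Y : ℕ → Γ) (l : ℕ) :
    R.χ i (pre u e Y l) = ∏ s ∈ Finset.range l, R.χ i (Y s) := by
  induction l with
  | zero => simp [pre_zero]
  | succ l ih =>
    rw [pre_succ, map_mul, map_mul, map_pow, R.χ_N i u hu, one_pow, one_mul, ih,
      Finset.prod_range_succ]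

theorem pre_el (i : Fin R.m) {u : Γ} (hu : u ∈ R.N) (e e' : ℕ → ℕ) (Y : ℕ → Γ) (l : ℕ) :
    pre u e Y l * (pre u e' Y l)⁻¹ ∈ R.N ∧
    el R i (pre u e Y l * (pre u e' Y l)⁻¹) =
      (∑ r ∈ Finset.range l, ((e r : ℂ) - e' r) * ((∏ s ∈ Finset.range r, R.χ i (Y s) : ℂˣ) : ℂ))
        * el R i u := by
  induction l with
  | zero => simp [pre_zero, el_one, R.N.one_mem]
  | succ l ih =>
    obtain ⟨h1, h2⟩ := ih
    have h3 : u ^ e l * (u ^ e' l)⁻¹ ∈ R.N :=
      R.N.mul_mem (R.N.pow_mem hu _) (R.N.inv_mem (R.N.pow_mem hu _))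
    have h4 : pre u e Y (l + 1) * (pre u e' Y (l + 1))⁻¹ =
        (pre u e Y l * (u ^ e l * (u ^ e' l)⁻¹) * (pre u e Y l)⁻¹) *
          (pre u e Y l * (pre u e' Y l)⁻¹) := by
      rw [pre_succ, pre_succ]; group
    have h5 : pre u e Y l * (u ^ e l * (u ^ e' l)⁻¹) * (pre u e Y l)⁻¹ ∈ R.N :=
      R.normal.conj_mem _ h3 _
    rw [h4]
    refine ⟨R.N.mul_mem h5 h1, ?_⟩
    rw [el_mul R i h5 h1, el_conj R i _ h3, h2,
      el_mul R i (R.N.pow_mem hu _) (R.N.inv_mem (R.N.pow_mem hu _)),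
      el_inv R i (R.N.pow_mem hu _), el_pow R i hu, el_pow R i hu, pre_chi R i hu,
      Finset.sum_range_succ]
    ring

/-- chains separate: the prefix product determines the digits -/
theorem pre_inj (i : Fin R.m) {u : Γ} (hu : u ∈ R.N) (hu0 : el R i u ≠ 0) {Y : ℕ → Γ}
    (hY : ∀ r, 3 * ‖((R.χ i (pre u (fun _ => 0) Y r) : ℂˣ) : ℂ)‖ ≤
      ‖((R.χ i (pre u (fun _ => 0) Y (r + 1)) : ℂˣ) : ℂ)‖) {e e' : ℕ → ℕ}
    (he : ∀ r, e r ≤ 1) (he' : ∀ r, e' r ≤ 1) {L : ℕ} (h : pre u e Y L = pre u e' Y L) :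
    ∀ r < L, e r = e' r := by
  have h1 := (pre_el R i hu e e' Y L).2
  rw [h, mul_inv_cancel, el_one] at h1
  have h2 := (mul_eq_zero.1 h1.symm).resolve_right hu0
  have h3 := lac_inj (c := fun r => ((∏ s ∈ Finset.range r, R.χ i (Y s) : ℂˣ) : ℂ))
    (d := fun r => (e r : ℂ) - e' r) (fun r => Units.ne_zero _) (fun r => by
      have := hY r
      rw [pre_chi R i hu, pre_chi R i hu] at this
      exact this) (fun r => by
      have h4 := he r
      have h5 := he' r
      interval_cases e r <;> interval_cases e' r <;> simp) L h2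
  intro r hr
  have h4 := h3 r hr
  have h5 : (e r : ℂ) = e' r := sub_eq_zero.1 h4
  exact_mod_cast h5

end Root

/-! ### cocycles -/

section Cocycle

open Crest.Agent.R182.Ht

variable {W : Type*} [NormedAddCommGroup W] [InnerProductSpace ℝ W]
  {U : Γ →* (W ≃ₗᵢ[ℝ] W)} {β : Γ → W}

theorem exists_norm_le {S : Finset Γ} (hS : Subgroup.closure (S : Set Γ) = ⊤)
    (hβ : Coc U β) : ∃ c : ℝ, 0 ≤ c ∧ ∀ g, ‖β g‖ ≤ c * wordLength (S : Set Γ) g := by
  obtain ⟨c, hc⟩ : ∃ c : ℝ, ∀ s ∈ S, ‖β s‖ ≤ c := by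
    refine ⟨∑ s ∈ S, ‖β s‖, fun s hs => ?_⟩
    exact Finset.single_le_sum (f := fun s => ‖β s‖) (fun _ _ => norm_nonneg _) hs
  refine ⟨max c 0, le_max_right _ _, fun g => ?_⟩
  obtain ⟨l, hl, hw, rfl⟩ := wordLength_spec hS g
  rw [← hl, mul_comm]
  refine hβ.norm_list_le l fun x hx => (le_max_left c 0).trans' ?_
  rcases hw x hx with h | h
  · exact hc x h
  · rw [← hβ.norm_inv]; exact hc _ h

variable {N : Subgroup Γ}

theorem coc_mul_N (hβ : Coc U β) (hUN : ∀ n ∈ N, ∀ v, U n v = v) {a : Γ} (ha : a ∈ N) (b : Γ) :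
    β (a * b) = β a + β b := by
  rw [hβ a b, hUN a ha]

theorem coc_zpow_N (hβ : Coc U β) (hUN : ∀ n ∈ N, ∀ v, U n v = v) {a : Γ} (ha : a ∈ N) (n : ℤ) :
    β (a ^ n) = (n : ℝ) • β a := by
  have hpow : ∀ m : ℕ, β (a ^ m) = (m : ℝ) • β a := by
    intro m
    induction m with
    | zero => simp [hβ.one]
    | succ m ih =>
      rw [pow_succ, coc_mul_N hβ hUN (N.pow_mem ha m), ih]
      push_cast
      rw [add_smul, one_smul]
  rcases Int.eq_nat_or_neg n with ⟨m, rfl | rfl⟩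
  · rw [zpow_natCast, hpow]; push_cast; rfl
  · have h1 : a ^ m ∈ N := N.pow_mem ha m
    rw [zpow_neg, zpow_natCast, hβ.inv, hUN _ (N.inv_mem h1), hpow]
    push_cast
    rw [neg_smul]

/-- one direction -/
def Appr (S : Set Γ) (N : Subgroup Γ) (β : Γ → W) (x : W) : Prop :=
  ∃ C : ℝ, 0 ≤ C ∧ ∀ s : ℝ, ∃ n ∈ N, ‖β n - s • x‖ ≤ C ∧ (wordLength S n : ℝ) ≤ C * (|s| + 1)

theorem appr_span {S : Set Γ} (hS : Subgroup.closure S = ⊤) (hβ : Coc U β)
    (hUN : ∀ n ∈ N, ∀ v, U n v = v) {x : W} (hx : x ∈ Submodule.span ℝ (β '' N)) :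
    Appr S N β x := by
  induction hx using Submodule.span_induction with
  | mem x hx =>
    obtain ⟨n, hn, rfl⟩ := hx
    refine ⟨‖β n‖ + wordLength S n, by positivity, fun s => ⟨n ^ ⌊s⌋, N.zpow_mem hn _, ?_, ?_⟩⟩
    · rw [coc_zpow_N hβ hUN hn, ← sub_smul, norm_smul, Real.norm_eq_abs]
      have h1 : |(⌊s⌋ : ℝ) - s| ≤ 1 := by
        rw [abs_le]
        constructor
        · linarith [Int.lt_floor_add_one s]
        · linarith [Int.floor_le s]
      have h2 : |(⌊s⌋ : ℝ) - s| * ‖β n‖ ≤ 1 * ‖β n‖ :=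
        mul_le_mul_of_nonneg_right h1 (norm_nonneg _)
      have h3 : (0 : ℝ) ≤ wordLength S n := Nat.cast_nonneg _
      linarith
    · have h1 : wordLength S (n ^ ⌊s⌋) ≤ (⌊s⌋).natAbs * wordLength S n := by
        rcases Int.eq_nat_or_neg ⌊s⌋ with ⟨m, h | h⟩
        · rw [h, zpow_natCast, Int.natAbs_natCast]
          exact wordLength_pow_le hS n m
        · rw [h, zpow_neg, zpow_natCast, wordLength_inv hS, Int.natAbs_neg, Int.natAbs_natCast]
          exact wordLength_pow_le hS n m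
      have h2 : ((⌊s⌋).natAbs : ℝ) ≤ |s| + 1 := by
        rw [Nat.cast_natAbs, Int.cast_abs, abs_le]
        constructor
        · linarith [Int.lt_floor_add_one s, neg_abs_le s]
        · linarith [Int.floor_le s, le_abs_self s]
      have h3 : (wordLength S (n ^ ⌊s⌋) : ℝ) ≤ (⌊s⌋).natAbs * wordLength S n := by
        exact_mod_cast h1
      have h4 : ((⌊s⌋).natAbs : ℝ) * wordLength S n ≤ (|s| + 1) * wordLength S n :=
        mul_le_mul_of_nonneg_right h2 (Nat.cast_nonneg _)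
      have h5 : 0 ≤ ‖β n‖ * (|s| + 1) := by positivity
      calc _ ≤ (|s| + 1) * wordLength S n := h3.trans h4
        _ ≤ (‖β n‖ + wordLength S n) * (|s| + 1) := by nlinarith
  | zero =>
    exact ⟨0, le_rfl, fun s => ⟨1, N.one_mem, by simp [hβ.one], by simp⟩⟩
  | add x y _ _ hx hy =>
    obtain ⟨C, hC, h⟩ := hx
    obtain ⟨C', hC', h'⟩ := hy
    refine ⟨C + C', by positivity, fun s => ?_⟩
    obtain ⟨n, hn, h1, h2⟩ := h s
    obtain ⟨n', hn', h1', h2'⟩ := h' s
    refine ⟨n * n', N.mul_mem hn hn', ?_, ?_⟩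
    · rw [coc_mul_N hβ hUN hn]
      have : β n + β n' - s • (x + y) = (β n - s • x) + (β n' - s • y) := by
        rw [smul_add]; abel
      rw [this]
      exact (norm_add_le _ _).trans (add_le_add h1 h1')
    · have : (wordLength S (n * n') : ℝ) ≤ wordLength S n + wordLength S n' := by
        exact_mod_cast wordLength_mul_le hS n n'
      rw [add_mul]
      linarith
  | smul a x _ hx =>
    obtain ⟨C, hC, h⟩ := hx
    refine ⟨C * (|a| + 1), by positivity, fun s => ?_⟩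
    obtain ⟨n, hn, h1, h2⟩ := h (s * a)
    refine ⟨n, hn, ?_, ?_⟩
    · rw [smul_smul]
      refine h1.trans ?_
      have : 0 ≤ C * |a| := by positivity
      linarith
    · refine h2.trans ?_
      rw [abs_mul, mul_assoc]
      apply mul_le_mul_of_nonneg_left _ hC
      have h3 := abs_nonneg s
      have h4 := abs_nonneg a
      nlinarith

theorem exists_approx [FiniteDimensional ℝ W] {S : Set Γ} (hS : Subgroup.closure S = ⊤)
    (hβ : Coc U β) (hUN : ∀ n ∈ N, ∀ v, U n v = v)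
    (hspan : Submodule.span ℝ (β '' N) = ⊤) :
    ∃ C : ℝ, 0 ≤ C ∧ ∀ w : W, ∃ n ∈ N, ‖β n - w‖ ≤ C ∧
      (wordLength S n : ℝ) ≤ C * (‖w‖ + 1) := by
  classical
  let b := stdOrthonormalBasis ℝ W
  have key : ∀ s : Finset (Fin (Module.finrank ℝ W)), ∃ C : ℝ, 0 ≤ C ∧ ∀ w : W, ∃ n ∈ N,
      ‖β n - ∑ i ∈ s, (inner ℝ (b i) w : ℝ) • b i‖ ≤ C ∧
      (wordLength S n : ℝ) ≤ C * (‖w‖ + 1) := by
    intro s
    induction s using Finset.induction_on with
    | empty => exact ⟨0, le_rfl, fun w => ⟨1, N.one_mem, by simp [hβ.one], by simp⟩⟩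
    | insert i s hi ih =>
      obtain ⟨C, hC, h⟩ := ih
      obtain ⟨C', hC', h'⟩ := appr_span hS hβ hUN (x := b i) (by rw [hspan]; trivial)
      refine ⟨C + C', by positivity, fun w => ?_⟩
      obtain ⟨n, hn, h1, h2⟩ := h w
      obtain ⟨n', hn', h1', h2'⟩ := h' (inner ℝ (b i) w)
      refine ⟨n * n', N.mul_mem hn hn', ?_, ?_⟩
      · rw [coc_mul_N hβ hUN hn, Finset.sum_insert hi]
        have : β n + β n' - ((inner ℝ (b i) w : ℝ) • b i + ∑ i ∈ s, (inner ℝ (b i) w : ℝ) • b i) =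
            (β n - ∑ i ∈ s, (inner ℝ (b i) w : ℝ) • b i) +
            (β n' - (inner ℝ (b i) w : ℝ) • b i) := by abel
        rw [this]
        exact (norm_add_le _ _).trans (add_le_add h1 h1')
      · have h3 : (wordLength S (n * n') : ℝ) ≤ wordLength S n + wordLength S n' := by
          exact_mod_cast wordLength_mul_le hS n n'
        have h4 : |inner ℝ (b i) w| ≤ ‖w‖ := by
          have := abs_real_inner_le_norm (b i) w
          rwa [b.norm_eq_one, one_mul] at this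
        have h5 : C' * (|inner ℝ (b i) w| + 1) ≤ C' * (‖w‖ + 1) :=
          mul_le_mul_of_nonneg_left (by linarith) hC'
        rw [add_mul]
        linarith
  obtain ⟨C, hC, h⟩ := key Finset.univ
  refine ⟨C, hC, fun w => ?_⟩
  obtain ⟨n, hn, h1, h2⟩ := h w
  refine ⟨n, hn, ?_, h2⟩
  rwa [b.sum_repr' w] at h1

end Cocycle

/-! ### the chains -/

section Main

open Crest.Agent.R182.Ht

theorem exists_pos_weight (R : RootData Γ) {b : Fin R.k → ℝ} (hb : b ≠ 0) :
    ∃ i, 0 < R.Λ i b := by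
  by_contra h
  push Not at h
  have h1 : ∀ i ∈ Finset.univ, R.Λ i b = 0 :=
    (Finset.sum_eq_zero_iff_of_nonpos (fun i _ => h i)).1 (R.Λ_sum b)
  exact hb (R.Λ_inj b fun i => h1 i (Finset.mem_univ i))

theorem mem_N_of_hgt (R : RootData Γ) {g : Γ} (h : hgt R.π g = 0) : g ∈ R.N := by
  rw [← R.mem_N]
  exact Multiplicative.toAdd.injective h

theorem hgt_of_mem_N (R : RootData Γ) {g : Γ} (h : g ∈ R.N) : hgt R.π g = 0 := by
  rw [← R.mem_N] at h
  unfold hgt
  rw [h]; rfl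

theorem U_eq_of_hgt (R : RootData Γ) {W : Type*} [NormedAddCommGroup W] [InnerProductSpace ℝ W]
    {U : Γ →* (W ≃ₗᵢ[ℝ] W)} (hUN : ∀ n ∈ R.N, ∀ v, U n v = v) {g h : Γ}
    (hgh : hgt R.π g = hgt R.π h) (v : W) : U g v = U h v := by
  have h1 : h⁻¹ * g ∈ R.N := mem_N_of_hgt R (by rw [hgt_mul, hgt_inv, hgh]; simp)
  have h2 : g = h * (h⁻¹ * g) := by group
  rw [h2, U_mul, hUN _ h1]

/-- the letter with the correction at the end of each block -/
def letter (q : ℕ) (y n : ℕ → Γ) (l : ℕ) : Γ :=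
  y l * (if q ∣ (l + 1) then n ((l + 1) / q - 1) else 1)

theorem pre_letter (u : Γ) (e : ℕ → ℕ) (y n : ℕ → Γ) {q : ℕ} (hq : 0 < q) (j : ℕ) :
    pre u e (letter q y n) ((j + 1) * q) = pre u e (letter q y n) (j * q) *
      (pre u (fun r => e (j * q + r)) (fun r => y (j * q + r)) q * n j) := by
  obtain ⟨q', rfl⟩ : ∃ q', q = q' + 1 := ⟨q - 1, by omega⟩
  rw [show (j + 1) * (q' + 1) = j * (q' + 1) + (q' + 1) by ring, pre_add]
  congr 1
  rw [pre_succ, pre_succ]
  have h1 : pre u (fun r => e (j * (q' + 1) + r))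
      (fun r => letter (q' + 1) y n (j * (q' + 1) + r)) q' =
      pre u (fun r => e (j * (q' + 1) + r)) (fun r => y (j * (q' + 1) + r)) q' := by
    apply pre_congr
    intro r hr
    unfold letter
    rw [if_neg, mul_one]
    intro hd
    rw [add_assoc] at hd
    have h2 : (q' + 1) ∣ r + 1 := (Nat.dvd_add_right (Dvd.intro_left j rfl)).1 hd
    have := Nat.le_of_dvd (by omega) h2
    omega
  have h2 : letter (q' + 1) y n (j * (q' + 1) + q') = y (j * (q' + 1) + q') * n j := by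
    unfold letter
    have h3 : j * (q' + 1) + q' + 1 = (j + 1) * (q' + 1) := by ring
    rw [h3, if_pos (Dvd.intro_left _ rfl), Nat.mul_div_cancel _ (Nat.succ_pos q')]
    rfl
  rw [h1, h2]
  group

theorem exists_chains (R : RootData Γ) {S : Finset Γ}
    (hS : Subgroup.closure (S : Set Γ) = ⊤) {W : Type*} [NormedAddCommGroup W]
    [InnerProductSpace ℝ W] [FiniteDimensional ℝ W]
    (U : Γ →* (W ≃ₗᵢ[ℝ] W)) (hUN : ∀ n ∈ R.N, ∀ v, U n v = v) (β : Γ → W) (hβ : Coc U β)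
    (hspan : Submodule.span ℝ (β '' (R.N : Set Γ)) = ⊤) (b : Fin R.k → ℝ) (hb : b ≠ 0) (t : W) :
    ∃ μ C₁ : ℝ, 0 < μ ∧ 0 ≤ C₁ ∧ ∀ (J : ℕ) (ε : ℝ), 0 < ε → ∃ C₂ : ℝ, 0 ≤ C₂ ∧ ∀ q : ℕ,
      ∃ (ι : Type) (_ : Fintype ι) (P : ι → ℕ → Γ), (2:ℝ)^(J*q) ≤ C₂ * Fintype.card ι ∧
        (∀ i, P i 0 = 1) ∧
        (∀ i, ∀ j < J, (nd (S : Set Γ) (P i j) (P i (j+1)) : ℝ) ≤ C₁*(q+1)) ∧
        Function.Injective (fun i => P i J) ∧
        (∀ i, ∀ j ≤ J, ∀ a, |hgtR R.π (P i j) a - j*q*μ*b a| ≤ C₂) ∧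
        (∀ i, ∀ j ≤ J, ‖β (P i j) - ((j*q*μ:ℝ))•t‖ ≤ ε*q + C₂) := by
  classical
  obtain ⟨i₀, hi₀⟩ := exists_pos_weight R hb
  obtain ⟨u, huN, hu0⟩ := exists_el_ne R i₀
  obtain ⟨cΛ, hcΛ0, hcΛ⟩ : ∃ c : ℝ, 0 ≤ c ∧ ∀ x, |R.Λ i₀ x| ≤ c * ‖x‖ := by
    refine ⟨‖LinearMap.toContinuousLinearMap (R.Λ i₀)‖, norm_nonneg _, fun x => ?_⟩
    have := (LinearMap.toContinuousLinearMap (R.Λ i₀)).le_opNorm x
    simpa using this
  have hlog3 : 0 < Real.log 3 := Real.log_pos (by norm_num)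
  obtain ⟨μ, hμ0, hμ⟩ : ∃ μ : ℝ, 0 < μ ∧ μ * R.Λ i₀ b = cΛ + Real.log 3 :=
    ⟨(cΛ + Real.log 3) / R.Λ i₀ b, by positivity, by field_simp⟩
  -- integral heights
  let v : ℕ → Fin R.k → ℤ := fun l a => round ((l:ℝ) * μ * b a)
  have hv0 : v 0 = 0 := by
    funext a; simp [v]
  have hv : ∀ l a, |((v l a : ℤ) : ℝ) - l * μ * b a| ≤ 1 / 2 := by
    intro l a
    rw [abs_sub_comm]
    exact abs_sub_round _
  choose σ hσ using fun z : Fin R.k → ℤ => show ∃ g, hgt R.π g = z from by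
    obtain ⟨g, hg⟩ := R.surj (Multiplicative.ofAdd z)
    exact ⟨g, by unfold hgt; rw [hg]; rfl⟩
  let y : ℕ → Γ := fun l => σ (v (l + 1) - v l)
  have hy : ∀ l, hgt R.π (y l) = v (l + 1) - v l := fun l => hσ _
  obtain ⟨Ly, hLy⟩ : ∃ Ly : ℕ, ∀ l, wordLength (S : Set Γ) (y l) ≤ Ly := by
    let M : ℤ := ⌈1 + μ * ‖b‖⌉
    have h1 : ∀ l a, |v (l + 1) a - v l a| ≤ M := by
      intro l a
      have h2 := hv (l + 1) a
      have h3 := hv l a
      have h4 : |b a| ≤ ‖b‖ := norm_le_pi_norm b a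
      have h5 : |((v (l + 1) a : ℤ) : ℝ) - v l a| ≤ 1 + μ * ‖b‖ := by
        have h6 : ((v (l + 1) a : ℤ) : ℝ) - v l a =
            (((v (l + 1) a : ℤ) : ℝ) - (l + 1 : ℕ) * μ * b a) -
              (((v l a : ℤ) : ℝ) - l * μ * b a) + μ * b a := by push_cast; ring
        rw [h6]
        have h7 := abs_add_le ((((v (l + 1) a : ℤ) : ℝ) - (l + 1 : ℕ) * μ * b a) -
              (((v l a : ℤ) : ℝ) - l * μ * b a)) (μ * b a)
        have h8 := abs_sub (((v (l + 1) a : ℤ) : ℝ) - (l + 1 : ℕ) * μ * b a)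
          (((v l a : ℤ) : ℝ) - l * μ * b a)
        rw [abs_mul, abs_of_pos hμ0] at h7
        have h9 : μ * |b a| ≤ μ * ‖b‖ := mul_le_mul_of_nonneg_left h4 hμ0.le
        linarith
      have h6 := h5.trans (Int.le_ceil _)
      exact_mod_cast h6
    refine ⟨(Finset.Icc (fun _ => -M) (fun _ => M) : Finset (Fin R.k → ℤ)).sup
      (fun z => wordLength (S : Set Γ) (σ z)), fun l => ?_⟩
    apply Finset.le_sup (f := fun z => wordLength (S : Set Γ) (σ z))
    rw [Finset.mem_Icc]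
    exact ⟨fun a => (abs_le.1 (h1 l a)).1, fun a => (abs_le.1 (h1 l a)).2⟩
  obtain ⟨cβ, hcβ0, hcβ⟩ := exists_norm_le hS hβ
  obtain ⟨C₀, hC₀0, hC₀⟩ := exists_approx hS hβ hUN hspan
  choose nn hnnN hnn1 hnn2 using hC₀
  let a : ℕ := wordLength (S : Set Γ) u + Ly
  have ha : ∀ (m l : ℕ), m ≤ 1 → wordLength (S : Set Γ) (u ^ m * y l) ≤ a := by
    intro m l hm
    refine (wordLength_mul_le hS _ _).trans (Nat.add_le_add ?_ (hLy l))
    refine (wordLength_pow_le hS u m).trans ?_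
    calc _ ≤ 1 * wordLength (S : Set Γ) u := Nat.mul_le_mul_right _ hm
      _ = _ := one_mul _
  let Rr : ℝ := cβ * a
  have hRr : 0 ≤ Rr := by positivity
  refine ⟨μ, a + C₀ * (μ * ‖t‖ + Rr + 1), hμ0, by positivity, fun J ε hε => ?_⟩
  -- cells
  set ε' : ℝ := ε / (J + 1) with hε'
  have hε'0 : 0 < ε' := by positivity
  obtain ⟨T', hT'1, hT'2, hT'3⟩ :=
    (ProperSpace.isCompact_closedBall (0 : W) Rr).finite_cover_balls hε'0
  set T : Finset W := hT'2.toFinset with hT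
  have hTb : ∀ τ ∈ T, ‖τ‖ ≤ Rr := by
    intro τ hτ
    have := hT'1 ((Set.Finite.mem_toFinset _).1 hτ)
    simpa using this
  have hTc : ∀ w : W, ‖w‖ ≤ Rr → ∃ τ ∈ T, ‖w - τ‖ ≤ ε' := by
    intro w hw
    have h1 := hT'3 (show w ∈ Metric.closedBall (0 : W) Rr by simpa using hw)
    rw [Set.mem_iUnion₂] at h1
    obtain ⟨τ, hτ, h2⟩ := h1
    refine ⟨τ, (Set.Finite.mem_toFinset _).2 hτ, ?_⟩
    rw [Metric.mem_ball, dist_eq_norm] at h2
    exact h2.le
  have hC2 : (0:ℝ) ≤ (T.card : ℝ) ^ J + J * C₀ + 1 := by positivity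
  refine ⟨(T.card : ℝ) ^ J + J * C₀ + 1, hC2, fun q => ?_⟩
  rcases Nat.eq_zero_or_pos q with rfl | hq
  · refine ⟨Unit, inferInstance, fun _ _ => 1, ?_, fun _ => rfl, ?_, ?_, ?_, ?_⟩
    · simp; positivity
    · intro i j hj
      simp only [nd_self, Nat.cast_zero]
      positivity
    · intro i j _; exact Subsingleton.elim _ _
    · intro i j hj a'
      have : hgtR R.π (1 : Γ) a' = 0 := by simp [hgtR, hgt_one]
      rw [this]; simpa using hC2
    · intro i j hj
      rw [hβ.one]; simpa using hC2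
  have hq0 : (0:ℝ) < q := by exact_mod_cast hq
  let ex : (Fin (J * q) → Bool) → ℕ → ℕ := fun e l =>
    if h : l < J * q then (if e ⟨l, h⟩ then 1 else 0) else 0
  have hex : ∀ e l, ex e l ≤ 1 := by
    intro e l
    simp only [ex]
    split_ifs <;> omega
  let blk : (Fin (J * q) → Bool) → ℕ → Γ := fun e j =>
    pre u (fun r => ex e (j * q + r)) (fun r => y (j * q + r)) q
  have hblk : ∀ e j, wordLength (S : Set Γ) (blk e j) ≤ q * a := fun e j =>
    pre_len hS (fun r => ha _ _ (hex e _)) q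
  have hblkβ : ∀ e j, ‖β (blk e j)‖ ≤ Rr * q := by
    intro e j
    refine (hcβ _).trans ?_
    have h1 : (wordLength (S : Set Γ) (blk e j) : ℝ) ≤ q * a := by exact_mod_cast hblk e j
    calc cβ * (wordLength (S : Set Γ) (blk e j) : ℝ) ≤ cβ * (q * a) :=
          mul_le_mul_of_nonneg_left h1 hcβ0
      _ = Rr * q := by simp only [Rr]; ring
  have hcell : ∀ e (j : Fin J), ∃ τ : {x // x ∈ T}, ‖β (blk e j) - (q : ℝ) • (τ : W)‖ ≤ ε' * q := by
    intro e j
    obtain ⟨τ, hτ, h1⟩ := hTc ((q : ℝ)⁻¹ • β (blk e j)) (by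
      rw [norm_smul, norm_inv, Real.norm_natCast, inv_mul_le_iff₀ hq0, mul_comm]
      exact hblkβ e j)
    refine ⟨⟨τ, hτ⟩, ?_⟩
    have h2 : β (blk e j) - (q : ℝ) • τ = (q : ℝ) • ((q : ℝ)⁻¹ • β (blk e j) - τ) := by
      rw [smul_sub, smul_smul, mul_inv_cancel₀ hq0.ne', one_smul]
    show ‖β (blk e j) - (q : ℝ) • τ‖ ≤ ε' * q
    rw [h2, norm_smul, Real.norm_natCast, mul_comm]
    exact mul_le_mul_of_nonneg_right h1 hq0.le
  choose f hf using hcell
  obtain ⟨τ₀, hτ₀⟩ : ∃ τ₀ : Fin J → {x // x ∈ T},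
      (2:ℝ) ^ (J * q) ≤ (T.card : ℝ) ^ J * Fintype.card {e // f e = τ₀} := by
    have hne : (Finset.univ : Finset (Fin J → {x // x ∈ T})).Nonempty :=
      ⟨f (fun _ => false), Finset.mem_univ _⟩
    have hTJ : 0 < (T.card : ℝ) ^ J := by
      have h1 : 0 < Fintype.card (Fin J → {x // x ∈ T}) := Fintype.card_pos_iff.2
        ⟨f (fun _ => false)⟩
      rw [Fintype.card_fun, Fintype.card_fin, Fintype.card_coe] at h1
      exact_mod_cast h1
    obtain ⟨τ₀, -, h⟩ := Finset.exists_le_card_fiber_of_nsmul_le_card_of_maps_to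
      (s := (Finset.univ : Finset (Fin (J * q) → Bool)))
      (t := (Finset.univ : Finset (Fin J → {x // x ∈ T}))) (f := f)
      (b := (2:ℝ) ^ (J * q) / (T.card : ℝ) ^ J) (fun _ _ => Finset.mem_univ _) hne (by
        rw [Finset.card_univ, Finset.card_univ, Fintype.card_fun, Fintype.card_fun,
          Fintype.card_fin, Fintype.card_fin, Fintype.card_coe, Fintype.card_bool, nsmul_eq_mul]
        push_cast
        rw [mul_div_cancel₀ _ hTJ.ne'])
    refine ⟨τ₀, ?_⟩
    rw [Fintype.card_subtype]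
    have h1 := (div_le_iff₀ hTJ).1 h
    linarith
  -- the corrections
  let tt : ℕ → W := fun j => if h : j < J then (τ₀ ⟨j, h⟩ : W) else 0
  have htt : ∀ j, ‖tt j‖ ≤ Rr := by
    intro j
    by_cases h : j < J
    · simp only [tt, dif_pos h]; exact hTb _ (τ₀ ⟨j, h⟩).2
    · simp only [tt, dif_neg h]; simpa using hRr
  let w : ℕ → W := fun j => U (σ (v ((j + 1) * q)))⁻¹
    (((q : ℝ) * μ) • t - U (σ (v (j * q))) ((q : ℝ) • tt j))
  let n : ℕ → Γ := fun j => nn (w j)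
  have hw : ∀ j, ‖w j‖ ≤ q * (μ * ‖t‖ + Rr) := by
    intro j
    simp only [w]
    rw [U_norm]
    refine (norm_sub_le _ _).trans ?_
    rw [U_norm, norm_smul, norm_smul, norm_mul, Real.norm_natCast, Real.norm_eq_abs,
      abs_of_pos hμ0]
    have := mul_le_mul_of_nonneg_left (htt j) hq0.le
    linarith
  let Y : ℕ → Γ := letter q y n
  have hYh : ∀ l, hgt R.π (Y l) = v (l + 1) - v l := by
    intro l
    simp only [Y, letter]
    rw [hgt_mul, hy]
    split_ifs
    · rw [hgt_of_mem_N R (hnnN _), add_zero]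
    · rw [hgt_one, add_zero]
  have hPh : ∀ e l, hgt R.π (pre u e Y l) = v l := fun e l =>
    pre_hgt (hgt_of_mem_N R huN) hv0 hYh l
  refine ⟨{e // f e = τ₀}, inferInstance, fun i j => pre u (ex i.1) Y (j * q), ?_, ?_, ?_, ?_,
    ?_, ?_⟩
  · refine hτ₀.trans (mul_le_mul_of_nonneg_right ?_ (Nat.cast_nonneg _))
    have : 0 ≤ (J : ℝ) * C₀ := by positivity
    linarith
  · intro i; simp [pre_zero]
  · intro i j hj
    have h1 : nd (S : Set Γ) (pre u (ex i.1) Y (j * q)) (pre u (ex i.1) Y ((j + 1) * q)) ≤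
        q * a + wordLength (S : Set Γ) (n j) := by
      unfold nd
      rw [pre_letter u _ y n hq j, inv_mul_cancel_left]
      exact (wordLength_mul_le hS _ _).trans (Nat.add_le_add_right (hblk _ _) _)
    have h2 : (nd (S : Set Γ) (pre u (ex i.1) Y (j * q)) (pre u (ex i.1) Y ((j + 1) * q)) : ℝ) ≤
        q * a + wordLength (S : Set Γ) (n j) := by exact_mod_cast h1
    have h3 : (wordLength (S : Set Γ) (n j) : ℝ) ≤ C₀ * (q * (μ * ‖t‖ + Rr) + 1) :=
      (hnn2 (w j)).trans (mul_le_mul_of_nonneg_left (by linarith [hw j]) hC₀0)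
    have h4 : 0 ≤ C₀ * (μ * ‖t‖ + Rr) := by positivity
    have h5 : 0 ≤ C₀ * q := by positivity
    have h6 : (0:ℝ) ≤ a := Nat.cast_nonneg _
    calc _ ≤ q * a + C₀ * (q * (μ * ‖t‖ + Rr) + 1) := by linarith
      _ ≤ (a + C₀ * (μ * ‖t‖ + Rr + 1)) * (q + 1) := by nlinarith
  · rintro ⟨e, he⟩ ⟨e', he'⟩ h
    simp only at h
    apply Subtype.ext
    funext ⟨l, hl⟩
    have h1 := pre_inj R i₀ huN hu0 (Y := Y) (fun r => by
      have h2 : ∀ r, ‖((R.χ i₀ (pre u (fun _ => 0) Y r) : ℂˣ) : ℂ)‖ =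
          Real.exp (R.Λ i₀ (fun a => ((v r a : ℤ) : ℝ))) := by
        intro r
        rw [← Real.exp_log (norm_pos_iff.2 (Units.ne_zero (R.χ i₀ (pre u (fun _ => 0) Y r)))),
          R.log_χ]
        congr 2
        funext a
        rw [← hPh (fun _ => 0) r]
        rfl
      rw [h2, h2]
      have h3 : (3:ℝ) = Real.exp (Real.log 3) := (Real.exp_log (by norm_num)).symm
      rw [h3, ← Real.exp_add]
      apply Real.exp_le_exp.2
      have h4 : ∀ r, |R.Λ i₀ (fun a => ((v r a : ℤ) : ℝ)) - r * μ * R.Λ i₀ b| ≤ cΛ * (1 / 2) := by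
        intro r
        have h5 : R.Λ i₀ (fun a => ((v r a : ℤ) : ℝ)) - r * μ * R.Λ i₀ b =
            R.Λ i₀ ((fun a => ((v r a : ℤ) : ℝ)) - ((r:ℝ) * μ) • b) := by
          rw [map_sub, map_smul, smul_eq_mul]
        rw [h5]
        refine (hcΛ _).trans (mul_le_mul_of_nonneg_left ?_ hcΛ0)
        rw [pi_norm_le_iff_of_nonneg (by norm_num)]
        intro a
        rw [Pi.sub_apply, Pi.smul_apply, smul_eq_mul, Real.norm_eq_abs]
        exact hv r a
      have h6 := (abs_le.1 (h4 r)).2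
      have h7 := (abs_le.1 (h4 (r + 1))).1
      push_cast at h7
      have h8 : ((r:ℝ) + 1) * μ * R.Λ i₀ b = r * μ * R.Λ i₀ b + (cΛ + Real.log 3) := by
        rw [← hμ]; ring
      rw [h8] at h7
      linarith) (hex e) (hex e') h l hl
    simp only [ex, dif_pos hl] at h1
    cases h2 : e ⟨l, hl⟩ <;> cases h3 : e' ⟨l, hl⟩ <;> simp [h2, h3] at h1 ⊢
  · intro i j hj a'
    have h1 : hgtR R.π (pre u (ex i.1) Y (j * q)) a' = ((v (j * q) a' : ℤ) : ℝ) := by
      unfold hgtR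
      rw [hPh]
    rw [h1]
    have h2 := hv (j * q) a'
    push_cast at h2
    have h3 : (0:ℝ) ≤ (T.card : ℝ) ^ J := by positivity
    have h4 : 0 ≤ (J : ℝ) * C₀ := by positivity
    linarith
  · intro i
    have key : ∀ j ≤ J, ‖β (pre u (ex i.1) Y (j * q)) - ((j*q*μ:ℝ))•t‖ ≤ j * (ε' * q + C₀) := by
      intro j
      induction j with
      | zero => intro _; simp [pre_zero, hβ.one]
      | succ j ih =>
        intro hj
        have hjJ : j < J := by omega
        have h1 := ih hjJ.le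
        have h2 : pre u (ex i.1) Y ((j + 1) * q) = pre u (ex i.1) Y (j * q) * (blk i.1 j * n j) :=
          pre_letter u _ y n hq j
        have h3 : β (pre u (ex i.1) Y ((j + 1) * q)) = β (pre u (ex i.1) Y (j * q)) +
            (U (σ (v (j * q))) (β (blk i.1 j)) + U (σ (v ((j + 1) * q))) (β (n j))) := by
          have h4 : U (pre u (ex i.1) Y (j * q)) (U (blk i.1 j) (β (n j))) =
              U (σ (v ((j + 1) * q))) (β (n j)) := by
            rw [← U_mul]
            apply U_eq_of_hgt R hUN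
            have h5 := hPh (ex i.1) ((j + 1) * q)
            rw [h2, ← mul_assoc, hgt_mul, hgt_of_mem_N R (hnnN _), add_zero] at h5
            rw [h5, hσ]
          rw [h2, hβ, hβ (blk i.1 j) (n j), map_add, h4,
            U_eq_of_hgt R hUN (g := pre u (ex i.1) Y (j * q)) (h := σ (v (j * q)))
              (by rw [hPh, hσ]) (β (blk i.1 j))]
        have h4 : U (σ (v ((j + 1) * q))) (w j) =
            ((q : ℝ) * μ) • t - U (σ (v (j * q))) ((q : ℝ) • tt j) := by
          simp only [w]; rw [U_apply_inv]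
        have h5 : β (pre u (ex i.1) Y ((j + 1) * q)) - (((j + 1 : ℕ) * q * μ : ℝ)) • t =
            (β (pre u (ex i.1) Y (j * q)) - ((j*q*μ:ℝ))•t) +
            (U (σ (v (j * q))) (β (blk i.1 j) - (q : ℝ) • tt j) +
              U (σ (v ((j + 1) * q))) (β (n j) - w j)) := by
          rw [h3, map_sub, map_sub, h4]
          have h6 : (((j + 1 : ℕ) * q * μ : ℝ)) • t = ((j*q*μ:ℝ))•t + ((q : ℝ) * μ) • t := by
            rw [← add_smul]; congr 1; push_cast; ring
          rw [h6]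
          abel
        have h6 : ‖β (blk i.1 j) - (q : ℝ) • tt j‖ ≤ ε' * q := by
          have h7 := hf i.1 ⟨j, hjJ⟩
          rw [i.2] at h7
          simp only [tt, dif_pos hjJ]
          exact h7
        have h7 : ‖β (n j) - w j‖ ≤ C₀ := hnn1 (w j)
        rw [h5]
        refine (norm_add_le _ _).trans ?_
        refine (add_le_add h1 (norm_add_le _ _)).trans ?_
        rw [U_norm, U_norm]
        push_cast
        linarith
    intro j hj
    refine (key j hj).trans ?_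
    have h1 : (j:ℝ) ≤ J := by exact_mod_cast hj
    have h2 : 0 ≤ ε' * q + C₀ := by positivity
    have h3 : (j:ℝ) * (ε' * q + C₀) ≤ J * (ε' * q + C₀) := mul_le_mul_of_nonneg_right h1 h2
    have h4 : (J:ℝ) * ε' ≤ ε := by
      rw [hε']
      have : (0:ℝ) ≤ J := Nat.cast_nonneg _
      rw [mul_div_assoc', div_le_iff₀ (by positivity)]
      nlinarith
    have h5 : (J:ℝ) * ε' * q ≤ ε * q := mul_le_mul_of_nonneg_right h4 hq0.le
    have h6 : (0:ℝ) ≤ (T.card : ℝ) ^ J := by positivity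
    linarith

end Main

end Crest.Agent.R182.Zd
end

-- ▼ part R182/MicRel

/-!
# Row 182, module MICRO, block Z5 (author: helper671): the dual relation

If the height cocycle is `L` up to almost coboundaries for `m`, and `L'` for the normalised dual
mean, then `L ∘ L' = id`.
-/

set_option autoImplicit false

namespace Crest.Agent.R182.Mic

open Crest.GroupTheory Crest.Geometry Crest.Agent.R182.QI Crest.Agent.R182.FinRed
  Crest.Agent.R182.FinPath

variable {Γ : Type*} [Group Γ] {S : Finset Γ} {K k : ℕ}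

/-- the height cocycle is linear up to almost coboundaries -/
def AppC (S : Finset Γ) (K : ℕ) {k : ℕ} (π : Γ →* Multiplicative (Fin k → ℤ))
    (m : (Om (S : Set Γ) K → ℝ) → ℝ) (L : (Fin k → ℝ) →ₗ[ℝ] (Fin k → ℝ)) : Prop :=
  ∀ ε : ℝ, 0 < ε → ∀ B : Finset Γ, ∃ ξ : Fin k → Om (S : Set Γ) K → ℝ,
    (∀ i, ξ i ∈ bddAlg (Om (S : Set Γ) K)) ∧ ∀ x ∈ B, ∀ i,
      m (fun w => |hc π i x w - L (hgtR π x) i - (ξ i w - ξ i (w.act x))|) ≤ ε

theorem hgtR_mul' (π : Γ →* Multiplicative (Fin k → ℤ)) (g h : Γ) :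
    hgtR π (g * h) = hgtR π g + hgtR π h := by
  ext i
  simp only [hgtR, hgt_mul, Pi.add_apply]
  push_cast
  rfl

theorem hgtR_pow' (π : Γ →* Multiplicative (Fin k → ℤ)) (g : Γ) (n : ℕ) :
    hgtR π (g ^ n) = (n : ℝ) • hgtR π g := by
  induction n with
  | zero =>
    ext i
    simp [hgtR, hgt_one]
  | succ n ih =>
    rw [pow_succ, hgtR_mul', ih]
    push_cast
    rw [add_smul, one_smul]

theorem hc_eq (π : Γ →* Multiplicative (Fin k → ℤ)) (i : Fin k) (g : Γ)
    (w : Om (S : Set Γ) K) : hc π i g w = hgtR π (w.F g) i := rfl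

/-- the mean of the height cocycle -/
theorem mean_hc (hS : Subgroup.closure (S : Set Γ) = ⊤) {π : Γ →* Multiplicative (Fin k → ℤ)}
    {m : (Om (S : Set Γ) K → ℝ) → ℝ} (hm : Erg.IMean Om.act (bddAlg (Om (S : Set Γ) K)) m)
    {L : (Fin k → ℝ) →ₗ[ℝ] (Fin k → ℝ)} (hL : AppC S K π m L) (y : Γ) (i : Fin k) :
    m (hc π i y) = L (hgtR π y) i := by
  have hco := coc_hc (K := K) hS π i
  have ha := alg_Om (S := (S : Set Γ)) (K := K)
  by_contra hne
  have hpos : 0 < |m (hc π i y) - L (hgtR π y) i| := abs_pos.2 (sub_ne_zero.2 hne)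
  obtain ⟨ξ, hξ, hx⟩ := hL (|m (hc π i y) - L (hgtR π y) i| / 2) (by positivity) {y}
  have h1 := hx y (Finset.mem_singleton_self y) i
  have hξs := ha.shift y _ (hξ i)
  have hmem : (hc π i y - (fun _ => L (hgtR π y) i) - (ξ i - fun w => ξ i (w.act y))) ∈
      bddAlg (Om (S : Set Γ) K) :=
    sub_mem (sub_mem (hco.mem y) (Erg.const_mem _ _)) (sub_mem (hξ i) hξs)
  have h2 : m (hc π i y - (fun _ => L (hgtR π y) i) - (ξ i - fun w => ξ i (w.act y))) =
      m (hc π i y) - L (hgtR π y) i := by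
    rw [hm.toPInv.sub (sub_mem (hco.mem y) (Erg.const_mem _ _)) (sub_mem (hξ i) hξs),
      hm.toPInv.sub (hco.mem y) (Erg.const_mem _ _), hm.toPInv.sub (hξ i) hξs,
      hm.toPInv.inv y _ (hξ i), hm.const]
    ring
  have h3 : |m (hc π i y) - L (hgtR π y) i| ≤
      m (fun w => |hc π i y w - L (hgtR π y) i - (ξ i w - ξ i (w.act y))|) := by
    rw [← h2]
    have h4 := hm.toPInv.neg (abs_mem hmem)
    have h5 := hm.toPInv.mono (neg_mem (abs_mem hmem)) hmem fun w => neg_abs_le _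
    have h6 := hm.toPInv.mono hmem (abs_mem hmem) fun w => le_abs_self _
    rw [h4] at h5
    exact abs_le.2 ⟨h5, h6⟩
  linarith

/-- the error cocycle -/
theorem coc_err (hS : Subgroup.closure (S : Set Γ) = ⊤) (π : Γ →* Multiplicative (Fin k → ℤ))
    (L : (Fin k → ℝ) →ₗ[ℝ] (Fin k → ℝ)) {ξ : Fin k → Om (S : Set Γ) K → ℝ}
    (hξ : ∀ i, ξ i ∈ bddAlg (Om (S : Set Γ) K)) (i : Fin k) :
    Erg.Coc Om.act (bddAlg (Om (S : Set Γ) K))
      (fun x w => hc π i x w - L (hgtR π x) i - (ξ i w - ξ i (w.act x))) where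
  mem x := sub_mem (sub_mem ((coc_hc hS π i).mem x) (Erg.const_mem _ _))
    (sub_mem (hξ i) ((alg_Om (S := (S : Set Γ)) (K := K)).shift x _ (hξ i)))
  coc g h w := by
    rw [(coc_hc (K := K) hS π i).coc g h w, hgtR_mul', map_add, Pi.add_apply, Om.act_mul]
    ring

theorem dual_rel (hS : Subgroup.closure (S : Set Γ) = ⊤) {π : Γ →* Multiplicative (Fin k → ℤ)}
    (hπ : Function.Surjective π) {m : (Om (S : Set Γ) K → ℝ) → ℝ}
    (hm : Erg.IMean Om.act (bddAlg (Om (S : Set Γ) K)) m)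
    {L L' : (Fin k → ℝ) →ₗ[ℝ] (Fin k → ℝ)} (hL : AppC S K π m L)
    (hL' : AppC S K π (fun φ => dual m φ / dual m 1) L') : L ∘ₗ L' = LinearMap.id := by
  classical
  set 𝓐 := bddAlg (Om (S : Set Γ) K) with h𝓐
  have hm' := dual_imean hS hm
  have hd := dual_pinv hS hm.toPInv
  set Z := dual m 1 with hZ
  have hZ0 : 0 < Z := dual_pos' hS hm.toPInv hm.one
  obtain ⟨D, hD⟩ := exists_hom_bound hS π
  set M₁ : ℝ := ((ballF S K).card : ℝ) with hM₁
  set M₂ : ℝ := ((ballF S (2 * K)).card : ℝ) with hM₂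
  have hM₁0 : 0 ≤ M₁ := Nat.cast_nonneg _
  have hM₂0 : 0 ≤ M₂ := Nat.cast_nonneg _
  -- Main estimate
  have main : ∀ ε : ℝ, 0 < ε → ∃ C₂ : ℝ, ∀ (y : Γ) (i : Fin k),
      |hgtR π y i - L (L' (hgtR π y)) i| * Z ≤
        C₂ + wordLength (S : Set Γ) y * (M₁ * (M₂ * ε)) := by
    intro ε hε
    obtain ⟨ξ, hξ, hx⟩ := hL ε hε (ballF S (2 * K))
    choose Cξ hCξ using hξ
    set C₁ : ℝ := ∑ i, |Cξ i| with hC₁
    have hC₁0 : 0 ≤ C₁ := Finset.sum_nonneg fun _ _ => abs_nonneg _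
    have hξb : ∀ i w, |ξ i w| ≤ C₁ := fun i w =>
      ((hCξ i w).trans (le_abs_self _)).trans
        (Finset.single_le_sum (f := fun i => |Cξ i|) (fun _ _ => abs_nonneg _) (Finset.mem_univ i))
    set C₃ : ℝ := D * (2 * K) + 2 * C₁ with hC₃
    have hC₃0 : 0 ≤ C₃ := by positivity
    refine ⟨M₁ * C₃, fun y i => ?_⟩
    set e : Γ → Om (S : Set Γ) K → ℝ := fun x w =>
      hc π i x w - L (hgtR π x) i - (ξ i w - ξ i (w.act x)) with he
    have hec : Erg.Coc Om.act 𝓐 e := coc_err hS π L (fun i => ⟨Cξ i, hCξ i⟩) i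
    have hb := transport_bound hS hm.toPInv hec y
    have hb2 : ∑ z ∈ ballF S (2 * K), m (fun w => |e z w|) ≤ M₂ * ε := by
      calc ∑ z ∈ ballF S (2 * K), m (fun w => |e z w|) ≤ ∑ z ∈ ballF S (2 * K), ε :=
            Finset.sum_le_sum fun z hz => hx z hz i
        _ = M₂ * ε := by rw [Finset.sum_const, nsmul_eq_mul]
    have hb3 : m (fs fun w y₀ => |e (w.E (y₀ * y)) w|) ≤
        wordLength (S : Set Γ) y * (M₁ * (M₂ * ε)) := by
      refine hb.trans ?_
      exact mul_le_mul_of_nonneg_left (mul_le_mul_of_nonneg_left hb2 hM₁0) (Nat.cast_nonneg _)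
    -- the function `Φ`
    set Φ : Om (S : Set Γ) K → ℝ := ∑ j, (L (Pi.single j 1) i) • hc π j y with hΦ
    have hΦmem : Φ ∈ 𝓐 := sum_mem fun j _ => 𝓐.smul_mem ((coc_hc hS π j).mem y) _
    have hΦv : ∀ w, Φ w = L (hgtR π (w.F y)) i := by
      intro w
      rw [hΦ, Finset.sum_apply]
      have h1 : hgtR π (w.F y) = ∑ j, (hgtR π (w.F y) j) • (Pi.single j (1 : ℝ) : Fin k → ℝ) := by
        ext l
        rw [Finset.sum_apply, Finset.sum_eq_single l]
        · simp
        · intro j _ hj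
          simp [hj.symm]
        · intro h; exact absurd (Finset.mem_univ l) h
      conv_rhs => rw [h1]
      rw [map_sum, Finset.sum_apply]
      refine Finset.sum_congr rfl fun j _ => ?_
      rw [map_smul, Pi.smul_apply, Pi.smul_apply, smul_eq_mul, smul_eq_mul, hc_eq]
      ring
    have hΦm : dual m Φ = Z * L (L' (hgtR π y)) i := by
      have h1 : dual m Φ / Z = ∑ j, (L (Pi.single j 1) i) * (L' (hgtR π y)) j := by
        have h2 := hm'.toPInv.sum Finset.univ (fun j => (L (Pi.single j 1) i) • hc π j y)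
          (fun j _ => 𝓐.smul_mem ((coc_hc hS π j).mem y) _)
        refine h2.trans (Finset.sum_congr rfl fun j _ => ?_)
        have h3 := hm'.toPInv.smul (L (Pi.single j 1) i) _ ((coc_hc (K := K) hS π j).mem y)
        rw [mean_hc hS hm' hL' y j] at h3
        exact h3
      have h2 : L (L' (hgtR π y)) i = ∑ j, (L (Pi.single j 1) i) * (L' (hgtR π y)) j := by
        have h3 : L' (hgtR π y) = ∑ j, (L' (hgtR π y) j) • (Pi.single j (1 : ℝ) : Fin k → ℝ) := by
          ext l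
          rw [Finset.sum_apply, Finset.sum_eq_single l]
          · simp
          · intro j _ hj
            simp [hj.symm]
          · intro h; exact absurd (Finset.mem_univ l) h
        conv_lhs => rw [h3]
        rw [map_sum, Finset.sum_apply]
        refine Finset.sum_congr rfl fun j _ => ?_
        rw [map_smul, Pi.smul_apply, smul_eq_mul]
        ring
      rw [h2, ← h1]
      field_simp
    -- pointwise inequality
    have hFB : FBdd fun (w : Om (S : Set Γ) K) y₀ => |e (w.E (y₀ * y)) w| :=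
      FBdd_coc hS hec y
    have hpt : ∀ w : Om (S : Set Γ) K,
        |hgtR π y i * fs (fl 1) w - fs (fl Φ) w| ≤
          M₁ * C₃ + fs (fun w y₀ => |e (w.E (y₀ * y)) w|) w := by
      intro w
      have h1 : hgtR π y i * fs (fl 1) w - fs (fl Φ) w =
          ∑ y₀ ∈ w.fib, (hgtR π y i - L (hgtR π (w.E (y₀ * y))) i) := by
        rw [fs, fs, Finset.mul_sum, ← Finset.sum_sub_distrib]
        refine Finset.sum_congr rfl fun y₀ hy₀ => ?_
        rw [Om.mem_fib hS] at hy₀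
        rw [fl_of _ w hy₀, fl_of _ w hy₀, hΦv, Om.flip_F]
        simp
      rw [h1]
      refine (Finset.abs_sum_le_sum_abs _ _).trans ?_
      have h2 : ∀ y₀ ∈ w.fib, |hgtR π y i - L (hgtR π (w.E (y₀ * y))) i| ≤
          C₃ + |e (w.E (y₀ * y)) w| := by
        intro y₀ hy₀
        rw [Om.mem_fib hS] at hy₀
        set x := w.E (y₀ * y) with hxdef
        have h3 : hc π i x w = L (hgtR π x) i + e x w + (ξ i w - ξ i (w.act x)) := by
          rw [he]; ring
        -- `F x` is close to `y₀ * y`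
        have h4 : |hgtR π (w.F x) i - hgtR π y i| ≤ D * (2 * K) := by
          have h5 : hgtR π (w.F x) i - hgtR π y i =
              ((Multiplicative.toAdd (π ((y₀ * y)⁻¹ * w.F x * y₀)) i : ℤ) : ℝ) := by
            have h6 : hgtR π (w.F x) = hgtR π y + hgtR π ((y₀ * y)⁻¹ * w.F x * y₀) := by
              have h7 : hgtR π ((y₀ * y) * ((y₀ * y)⁻¹ * w.F x)) = hgtR π (w.F x) := by
                rw [mul_inv_cancel_left]
              rw [← h7, hgtR_mul', hgtR_mul', hgtR_mul' π ((y₀ * y)⁻¹ * w.F x)]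
              abel
            rw [h6, Pi.add_apply, add_sub_cancel_left]
            rfl
          rw [h5]
          refine (hD _ i).trans ?_
          have h6 : wordLength (S : Set Γ) ((y₀ * y)⁻¹ * w.F x * y₀) ≤ 2 * K := by
            have h7 := wordLength_mul_le hS ((y₀ * y)⁻¹ * w.F x) y₀
            have h8 := w.fib_len hS hy₀
            have h9 : wordLength (S : Set Γ) ((y₀ * y)⁻¹ * w.F x) ≤ K := by
              have := w.FE (y₀ * y)
              rw [nd_comm hS] at this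
              exact this
            omega
          have h7 : (wordLength (S : Set Γ) ((y₀ * y)⁻¹ * w.F x * y₀) : ℝ) ≤ 2 * K := by
            exact_mod_cast h6
          exact mul_le_mul_of_nonneg_left h7 (Nat.cast_nonneg _)
        rw [← hc_eq (S := S) (K := K) π i x w, h3] at h4
        have h5 : hgtR π y i - L (hgtR π x) i =
            -(L (hgtR π x) i + e x w + (ξ i w - ξ i (w.act x)) - hgtR π y i) + e x w +
              (ξ i w - ξ i (w.act x)) := by ring
        rw [h5]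
        have h6 := hξb i w
        have h7 := hξb i (w.act x)
        calc _ ≤ |-(L (hgtR π x) i + e x w + (ξ i w - ξ i (w.act x)) - hgtR π y i) + e x w| +
              |ξ i w - ξ i (w.act x)| := abs_add_le _ _
          _ ≤ |-(L (hgtR π x) i + e x w + (ξ i w - ξ i (w.act x)) - hgtR π y i)| + |e x w| +
              (|ξ i w| + |ξ i (w.act x)|) := add_le_add (abs_add_le _ _) (abs_sub _ _)
          _ ≤ C₃ + |e x w| := by rw [abs_neg]; linarith
      calc ∑ y₀ ∈ w.fib, |hgtR π y i - L (hgtR π (w.E (y₀ * y))) i|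
          ≤ ∑ y₀ ∈ w.fib, (C₃ + |e (w.E (y₀ * y)) w|) := Finset.sum_le_sum h2
        _ = w.fib.card * C₃ + fs (fun w y₀ => |e (w.E (y₀ * y)) w|) w := by
          rw [Finset.sum_add_distrib, Finset.sum_const, nsmul_eq_mul]; rfl
        _ ≤ M₁ * C₃ + fs (fun w y₀ => |e (w.E (y₀ * y)) w|) w := by
          have h3 : (w.fib.card : ℝ) ≤ M₁ := Nat.cast_le.2 (w.fib_card hS)
          have := mul_le_mul_of_nonneg_right h3 hC₃0
          linarith
    -- apply `m`
    have hmem1 := fs_fl_mem hS (one_mem 𝓐)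
    have hmemΦ := fs_fl_mem hS hΦmem
    have hmemF := fs_mem hS hFB
    have hlhs : (hgtR π y i) • fs (fl (1 : Om (S : Set Γ) K → ℝ)) - fs (fl Φ) ∈ 𝓐 :=
      sub_mem (𝓐.smul_mem hmem1 _) hmemΦ
    have hval : m ((hgtR π y i) • fs (fl (1 : Om (S : Set Γ) K → ℝ)) - fs (fl Φ)) =
        (hgtR π y i - L (L' (hgtR π y)) i) * Z := by
      rw [hm.toPInv.sub (𝓐.smul_mem hmem1 _) hmemΦ, hm.toPInv.smul _ _ hmem1]
      show hgtR π y i * dual m 1 - dual m Φ = _
      rw [hΦm]; ring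
    have hrhs : ((fun _ => M₁ * C₃) + fs fun (w : Om (S : Set Γ) K) y₀ => |e (w.E (y₀ * y)) w|) ∈ 𝓐 :=
      add_mem (Erg.const_mem _ _) hmemF
    have hrv : m ((fun _ => M₁ * C₃) + fs fun (w : Om (S : Set Γ) K) y₀ => |e (w.E (y₀ * y)) w|) ≤
        M₁ * C₃ + wordLength (S : Set Γ) y * (M₁ * (M₂ * ε)) := by
      rw [hm.toPInv.add _ (Erg.const_mem _ _) _ hmemF, hm.const]
      linarith
    have hup := hm.toPInv.mono hlhs hrhs fun w => (le_abs_self _).trans (hpt w)
    have hlo := hm.toPInv.mono (neg_mem hlhs) hrhs fun w => (neg_le_abs _).trans (hpt w)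
    rw [hm.toPInv.neg hlhs] at hlo
    rw [hval] at hup hlo
    have h8 : |(hgtR π y i - L (L' (hgtR π y)) i) * Z| ≤
        M₁ * C₃ + wordLength (S : Set Γ) y * (M₁ * (M₂ * ε)) :=
      abs_le.2 ⟨by linarith, by linarith⟩
    rw [abs_mul, abs_of_pos hZ0] at h8
    exact h8
  -- homogenise
  have hom : ∀ (y : Γ) (i : Fin k), hgtR π y i = L (L' (hgtR π y)) i := by
    intro y i
    by_contra hne
    set δ := |hgtR π y i - L (L' (hgtR π y)) i| * Z with hδ
    have hδ0 : 0 < δ := mul_pos (abs_pos.2 (sub_ne_zero.2 hne)) hZ0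
    set q : ℝ := wordLength (S : Set Γ) y * (M₁ * M₂) with hq
    have hq0 : 0 ≤ q := by positivity
    obtain ⟨C₂, hC₂⟩ := main (δ / (2 * (q + 1))) (by positivity)
    have h1 : ∀ n : ℕ, n * δ ≤ C₂ + n * (δ / 2) := by
      intro n
      have h2 := hC₂ (y ^ n) i
      rw [hgtR_pow', map_smul, map_smul, Pi.smul_apply, Pi.smul_apply, smul_eq_mul, smul_eq_mul,
        ← mul_sub, abs_mul, Nat.abs_cast] at h2
      have h3 : (wordLength (S : Set Γ) (y ^ n) : ℝ) ≤ n * wordLength (S : Set Γ) y := by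
        exact_mod_cast wordLength_pow_le hS y n
      have h4 : (wordLength (S : Set Γ) (y ^ n) : ℝ) * (M₁ * (M₂ * (δ / (2 * (q + 1))))) ≤
          n * (δ / 2) := by
        calc (wordLength (S : Set Γ) (y ^ n) : ℝ) * (M₁ * (M₂ * (δ / (2 * (q + 1)))))
            ≤ (n * wordLength (S : Set Γ) y) * (M₁ * (M₂ * (δ / (2 * (q + 1))))) :=
              mul_le_mul_of_nonneg_right h3 (by positivity)
          _ = n * (δ / 2) * (q / (q + 1)) := by rw [hq]; field_simp
          _ ≤ n * (δ / 2) * 1 := by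
              apply mul_le_mul_of_nonneg_left _ (by positivity)
              rw [div_le_one (by positivity)]
              linarith
          _ = n * (δ / 2) := mul_one _
      calc n * δ = n * |hgtR π y i - L (L' (hgtR π y)) i| * Z := by rw [hδ]; ring
        _ ≤ _ := h2
        _ ≤ C₂ + n * (δ / 2) := by linarith
    obtain ⟨n, hn⟩ := exists_nat_gt (C₂ / (δ / 2))
    rw [div_lt_iff₀ (by positivity)] at hn
    have h2 := h1 n
    linarith
  refine LinearMap.pi_ext' fun j => ?_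
  refine LinearMap.ext_ring ?_
  obtain ⟨y, hy⟩ := hπ (Multiplicative.ofAdd (Pi.single j (1 : ℤ)))
  have h1 : hgtR π y = Pi.single j 1 := by
    ext l
    have h2 : hgt π y = Pi.single j 1 := by rw [hgt, hy]; rfl
    rw [hgtR, h2]
    by_cases hl : l = j
    · subst hl; simp
    · simp [hl]
  ext i
  have h2 := hom y i
  rw [h1] at h2
  simpa using h2.symm

theorem dual_rel' (hS : Subgroup.closure (S : Set Γ) = ⊤) {π : Γ →* Multiplicative (Fin k → ℤ)}
    (hπ : Function.Surjective π) {m : (Om (S : Set Γ) K → ℝ) → ℝ}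
    (hm : Erg.IMean Om.act (bddAlg (Om (S : Set Γ) K)) m)
    {L L' : (Fin k → ℝ) →ₗ[ℝ] (Fin k → ℝ)} (hL : AppC S K π m L)
    (hL' : AppC S K π (fun φ => dual m φ / dual m 1) L') : L' ∘ₗ L = LinearMap.id := by
  have h := dual_rel hS hπ hm hL hL'
  exact (LinearMap.comp_eq_id_comm ℝ (Fin k → ℝ)).1 h

end Crest.Agent.R182.Mic
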