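import Mathlib
import Crest.Agent.R182.ElBoxI
import Crest.Agent.R182.BoxRaw
import Crest.Agent.R182.StarBM
import Crest.Agent.R182.GenStar
import Crest.Agent.R182.BoxOne
import Crest.Agent.R182.ZdFinal
import Crest.Agent.R182.MicRel_Mg
import Crest.Agent.R182.ErgLip
import Crest.Agent.R182.ConvG
import Crest.Agent.R182.MicDual
import Crest.Agent.R182.HtEss
import Crest.Agent.R182.PolycRoot
import Crest.Agent.R182.ZdSlab_Mg
import Crest.Agent.R182.MicSeg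
import Crest.Agent.R182.CapFin
import Crest.Agent.R182.NbAdM
import Crest.Agent.R182.BoxMain2_Mg
import Crest.Agent.R182.OneScaleTiny
import Crest.Agent.R182.HoleCore
import Crest.Agent.R182.ElHole_Mg
import Crest.Agent.R182.BoxFacts
import Crest.Agent.R182.Asm3

-- ▼ part R182/ElUnit
section

set_option autoImplicit false
set_option linter.unusedSectionVars false

open MeasureTheory Set
open scoped Pointwise RealInnerProductSpace ENNReal

namespace Crest.Agent.R182.ElI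

open Crest.GroupTheory Crest.Geometry Crest.Agent.R182.QI Crest.Agent.R182.Core
  Crest.Agent.R182.Nb Crest.Agent.R182.Gen Crest.Agent.R182.OneScale Crest.Agent.R182.HoleOne

section Raw

variable {Γ : Type*} [Group Γ] {k : ℕ} {S : Set Γ} {π : Γ →* Multiplicative (Fin k → ℤ)}
  {M : BModel S π} {E : Type} [NormedAddCommGroup E] [InnerProductSpace ℝ E]

theorem inner_leg_le {G : Geo M E} {γ ω : ℝ} (hγ : Gap G γ) (hω : 0 ≤ ω) (hωγ : ω ≤ γ / 4)
    {Z : G.R → ℝ} (hZ : El.NR ω Z) {r : G.R} {t : ℝ} (ht0 : 0 ≤ t) (ht : t ≤ Z r) (e : G.R) :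
    ⟪(e : E), t • (r : E)⟫ ≤ Z e := by
  rw [inner_smul_right]
  have h1 := abs_le.1 (hZ e)
  have h2 := abs_le.1 (hZ r)
  have hγ0 := hγ.1
  have hγ1 := hγ.2.1
  by_cases her : e = r
  · subst her
    rw [real_inner_self_eq_norm_sq, G.norm_ray]
    linarith
  · have h3 := hγ.2.2 e r her
    have h4 : t * ⟪(e : E), (r : E)⟫ ≤ t * (1 - γ) := mul_le_mul_of_nonneg_left h3 ht0
    have h5 : t * (1 - γ) ≤ (1 + ω) * (1 - γ) :=
      mul_le_mul_of_nonneg_right (by linarith [h2.2]) (by linarith)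
    nlinarith [h1.1]

/-- (i) of the interface: a raw law at `x * n₀` is a law in the form of `El`, with the same `σ`
and the normalised `θ`. -/
theorem lawAt_of_raw {G : Geo M E} (cs : Cst G) (hc1 : 0 < cs.c1) {γ ω : ℝ} (hγ : Gap G γ)
    (hω : 0 ≤ ω) (hωγ : ω ≤ γ / 4) {Ψ : Γ → Γ} {x : M.G} {Sc τ η ε δ : ℝ} (hτ : 0 < τ)
    (hη : 0 ≤ η) (hε : η + τ ≤ ε) (hδ : η * CA M cs.c1 ≤ δ) {u : G.R → M.G} {Z : G.R → ℝ}
    (hZ : El.NR ω Z) {n₀ : M.NN} {σ : Equiv.Perm G.R} {L : E →ₗ[ℝ] E} {θ : E}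
    (hL : ∀ r : G.R, L (r : E) = (σ r : E))
    (h : RawLaw G Ψ Sc τ u η Z (x * M.toG n₀) L θ) :
    LawAt G cs Ψ x Sc τ u ε δ Z n₀ σ (θ - Sc⁻¹ • G.T (fh M Ψ x)) := by
  have hZ0 : ∀ r, 0 ≤ Z r := fun r => by
    have h1 := abs_le.1 (hZ r)
    linarith [hγ.2.1, h1.1]
  refine lawAt_of_legLaw cs hc1 hτ hε hη hδ hZ0 (le_trans (measure_mono ?_) h)
  rintro n ⟨hn, hbad⟩
  refine ⟨hn, fun hraw => hbad fun r j hj => ?_⟩
  have hj0 : 0 ≤ (j : ℝ) * τ := by positivity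
  have h1 := hraw [(r, j)] (by simp) (by
    intro w' hw' e
    rcases w' with _ | ⟨p, w'⟩
    · rw [hw_nil, inner_zero_right]; exact hZ0 e
    · obtain ⟨hp, hw''⟩ := List.cons_prefix_cons.1 hw'
      have : w' = [] := List.prefix_nil.1 hw''
      subst this hp
      rw [hw_cons, hw_nil, add_zero]
      exact inner_leg_le hγ hω hωγ hZ hj0 hj e)
  rw [hw_cons, hw_nil, add_zero, map_smul, hL] at h1
  have e1 : uw u [(r, j)] = u r ^ j := by simp [uw]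
  rw [e1] at h1
  exact h1

/-- the field `box` of `El.Facts` from raw laws at all base points -/
theorem boxAt_of_raw {G : Geo M E} (cs : Cst G) (hc1 : 0 < cs.c1) {γ ω : ℝ} (hγ : Gap G γ)
    (hω : 0 ≤ ω) (hωγ : ω ≤ γ / 4) {Ψ : Γ → Γ} {Sc τ η ε δ : ℝ} (hτ : 0 < τ)
    (hη : 0 ≤ η) (hε : η + τ ≤ ε) (hδ : η * CA M cs.c1 ≤ δ) {u : G.R → M.G}
    (h : ∀ Z, adm τ ω Z → ∀ y : M.G, ∃ L ∈ LLE G, ∃ θ : E, RawLaw G Ψ Sc τ u η Z y L θ)
    (x : M.G) : BoxAt G cs Ψ x Sc τ u ω ε δ := by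
  intro Z hZ n₀
  obtain ⟨L, ⟨σ, hL⟩, θ, hraw⟩ := h Z hZ (x * M.toG n₀)
  exact ⟨σ, _, lawAt_of_raw cs hc1 hγ hω hωγ hτ hη hε hδ hZ.2 hL hraw⟩

end Raw

section Legs

variable {Γ : Type*} [Group Γ] {k : ℕ} {S : Finset Γ} {π : Γ →* Multiplicative (Fin k → ℤ)}



variable {M : BModel (S : Set Γ) π} [Countable Γ] {E : Type} [NormedAddCommGroup E]
  [InnerProductSpace ℝ E] {G : Geo M E} {V : Set M.NN} {RC : ℝ} {P : BModel.CapPar M G.T V RC}
  {Cb eps ε₁ τ : ℝ}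


/-- the exponents of the unit legs are at most linear in the scale -/
theorem exists_p_le (𝓛 : Star.Legs (M.toCap P) G.RS (Star.vts M) Cb eps) (hτ : 0 < τ) :
    ∃ Cp : ℝ, 0 ≤ Cp ∧ ∀ (N : ℕ) (e : G.R), (𝓛.p N τ e : ℝ) ≤ Cp * N := by
  refine ⟨∑ e : G.R, τ / 𝓛.mE e, Finset.sum_nonneg fun e _ =>
    div_nonneg hτ.le (𝓛.mE_pos e).le, fun N e => ?_⟩
  have h1 := 𝓛.p_le (N := N) hτ.le e
  have h2 := 𝓛.mE_pos e
  have h3 : (𝓛.p N τ e : ℝ) ≤ τ / 𝓛.mE e * N := by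
    rw [div_mul_eq_mul_div, le_div_iff₀ h2]; exact h1
  refine h3.trans (mul_le_mul_of_nonneg_right ?_ (Nat.cast_nonneg N))
  exact Finset.single_le_sum (f := fun e : G.R => τ / 𝓛.mE e)
    (fun e _ => div_nonneg hτ.le (𝓛.mE_pos e).le) (Finset.mem_univ e)

end Legs

end Crest.Agent.R182.ElI
end

-- ▼ part R182/StarGlue
section

set_option autoImplicit false
set_option linter.unusedSectionVars false

open MeasureTheory List

namespace Crest.Agent.R182.Gen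

open Crest.Agent.R182.Nb Crest.Agent.R182.Core Crest.Agent.R182.Cap Crest.Agent.R182.Star
  Crest.Agent.R182.QI Crest.Agent.R182.Erg Crest.Agent.R182.OneScale Crest.Agent.R182.Conv

variable {Γ : Type*} [Group Γ] {k : ℕ} {π : Γ →* Multiplicative (Fin k → ℤ)} {S : Finset Γ}
  {M : BModel (S : Set Γ) π} [Countable Γ] {E : Type} [NormedAddCommGroup E]
  [InnerProductSpace ℝ E] {T : (Fin k → ℝ) ≃ₗ[ℝ] E} {V : Set M.NN} {RC : ℝ}
  {R : RSys (GI M) E}

/-- **the law per point in the boxes of near tuples**, one shape. -/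
theorem sgood_shape [FiniteDimensional ℝ E] [MeasurableSpace E] [BorelSpace E]
    (P : BModel.CapPar M T V RC) (hRC : M.a ≤ RC) {ρV : ℝ} (hρV : ∀ n ∈ V, ‖n‖ ≤ ρV)
    (hRS : (M.toCap P).S = R.toGenSys) {m1 : ℝ} (hm1 : 0 < m1) (hm11 : m1 ≤ 1)
    (hm1le : ∀ e ∈ R.Eb, ∀ e' ∈ R.Eb, e ≠ e' → inner ℝ e e' ≤ 1 - m1) (Cb : ℝ) (K : ℕ)
    {X : R.Eb → ℝ} (hX : ∀ e, |X e - 1| ≤ m1 / 10) (C2 CQ : ℝ) {η : ℝ} (hη : 0 < η) (kw : ℕ)
    {tW : ℝ} (htW : 0 ≤ tW) :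
    ∃ eps1 μ1 : ℝ, 0 < eps1 ∧ 0 < μ1 ∧ ∀ eps : ℝ, 0 ≤ eps → eps ≤ eps1 →
    ∀ 𝓛 : Legs (M.toCap P) R (vts M) Cb eps, ∀ R₀ : ℝ,
    ∃ (Tm : ℕ) (δ₀ μ₀ : ℝ), 0 < δ₀ ∧ 0 < μ₀ ∧ ∀ Rl Cg R1 τ₁ : ℝ, 0 < τ₁ →
    ∃ N0 : ℕ, 1 ≤ N0 ∧ ∀ N : ℕ, N0 ≤ N → ∀ (B : Finset M.G) (Tm' : ℕ) (δ₀' μ₀' : ℝ),
      (∀ e, 𝓛.b e ∈ B) → Tm ≤ Tm' → δ₀' ≤ δ₀ → μ₀' ≤ μ₀ →
      LipAt M (nrmT T) B K Tm' μ₀' δ₀' R₀ R1 τ₁ N →
      ∀ g : R.Eb → M.G, NearTup M T R Rl Cg μ1 N X g → Touch M (rayE hRS) g 1 ∧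
      ∀ Ψ : Γ → Γ, QIMap (S : Set Γ) (S : Set Γ) Ψ K → ∀ (x : M.G) (D1 : ℝ) (Q' : Set M.NN),
      1 ≤ D1 → MeasurableSet Q' →
      (volume : Measure M.NN) Q' ≤ ENNReal.ofReal CQ *
        volume (box M (fun i => D1 • fam M (rayE hRS) g i) 1) →
      (∀ n ∈ box M (fun i => D1 • fam M (rayE hRS) g i) 1, P.s * M.len (M.toG n) ≤ C2 * N) →
      (∀ g' : M.G, Sm M (fam M (rayE hRS) g) 1 g' → ∀ a ∈ V,
        ∀ q ∈ box M (fun i => D1 • fam M (rayE hRS) g i) 1, q * (M.conjN g' a)⁻¹ ∈ Q') →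
      (volume : Measure M.NN) {n | n ∈ box M (fun i => D1 • fam M (rayE hRS) g i) 1 ∧
        ¬ SGood 𝓛 N X kw tW η (M.ext Ψ) x n} ≤
      ENNReal.ofReal η * volume (box M (fun i => D1 • fam M (rayE hRS) g i) 1) := by
  obtain ⟨r0, hT⟩ := vts_Cl P hRC
  have hX2 : ∀ e, |X e - 1| ≤ 1 / 2 := fun e => (hX e).trans (by linarith)
  obtain ⟨τ, δ, ρ1, A, 𝒲, eps1, hτ, hδ, hρ1, hA, heps1, hW, hmain⟩ := star_law_bm P hRC hρV hRS Cb
    K (convex_Om (R := R) (X := X)) (by norm_num) (ball_Om hX2) C2 CQ hη kw htW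
  obtain ⟨eps2, μ1, heps2, hμ1, hab⟩ := absorb_star hRS hm1 hm11 hm1le hT Cb hX hτ hρ1 hW
  refine ⟨min eps1 eps2, μ1, lt_min heps1 heps2, hμ1, fun eps he0 he 𝓛 R₀ => ?_⟩
  obtain ⟨N1, hN1, hlaw⟩ := hmain eps he0 (he.trans (min_le_left _ _)) 𝓛
  obtain ⟨μ₀, hμ₀, hab⟩ := hab eps he0 (he.trans (min_le_right _ _)) 𝓛 R₀
  refine ⟨A * ∑ e : R.Eb, ⌈τ / 𝓛.mE e⌉₊, δ, μ₀, hδ, hμ₀, fun Rl Cg R1 τ₁ hτ₁ => ?_⟩
  obtain ⟨N2, hab⟩ := hab Rl Cg R1 τ₁ hτ₁
  refine ⟨max N1 N2, hN1.trans (le_max_left _ _), ?_⟩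
  intro N hN B Tm' δ₀' μ₀' hB hTm hδ₀ hμ₀' hlip g hg
  obtain ⟨ht, hsm, habs⟩ := hab N (le_of_max_le_right hN) g hg
  refine ⟨ht, ?_⟩
  intro Ψ hΨ x D1 Q' hD1 hQ' hCQ hlen hmv
  by_cases hQ0 : (volume : Measure M.NN) (box M (fun i => D1 • fam M (rayE hRS) g i) 1) = 0
  · refine le_of_eq_of_le (measure_mono_null (fun n hn => hn.1) hQ0) zero_le'
  exact hlaw B Tm' δ₀' R₀ μ₀ R1 τ₁ hB hδ₀ hTm N (le_of_max_le_left hN)
    (hlip.mono subset_rfl le_rfl hμ₀' le_rfl) Ψ hΨ x _ Q' (measurableSet_box M zero_le_one) hQ' hQ0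
    (volume_box_lt_top M zero_le_one).ne hCQ hlen (fun w hw a ha q hq => hmv _ (hsm w hw) a ha q hq)
    fun w hw e a ha l hl hlC i hi u hu => habs D1 hD1 w hw e a ha l hl hlC i hi u hu

/-- **the law per point in the boxes of near tuples**, finitely many shapes. -/
theorem sgood_shapes [FiniteDimensional ℝ E] [MeasurableSpace E] [BorelSpace E]
    (P : BModel.CapPar M T V RC) (hRC : M.a ≤ RC) {ρV : ℝ} (hρV : ∀ n ∈ V, ‖n‖ ≤ ρV)
    (hRS : (M.toCap P).S = R.toGenSys) {m1 : ℝ} (hm1 : 0 < m1) (hm11 : m1 ≤ 1)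
    (hm1le : ∀ e ∈ R.Eb, ∀ e' ∈ R.Eb, e ≠ e' → inner ℝ e e' ≤ 1 - m1) (Cb : ℝ) (K : ℕ)
    (𝒳 : Finset (R.Eb → ℝ)) (hX : ∀ X ∈ 𝒳, ∀ e, |X e - 1| ≤ m1 / 10) (C2 CQ : ℝ) {η : ℝ}
    (hη : 0 < η) (kw : ℕ) {tW : ℝ} (htW : 0 ≤ tW) :
    ∃ eps1 μ1 : ℝ, 0 < eps1 ∧ 0 < μ1 ∧ ∀ eps : ℝ, 0 ≤ eps → eps ≤ eps1 →
    ∀ 𝓛 : Legs (M.toCap P) R (vts M) Cb eps, ∀ R₀ : ℝ,
    ∃ (Tm : ℕ) (δ₀ μ₀ : ℝ), 0 < δ₀ ∧ 0 < μ₀ ∧ ∀ Rl Cg R1 τ₁ : ℝ, 0 < τ₁ →
    ∃ N0 : ℕ, 1 ≤ N0 ∧ ∀ N : ℕ, N0 ≤ N → ∀ (B : Finset M.G) (Tm' : ℕ) (δ₀' μ₀' : ℝ),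
      (∀ e, 𝓛.b e ∈ B) → Tm ≤ Tm' → δ₀' ≤ δ₀ → μ₀' ≤ μ₀ →
      LipAt M (nrmT T) B K Tm' μ₀' δ₀' R₀ R1 τ₁ N → ∀ X ∈ 𝒳,
      ∀ g : R.Eb → M.G, NearTup M T R Rl Cg μ1 N X g → Touch M (rayE hRS) g 1 ∧
      ∀ Ψ : Γ → Γ, QIMap (S : Set Γ) (S : Set Γ) Ψ K → ∀ (x : M.G) (D1 : ℝ) (Q' : Set M.NN),
      1 ≤ D1 → MeasurableSet Q' →
      (volume : Measure M.NN) Q' ≤ ENNReal.ofReal CQ *
        volume (box M (fun i => D1 • fam M (rayE hRS) g i) 1) →
      (∀ n ∈ box M (fun i => D1 • fam M (rayE hRS) g i) 1, P.s * M.len (M.toG n) ≤ C2 * N) →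
      (∀ g' : M.G, Sm M (fam M (rayE hRS) g) 1 g' → ∀ a ∈ V,
        ∀ q ∈ box M (fun i => D1 • fam M (rayE hRS) g i) 1, q * (M.conjN g' a)⁻¹ ∈ Q') →
      (volume : Measure M.NN) {n | n ∈ box M (fun i => D1 • fam M (rayE hRS) g i) 1 ∧
        ¬ SGood 𝓛 N X kw tW η (M.ext Ψ) x n} ≤
      ENNReal.ofReal η * volume (box M (fun i => D1 • fam M (rayE hRS) g i) 1) := by
  classical
  induction 𝒳 using Finset.induction_on with
  | empty =>
    exact ⟨1, 1, one_pos, one_pos, fun eps _ _ 𝓛 R₀ => ⟨0, 1, 1, one_pos, one_pos,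
      fun Rl Cg R1 τ₁ _ => ⟨1, le_rfl, fun N _ B Tm' δ₀' μ₀' _ _ _ _ _ X hX => by
        simp at hX⟩⟩⟩
  | insert X s hs ih =>
    obtain ⟨e1, μ1, he1, hμ1, h1⟩ := ih fun Y hY => hX Y (Finset.mem_insert_of_mem hY)
    obtain ⟨e2, μ2, he2, hμ2, h2⟩ := sgood_shape P hRC hρV hRS hm1 hm11 hm1le Cb K
      (hX X (Finset.mem_insert_self _ _)) C2 CQ hη kw htW
    refine ⟨min e1 e2, min μ1 μ2, lt_min he1 he2, lt_min hμ1 hμ2, fun eps he0 he 𝓛 R₀ => ?_⟩
    obtain ⟨Tm1, δ1, u1, hδ1, hu1, h1⟩ := h1 eps he0 (he.trans (min_le_left _ _)) 𝓛 R₀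
    obtain ⟨Tm2, δ2, u2, hδ2, hu2, h2⟩ := h2 eps he0 (he.trans (min_le_right _ _)) 𝓛 R₀
    refine ⟨max Tm1 Tm2, min δ1 δ2, min u1 u2, lt_min hδ1 hδ2, lt_min hu1 hu2,
      fun Rl Cg R1 τ₁ hτ₁ => ?_⟩
    obtain ⟨N1, hN1, h1⟩ := h1 Rl Cg R1 τ₁ hτ₁
    obtain ⟨N2, hN2, h2⟩ := h2 Rl Cg R1 τ₁ hτ₁
    refine ⟨max N1 N2, hN1.trans (le_max_left _ _), ?_⟩
    intro N hN B Tm' δ₀' μ₀' hB hTm hδ hμ hlip Y hY g hg
    rcases Finset.mem_insert.1 hY with rfl | hY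
    · exact h2 N (le_of_max_le_right hN) B Tm' δ₀' μ₀' hB (le_of_max_le_right hTm)
        (hδ.trans (min_le_right _ _)) (hμ.trans (min_le_right _ _)) hlip g
        (hg.mono le_rfl le_rfl (min_le_right _ _))
    · exact h1 N (le_of_max_le_left hN) B Tm' δ₀' μ₀' hB (le_of_max_le_left hTm)
        (hδ.trans (min_le_left _ _)) (hμ.trans (min_le_left _ _)) hlip Y hY g
        (hg.mono le_rfl le_rfl (min_le_left _ _))

end Crest.Agent.R182.Gen
end

-- ▼ part R182/MicFinal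
section

/-!
# Row 182, module MICRO (author: helper506): the law for extreme invariant means
-/

set_option autoImplicit false

namespace Crest.Agent.R182.Mic

open Filter Topology Crest.GroupTheory Crest.Agent.R182.QI Crest.Agent.R182.FinPath
  Crest.Agent.R182.FinRed Crest.Agent.R182.Polyc Crest.Agent.R182.Ht Crest.Agent.R182.Zd

universe u

variable {Γ : Type u} [Group Γ]

section Res

variable {H : Type*} [NormedAddCommGroup H] [InnerProductSpace ℝ H]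

/-- restriction of an orthogonal representation to an invariant subspace -/
noncomputable def resW (U : Γ →* (H ≃ₗᵢ[ℝ] H)) (W : Submodule ℝ H)
    (hW : ∀ g, ∀ v ∈ W, U g v ∈ W) : Γ →* (W ≃ₗᵢ[ℝ] W) where
  toFun g :=
    { toFun := fun v => ⟨U g v, hW g v v.2⟩
      invFun := fun v => ⟨U g⁻¹ v, hW g⁻¹ v v.2⟩
      map_add' := fun _ _ => Subtype.ext (map_add _ _ _)
      map_smul' := fun _ _ => Subtype.ext (map_smul _ _ _)
      left_inv := fun _ => Subtype.ext (U_inv_apply _ _)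
      right_inv := fun _ => Subtype.ext (U_apply_inv _ _)
      norm_map' := fun v => U_norm g (v : H) }
  map_one' := LinearIsometryEquiv.ext fun _ => Subtype.ext (U_one _)
  map_mul' _ _ := LinearIsometryEquiv.ext fun _ => Subtype.ext (U_mul _ _ _)


/-- chains with prescribed drift, in a subspace -/
theorem chains_in (R : RootData Γ) {S : Finset Γ} (hS : Subgroup.closure (S : Set Γ) = ⊤)
    {U : Γ →* (H ≃ₗᵢ[ℝ] H)} {W : Submodule ℝ H} [FiniteDimensional ℝ W] (hWN : W ≤ fix U R.N)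
    (hWU : ∀ g, ∀ v ∈ W, U g v ∈ W) {β : Γ → H} (hβ : ∀ g, β g ∈ W) (hβc : Ht.Coc U β)
    (hspan : Submodule.span ℝ (β '' (R.N : Set Γ)) = W) {b : Fin R.k → ℝ} (hb : b ≠ 0) {t : H}
    (ht : t ∈ W) : ∃ μ C₁ : ℝ, 0 < μ ∧ 0 ≤ C₁ ∧ ∀ (J : ℕ) (ε : ℝ), 0 < ε → ∃ C₂ : ℝ, 0 ≤ C₂ ∧
      ∀ q : ℕ, ∃ (ι : Type) (_ : Fintype ι) (P : ι → ℕ → Γ),
        (2:ℝ)^(J*q) ≤ C₂ * Fintype.card ι ∧ (∀ i, P i 0 = 1) ∧
        (∀ i, ∀ j < J, (nd (S : Set Γ) (P i j) (P i (j+1)) : ℝ) ≤ C₁*(q+1)) ∧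
        Function.Injective (fun i => P i J) ∧
        (∀ i, ∀ j ≤ J, ∀ a, |hgtR R.π (P i j) a - j*q*μ*b a| ≤ C₂) ∧
        (∀ i, ∀ j ≤ J, ‖β (P i j) + ((j*q*μ:ℝ))•t‖ ≤ ε*q + C₂) := by
  set βW : Γ → W := fun g => ⟨β g, hβ g⟩ with hβWdef
  have hUW : ∀ n ∈ R.N, ∀ v, resW U W hWU n v = v := fun n hn v => Subtype.ext (hWN v.2 n hn)
  have hβW : Ht.Coc (resW U W hWU) βW := fun g h => Subtype.ext (hβc g h)
  have hspanW : Submodule.span ℝ (βW '' (R.N : Set Γ)) = ⊤ := by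
    rw [eq_top_iff]
    rintro ⟨v, hv⟩ -
    have h1 : Submodule.map W.subtype (Submodule.span ℝ (βW '' (R.N : Set Γ))) = W := by
      rw [Submodule.map_span, ← Set.image_comp]
      exact hspan
    have h2 : v ∈ Submodule.map W.subtype (Submodule.span ℝ (βW '' (R.N : Set Γ))) := by
      rw [h1]; exact hv
    obtain ⟨v', hv', rfl⟩ := h2
    exact hv'
  obtain ⟨μ, C₁, hμ, hC₁, h⟩ := exists_chains R hS (resW U W hWU) hUW βW hβW hspanW b hb
    (-⟨t, ht⟩)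
  refine ⟨μ, C₁, hμ, hC₁, fun J ε hε => ?_⟩
  obtain ⟨C₂, hC₂, h⟩ := h J ε hε
  refine ⟨C₂, hC₂, fun q => ?_⟩
  obtain ⟨ι, hι, P, h1, h2, h3, h4, h5, h6⟩ := h q
  refine ⟨ι, hι, P, h1, h2, h3, h4, h5, fun i j hj => ?_⟩
  have h7 := h6 i j hj
  rw [smul_neg, sub_neg_eq_add] at h7
  exact h7

end Res

/-- **No zero-weight drift.** -/
theorem exists_law (R : RootData Γ) {S : Finset Γ} (hS : Subgroup.closure (S : Set Γ) = ⊤) {K : ℕ}
    {m : (Om (S : Set Γ) K → ℝ) → ℝ}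
    (hm : Erg.IMean Om.act (bddAlg (Om (S : Set Γ) K)) m)
    (hE : Erg.Ext Om.act (bddAlg (Om (S : Set Γ) K)) m) :
    ∃ (Lb : (Fin R.k → ℝ) →ₗ[ℝ] (Fin R.k → ℝ)) (r : Γ → VK R.k (V alg_Om hm)),
      (∀ g i, bco alg_Om hm (coc_hc hS R.π i) g =
        (Lb (hgtR R.π g) i) • ofA alg_Om hm 1 + r g i) ∧
      Ht.Coc (UK (U alg_Om hm) R.k) r ∧ AC (UK (U alg_Om hm) R.k) r := by
  have hN := R.normal
  have hfg : ∀ H : Subgroup Γ, H.FG := fun H => (R.pz.pc.mono le_top).fg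
  obtain ⟨W, β, r, Lb, hfd, hdec, hβ, hWN, hWU, hβc, hspan, hrc, hr⟩ :=
    exists_dec_mean alg_Om hm hE abs_mem_bdd hfg R.N R.nilp R.surj R.mem_N
      (fun i => coc_hc hS R.π i)
  -- the contradiction for a pair `(b, t)`
  have key : ∀ b : Fin R.k → ℝ, b ≠ 0 → ∀ t : VK R.k (V alg_Om hm), t ∈ W →
      EssVal alg_Om hm t (Lb b) → False := fun b hb t ht hess =>
    no_ess R hS hm hdec hrc hr hess (chains_in R hS hWN hWU hβ hβc hspan hb ht)
  have hW : W = ⊥ := by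
    by_contra hW
    obtain ⟨t₀, ht₀W, ht₀⟩ := Submodule.exists_mem_ne_zero_of_ne_bot hW
    obtain ⟨e, he, hess⟩ := exists_ess alg_Om hm t₀ ht₀
    by_cases hinj : Function.Injective Lb
    · obtain ⟨b, hb⟩ := (LinearMap.surjective_of_injective hinj) e
      refine key b ?_ t₀ ht₀W (by rw [hb]; exact hess)
      rintro rfl
      rw [map_zero] at hb
      exact he hb.symm
    · obtain ⟨b, hb0, hb⟩ : ∃ b, Lb b = 0 ∧ b ≠ 0 := by
        by_contra hcon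
        push Not at hcon
        exact hinj ((injective_iff_map_eq_zero Lb).2 hcon)
      exact key b hb 0 W.zero_mem (by rw [hb0]; exact essVal_zero alg_Om hm R.k)
  refine ⟨Lb, r, fun g i => ?_, hrc, hr⟩
  have h1 : β g = 0 := by
    have := hβ g
    rw [hW, Submodule.mem_bot] at this
    exact this
  rw [hdec g i, h1, PiLp.zero_apply, zero_add]

section Law

variable (R : RootData Γ) {S : Finset Γ} (hS : Subgroup.closure (S : Set Γ) = ⊤) {K : ℕ}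
  {m : (Om (S : Set Γ) K → ℝ) → ℝ} (hm : Erg.IMean Om.act (bddAlg (Om (S : Set Γ) K)) m)
  {Lb : (Fin R.k → ℝ) →ₗ[ℝ] (Fin R.k → ℝ)} {r : Γ → VK R.k (V alg_Om hm)}
  (hdec : ∀ g i, bco alg_Om hm (coc_hc hS R.π i) g =
    (Lb (hgtR R.π g) i) • ofA alg_Om hm 1 + r g i)

variable (K) in
/-- the deviation function -/
noncomputable def dev (Lb : (Fin R.k → ℝ) →ₗ[ℝ] (Fin R.k → ℝ)) (x : Γ) (i : Fin R.k) :
    bddAlg (Om (S : Set Γ) K) :=
  ⟨hc R.π i x, (coc_hc hS R.π i).mem x⟩ - (Lb (hgtR R.π x) i) • (1 : bddAlg (Om (S : Set Γ) K))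

theorem dev_apply (x : Γ) (i : Fin R.k) (w : Om (S : Set Γ) K) :
    (dev R hS K Lb x i : Om (S : Set Γ) K → ℝ) w = hc R.π i x w - Lb (hgtR R.π x) i := by
  show hc R.π i x w - Lb (hgtR R.π x) i * 1 = _
  rw [mul_one]

include hdec in
theorem ofA_dev (x : Γ) (i : Fin R.k) : ofA alg_Om hm (dev R hS K Lb x i) = r x i := by
  have h1 : ofA alg_Om hm (dev R hS K Lb x i) = bco alg_Om hm (coc_hc hS R.π i) x -
      (Lb (hgtR R.π x) i) • ofA alg_Om hm 1 := by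
    rw [dev, map_sub, map_smul]; rfl
  rw [h1, hdec]
  abel

include hdec in
theorem appC (hr : AC (UK (U alg_Om hm) R.k) r) : AppC S K R.π m Lb := by
  intro ε hε B
  obtain ⟨ξ, hξ⟩ := hr B (ε / 2) (by positivity)
  choose ξ' hξ' using fun i => exists_cob alg_Om hm abs_mem_bdd (ξ i) (half_pos hε)
  refine ⟨fun i => ξ' i, fun i => (ξ' i).2, fun x hx i => ?_⟩
  have h1 := hξ' i x (dev R hS K Lb x i)
  rw [ofA_dev R hS hm hdec] at h1
  have h2 : ‖r x i - (ξ i - U alg_Om hm x (ξ i))‖ ≤ ε / 2 := by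
    have h3 := norm_coord_le (r x - (ξ - UK (U alg_Om hm) R.k x ξ)) i
    exact h3.trans (hξ x hx)
  have h4 : (fun w => |hc R.π i x w - Lb (hgtR R.π x) i -
      ((ξ' i : Om (S : Set Γ) K → ℝ) w - (ξ' i : Om (S : Set Γ) K → ℝ) (w.act x))|) =
      fun w => |(dev R hS K Lb x i : Om (S : Set Γ) K → ℝ) w -
        ((ξ' i : Om (S : Set Γ) K → ℝ) w - (ξ' i : Om (S : Set Γ) K → ℝ) (w.act x))| := by
    funext w; rw [dev_apply]
  rw [h4]
  linarith

include hdec in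
theorem law_sub (hrc : Ht.Coc (UK (U alg_Om hm) R.k) r) (hr : AC (UK (U alg_Om hm) R.k) r) :
    ∀ ε > 0, ∃ C : ℝ, ∀ (x : Γ) (i : Fin R.k),
      m (fun w => |hc R.π i x w - Lb (hgtR R.π x) i|) ≤ ε * wordLength (S : Set Γ) x + C := by
  intro ε hε
  obtain ⟨C, hC⟩ := AC.sublinear hrc hr S hε
  refine ⟨C, fun x i => ?_⟩
  have h1 := mean_abs_le alg_Om hm abs_mem_bdd (dev R hS K Lb x i)
  rw [ofA_dev R hS hm hdec] at h1
  simp only [dev_apply] at h1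
  refine h1.trans ((norm_coord_le _ i).trans ?_)
  obtain ⟨l, hlen, hl, rfl⟩ := wordLength_spec hS x
  rw [← hlen]
  exact hC l hl

end Law

/-- extremality of a positive multiple -/
theorem ext_div {X G : Type*} [Group G] {ρ : X → G → X} {𝓐 : Subalgebra ℝ (X → ℝ)}
    {m : (X → ℝ) → ℝ} (hE : Erg.Ext ρ 𝓐 m) {Z : ℝ} (hZ : 0 < Z) :
    Erg.Ext ρ 𝓐 (fun φ => m φ / Z) := by
  intro m' hm' hle
  have h1 : Erg.PInv ρ 𝓐 (fun φ => Z * m' φ) :=
    ⟨fun φ hφ χ hχ => by rw [hm'.add φ hφ χ hχ]; ring,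
      fun c φ hφ => by rw [hm'.smul c φ hφ]; ring,
      fun φ hφ h0 => mul_nonneg hZ.le (hm'.nonneg φ hφ h0),
      fun g φ hφ => by rw [hm'.inv g φ hφ]⟩
  obtain ⟨c, hc⟩ := hE _ h1 fun φ hφ h0 => by
    have := hle φ hφ h0
    rw [le_div_iff₀ hZ] at this
    linarith
  refine ⟨c, fun φ hφ => ?_⟩
  have h2 := hc φ hφ
  have h3 : m' φ = c * m φ / Z := by
    rw [eq_div_iff hZ.ne', ← h2]; ring
  rw [h3]; ring

/-- **Output of the module MICRO**: `N` a seminorm with the capacity inequality. -/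
theorem micOut (R : RootData Γ) {S : Finset Γ} (hS : Subgroup.closure (S : Set Γ) = ⊤)
    (N : Seminorm ℝ (Fin R.k → ℝ))
    (hseg : ∀ (K : ℕ) (m : (Om (S : Set Γ) K → ℝ) → ℝ),
      Erg.IMean Om.act (bddAlg (Om (S : Set Γ) K)) m →
      ∀ L : (Fin R.k → ℝ) →ₗ[ℝ] (Fin R.k → ℝ), (∀ ε > 0, ∃ C : ℝ, ∀ (x : Γ) (i : Fin R.k),
        m (fun w => |hc R.π i x w - L (hgtR R.π x) i|) ≤ ε * wordLength (S : Set Γ) x + C) →
      ∀ v, N v ≤ N (L v)) : Erg.MicOut (S : Set Γ) R.π N := by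
  intro K m hm hE
  obtain ⟨L, r, hdec, hrc, hr⟩ := exists_law R hS hm hE
  have hlaw := law_sub R hS hm hdec hrc hr
  have happ := appC R hS hm hdec hr
  -- the dual mean
  have hm' := dual_imean hS hm
  have hZ := dual_pos' hS hm.toPInv hm.one
  have hE' := ext_div (dual_ext hS hm.toPInv hE) hZ
  obtain ⟨L', r', hdec', hrc', hr'⟩ := exists_law R hS hm' hE'
  have hlaw' := law_sub R hS hm' hdec' hrc' hr'
  have happ' := appC R hS hm' hdec' hr'
  have hrel := dual_rel' hS R.surj hm happ happ'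
  refine ⟨L, fun v => ?_, hlaw⟩
  apply le_antisymm
  · have h1 := hseg K _ hm' L' hlaw' (L v)
    have h2 : L' (L v) = v := LinearMap.congr_fun hrel v
    rwa [h2] at h1
  · exact hseg K m hm L hlaw v

end Crest.Agent.R182.Mic
end

-- ▼ part R182/MicNorm
section

/-!
# Row 182, module MICRO, block Z6 (helper247): glue

* `GenSys.sn`: the seminorm `g` of a system of generating weights;
* `micOut_of_dual`: `MicOut` from the law, the segment inequality `g v ≤ g (L v)` and the dual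
  relation `L ∘ L' = 1`;
* the hypotheses of the modules HT, ZD and LIP over a root datum.
-/

set_option autoImplicit false

namespace Crest.Agent.R182.Conv.GenSys

variable {ι : Type*} [Fintype ι] {E : Type*} [AddCommGroup E] [Module ℝ E]

/-- the seminorm `g`. -/
noncomputable def sn (G : GenSys ι E) : Seminorm ℝ E :=
  Seminorm.of G.g G.g_add_le fun a x => by rw [G.g_smul, Real.norm_eq_abs]

@[simp] theorem sn_apply (G : GenSys ι E) (v : E) : G.sn v = G.g v := rfl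

/-- the seminorm `g` pulled back by a linear equivalence -/
noncomputable def snT (G : GenSys ι E) {F : Type*} [AddCommGroup F] [Module ℝ F]
    (T : F →ₗ[ℝ] E) : Seminorm ℝ F := G.sn.comp T

@[simp] theorem snT_apply (G : GenSys ι E) {F : Type*} [AddCommGroup F] [Module ℝ F]
    (T : F →ₗ[ℝ] E) (v : F) : G.snT T v = G.g (T v) := rfl

end Crest.Agent.R182.Conv.GenSys

namespace Crest.Agent.R182.Mic

open Crest.GroupTheory Crest.Geometry Crest.Agent.R182.QI Crest.Agent.R182.FinPath Crest.Agent.R189.MeanF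
  Crest.Agent.R182.FinNil Crest.Agent.R182.FinRed Crest.Agent.R182.Polyc Crest.Agent.R182.Erg



section Glue

variable {Γ : Type*} [Group Γ] {S : Finset Γ} {k : ℕ} {π : Γ →* Multiplicative (Fin k → ℤ)}


end Glue

section Root

variable {Γ : Type*} [Group Γ]



theorem root_amen (R : RootData Γ) : Amen Γ :=
  amen_of_polycyclic (isPolycyclic_iff.2 R.pz.pc)



end Root

end Crest.Agent.R182.Mic
end

-- ▼ part R182/MicLat
section

set_option autoImplicit false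
set_option linter.unusedSectionVars false

open MeasureTheory

namespace Crest.Agent.R182.Core

open Crest.GroupTheory Crest.Geometry Crest.Agent.R182.QI Crest.Agent.R182.FinPath
  Crest.Agent.R182.FinRed Crest.Agent.R182.Bnd Nb Crest.Agent.R182.Mic

variable {Γ : Type*} [Group Γ] {k : ℕ}

namespace BModel

section lat

variable {S : Set Γ} {π : Γ →* Multiplicative (Fin k → ℤ)} (M : BModel S π)
  [Countable Γ] {E : Type*} [NormedAddCommGroup E] [NormedSpace ℝ E]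
  {T : (Fin k → ℝ) ≃ₗ[ℝ] E} {V : Set M.NN} {RC : ℝ} (P : CapPar M T V RC)

/-- the lattice of the model. -/
noncomputable def toLat (hRC : M.a ≤ RC) : Mic.Lat (M.toCap P) S π T where
  iot := M.ι
  rnd := M.rnd
  a := P.s * M.a
  one_le_a := by nlinarith [P.one_le_s, M.one_le_a]
  len_iot γ := by
    have h1 := M.len_ι γ
    change P.s * M.len (M.ι γ) ≤ _
    rw [mul_assoc]
    exact mul_le_mul_of_nonneg_left h1 (by linarith [P.one_le_s])
  iot_len γ := by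
    have h1 := M.ι_len γ
    have h2 := P.one_le_s
    have h3 := M.len_nonneg (M.ι γ)
    have h4 := M.a0
    change _ ≤ P.s * M.a * (P.s * M.len (M.ι γ)) + P.s * M.a
    have h5 : M.a * M.len (M.ι γ) ≤ P.s * M.a * (P.s * M.len (M.ι γ)) := by
      have h6 : 0 ≤ M.a * M.len (M.ι γ) := mul_nonneg h4 h3
      have h7 : (1 : ℝ) ≤ P.s * P.s := by nlinarith
      calc M.a * M.len (M.ι γ) = 1 * (M.a * M.len (M.ι γ)) := (one_mul _).symm
        _ ≤ (P.s * P.s) * (M.a * M.len (M.ι γ)) := mul_le_mul_of_nonneg_right h7 h6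
        _ = _ := by ring
    have h8 : M.a ≤ P.s * M.a := by nlinarith
    linarith
  len_rnd g := mul_le_mul_of_nonneg_left (M.len_rnd g) (by linarith [P.one_le_s])
  hgt_iot γ := by
    change T (M.h (M.ι γ)) = _
    rw [M.h_ι]
  rnd_meas x g γ := M.measurableSet_rnd x g γ
  vt v := by
    obtain ⟨l, hl, hlen, h⟩ := M.t_list v
    refine ⟨M.t v, ⟨l, hlen, fun s hs => ⟨M.CN_le (h s hs).1, (h s hs).2.trans hRC⟩, hl⟩, ?_⟩
    change T (M.h (M.t v)) = _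
    congr 1
    funext i
    exact M.h_t v i

end lat

/-- **Z4** for a `BModel`. -/
theorem seg_g {S : Finset Γ} {π : Γ →* Multiplicative (Fin k → ℤ)} (M : BModel (S : Set Γ) π)
    [Countable Γ] (hS : Subgroup.closure (S : Set Γ) = ⊤) {K : ℕ}
    {m : (Om (S : Set Γ) K → ℝ) → ℝ} (hm : Erg.PMean (bddAlg (Om (S : Set Γ) K)) m)
    (L : (Fin k → ℝ) →ₗ[ℝ] (Fin k → ℝ))
    (hL : ∀ ε > 0, ∃ C : ℝ, ∀ x i, m (fun w => |hc π i x w - L (hgtR π x) i|) ≤
      ε * wordLength (S : Set Γ) x + C) (v : Fin k → ℝ) :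
    (gsys M).g v ≤ (gsys M).g (L v) := by
  obtain ⟨P⟩ := M.exists_capPar (LinearEquiv.refl ℝ (Fin k → ℝ)) (V := Metric.ball (0 : M.NN) 1)
    M.a Metric.isOpen_ball.measurableSet Metric.isBounded_ball
    (Metric.measure_ball_pos volume (0 : M.NN) one_pos).ne'
  exact seg (M.toLat P le_rfl) hS (M.toCap_reach P M.C_growth)
    (M.toCap_ent P (AdS.of_bch1 M.nilC M.star_cj) (ρ := 1)
      fun n hn => (mem_ball_zero_iff.1 hn).le) hm L hL v

end BModel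

end Crest.Agent.R182.Core
end

-- ▼ part R182/InvT
section

set_option autoImplicit false

open MeasureTheory Set
open scoped ENNReal MatrixOrder Matrix.Norms.L2Operator

namespace Crest.Agent.R182.InvT

variable {k : ℕ}

/-- the dual unit ball -/
def pol (g : Seminorm ℝ (Fin k → ℝ)) : Set (Fin k → ℝ) := {f | ∀ x, ∑ i, f i * x i ≤ g x}

theorem sum_single (f : Fin k → ℝ) (i : Fin k) (c : ℝ) :
    ∑ j, f j * (Pi.single i c : Fin k → ℝ) j = f i * c := by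
  rw [Finset.sum_eq_single i]
  · simp
  · intro j _ hj; simp [Pi.single_eq_of_ne hj]
  · simp

theorem isClosed_pol (g : Seminorm ℝ (Fin k → ℝ)) : IsClosed (pol g) := by
  have : pol g = ⋂ x : Fin k → ℝ, {f | ∑ i, f i * x i ≤ g x} := by
    ext f; simp [pol]
  rw [this]
  refine isClosed_iInter fun x => isClosed_le (by fun_prop) continuous_const

theorem pol_le (g : Seminorm ℝ (Fin k → ℝ)) {f : Fin k → ℝ} (hf : f ∈ pol g) (i : Fin k) :
    |f i| ≤ g (Pi.single i 1) := by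
  rw [abs_le]
  constructor
  · have := hf (Pi.single i (-1))
    rw [sum_single] at this
    have h2 : g (Pi.single i (-1)) = g (Pi.single i 1) := by
      rw [Pi.single_neg, map_neg_eq_map]
    linarith
  · have := hf (Pi.single i 1)
    rw [sum_single] at this
    linarith

theorem isCompact_pol (g : Seminorm ℝ (Fin k → ℝ)) : IsCompact (pol g) := by
  refine Metric.isCompact_of_isClosed_isBounded (isClosed_pol g) ?_
  refine (Metric.isBounded_closedBall (x := (0 : Fin k → ℝ))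
    (r := ∑ i, g (Pi.single i 1))).subset fun f hf => ?_
  rw [mem_closedBall_zero_iff]
  refine (pi_norm_le_iff_of_nonneg (Finset.sum_nonneg fun i _ => apply_nonneg _ _)).2 fun i => ?_
  rw [Real.norm_eq_abs]
  exact (pol_le g hf i).trans (Finset.single_le_sum (f := fun i => g (Pi.single i 1))
    (fun i _ => apply_nonneg _ _) (Finset.mem_univ i))

theorem seminorm_le (g : Seminorm ℝ (Fin k → ℝ)) (u : Fin k → ℝ) :
    g u ≤ ‖u‖ * ∑ i, g (Pi.single i 1) := by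
  have h1 : u = ∑ i, u i • (Pi.single i 1 : Fin k → ℝ) := by
    ext j
    rw [Finset.sum_apply, Finset.sum_eq_single j] <;> simp +contextual [eq_comm]
  calc g u = g (∑ i, u i • (Pi.single i 1 : Fin k → ℝ)) := by rw [← h1]
    _ ≤ ∑ i, g (u i • (Pi.single i 1 : Fin k → ℝ)) := by
        induction (Finset.univ : Finset (Fin k)) using Finset.induction_on with
        | empty => simp
        | insert a s ha ih =>
          rw [Finset.sum_insert ha, Finset.sum_insert ha]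
          exact (map_add_le_add g _ _).trans (add_le_add le_rfl ih)
    _ ≤ ∑ i, ‖u‖ * g (Pi.single i 1) := by
        refine Finset.sum_le_sum fun i _ => ?_
        rw [map_smul_eq_mul]
        exact mul_le_mul_of_nonneg_right (norm_le_pi_norm u i) (apply_nonneg _ _)
    _ = _ := by rw [Finset.mul_sum]

theorem continuous_seminorm (g : Seminorm ℝ (Fin k → ℝ)) : Continuous g := by
  refine Seminorm.continuous_of_continuousAt_zero ?_
  rw [Metric.continuousAt_iff]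
  intro ε hε
  set A := ∑ i, g (Pi.single i 1 : Fin k → ℝ)
  have hA : 0 ≤ A := Finset.sum_nonneg fun i _ => apply_nonneg _ _
  refine ⟨ε / (A + 1), by positivity, fun {x} hx => ?_⟩
  rw [map_zero, Real.dist_0_eq_abs, abs_of_nonneg (apply_nonneg _ _)]
  rw [dist_zero_right, lt_div_iff₀ (by positivity)] at hx
  refine (seminorm_le g x).trans_lt ?_
  nlinarith [norm_nonneg x]

/-- a norm is bounded below -/
theorem exists_lower (g : Seminorm ℝ (Fin k → ℝ)) (hg : ∀ v, g v = 0 → v = 0) :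
    ∃ c : ℝ, 0 < c ∧ ∀ v, c * ‖v‖ ≤ g v := by
  by_cases hne : (Metric.sphere (0 : Fin k → ℝ) 1).Nonempty
  · obtain ⟨v₀, hv₀, hmin⟩ := (isCompact_sphere (0 : Fin k → ℝ) 1).exists_isMinOn hne
      (continuous_seminorm g).continuousOn
    have h0 : 0 < g v₀ := by
      refine lt_of_le_of_ne (apply_nonneg _ _) fun h => ?_
      have := hg v₀ h.symm
      rw [this] at hv₀
      simp at hv₀
    refine ⟨g v₀, h0, fun v => ?_⟩
    by_cases hv : v = 0
    · simp [hv]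
    have hn : 0 < ‖v‖ := norm_pos_iff.2 hv
    have h1 := hmin (a := ‖v‖⁻¹ • v) (by
      rw [mem_sphere_zero_iff_norm, norm_smul, norm_inv, norm_norm, inv_mul_cancel₀ hn.ne'])
    change g v₀ ≤ g (‖v‖⁻¹ • v) at h1
    rw [map_smul_eq_mul, Real.norm_eq_abs, abs_of_pos (inv_pos.2 hn), inv_mul_eq_div,
      le_div_iff₀ hn] at h1
    exact h1
  · refine ⟨1, one_pos, fun v => ?_⟩
    by_cases hv : v = 0
    · simp [hv]
    · exfalso
      apply hne
      refine ⟨‖v‖⁻¹ • v, ?_⟩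
      rw [mem_sphere_zero_iff_norm, norm_smul, norm_inv, norm_norm,
        inv_mul_cancel₀ (norm_pos_iff.2 hv).ne']

theorem pol_mem_nhds (g : Seminorm ℝ (Fin k → ℝ)) (hg : ∀ v, g v = 0 → v = 0) :
    pol g ∈ nhds (0 : Fin k → ℝ) := by
  obtain ⟨c, hc, h⟩ := exists_lower g hg
  refine Filter.mem_of_superset (Metric.closedBall_mem_nhds (0 : Fin k → ℝ)
    (ε := c / (k + 1)) (by positivity)) fun f hf x => ?_
  rw [mem_closedBall_zero_iff] at hf
  calc ∑ i, f i * x i ≤ ∑ _i : Fin k, c / (k + 1) * ‖x‖ := by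
        refine Finset.sum_le_sum fun i _ => ?_
        have h1 : |f i| ≤ c / (k + 1) := (norm_le_pi_norm f i).trans hf
        have h2 : |x i| ≤ ‖x‖ := norm_le_pi_norm x i
        calc f i * x i ≤ |f i * x i| := le_abs_self _
          _ = |f i| * |x i| := abs_mul _ _
          _ ≤ _ := mul_le_mul h1 h2 (abs_nonneg _) (by positivity)
    _ = k / (k + 1) * (c * ‖x‖) := by
        rw [Finset.sum_const, Finset.card_univ, Fintype.card_fin, nsmul_eq_mul]; ring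
    _ ≤ 1 * (c * ‖x‖) := by
        have : (k : ℝ) / (k + 1) ≤ 1 := by
          rw [div_le_one (by positivity)]; linarith
        exact mul_le_mul_of_nonneg_right this (by positivity)
    _ ≤ g x := by rw [one_mul]; exact h x

/-- the Gram matrix -/
noncomputable def Q (g : Seminorm ℝ (Fin k → ℝ)) : Matrix (Fin k) (Fin k) ℝ :=
  Matrix.of fun i j => ∫ f in pol g, f i * f j

theorem quad (g : Seminorm ℝ (Fin k → ℝ)) (v : Fin k → ℝ) :
    v ⬝ᵥ (Q g).mulVec v = ∫ f in pol g, (∑ i, f i * v i) ^ 2 := by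
  have hint : ∀ i j, IntegrableOn (fun f : Fin k → ℝ => f i * f j) (pol g) := fun i j =>
    ContinuousOn.integrableOn_compact (isCompact_pol g) (by fun_prop)
  have h1 : ∀ f : Fin k → ℝ, (∑ i, f i * v i) ^ 2 = ∑ i, ∑ j, v i * v j * (f i * f j) := by
    intro f
    rw [sq, Finset.sum_mul_sum]
    refine Finset.sum_congr rfl fun i _ => Finset.sum_congr rfl fun j _ => by ring
  simp_rw [h1]
  rw [integral_finsetSum _ fun i _ => integrable_finsetSum _ fun j _ =>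
    (hint i j).const_mul (v i * v j)]
  simp only [dotProduct, Matrix.mulVec, Q, Matrix.of_apply]
  refine Finset.sum_congr rfl fun i _ => ?_
  rw [integral_finsetSum _ fun j _ => (hint i j).const_mul (v i * v j), Finset.mul_sum]
  refine Finset.sum_congr rfl fun j _ => ?_
  rw [integral_const_mul]
  ring

theorem quad_pos (g : Seminorm ℝ (Fin k → ℝ)) (hg : ∀ v, g v = 0 → v = 0) {v : Fin k → ℝ}
    (hv : v ≠ 0) : 0 < v ⬝ᵥ (Q g).mulVec v := by
  rw [quad]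
  have hcont : Continuous fun f : Fin k → ℝ => (∑ i, f i * v i) ^ 2 := by fun_prop
  rw [setIntegral_pos_iff_support_of_nonneg_ae (Filter.Eventually.of_forall fun f => sq_nonneg _)
    (hcont.continuousOn.integrableOn_compact (isCompact_pol g))]
  -- an open set inside
  have h1 : IsOpen ({f : Fin k → ℝ | (∑ i, f i * v i) ^ 2 ≠ 0} ∩ interior (pol g)) :=
    (isOpen_ne_fun hcont continuous_const).inter isOpen_interior
  have h2 : ({f : Fin k → ℝ | (∑ i, f i * v i) ^ 2 ≠ 0} ∩ interior (pol g)).Nonempty := by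
    have h3 : ∀ᶠ t : ℝ in nhds 0, t • v ∈ interior (pol g) := by
      have h4 : Filter.Tendsto (fun t : ℝ => t • v) (nhds 0) (nhds ((0 : ℝ) • v)) :=
        (continuous_id.smul continuous_const).tendsto 0
      rw [zero_smul] at h4
      exact h4.eventually (isOpen_interior.mem_nhds (mem_interior_iff_mem_nhds.2
        (pol_mem_nhds g hg)))
    obtain ⟨t, ht, ht0⟩ := (h3.filter_mono nhdsWithin_le_nhds |>.and
      (self_mem_nhdsWithin : ({0}ᶜ : Set ℝ) ∈ nhdsWithin 0 {0}ᶜ)).exists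
    refine ⟨t • v, ?_, ht⟩
    have ht0' : t ≠ 0 := ht0
    have h5 : ∑ i, (t • v) i * v i = t * (v ⬝ᵥ v) := by
      simp only [dotProduct, Pi.smul_apply, smul_eq_mul, Finset.mul_sum]
      exact Finset.sum_congr rfl fun i _ => by ring
    have h6 : v ⬝ᵥ v ≠ 0 := by
      rw [Ne, dotProduct_self_eq_zero]; exact hv
    change (∑ i, (t • v) i * v i) ^ 2 ≠ 0
    rw [h5]
    exact pow_ne_zero _ (mul_ne_zero ht0' h6)
  refine (h1.measure_pos volume h2).trans_le (measure_mono ?_)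
  rintro f ⟨hf, hf2⟩
  exact ⟨hf, interior_subset hf2⟩

theorem quad_inv (g : Seminorm ℝ (Fin k → ℝ)) (hg : ∀ v, g v = 0 → v = 0)
    {L : (Fin k → ℝ) →ₗ[ℝ] (Fin k → ℝ)} (hL : ∀ v, g (L v) = g v) (v : Fin k → ℝ) :
    L v ⬝ᵥ (Q g).mulVec (L v) = v ⬝ᵥ (Q g).mulVec v := by
  classical
  have hinj : Function.Injective L := by
    rw [injective_iff_map_eq_zero]
    intro x hx
    apply hg
    rw [← hL, hx, map_zero]
  have hsurj : Function.Surjective L := LinearMap.injective_iff_surjective.1 hinj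
  -- the transpose
  set A := LinearMap.toMatrix' L with hA
  set M : (Fin k → ℝ) →ₗ[ℝ] (Fin k → ℝ) := Matrix.toLin' A.transpose with hM
  have hLA : ∀ x, L x = A.mulVec x := fun x => by
    rw [hA, LinearMap.toMatrix'_mulVec]
  have hMf : ∀ f x : Fin k → ℝ, ∑ i, M f i * x i = ∑ i, f i * L x i := by
    intro f x
    have h1 : M f ⬝ᵥ x = f ⬝ᵥ L x := by
      rw [hM, Matrix.toLin'_apply, hLA, Matrix.mulVec_transpose, Matrix.dotProduct_mulVec]
    exact h1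
  have hpre : M ⁻¹' (pol g) = pol g := by
    ext f
    constructor
    · intro hf x
      obtain ⟨y, rfl⟩ := hsurj x
      have := hf y
      rw [hMf] at this
      rw [hL]; exact this
    · intro hf x
      rw [hMf, ← hL]
      exact hf (L x)
  have hdet : LinearMap.det M ≠ 0 := by
    rw [hM, LinearMap.det_toLin', Matrix.det_transpose]
    intro h0
    rw [hA, LinearMap.det_toMatrix'] at h0
    have := LinearMap.bot_lt_ker_of_det_eq_zero (f := L) h0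
    rw [LinearMap.ker_eq_bot.2 hinj] at this
    exact lt_irrefl _ this
  have hmap := Real.map_linearMap_volume_pi_eq_smul_volume_pi hdet
  have hvol0 : volume (pol g) ≠ 0 := by
    have h1 : 0 < volume (interior (pol g)) := isOpen_interior.measure_pos volume
      ⟨0, mem_interior_iff_mem_nhds.2 (pol_mem_nhds g hg)⟩
    exact (h1.trans_le (measure_mono interior_subset)).ne'
  have hvolt : volume (pol g) ≠ ∞ := (isCompact_pol g).measure_ne_top
  have hMm : Measurable M := (LinearMap.continuous_of_finiteDimensional M).measurable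
  have h1 : ENNReal.ofReal |(LinearMap.det M)⁻¹| = 1 := by
    have h2 : Measure.map M volume (pol g) = volume (pol g) := by
      rw [Measure.map_apply hMm (isClosed_pol g).measurableSet, hpre]
    rw [hmap, Measure.smul_apply, smul_eq_mul] at h2
    have h3 := ENNReal.mul_div_cancel_right hvol0 hvolt (a := ENNReal.ofReal |(LinearMap.det M)⁻¹|)
    rw [h2, ENNReal.div_self hvol0 hvolt] at h3
    exact h3.symm
  have hmp : MeasurePreserving M volume volume := ⟨hMm, by rw [hmap, h1, one_smul]⟩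
  have hMinj : Function.Injective M := by
    rw [← LinearMap.ker_eq_bot]
    by_contra hne
    exact hdet (LinearMap.det_eq_zero_iff_ker_ne_bot.2 hne)
  have hemb : MeasurableEmbedding M :=
    (LinearMap.isClosedEmbedding_of_injective (LinearMap.ker_eq_bot.2 hMinj)).measurableEmbedding
  rw [quad, quad]
  have h4 := hmp.setIntegral_preimage_emb hemb (fun f : Fin k → ℝ => (∑ i, f i * v i) ^ 2) (pol g)
  rw [hpre] at h4
  rw [← h4]
  refine integral_congr_ae (Filter.Eventually.of_forall fun f => ?_)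
  change (∑ i, f i * L v i) ^ 2 = (∑ i, M f i * v i) ^ 2
  rw [hMf]

/-- **An invariant Euclidean norm.** -/
theorem exists_invT (g : Seminorm ℝ (Fin k → ℝ)) (hg : ∀ v, g v = 0 → v = 0) :
    ∃ T : (Fin k → ℝ) ≃ₗ[ℝ] EuclideanSpace ℝ (Fin k),
      ∀ L : (Fin k → ℝ) →ₗ[ℝ] (Fin k → ℝ), (∀ v, g (L v) = g v) → ∀ v, ‖T (L v)‖ = ‖T v‖ := by
  classical
  have hsymm : (Q g).IsHermitian := by
    ext i j
    simp only [Q, Matrix.conjTranspose_apply, Matrix.of_apply, star_trivial]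
    refine integral_congr_ae (Filter.Eventually.of_forall fun f => ?_)
    exact mul_comm _ _
  have hps : (Q g).PosSemidef := by
    refine Matrix.PosSemidef.of_dotProduct_mulVec_nonneg hsymm fun v => ?_
    rw [star_trivial]
    by_cases hv : v = 0
    · simp [hv]
    · exact (quad_pos g hg hv).le
  obtain ⟨B, hB⟩ : ∃ B : Matrix (Fin k) (Fin k) ℝ, Q g = B.conjTranspose * B := by
    obtain ⟨B, hB⟩ := CStarAlgebra.nonneg_iff_eq_star_mul_self.mp hps.nonneg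
    exact ⟨B, hB⟩
  have hq : ∀ v, v ⬝ᵥ (Q g).mulVec v = B.mulVec v ⬝ᵥ B.mulVec v := by
    intro v
    rw [hB, Matrix.conjTranspose_eq_transpose_of_trivial, ← Matrix.mulVec_mulVec,
      Matrix.dotProduct_mulVec, Matrix.vecMul_transpose]
  have hBinj : Function.Injective (Matrix.toLin' B) := by
    rw [injective_iff_map_eq_zero]
    intro v hv
    rw [Matrix.toLin'_apply] at hv
    by_contra hne
    have := quad_pos g hg hne
    rw [hq, hv] at this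
    simp at this
  refine ⟨(LinearEquiv.ofInjectiveEndo _ hBinj).trans (WithLp.linearEquiv 2 ℝ (Fin k → ℝ)).symm,
    fun L hL v => ?_⟩
  have hn : ∀ v, ‖((LinearEquiv.ofInjectiveEndo _ hBinj).trans
      (WithLp.linearEquiv 2 ℝ (Fin k → ℝ)).symm) v‖ ^ 2 = v ⬝ᵥ (Q g).mulVec v := by
    intro v
    rw [hq, EuclideanSpace.norm_sq_eq]
    simp only [dotProduct]
    refine Finset.sum_congr rfl fun i _ => ?_
    rw [Real.norm_eq_abs, sq_abs, sq]
    rfl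
  have h1 : ‖((LinearEquiv.ofInjectiveEndo _ hBinj).trans
      (WithLp.linearEquiv 2 ℝ (Fin k → ℝ)).symm) (L v)‖ ^ 2 = ‖((LinearEquiv.ofInjectiveEndo _
      hBinj).trans (WithLp.linearEquiv 2 ℝ (Fin k → ℝ)).symm) v‖ ^ 2 := by
    rw [hn, hn, quad_inv g hg hL]
  exact (pow_left_inj₀ (norm_nonneg _) (norm_nonneg _) two_ne_zero).1 h1

end Crest.Agent.R182.InvT
end

-- ▼ part R182/MicT
section

set_option autoImplicit false

namespace Crest.Agent.R182.Mic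

open Crest.GroupTheory Crest.Agent.R182.QI Crest.Agent.R182.FinPath
  Crest.Agent.R182.FinRed Crest.Agent.R182.Polyc Crest.Agent.R182.Ht Crest.Agent.R182.Zd
  Crest.Agent.R182.Core Crest.Agent.R182.Nb

universe u

variable {Γ : Type u} [Group Γ]


/-- **MICRO for the norm `g`.** -/
theorem micOut_g (R : RootData Γ) {S : Finset Γ} (hS : Subgroup.closure (S : Set Γ) = ⊤)
    (M : BModel (S : Set Γ) R.π) : Erg.MicOut (S : Set Γ) R.π (gsys M).sn := by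
  have : Countable Γ := countable_of_closure S.finite_toSet hS
  exact micOut R hS _ fun K m hm L hL v => BModel.seg_g M hS ⟨hm.add, hm.smul, hm.nonneg, hm.one⟩ L hL v

/-- **MICRO for the invariant norm.** -/
theorem micOut_T (R : RootData Γ) {S : Finset Γ} (hS : Subgroup.closure (S : Set Γ) = ⊤)
    (M : BModel (S : Set Γ) R.π) (N : Seminorm ℝ (Fin R.k → ℝ))
    (hN : ∀ L : (Fin R.k → ℝ) →ₗ[ℝ] (Fin R.k → ℝ), (∀ v, (gsys M).g (L v) = (gsys M).g v) →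
      ∀ v, N (L v) = N v) : Erg.MicOut (S : Set Γ) R.π N := by
  intro K m hm hE
  obtain ⟨L, hL, h⟩ := micOut_g R hS M K m hm hE
  exact ⟨L, hN L hL, h⟩

/-- **The invariant Euclidean coordinates of a model.** -/
theorem exists_T (R : RootData Γ) {S : Finset Γ} (hS : Subgroup.closure (S : Set Γ) = ⊤)
    (M : BModel (S : Set Γ) R.π) : ∃ T : (Fin R.k → ℝ) ≃ₗ[ℝ] EuclideanSpace ℝ (Fin R.k),
      ∀ N : Seminorm ℝ (Fin R.k → ℝ), (∀ v, N v = ‖T v‖) → Erg.MicOut (S : Set Γ) R.π N := by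
  obtain ⟨T, hT⟩ := InvT.exists_invT (gsys M).sn fun v hv => by
    have h1 : (gsys M).g v = 0 := hv
    exact (gsys M).eq_zero_of_g_eq_zero h1
  exact ⟨T, fun N hN => micOut_T R hS M N fun L hL v => by
    rw [hN, hN]; exact hT L hL v⟩

end Crest.Agent.R182.Mic
end

-- ▼ part R182/BoxFreq
section

set_option autoImplicit false
set_option linter.unusedSectionVars false

open MeasureTheory List
open scoped RealInnerProductSpace Topology

namespace Crest.Agent.R182.HoleOne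

open Crest.GroupTheory Crest.Geometry Crest.Agent.R182.QI Crest.Agent.R182.Core
  Crest.Agent.R182.Core.BModel Crest.Agent.R182.Nb Crest.Agent.R182.HoleNil
  Crest.Agent.R182.OneScale Crest.Agent.R182.ElI Crest.Agent.R182.Star Crest.Agent.R182.Cap
  Crest.Agent.R182.Gen Crest.Agent.R182.Conv Crest.Agent.R182.Erg Crest.Agent.R189.MeanF

variable {Γ : Type*} [Group Γ] {k : ℕ} {π : Γ →* Multiplicative (Fin k → ℤ)} {S : Finset Γ}
  {M : BModel (S : Set Γ) π} {E : Type} [NormedAddCommGroup E]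
  [InnerProductSpace ℝ E]

/-- the box theorem for all near-round shapes with sides in `τ ℕ`, at a frequent set of scales. -/
def BoxFreq (G : Geo M E) (K : ℕ) : Prop :=
  ∃ m0 : ℝ, 0 < m0 ∧ ∃ RC Cb : ℝ, ∀ η : ℝ, 0 < η → ∀ τ : ℝ, 0 < τ → ∀ e0 : ℝ, 0 < e0 →
    ∃ (b : G.R → M.G) (Cp : ℝ), (∀ e, b e ∈ M.CN) ∧ ∀ N1 : ℕ, ∃ N : ℕ, N1 ≤ N ∧
      ∃ (un : ElI.Unit G RC Cb e0 τ N) (p : G.R → ℕ), (∀ e, un.u e = b e ^ p e) ∧
      (∀ e, (p e : ℝ) ≤ Cp * N) ∧ ∀ Ψ : Γ → Γ, QIMap (S : Set Γ) (S : Set Γ) Ψ K →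
      ∀ m : G.R → ℕ, (∀ e, |(m e : ℝ) * τ - 1| ≤ m0) → ∀ y : M.G,
        ∃ L ∈ LLE G, ∃ θ : E, RawLaw G Ψ N τ un.u η (fun e => m e * τ) y L θ

variable [Countable Γ]

theorem finite_shapes {ι : Type*} [Finite ι] {τ : ℝ} (hτ : 0 < τ) (m0 : ℝ) :
    {m : ι → ℕ | ∀ e, |(m e : ℝ) * τ - 1| ≤ m0}.Finite := by
  have h : {m : ι → ℕ | ∀ e, m e ≤ ⌈(1 + m0) / τ⌉₊}.Finite := by
    have h1 : {m : ι → ℕ | ∀ e, m e ≤ ⌈(1 + m0) / τ⌉₊} =
        Set.pi Set.univ fun _ : ι => Set.Iic ⌈(1 + m0) / τ⌉₊ := by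
      ext m; simp [Pi.le_def]
    rw [h1]
    exact Set.Finite.pi fun _ => Set.finite_Iic _
  refine h.subset fun m hm e => ?_
  have h1 := (abs_le.1 (hm e)).2
  have h2 : (m e : ℝ) ≤ (1 + m0) / τ := by
    rw [le_div_iff₀ hτ]; linarith
  exact_mod_cast h2.trans (Nat.le_ceil _)

/-- **the box theorem at a frequent set of scales** -/
theorem box_freq [FiniteDimensional ℝ E] (hS : Subgroup.closure (S : Set Γ) = ⊤)
    (hΓ : Amen Γ) (hX : XModel M) (G : Geo M E) (hmic : MicOut (S : Set Γ) π (nrmT G.T)) (K : ℕ) :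
    BoxFreq G K := by
  classical
  let _ : MeasurableSpace E := borel E
  have _ : BorelSpace E := ⟨rfl⟩
  -- the capacity model
  obtain ⟨P⟩ : Nonempty (BModel.CapPar M G.T (Metric.closedBall (0 : M.NN) 1) M.a) :=
    BModel.exists_capPar M G.T M.a Metric.isClosed_closedBall.measurableSet
      Metric.isBounded_closedBall (Metric.measure_closedBall_pos _ _ one_pos).ne'
  have hRS := hRS_of G P
  have hρV : ∀ n ∈ Metric.closedBall (0 : M.NN) 1, ‖n‖ ≤ 1 := fun n hn => by simpa using hn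
  obtain ⟨r0, hT⟩ := vts_Cl P le_rfl
  obtain ⟨m1, hm1, hm11, hm1le⟩ := exists_margin G.RS
  obtain ⟨Cb, hCb, hlegs⟩ := exists_legs_bm P G.RS
  obtain ⟨D, hD, hDOm⟩ := exists_bound_Om G
  have hK : 1 ≤ P.s * M.KQ K := by
    have h1 : 1 ≤ M.KQ K := by
      unfold BModel.KQ
      have h1 : 1 ≤ M.a ^ 3 := one_le_pow₀ M.one_le_a
      have h2 : (0:ℝ) ≤ K := Nat.cast_nonneg _
      nlinarith
    nlinarith [P.one_le_s]
  have ha1 := M.a0
  obtain ⟨D1, D2, CQ, C2, hD1, hD2, hmv, hvol, hlen, hone⟩ := box_one (P := P) (R := G.RS)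
    (M.toCap_reach P M.C_growth) (M.toCap_ent P (AdS.of_bch1 M.nilC M.star_cj) hρV) hRS ⟨1, hρV⟩
    (by rw [M.one_def]; exact Metric.closedBall_mem_nhds _ one_pos) hT (slow_vts M) Cb hK hm1 hm11
    hm1le (R0 := 1) le_rfl
  refine ⟨m1 / 10, by positivity, M.a, r0 * Cb, fun η hη τ hτ e0 he0 => ?_⟩
  -- constants of one scale
  set tW : ℝ := 2 * D with htW
  have htW0 : 0 ≤ tW := by positivity
  obtain ⟨eps2, e1, kw1, tW1, heps2, he1, htW1, hone⟩ := hone (η / 2) (by positivity) 2 tW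
  -- the words of the tuples
  set a : ℝ := 1 + m1 / 10 with ha
  have ha0 : 0 < a := by positivity
  set Cg : ℝ := (2 * |Cb| + 1) * r0 with hCg
  have hCg0 : 0 ≤ Cg := by positivity
  -- the finitely many shapes
  have hfin := finite_shapes (ι := G.R) hτ (m1 / 10)
  set Sh : Finset (G.R → ℕ) := hfin.toFinset with hSh
  set sh : (G.R → ℕ) → (G.R → ℝ) := fun m e => (m e : ℝ) * τ with hsh
  have hmem : ∀ m : G.R → ℕ, m ∈ Sh ↔ ∀ e, |sh m e - 1| ≤ m1 / 10 := fun m => by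
    rw [hSh, Set.Finite.mem_toFinset]; rfl
  have hXsh : ∀ X ∈ Sh.image sh, ∀ e, |X e - 1| ≤ m1 / 10 := by
    intro X hX
    obtain ⟨m, hm, rfl⟩ := Finset.mem_image.1 hX
    exact (hmem m).1 hm
  obtain ⟨eps1, μ, heps1, hμ0, hgood⟩ := sgood_shapes P le_rfl hρV hRS hm1 hm11 hm1le Cb K
    (Sh.image sh) hXsh C2 CQ he1 kw1 htW1
  -- the legs
  set eps : ℝ := min (min eps1 eps2) (min (e0 / 2) (μ / (2 * a))) with heps
  have heps0 : 0 < eps := by
    have : 0 < μ / (2 * a) := by positivity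
    exact lt_min (lt_min heps1 heps2) (lt_min (by positivity) this)
  obtain ⟨𝓛, h𝓛⟩ := hlegs eps heps0
  obtain ⟨R₀, hR₀, hR₀b, hR₀c⟩ := exists_R0 hX 𝓛 h𝓛
  obtain ⟨Tm, δ₀, μ₀, hδ₀, hμ₀, hgood⟩ := hgood eps heps0.le
    ((min_le_left _ _).trans (min_le_left _ _)) 𝓛 R₀
  set B : Finset M.G := Finset.univ.image 𝓛.b with hB
  obtain ⟨R1, τ', hτ', hlip⟩ := exists_lipAt hS hΓ hmic B (fun b hb => by
      obtain ⟨e, -, rfl⟩ := Finset.mem_image.1 hb
      exact M.CN_le (h𝓛 e)) hR₀ (fun b hb => by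
      obtain ⟨e, -, rfl⟩ := Finset.mem_image.1 hb
      exact hR₀b e) (fun b hb => by
      obtain ⟨e, -, rfl⟩ := Finset.mem_image.1 hb
      exact hR₀c e) K Tm hμ₀ hδ₀
  obtain ⟨Na, hNa1, hNa⟩ := hgood M.a Cg R1 τ' hτ'
  obtain ⟨κ, hκ, hκ1, Nb, hNb1, hNb⟩ := hone eps heps0.le
    ((min_le_left _ _).trans (min_le_right _ _)) 𝓛
  obtain ⟨Nc, hNc1, hNc⟩ := unit_GF (M.toCap P) hK G.RS hT (slow_vts M) 2 htW0
    (δ := η / 2) (by positivity) 𝓛 hτ
  obtain ⟨Cp, hCp0, hCp⟩ := exists_p_le 𝓛 hτ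
  obtain ⟨q, hq⟩ : ∃ q : ℝ, q = a / τ := ⟨_, rfl⟩
  have hqp : 0 ≤ q := by rw [hq]; positivity
  obtain ⟨Nd, hNd⟩ := exists_nat_ge (𝓛.mX / (e0 / 2 * τ))
  obtain ⟨Ne, hNe⟩ := exists_nat_ge (q * 𝓛.mX / (μ / 2))
  obtain ⟨Nf, hNf⟩ := exists_nat_ge (q * 𝓛.rX / κ)
  refine ⟨𝓛.b, Cp, h𝓛, fun N1 => ?_⟩
  obtain ⟨N, hN, hlipN⟩ := hlip (N1 + Na + Nb + Nc + Nd + Ne + Nf)
  have hNp : (1 : ℝ) ≤ N := by
    have : 1 ≤ N := by omega
    exact_mod_cast this
  have hN0 : (0 : ℝ) < N := by linarith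
  have hmXn := 𝓛.mX_nonneg
  -- the unit legs
  obtain ⟨un, hun⟩ := exists_unit_legs G hT 𝓛 heps0.le (N := N) (τ := τ) (e0 := e0) hτ.le (by
    have h1 : eps ≤ e0 / 2 := (min_le_right _ _).trans (min_le_left _ _)
    have h2 : (Nd : ℝ) ≤ N := by
      have : Nd ≤ N := by omega
      exact_mod_cast this
    have h3 := hNd.trans h2
    rw [div_le_iff₀ (by positivity)] at h3
    have h4 : eps * (τ * N) ≤ e0 / 2 * (τ * N) := by gcongr
    linarith)
  refine ⟨N, by omega, un, fun e => 𝓛.p N τ e, fun e => by rw [hun]; rfl, fun e => hCp N e, ?_⟩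
  intro Ψ hΨ m hm y
  have hmS : m ∈ Sh := (hmem m).2 hm
  -- the tuple
  have hmτ : ∀ e, (m e : ℝ) * τ ≤ a := fun e => by
    have := (abs_le.1 (hm e)).2
    rw [ha]; linarith
  have hmq : ∀ e, (m e : ℝ) ≤ q := fun e => by
    rw [hq, le_div_iff₀ hτ]; exact hmτ e
  have hnear : NearTup M G.T G.RS M.a Cg μ N (sh m) (fun e => 𝓛.u N τ e ^ m e) := by
    refine nearTup_legs hT 𝓛 heps0.le hτ.le hmτ hmq ?_ ?_
    · have h1 : |Cb| * a ≤ 2 * |Cb| + 1 := by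
        have : a ≤ 2 := by rw [ha]; linarith
        have := abs_nonneg Cb
        nlinarith
      rw [hCg, mul_comm]
      gcongr
    have h1 : eps ≤ μ / (2 * a) := (min_le_right _ _).trans (min_le_right _ _)
    have h2 : a * eps ≤ μ / 2 := by
      calc a * eps ≤ a * (μ / (2 * a)) := by gcongr
        _ = μ / 2 := by field_simp
    have h3 : (Ne : ℝ) ≤ N := by
      have : Ne ≤ N := by omega
      exact_mod_cast this
    have h4 := hNe.trans h3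
    rw [div_le_iff₀' (by positivity)] at h4
    have h5 : a * eps * N ≤ μ / 2 * N := by gcongr
    linarith
  have hclose : ∀ e, ∃ j : ℕ, (j : ℝ) ≤ κ * N ∧
      (𝓛.u N (sh m e) e)⁻¹ * 𝓛.u N τ e ^ m e ∈ Bl (vts M) j := by
    intro e
    refine ⟨m e * 𝓛.rb e, ?_, 𝓛.u_mul_mem hτ.le e (m e)⟩
    have h1 : ((𝓛.rb e : ℕ) : ℝ) ≤ 𝓛.rX := by exact_mod_cast 𝓛.rb_le' e
    have h3 : (Nf : ℝ) ≤ N := by
      have : Nf ≤ N := by omega
      exact_mod_cast this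
    have h4 := hNf.trans h3
    rw [div_le_iff₀' hκ] at h4
    have h5 := hmq e
    push_cast
    calc (m e : ℝ) * 𝓛.rb e ≤ q * 𝓛.rX := by gcongr
      _ ≤ κ * N := h4
  obtain ⟨-, hsg⟩ := hNa N (by omega) B Tm δ₀ μ₀
    (fun e => Finset.mem_image_of_mem _ (Finset.mem_univ e)) le_rfl le_rfl le_rfl hlipN (sh m)
    (Finset.mem_image_of_mem _ hmS) _ hnear
  have hbad := hsg Ψ hΨ y D1 (box M (fun i => D2 • fam M (rayE hRS) _ i) 1) hD1
    (measurableSet_box M zero_le_one) (hvol _) (fun n hn => hlen (rayE hRS) _ N (by omega)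
      (fun e => (hnear.word e).mono (le_max_left _ _) le_rfl) n hn) (fun g' hg' => hmv _ g' hg')
  obtain ⟨σ, L, θ, hL, hTL⟩ := hNb N (by omega) (sh m) ((hmem m).1 hmS) _ hclose (M.ext Ψ)
    (M.toCap_qi P hΨ) y hbad
  refine ⟨L, ⟨σ, hL⟩, θ, ?_⟩
  simp only [one_smul] at hTL
  refine rawLaw_of_timed G 𝓛 hτ (D := D) (tW := tW) (η := η) (η' := η / 2) (δ := η / 2)
    (kw := 2) le_rfl le_rfl (by linarith)
    (by positivity) (fun n w hwl hw => ?_) (m := m) (hDOm _ fun e => ?_) hTL hun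
  · have h1 := hNc N (by omega) (M.ext Ψ) (M.toCap_qi P hΨ) y n 1 w hwl hw
    simpa using h1
  · exact (hm e).trans (by linarith)

section Final

variable {Γ : Type*} [Group Γ] {S : Finset Γ}

/-- **invariant Euclidean coordinates with the box theorem**, for every quality `K`. -/
theorem exists_geo_boxFreq (D : Polyc.RootData Γ) (hS : Subgroup.closure (S : Set Γ) = ⊤)
    (M : BModel (S : Set Γ) D.π) (hX : XModel M) :
    ∃ G : Geo M (EuclideanSpace ℝ (Fin D.k)), ∀ K : ℕ, BoxFreq G K := by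
  have : Countable Γ := Crest.Agent.R182.Core.countable_of_closure S.finite_toSet hS
  obtain ⟨T, hT⟩ := Mic.exists_T D hS M
  exact ⟨⟨T, Star.RSys.ofGen (M.gsysT T), rfl⟩, fun K => box_freq hS (Mic.root_amen D) hX _
    (hT (nrmT T) fun v => nrmT_apply T v) K⟩

end Final

end Crest.Agent.R182.HoleOne
end

-- ▼ part R182/ScaleZero
section

set_option autoImplicit false

namespace Crest.Agent.R182.OneScale

open Crest.GroupTheory Crest.Geometry Crest.Agent.R182.QI Crest.Agent.R182.FinPath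
  Crest.Agent.R182.FinRed Crest.Agent.R182.Bnd Crest.Agent.R182.Core

variable {Γ : Type*} [Group Γ] {k : ℕ} {S : Set Γ} {π : Γ →* Multiplicative (Fin k → ℤ)}

/-- the one-scale law for `k = 0`. -/
theorem scale_zero (M : BModel S π) (hk : k = 0) (K : ℕ) :
    ∃ (LL : Set ((Fin k → ℝ) →ₗ[ℝ] (Fin k → ℝ))) (c0 : ℝ), 0 < c0 ∧ LL.Finite ∧
      (∀ L ∈ LL, Function.Injective L) ∧ OneScaleLaw M LL c0 K := by
  subst hk
  refine ⟨{LinearMap.id}, 1, one_pos, Set.finite_singleton _, ?_, 1, one_pos, fun η _ => ?_⟩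
  · rintro L rfl
    exact Function.injective_id
  · refine ⟨∅, ⟨Set.finite_empty, fun b hb => hb.elim, fun b hb => hb.elim, fun ν hν => ?_⟩, 0, 0,
      fun b hb => hb.elim, fun Ψ _ => ⟨fun _ => 0, fun _ => LinearMap.id, fun g => rfl,
        fun g i => i.elim0, fun _ _ _ => rfl, fun g b hb => hb.elim⟩⟩
    exact absurd (LinearMap.ext fun v => by rw [Subsingleton.elim v 0, map_zero, map_zero]) hν

end Crest.Agent.R182.OneScale
end

-- ▼ part R182/HoleOneB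

set_option autoImplicit false
set_option linter.unusedSectionVars false

open MeasureTheory Set
open scoped ENNReal Pointwise RealInnerProductSpace

namespace Crest.Agent.R182.HoleOneB

open Crest.GroupTheory Crest.Geometry Crest.Agent.R182.QI Crest.Agent.R182.Core
  Crest.Agent.R182.Core.BModel Crest.Agent.R182.Nb Crest.Agent.R182.HoleNil
  Crest.Agent.R182.HoleGeo Crest.Agent.R182.OneScale Crest.Agent.R182.ElI
  Crest.Agent.R182.HoleOne

/-- the numeric inequalities of the geometry, `Y = J τ Sc` -/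
theorem num_geo {c Λ : ℕ} {l0 l1 e Y : ℝ} (hΛ : 1 ≤ Λ) (hl0 : 0 < l0) (hl1 : 0 < l1)
    (hl : l1 ≤ Λ * l0) (hY : 0 ≤ Y) (he0 : 0 ≤ e) {Q₁ Q₂ : ℝ}
    (hQ₁ : Q₁ = 5 + 26 * (c + 1) * (Λ : ℝ) ^ 2) (hQ₂ : Q₂ = Q₁ + 12 * Λ) (heQ : Q₂ * e ≤ 1) :
    (c + 1) * (l1 * (2 * Y)) + l0 * ((1 - e) * Y) ≤ l0 * (Q₁ - 2) * Y ∧
    l0 * (Q₁ - 2) * Y + l0 * ((1 - e) * Y) ≤ Q₁ * (l0 * ((1 - e) * Y)) ∧
    (c + 1) * (2 * (6 * Λ) + 1) * (l1 * (2 * Y)) + l0 * ((1 - e) * Y) ≤ l0 * (Q₂ - 4) * Y ∧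
    l0 * (Q₂ - 4) * Y + l0 * ((1 - e) * Y) ≤ Q₂ * (l0 * ((1 - e) * Y)) ∧
    l0 * (Q₂ - 4) * Y + l0 * ((1 - e) * Y) ≤
      l0 * (Q₁ - 2) * Y + 2 * (6 * Λ) * (l0 * ((1 - e) * Y)) ∧
    l1 * (2 * Y) + l0 * ((1 - e) * Y) ≤ 6 * Λ * (l0 * ((1 - e) * Y)) := by
  have hc : (0:ℝ) ≤ c := Nat.cast_nonneg _
  have hΛ1 : (1:ℝ) ≤ Λ := by exact_mod_cast hΛ
  have hΛ2 : (Λ : ℝ) ≤ (Λ : ℝ) ^ 2 := by nlinarith
  have h1 : 0 ≤ l0 * Y := by positivity
  have h2 : l1 * Y ≤ Λ * (l0 * Y) := by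
    have := mul_le_mul_of_nonneg_right hl hY
    linarith
  have hl1Y : 0 ≤ l1 * Y := by positivity
  have hQ1p : 0 ≤ Q₁ := by rw [hQ₁]; positivity
  have he12 : 12 * Λ * e ≤ 1 := by nlinarith
  have heQ1 : Q₁ * e ≤ 1 := by nlinarith
  have he1 : e ≤ 1 := by nlinarith
  have hcΛ : 0 ≤ (c:ℝ) * (Λ:ℝ) ^ 2 := by positivity
  have hcΛ1 : (c:ℝ) * Λ ≤ (c:ℝ) * (Λ:ℝ) ^ 2 := mul_le_mul_of_nonneg_left hΛ2 hc
  refine ⟨?_, ?_, ?_, ?_, ?_, ?_⟩
  · have h3 : (c + 1) * (l1 * (2 * Y)) ≤ 2 * (c + 1) * Λ * (l0 * Y) := by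
      have h4 : (0:ℝ) ≤ 2 * (c + 1) := by positivity
      have := mul_le_mul_of_nonneg_left h2 h4
      linarith
    have h5 : 2 * (c + 1) * Λ + 1 ≤ Q₁ - 2 := by rw [hQ₁]; nlinarith
    have h6 := mul_le_mul_of_nonneg_right h5 h1
    nlinarith [mul_nonneg he0 h1]
  · have h3 : Q₁ * e * (l0 * Y) ≤ 1 * (l0 * Y) := mul_le_mul_of_nonneg_right heQ1 h1
    nlinarith [mul_nonneg he0 h1]
  · have h3 : (c + 1) * (2 * (6 * Λ) + 1) * (l1 * (2 * Y)) ≤
        (2 * (c + 1) * (12 * Λ + 1) * Λ) * (l0 * Y) := by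
      have h4 : (0:ℝ) ≤ 2 * (c + 1) * (12 * Λ + 1) := by positivity
      have := mul_le_mul_of_nonneg_left h2 h4
      linarith
    have h5 : 2 * (c + 1) * (12 * Λ + 1) * (Λ:ℝ) + 1 ≤ Q₂ - 4 := by
      rw [hQ₂, hQ₁]
      have h6 : 2 * (c + 1) * (12 * Λ + 1) * (Λ:ℝ) ≤ 26 * (c + 1) * (Λ:ℝ) ^ 2 := by
        have h7 : (12 * Λ + 1) * (Λ:ℝ) ≤ 13 * (Λ:ℝ) ^ 2 := by nlinarith
        have h8 : (0:ℝ) ≤ 2 * (c + 1) := by positivity
        have := mul_le_mul_of_nonneg_left h7 h8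
        linarith
      linarith
    have h6 := mul_le_mul_of_nonneg_right h5 h1
    nlinarith [mul_nonneg he0 h1]
  · have h3 : Q₂ * e * (l0 * Y) ≤ 1 * (l0 * Y) := mul_le_mul_of_nonneg_right heQ h1
    nlinarith [mul_nonneg he0 h1]
  · have h3 : 12 * Λ * e * (l0 * Y) ≤ 1 * (l0 * Y) := mul_le_mul_of_nonneg_right he12 h1
    rw [hQ₂]
    nlinarith [mul_nonneg he0 h1]
  · have h3 : 6 * Λ * e * (l0 * Y) ≤ 1 / 2 * (l0 * Y) :=
      mul_le_mul_of_nonneg_right (by linarith) h1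
    have h4 : 1 * (l0 * Y) ≤ Λ * (l0 * Y) := mul_le_mul_of_nonneg_right hΛ1 h1
    nlinarith [mul_nonneg he0 h1]

variable {Γ : Type*} [Group Γ] {k : ℕ} {S : Finset Γ} {π : Γ →* Multiplicative (Fin k → ℤ)}
  {M : BModel (S : Set Γ) π} {E : Type} [NormedAddCommGroup E] [InnerProductSpace ℝ E]
  [FiniteDimensional ℝ E]

set_option maxHeartbeats 1000000 in
theorem scale_of_freq (hcl : Subgroup.closure (S : Set Γ) = ⊤) (hX : XModel M) (G : Geo M E)
    [Nonempty G.R] (K : ℕ) (hF : BoxFreq G K) :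
    ∃ (LL : Set ((Fin k → ℝ) →ₗ[ℝ] (Fin k → ℝ))) (c0 : ℝ), 0 < c0 ∧
      LL.Finite ∧ (∀ L ∈ LL, Function.Injective L) ∧ OneScaleLaw M LL c0 K := by
  classical
  have hcount : Countable Γ := countable_of_closure S.finite_toSet hcl
  obtain ⟨c0, εv, hc0, hεv, hverts⟩ := exists_verts_unit G
  refine ⟨LLV G, c0, hc0, finite_LLV G, injective_LLV G, ?_⟩
  obtain ⟨m0, hm0, RC, Cb, hfreq⟩ := hF
  obtain ⟨gc, hgc⟩ := exists_GC (M := M) (σ := M.gen) (bch1 M)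
  obtain ⟨l0, l1, hl0, hl01, hl1, hl⟩ := exists_lam G
  obtain ⟨γ, hγ⟩ := exists_gap G
  have hγ0 := hγ.1
  have hγ1 := hγ.2.1
  obtain ⟨T, hT, hEvT⟩ := exists_tch G hγ RC Cb
  obtain ⟨D, hD, hD1, hD2⟩ := exists_TD G
  obtain ⟨R', s2, e1, P₀, D₀, hR', hs2, he1, hP₀, hcore⟩ := exists_core G hgc RC T hT
  obtain ⟨cK, hcore⟩ := hcore K
  obtain ⟨CR, DD, hCR, hDD, hlawB, hel⟩ := exists_law_el G
  have hgc1 := hgc.c1_pos
  have hA2 : 1 ≤ gc.A2 := hgc.A1_one.trans hgc.A12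
  have hA3 : 1 ≤ gc.A3 := hA2.trans hgc.A23
  obtain ⟨δg, εg, hδg, hεg, Cg, hCg1, hCg2, hCg3, hCg4⟩ := exists_δε gc M.r hgc1 hA3
  have hDE : DE gc M.r δg εg Cg := ⟨hCg1, hCg2, hCg3, hCg4⟩
  obtain ⟨cs, hcs0, hcs1, ω0, hω0, hω⟩ := el_hole S.finite_toSet hcl G hX.C_dist K RC Cb hA2 hl0
    (fun i => (hl i).1)
  set ω : ℝ := min ω0 (min m0 (γ / 16)) with hωdef
  have hωpos : 0 < ω := by positivity
  have hωm0 : ω ≤ m0 := (min_le_right _ _).trans (min_le_left _ _)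
  have hωγ : ω ≤ γ / 16 := (min_le_right _ _).trans (min_le_right _ _)
  obtain ⟨b0, hb0, hb0ω, hb⟩ := hω ω hωpos (min_le_left _ _)
  -- the combinatorial constants
  obtain ⟨Λ, hΛ1, hΛl⟩ : ∃ Λ : ℕ, 1 ≤ Λ ∧ l1 ≤ Λ * l0 := by
    refine ⟨⌈l1 / l0⌉₊ + 1, by omega, ?_⟩
    have h1 : l1 / l0 ≤ ⌈l1 / l0⌉₊ := Nat.le_ceil _
    rw [div_le_iff₀ hl0] at h1
    push_cast
    nlinarith
  set c : ℕ := M.c with hc
  set Q₁ : ℕ := 5 + 26 * (c + 1) * Λ ^ 2 with hQ₁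
  set Q₂ : ℕ := Q₁ + 12 * Λ with hQ₂
  have hQ₂pos : (0:ℝ) < Q₂ := by exact_mod_cast (by omega : 0 < Q₂)
  set B : ℕ := max 4 ⌈(Q₂ : ℝ) / b0⌉₊ with hB
  have hB4 : 4 ≤ B := le_max_left _ _
  have hB0 : (0:ℝ) < B := by exact_mod_cast (by omega : 0 < B)
  have hBb : (Q₂ : ℝ) / B ≤ b0 := by
    have h1 : (Q₂ : ℝ) / b0 ≤ B := (Nat.le_ceil _).trans (by exact_mod_cast le_max_right _ _)
    rw [div_le_iff₀ hb0] at h1
    rw [div_le_iff₀ hB0]
    linarith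
  have hQ12 : (Q₁ : ℝ) ≤ Q₂ := by exact_mod_cast (by omega : Q₁ ≤ Q₂)
  have hQ₁5 : (5 : ℝ) ≤ Q₁ := by exact_mod_cast (by omega : 5 ≤ Q₁)
  set b₁ : ℝ := Q₁ / B with hb₁
  set b₂ : ℝ := Q₂ / B with hb₂
  have hb₁p : 0 < b₁ := by positivity
  have hb₂p : 0 < b₂ := by positivity
  have hb₁b : b₁ ≤ b0 := (div_le_div_of_nonneg_right hQ12 hB0.le).trans hBb
  have ht₁ : (2:ℝ) / B < b₁ := div_lt_div_of_pos_right (by linarith) hB0
  have ht₂ : (4:ℝ) / B < b₂ := div_lt_div_of_pos_right (by linarith) hB0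
  -- the scale constant
  refine ⟨1 / (2 * D * B), by positivity, fun η hη => ?_⟩
  set m : ℝ := min (s2 / B) η with hm
  have hmpos : 0 < m := by positivity
  set J0 : ℝ := 2 * gc.J + 4 with hJ0
  have hJ0p : 0 < J0 := by positivity
  set W : ℝ := 8 + 32 * J0 with hW
  have hWp : 0 < W := by positivity
  set V : ℝ := 4 * J0 * DD with hV
  have hVp : 0 < V := by positivity
  set η' : ℝ := m / (4 * V) with hη'
  have hη'p : 0 < η' := by positivity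
  set δc : ℝ := m / 8 with hδc
  have hδcp : 0 < δc := by positivity
  set β : ℝ := εg / gc.A2 ^ M.r with hβ
  have hA2r : 0 < gc.A2 ^ M.r := by positivity
  have hβp : 0 < β := by positivity
  obtain ⟨L₁, hL₁, ε₁, hε₁, δ₁, hδ₁, Ev₁⟩ := hb b₁ hb₁p hb₁b (2 / B) (by positivity) ht₁ η' hη'p β
    hβp
  obtain ⟨L₂, hL₂, ε₂, hε₂, δ₂, hδ₂, Ev₂⟩ := hb b₂ hb₂p hBb (4 / B) (by positivity) ht₂ η' hη'p β
    hβp
  have hCA : 0 < CA M cs.c1 := by unfold CA; positivity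
  set η₀ : ℝ := min (m / (8 * W * CR)) (min (min (ε₁ / 2) (ε₂ / 2))
    (min (min (δ₁ / CA M cs.c1) (δ₂ / CA M cs.c1)) (δg * gc.c1 ^ M.r))) with hη₀
  have hη₀p : 0 < η₀ := by positivity
  have hη₀1 : η₀ ≤ m / (8 * W * CR) := min_le_left _ _
  have hη₀2 : η₀ ≤ ε₁ / 2 := (min_le_right _ _).trans ((min_le_left _ _).trans (min_le_left _ _))
  have hη₀3 : η₀ ≤ ε₂ / 2 := (min_le_right _ _).trans ((min_le_left _ _).trans (min_le_right _ _))
  have hη₀4 : η₀ ≤ δ₁ / CA M cs.c1 := (min_le_right _ _).trans ((min_le_right _ _).trans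
    ((min_le_left _ _).trans (min_le_left _ _)))
  have hη₀5 : η₀ ≤ δ₂ / CA M cs.c1 := (min_le_right _ _).trans ((min_le_right _ _).trans
    ((min_le_left _ _).trans (min_le_right _ _)))
  have hη₀6 : η₀ ≤ δg * gc.c1 ^ M.r := (min_le_right _ _).trans ((min_le_right _ _).trans
    (min_le_right _ _))
  obtain ⟨τ0, hτ0, hEv⟩ := (Ev₁.and Ev₂).and hEvT
  -- the unit of time
  set t0 : ℝ := min τ0 (min (min (ε₁ / 2) (ε₂ / 2)) (1 / (2 * D * B) / (2 * D))) with ht0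
  have ht0p : 0 < t0 := by positivity
  obtain ⟨n0, hn0⟩ := exists_nat_gt (1 / t0)
  have hn0p : (0:ℝ) < n0 := lt_trans (by positivity) hn0
  have hn01 : 1 ≤ n0 := by exact_mod_cast hn0p
  set J : ℕ := L₁ * L₂ * n0 with hJ
  have hJ1 : 1 ≤ J := Nat.mul_pos (Nat.mul_pos hL₁ hL₂) hn01
  have hJp : (0:ℝ) < J := by exact_mod_cast hJ1
  set τ : ℝ := 1 / (B * J) with hτ
  have hτp : 0 < τ := by positivity
  have hτt0 : τ ≤ t0 := by
    rw [hτ, div_le_iff₀ (by positivity)]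
    have h1 : 1 < t0 * n0 := by
      rw [div_lt_iff₀ ht0p] at hn0; linarith
    have h2 : (n0 : ℝ) ≤ B * J := by
      have h3 : n0 ≤ B * J := by
        rw [hJ]
        calc n0 = 1 * (1 * 1 * n0) := by ring
          _ ≤ B * (L₁ * L₂ * n0) := by
            refine Nat.mul_le_mul (by omega) (Nat.mul_le_mul (Nat.mul_le_mul hL₁ hL₂) le_rfl)
      exact_mod_cast h3
    have h4 := mul_le_mul_of_nonneg_left h2 ht0p.le
    linarith
  have hττ0 : τ ≤ τ0 := hτt0.trans (min_le_left _ _)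
  have hτε₁ : τ ≤ ε₁ / 2 := hτt0.trans ((min_le_right _ _).trans ((min_le_left _ _).trans
    (min_le_left _ _)))
  have hτε₂ : τ ≤ ε₂ / 2 := hτt0.trans ((min_le_right _ _).trans ((min_le_left _ _).trans
    (min_le_right _ _)))
  have hτD : τ ≤ 1 / (2 * D * B) / (2 * D) := hτt0.trans ((min_le_right _ _).trans
    (min_le_right _ _))
  have hJτ : (J : ℝ) * τ = 1 / B := by rw [hτ]; field_simp
  have hp1 : (1 : ℝ) = ((B * J : ℕ) : ℝ) * τ := by rw [hτ]; push_cast; field_simp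
  have hq1 : b₁ = ((Q₁ * J : ℕ) : ℝ) * τ := by
    push_cast; rw [mul_assoc, hJτ, hb₁]; ring
  have hq2 : b₂ = ((Q₂ * J : ℕ) : ℝ) * τ := by
    push_cast; rw [mul_assoc, hJτ, hb₂]; ring
  have hL₁0 : (0:ℝ) < L₁ := by exact_mod_cast hL₁
  have hL₂0 : (0:ℝ) < L₂ := by exact_mod_cast hL₂
  have hbL1 : b₁ / L₁ = ((Q₁ * (L₂ * n0) : ℕ) : ℝ) * τ := by
    rw [hq1, hJ]; push_cast; field_simp
  have hbL2 : b₂ / L₂ = ((Q₂ * (L₁ * n0) : ℕ) : ℝ) * τ := by
    rw [hq2, hJ]; push_cast; field_simp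
  obtain ⟨e0, he0, S0, hS0⟩ := hEv τ hτp hττ0
  set e : ℝ := min (min e0 e1) (min (min (1 / 4) (1 / Q₂)) (min (m / (8 * W * CR)) εv)) with he
  have hep : 0 < e := by positivity
  have hee0 : e ≤ e0 := (min_le_left _ _).trans (min_le_left _ _)
  have hee1 : e ≤ e1 := (min_le_left _ _).trans (min_le_right _ _)
  have he4 : e ≤ 1 / 4 := (min_le_right _ _).trans ((min_le_left _ _).trans (min_le_left _ _))
  have heQ : e ≤ 1 / Q₂ := (min_le_right _ _).trans ((min_le_left _ _).trans (min_le_right _ _))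
  have hem : e ≤ m / (8 * W * CR) := (min_le_right _ _).trans ((min_le_right _ _).trans
    (min_le_left _ _))
  have heεv : e ≤ εv := (min_le_right _ _).trans ((min_le_right _ _).trans (min_le_right _ _))
  have he2 : e ≤ 1 / 2 := by linarith
  have heQ' : (Q₂ : ℝ) * e ≤ 1 := by
    rw [le_div_iff₀ hQ₂pos] at heQ; linarith
  obtain ⟨b, Cp, hbCN, hfreq2⟩ := hfreq η₀ hη₀p τ hτp e hep
  obtain ⟨Nc, hNc⟩ := exists_conj_ww G hX K b hbCN R' Cp J hδcp
  set Cn : ℕ := ⌈|Cb| * τ⌉₊ + 1 with hCn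
  have hCnb : Cb * τ ≤ Cn := by
    have h1 : |Cb| * τ ≤ ⌈|Cb| * τ⌉₊ := Nat.le_ceil _
    have h2 : Cb * τ ≤ |Cb| * τ := mul_le_mul_of_nonneg_right (le_abs_self _) hτp.le
    rw [hCn]; push_cast; linarith
  set p : ℕ := B * J with hp
  set q₁ : ℕ := Q₁ * J with hq₁
  set q₂ : ℕ := Q₂ * J with hq₂
  obtain ⟨Ne, hNe⟩ := exists_exp_small P₀ (((p + q₂) * Cn : ℕ) : ℝ) (l0 / (2 * B)) D₀ (by positivity)
  obtain ⟨N, hN, un, pe, hup, hpe, hraw⟩ := hfreq2 (max (max Nc Ne) (max ⌈S0⌉₊ 1))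
  have hNc' : Nc ≤ N := (le_max_left _ _).trans ((le_max_left _ _).trans hN)
  have hNe' : Ne ≤ N := (le_max_right _ _).trans ((le_max_left _ _).trans hN)
  have hNS : S0 ≤ N := by
    have h1 : ⌈S0⌉₊ ≤ N := (le_max_left _ _).trans ((le_max_right _ _).trans hN)
    exact (Nat.le_ceil _).trans (by exact_mod_cast h1)
  have hN1 : 1 ≤ N := (le_max_right _ _).trans ((le_max_right _ _).trans hN)
  have hN0 : (0:ℝ) < N := by exact_mod_cast hN1
  have hτN : 0 < τ * N := by positivity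
  obtain ⟨⟨hE1, hE2⟩, hTch⟩ := hS0 N hNS (un.mono hee0 hτN.le)
  change _ at hE1
  have hQ₁r : (Q₁ : ℝ) = 5 + 26 * (c + 1) * (Λ : ℝ) ^ 2 := by rw [hQ₁]; push_cast; ring
  have hQ₂r : (Q₂ : ℝ) = Q₁ + 12 * Λ := by rw [hQ₂]; push_cast; ring
  set Y : ℝ := J * (τ * N) with hY
  have hYB : Y = N / B := by rw [hY, ← mul_assoc, hJτ]; ring
  have hYp : 0 < Y := by positivity
  obtain ⟨n1, n2, n3, n4, n5, n6⟩ := num_geo (c := c) hΛ1 hl0 (by linarith) hΛl hYp.le hep.le hQ₁r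
    hQ₂r heQ'
  set μ₁ : ℝ := l0 * ((1 - e) * (τ * N)) with hμ₁
  set μ₂ : ℝ := l1 * (2 * (τ * N)) with hμ₂
  have hJμ₁ : J * μ₁ = l0 * ((1 - e) * Y) := by rw [hμ₁, hY]; ring
  have hJμ₂ : J * μ₂ = l1 * (2 * Y) := by rw [hμ₂, hY]; ring
  have hLegB : LegB G.ray un.u (Cn * N) RC μ₁ μ₂ := by
    refine legB_of_unit G hl0 hl (by linarith) un hep.le he2 hτN ?_
    push_cast
    calc Cb * (τ * N) = (Cb * τ) * N := by ring
      _ ≤ Cn * N := mul_le_mul_of_nonneg_right hCnb hN0.le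
  set a₁ : ℝ := l0 * (b₁ - 2 / B) * N with ha₁
  set a₂ : ℝ := l0 * (b₂ - 4 / B) * N with ha₂
  have ha₁Y : a₁ = l0 * (Q₁ - 2) * Y := by rw [ha₁, hb₁, hYB]; ring
  have ha₂Y : a₂ = l0 * (Q₂ - 4) * Y := by rw [ha₂, hb₂, hYB]; ring
  -- near-round shapes
  have hNR : ∀ m : G.R → ℕ, (∀ r, p ≤ m r) → (∀ r, m r ≤ p + q₂) →
      ∀ r, |(m r : ℝ) * τ - 1| ≤ ω := by
    intro m h1 h2 r
    have h3 : (p : ℝ) * τ ≤ m r * τ := mul_le_mul_of_nonneg_right (by exact_mod_cast h1 r) hτp.le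
    have h4 : (m r : ℝ) * τ ≤ ((p + q₂ : ℕ) : ℝ) * τ :=
      mul_le_mul_of_nonneg_right (by exact_mod_cast h2 r) hτp.le
    push_cast at h4
    rw [← hp1] at h3
    rw [add_mul, ← hp1, ← hq2] at h4
    rw [abs_of_nonneg (by linarith)]
    linarith [hBb.trans hb0ω]
  have hJB : (J : ℝ) * τ * N = N / B := by rw [hJτ]; ring
  obtain ⟨Dd, hDd⟩ := hcore un.u (Cn * N) μ₁ μ₂ (Nat.mul_pos (by omega) hN1) hLegB p q₁ q₂
    (6 * Λ * J) J a₁ a₂ (J * τ * N) hJ1 (by rw [hq₁]; exact Nat.le_mul_of_pos_left _ (by omega))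
    (by rw [hq₁, hq₂, hQ₂]; ring)
    (by
      calc J = 1 * J := (one_mul _).symm
        _ ≤ 12 * Λ * J := Nat.mul_le_mul_right _ (by omega)
        _ = 2 * (6 * Λ * J) := by ring)
    (by
      have e1 : (c + 1 : ℝ) * J * μ₂ + J * μ₁ = (c + 1) * (J * μ₂) + J * μ₁ := by ring
      rw [e1, hJμ₁, hJμ₂, ha₁Y]; exact n1)
    (by
      have e1 : ((q₁ : ℕ) : ℝ) * μ₁ = Q₁ * (J * μ₁) := by rw [hq₁]; push_cast; ring
      rw [e1, hJμ₁, ha₁Y]; exact n2)
    (by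
      have e1 : (c + 1 : ℝ) * (2 * ((6 * Λ * J : ℕ) : ℝ) + J) * μ₂ + J * μ₁ =
        (c + 1) * (2 * (6 * Λ) + 1) * (J * μ₂) + J * μ₁ := by push_cast; ring
      rw [e1, hJμ₁, hJμ₂, ha₂Y]; exact n3)
    (by
      have e1 : ((q₂ : ℕ) : ℝ) * μ₁ = Q₂ * (J * μ₁) := by rw [hq₂]; push_cast; ring
      rw [e1, hJμ₁, ha₂Y]; exact n4)
    (by
      have e1 : 2 * ((6 * Λ * J : ℕ) : ℝ) * μ₁ = 2 * (6 * Λ) * (J * μ₁) := by push_cast; ring
      rw [e1, hJμ₁, ha₂Y, ha₁Y]; exact n5)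
    (by
      have e1 : ((6 * Λ * J : ℕ) : ℝ) * μ₁ = 6 * Λ * (J * μ₁) := by push_cast; ring
      rw [e1, hJμ₁, hJμ₂]; exact n6)
    (fun m h1 h2 => hTch ω hωγ m (hNR m h1 h2))
    (by
      have h1 := hNe N hNe'
      refine le_trans ?_ h1
      have h2 : (((p + q₂) * (Cn * N) : ℕ) : ℝ) = (((p + q₂) * Cn : ℕ) : ℝ) * N := by
        push_cast; ring
      rw [h2, hJμ₁, hYB]
      refine mul_le_mul_of_nonneg_left (Real.exp_le_exp.2 ?_) (by positivity)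
      have h3 : l0 / (2 * B) * N = l0 * (1 / 2 * (N / B)) := by field_simp
      rw [h3]
      have h4 : 1 / 2 * ((N:ℝ) / B) ≤ (1 - e) * (N / B) :=
        mul_le_mul_of_nonneg_right (by linarith) (by positivity)
      have h5 := mul_le_mul_of_nonneg_left h4 hl0.le
      linarith)
    (by positivity)
    (fun r => by
      refine ((unit_num G un hD hD1 hD2 hτN he2 r).2.2 J).trans ?_
      exact mul_le_mul_of_nonneg_right hee1 (by positivity))
  -- the error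
  set τL : ℝ := CR * (η₀ + e) * N with hτL
  have hτL0 : 0 ≤ τL := by positivity
  set ηL : ℝ := 4 * τL + DD * η' * N with hηL
  have hηL0 : 0 ≤ ηL := by positivity
  have herr : 2 * (4 * τL + δc * N + J0 * (8 * τL + 2 * ηL)) ≤ m * N := by
    have h1 : CR * (η₀ + e) ≤ m / (4 * W) := by
      have h2 : η₀ + e ≤ m / (8 * W * CR) + m / (8 * W * CR) := add_le_add hη₀1 hem
      calc CR * (η₀ + e) ≤ CR * (m / (8 * W * CR) + m / (8 * W * CR)) :=
            mul_le_mul_of_nonneg_left h2 (by linarith)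
        _ = m / (4 * W) := by field_simp; ring
    have h3 : W * τL ≤ m / 4 * N := by
      calc W * τL = W * (CR * (η₀ + e)) * N := by rw [hτL]; ring
        _ ≤ W * (m / (4 * W)) * N := by gcongr
        _ = m / 4 * N := by field_simp
    have h4 : V * (η' * N) = m / 4 * N := by rw [hη']; field_simp
    have h5 : 2 * (4 * τL + δc * N + J0 * (8 * τL + 2 * ηL)) = W * τL + 2 * (δc * N) +
        V * (η' * N) := by rw [hηL, hW, hV]; ring
    rw [h5, h4, hδc]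
    have h6 : 0 ≤ m * N := by positivity
    linarith
  refine ⟨Set.range un.u, hverts RC Cb e τ N heεv hτp hN0 un, N, cK * (Dd + 1) + τL, ?_,
    fun Ψ hΨ => ?_⟩
  · rintro _ ⟨r, rfl⟩
    refine (unit_num G un hD hD1 hD2 hτN he2 r).2.1.trans ?_
    have h1 : 2 * D * τ ≤ 1 / (2 * D * B) := by
      have h2 := hτD
      rw [le_div_iff₀ (by positivity)] at h2
      linarith
    have h3 := mul_le_mul_of_nonneg_right h1 hN0.le
    linarith
  -- the raw laws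
  have hrawm : ∀ m : G.R → ℕ, (∀ r, |(m r : ℝ) * τ - 1| ≤ ω) → ∀ y : M.G,
      ∃ L ∈ LLE G, ∃ θ : E, RawLaw G Ψ N τ un.u η₀ (fun e => m e * τ) y L θ :=
    fun m hm y => hraw Ψ hΨ m (fun r => (hm r).trans hωm0) y
  have hboxAt : ∀ ε δ : ℝ, τ ≤ ε / 2 → η₀ ≤ ε / 2 → η₀ ≤ δ / CA M cs.c1 → ∀ x : M.G,
      BoxAt G cs Ψ x N τ un.u ω ε δ := by
    intro ε δ h1 h2 h3 x
    refine boxAt_of_raw cs hcs0 hγ hωpos.le (by linarith) hτp hη₀p.le (by linarith) ?_ ?_ x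
    · rw [le_div_iff₀ hCA] at h3; exact h3
    · rintro Z ⟨⟨m, hm⟩, hZ⟩ y
      have hZm : Z = fun e => (m e : ℝ) * τ := funext hm
      subst hZm
      exact hrawm m hZ y
  have hrawAt : ∀ ε δ : ℝ, τ ≤ ε / 2 → η₀ ≤ ε / 2 → η₀ ≤ δ / CA M cs.c1 → ∀ m : G.R → ℕ,
      (∀ r, |(m r : ℝ) * τ - 1| ≤ ω) → RawAt G cs Ψ N τ un.u η₀ ε δ (fun r => m r * τ) := by
    intro ε δ h1 h2 h3 m hm x n σ L θ hL hr
    refine lawAt_of_raw cs hcs0 hγ hωpos.le (by linarith) hτp hη₀p.le (by linarith) ?_ hm hL hr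
    rw [le_div_iff₀ hCA] at h3; exact h3
  have hboxOut : ∀ m : G.R → ℕ, (∀ r, |(m r : ℝ) * τ - 1| ≤ ω) →
      BoxOut G Ψ N τ un.u η₀ (fun r => m r * τ) := by
    intro m hm y
    obtain ⟨L, ⟨σ, hL⟩, θ, hr⟩ := hrawm m hm y
    exact ⟨σ, L, θ, hL, hr⟩
  have hδη : ENNReal.ofReal η₀ ≤ ENNReal.ofReal δg * ENNReal.ofReal (gc.c1 ^ M.r) := by
    rw [← ENNReal.ofReal_mul hδg.le]
    exact ENNReal.ofReal_le_ofReal hη₀6
  have hJτ4 : (J : ℝ) * τ ≤ 1 / 4 := by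
    rw [hJτ]
    exact one_div_le_one_div_of_le (by norm_num) (by exact_mod_cast hB4)
  have hNRp : ∀ r : G.R, |(((fun _ => p) r : ℕ) : ℝ) * τ - 1| ≤ ω :=
    hNR (fun _ => p) (fun _ => le_rfl) (fun _ => Nat.le_add_right _ _)
  have hNRu : ∀ q, q ≤ q₂ → ∀ r r' : G.R,
      |((Function.update (fun _ => p) r (p + q) r' : ℕ) : ℝ) * τ - 1| ≤ ω := by
    intro q hq r
    refine hNR _ (fun r' => ?_) (fun r' => ?_)
    · by_cases h : r' = r
      · subst h; rw [Function.update_self]; omega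
      · rw [Function.update_of_ne h]
    · by_cases h : r' = r
      · subst h; rw [Function.update_self]; omega
      · rw [Function.update_of_ne h]; omega
  have hvol : ∀ m : G.R → ℕ, (∀ r, p ≤ m r) → (∀ r, m r ≤ p + q₂) →
      volume (M.NB (F G.ray un.u m) gc.c1) ≠ 0 := by
    intro m h1 h2
    exact volume_fam_ne_zero (Gen.spans M) hT (g := fun r => un.u r ^ m r)
      (N := (p + q₂) * (Cn * N)) (fun r => hLegB.mem G.ray un.u h2 r)
      (hTch ω hωγ m (hNR m h1 h2)) hgc1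
  have hbounds : ∀ q, q ≤ q₂ → ∀ r : G.R, (∀ r', p ≤ Function.update (fun _ => p) r (p + q) r') ∧
      ∀ r', Function.update (fun _ => p) r (p + q) r' ≤ p + q₂ := by
    intro q hq r
    refine ⟨fun r' => ?_, fun r' => ?_⟩
    · by_cases h : r' = r
      · subst h; rw [Function.update_self]; omega
      · rw [Function.update_of_ne h]
    · by_cases h : r' = r
      · subst h; rw [Function.update_self]; omega
      · rw [Function.update_of_ne h]; omega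
  have hβA : β * gc.A2 ^ M.r = εg := by rw [hβ]; field_simp
  have helAt : ∀ (q : ℕ) (bb ε δ a : ℝ), q ≤ q₂ → bb = q * τ → τ ≤ ε / 2 → η₀ ≤ ε / 2 →
      η₀ ≤ δ / CA M cs.c1 →
      ElOut G cs Ψ N τ un.u ε δ η' β bb
        (M.NB (fm G un.u τ fun _ => 1 + bb) (gc.A2 * Real.exp (-a))) →
      ElAt G gc Ψ un.u p q J (Real.exp (-a)) τL ηL δg εg := by
    intro q bb ε δ a hq hbb h1 h2 h3 helo y r
    have h4 := hel (cs := cs) (ε1 := ε) (δ1 := δ) (η₀ := η₀) (η' := η') (β := β) (A2 := gc.A2)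
      (e := Real.exp (-a)) (c1 := gc.c1) (δL := ENNReal.ofReal δg) un hN0 hτp hep.le hJτ4 hp1 hbb
      hη₀p.le hη'p.le (by linarith) hgc1 hgc.c1_le hδη hCg3
      (hvol _ (fun _ => le_rfl) (fun _ => Nat.le_add_right _ _))
      (fun r => hvol _ (hbounds q hq r).1 (hbounds q hq r).2)
      (by rw [shape_one hp1]; exact hboxOut _ hNRp)
      (fun r => by rw [shape_upd hp1 hbb r]; exact hboxOut _ (hNRu q hq r))
      (by rw [shape_one hp1]; exact hrawAt ε δ h1 h2 h3 _ hNRp)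
      (fun r => by rw [shape_upd hp1 hbb r]; exact hrawAt ε δ h1 h2 h3 _ (hNRu q hq r)) helo y r
    rw [hβA] at h4
    exact h4
  have hun : un.u = fun e => b e ^ pe e := funext hup
  obtain ⟨θ, Lx, k1, k2, k3, k4⟩ := hDd Ψ hΨ τL (δc * N) ηL δg εg Cg hτL0 (by positivity) hηL0 hDE
    (fun m h1 h2 y => by
      obtain ⟨L, hL, θ, hr⟩ := hrawm m (hNR m h1 h2) y
      have h3 : ∀ r, 1 / 2 ≤ (m r : ℝ) * τ := by
        intro r
        have := (abs_le.1 (hNR m h1 h2 r)).1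
        linarith
      exact ⟨toV G L, toV_mem hL, _, hlawB un hN0 hτp hep.le hJτ4 h3 hη₀p.le hL hr hgc1 hδη⟩)
    (helAt q₁ b₁ ε₁ δ₁ a₁ (by rw [hq₁, hq₂]; exact Nat.mul_le_mul_right _ (by omega)) hq1 hτε₁
      hη₀2 hη₀4 (fun x => hE1 ⟨_, hp1⟩ ⟨_, hbL1⟩ Ψ hΨ x (hboxAt ε₁ δ₁ hτε₁ hη₀2 hη₀4 x)))
    (helAt q₂ b₂ ε₂ δ₂ a₂ le_rfl hq2 hτε₂ hη₀3 hη₀5
      (fun x => hE2 ⟨_, hp1⟩ ⟨_, hbL2⟩ Ψ hΨ x (hboxAt ε₂ δ₂ hτε₂ hη₀3 hη₀5 x)))
    (fun c hc hcR z o => by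
      have h1 := hNc N hNc' pe hpe Ψ hΨ c hc hcR z o
      rw [hun]; exact h1)
    (by
      refine herr.trans ?_
      have h1 : m ≤ s2 / B := min_le_left _ _
      calc m * N ≤ s2 / B * N := mul_le_mul_of_nonneg_right h1 hN0.le
        _ = s2 * (J * τ * N) := by rw [hJB]; ring)
  refine ⟨θ, Lx, k1, k2, k3, ?_⟩
  rintro g _ ⟨r, rfl⟩ j hj i
  have hjJ : j ≤ J := by
    have h1 := (unit_num G un hD hD1 hD2 hτN he2 r).1
    have h2 : (j : ℝ) * (τ * N / (2 * D)) ≤ 1 / (2 * D * B) * N :=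
      (mul_le_mul_of_nonneg_left h1 (Nat.cast_nonneg j)).trans hj
    have h3 : (j : ℝ) * τ ≤ J * τ := by
      rw [hJτ]
      have h4 : (j : ℝ) * (τ * N / (2 * D)) = (j * τ) * (N / (2 * D)) := by ring
      have h5 : 1 / (2 * D * B) * (N:ℝ) = (1 / B) * (N / (2 * D)) := by
        have hD0 : (0:ℝ) < D := by linarith
        field_simp
      rw [h4, h5] at h2
      exact le_of_mul_le_mul_right h2 (by positivity)
    have h6 : (j : ℝ) ≤ J := le_of_mul_le_mul_right h3 hτp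
    exact_mod_cast h6
  refine (k4 g r j hjJ i).trans (herr.trans ?_)
  exact mul_le_mul_of_nonneg_right (min_le_right _ _) hN0.le

/-- **the one-scale law of every real model** -/
theorem hasScale {Γ : Type*} [Group Γ] (D : Polyc.RootData Γ) : Asm3.HasScale Γ D := by
  intro S hS M hX K
  obtain ⟨G, hG⟩ := exists_geo_boxFreq D hS M hX
  rcases isEmpty_or_nonempty G.R with hR | hR
  · refine OneScale.scale_zero M ?_ K
    by_contra hk
    have h1 : (fun _ : Fin D.k => (1:ℝ)) = 0 :=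
      M.sep _ fun i hi => (hR.false (G.ray ⟨i, hi⟩)).elim
    have h2 := congrFun h1 ⟨0, Nat.pos_of_ne_zero hk⟩
    simp at h2
  · exact scale_of_freq hS hX G K (hG K)

end Crest.Agent.R182.HoleOneB
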