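import Mathlib
import Crest.Agent.R182.PolycReal

-- ▼ part R182/ModelExp
section

set_option autoImplicit false

namespace Crest.Agent.R182.Model

open Polyc

variable {n : ℕ}

/-- truncated exponential -/
noncomputable def ex (X : Matrix (Fin n) (Fin n) ℝ) : Matrix (Fin n) (Fin n) ℝ :=
  ∑ k ∈ Finset.range n, ((k.factorial : ℝ)⁻¹) • X ^ k

theorem ex_eq_exp {X : Matrix (Fin n) (Fin n) ℝ} (hX : X ^ n = 0) : ex X = IsNilpotent.exp X := by
  rw [IsNilpotent.exp_eq_sum hX, ex]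
  refine Finset.sum_congr rfl fun k _ => ?_
  ext i j
  simp [Matrix.smul_apply, Rat.smul_def]

theorem ex_add {X Y : Matrix (Fin n) (Fin n) ℝ} (hX : X ^ n = 0) (hY : Y ^ n = 0)
    (hXY : (X + Y) ^ n = 0) (h : Commute X Y) : ex (X + Y) = ex X * ex Y := by
  rw [ex_eq_exp hX, ex_eq_exp hY, ex_eq_exp hXY]
  exact IsNilpotent.exp_add_of_commute h ⟨n, hX⟩ ⟨n, hY⟩

theorem smul_pow_zero {X : Matrix (Fin n) (Fin n) ℝ} (hX : X ^ n = 0) (t : ℝ) :
    (t • X) ^ n = 0 := by rw [smul_pow, hX, smul_zero]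

theorem ex_add_smul {X : Matrix (Fin n) (Fin n) ℝ} (hX : X ^ n = 0) (s t : ℝ) :
    ex ((s + t) • X) = ex (s • X) * ex (t • X) := by
  rw [add_smul]
  refine ex_add (smul_pow_zero hX s) (smul_pow_zero hX t) ?_ ?_
  · rw [← add_smul]; exact smul_pow_zero hX _
  · exact ((Commute.refl X).smul_left s).smul_right t

theorem ex_zero : ex (0 : Matrix (Fin n) (Fin n) ℝ) = 1 := by
  rcases Nat.eq_zero_or_pos n with h | h
  · subst h; exact Subsingleton.elim _ _
  · rw [ex, Finset.sum_eq_single 0]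
    · simp
    · intro k _ hk
      rw [zero_pow hk, smul_zero]
    · intro h'; exact absurd (Finset.mem_range.mpr h) h'

theorem ex_mul_ex_neg {X : Matrix (Fin n) (Fin n) ℝ} (hX : X ^ n = 0) :
    ex X * ex (-X) = 1 := by
  have := ex_add_smul hX 1 (-1)
  rw [add_neg_cancel, zero_smul, ex_zero, one_smul, neg_smul, one_smul] at this
  exact this.symm

theorem ex_neg_mul_ex {X : Matrix (Fin n) (Fin n) ℝ} (hX : X ^ n = 0) :
    ex (-X) * ex X = 1 := by
  have := ex_add_smul hX (-1) 1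
  rw [neg_add_cancel, zero_smul, ex_zero, one_smul, neg_smul, one_smul] at this
  exact this.symm

theorem ex_nat {X : Matrix (Fin n) (Fin n) ℝ} (hX : X ^ n = 0) (m : ℕ) :
    ex ((m : ℝ) • X) = ex X ^ m := by
  induction m with
  | zero => simp [ex_zero]
  | succ m ih => rw [Nat.cast_succ, ex_add_smul hX, ih, one_smul, pow_succ]

/-- `ex X - 1` is `X` times something commuting -/
theorem ex_sub_one_pow {X : Matrix (Fin n) (Fin n) ℝ} (hX : X ^ n = 0) :
    (ex X - 1) ^ n = 0 := by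
  obtain ⟨Y, hY, hXY⟩ : ∃ Y, ex X - 1 = X * Y ∧ Commute X Y := by
    rcases Nat.eq_zero_or_pos n with h | h
    · subst h; exact ⟨1, Subsingleton.elim _ _, Commute.one_right _⟩
    · obtain ⟨m, rfl⟩ : ∃ m, n = m + 1 := ⟨n - 1, by omega⟩
      refine ⟨∑ k ∈ Finset.range m, (((k + 1).factorial : ℝ)⁻¹) • X ^ k, ?_, ?_⟩
      · rw [ex, Finset.sum_range_succ', Finset.mul_sum]
        simp only [Nat.factorial_zero, Nat.cast_one, inv_one, pow_zero, one_smul,
          add_sub_cancel_right]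
        refine Finset.sum_congr rfl fun k _ => ?_
        rw [pow_succ', mul_smul_comm]
      · refine Commute.sum_right _ _ _ fun k _ => ?_
        exact ((Commute.refl X).pow_right k).smul_right _
  rw [hY, hXY.mul_pow, hX, zero_mul]

theorem isPolyM_ex {σ : Type*} {f : (σ → ℝ) → Matrix (Fin n) (Fin n) ℝ} (hf : IsPolyM f) :
    IsPolyM (fun x => ex (f x)) :=
  IsPolyM.sum _ fun k _ => IsPolyM.smul (Polyc.IsPoly.const _) (hf.pow k)

/-- coefficients of the logarithm series -/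
noncomputable def lc (k : ℕ) : ℝ := if k = 0 then 0 else (-1) ^ (k + 1) / k

/-- truncated logarithm -/
noncomputable def lg (g : Matrix (Fin n) (Fin n) ℝ) : Matrix (Fin n) (Fin n) ℝ :=
  ∑ k ∈ Finset.range n, lc k • (g - 1) ^ k

theorem isPolyM_lg {σ : Type*} {f : (σ → ℝ) → Matrix (Fin n) (Fin n) ℝ} (hf : IsPolyM f) :
    IsPolyM (fun x => lg (f x)) :=
  IsPolyM.sum _ fun k _ => IsPolyM.smul (Polyc.IsPoly.const _) ((hf.sub (IsPolyM.const 1)).pow k)

/-- the linear coefficient of the falling factorial -/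
theorem coeff_one_descPochhammer (k : ℕ) :
    (descPochhammer ℝ k).coeff 1 / k.factorial = lc k := by
  rcases Nat.eq_zero_or_pos k with h | h
  · subst h
    simp [lc, Polynomial.coeff_one]
  · obtain ⟨m, rfl⟩ : ∃ m, k = m + 1 := ⟨k - 1, by omega⟩
    have h1 : (descPochhammer ℝ (m + 1)).coeff 1 =
        ((descPochhammer ℝ m).comp (Polynomial.X - 1)).coeff 0 := by
      rw [descPochhammer_succ_left, Polynomial.coeff_X_mul]
    have h2 : ((descPochhammer ℝ m).comp (Polynomial.X - 1)).coeff 0 =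
        (-1) ^ m * (m.factorial : ℝ) := by
      rw [Polynomial.coeff_zero_eq_eval_zero, Polynomial.eval_comp]
      simp only [Polynomial.eval_sub, Polynomial.eval_X, Polynomial.eval_one, zero_sub]
      induction m with
      | zero => simp
      | succ m ih =>
        rw [descPochhammer_succ_right, Polynomial.eval_mul, ih (by omega) (by
          rw [descPochhammer_succ_left, Polynomial.coeff_X_mul])]
        simp only [Polynomial.eval_sub, Polynomial.eval_X, Polynomial.eval_natCast,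
          Nat.factorial_succ]
        push_cast
        ring
    rw [h1, h2, lc, if_neg (by omega), Nat.factorial_succ]
    have : (m.factorial : ℝ) ≠ 0 := by exact_mod_cast m.factorial_ne_zero
    have h3 : ((m : ℝ) + 1) ≠ 0 := by positivity
    push_cast
    field_simp
    ring

theorem hasDerivAt_pw {g : Matrix (Fin n) (Fin n) ℝ} (i j : Fin n) :
    HasDerivAt (fun t : ℝ => pw g t i j) (lg g i j) 0 := by
  have h1 : (fun t : ℝ => pw g t i j) =
      fun t : ℝ => ∑ k ∈ Finset.range n, bin t k * ((g - 1) ^ k) i j := by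
    funext t
    rw [pw, Matrix.sum_apply]
    rfl
  have h2 : lg g i j = ∑ k ∈ Finset.range n, lc k * ((g - 1) ^ k) i j := by
    rw [lg, Matrix.sum_apply]
    rfl
  rw [h1, h2]
  refine HasDerivAt.fun_sum fun k _ => ?_
  refine HasDerivAt.mul_const ?_ _
  have h3 := (descPochhammer ℝ k).hasDerivAt (0 : ℝ)
  have h4 := h3.div_const (k.factorial : ℝ)
  have h5 : Polynomial.eval 0 (Polynomial.derivative (descPochhammer ℝ k)) / k.factorial =
      lc k := by
    rw [← coeff_one_descPochhammer]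
    congr 1
    rw [← Polynomial.coeff_zero_eq_eval_zero, Polynomial.coeff_derivative]
    simp
  rw [h5] at h4
  exact h4

theorem hasDerivAt_ex_zero {X : Matrix (Fin n) (Fin n) ℝ} (hX : X ^ n = 0) (i j : Fin n) :
    HasDerivAt (fun t : ℝ => ex (t • X) i j) (X i j) 0 := by
  have h1 : (fun t : ℝ => ex (t • X) i j) =
      fun t : ℝ => ∑ k ∈ Finset.range n, t ^ k * (((k.factorial : ℝ)⁻¹) * (X ^ k) i j) := by
    funext t
    rw [ex, Matrix.sum_apply]
    refine Finset.sum_congr rfl fun k _ => ?_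
    rw [smul_pow, Matrix.smul_apply, Matrix.smul_apply, smul_eq_mul, smul_eq_mul]
    ring
  have h2 : X i j = ∑ k ∈ Finset.range n,
      (if k = 1 then (1 : ℝ) else 0) * (((k.factorial : ℝ)⁻¹) * (X ^ k) i j) := by
    rcases Nat.lt_or_ge 1 n with h | h
    · rw [Finset.sum_eq_single 1]
      · simp
      · intro k _ hk
        rw [if_neg hk, zero_mul]
      · intro h'; exact absurd (Finset.mem_range.mpr h) h'
    · have h3 : X = 0 := by
        have : X ^ 1 = 0 := by
          have := pow_eq_zero_of_le h hX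
          exact this
        simpa using this
      rw [h3]
      symm
      apply Finset.sum_eq_zero
      intro k hk
      rw [Finset.mem_range] at hk
      rw [if_neg (by omega), zero_mul]
  rw [h1, h2]
  refine HasDerivAt.fun_sum fun k _ => ?_
  refine HasDerivAt.mul_const ?_ _
  have h3 := hasDerivAt_pow k (0 : ℝ)
  have h4 : (k : ℝ) * 0 ^ (k - 1) = if k = 1 then (1 : ℝ) else 0 := by
    split_ifs with h
    · subst h; simp
    · rcases Nat.eq_zero_or_pos k with h' | h'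
      · subst h'; simp
      · rw [zero_pow (by omega), mul_zero]
  rw [h4] at h3
  exact h3

/-- derivative of a one-parameter group from the derivative at zero -/
theorem hasDerivAt_of_group {F : ℝ → Matrix (Fin n) (Fin n) ℝ}
    (hF : ∀ s t, F (s + t) = F s * F t) {A : Matrix (Fin n) (Fin n) ℝ}
    (h0 : ∀ i j, HasDerivAt (fun s => F s i j) (A i j) 0) (t : ℝ) (i j : Fin n) :
    HasDerivAt (fun s => F s i j) ((A * F t) i j) t := by
  have h1 : HasDerivAt (fun s => ∑ k, F s i k * F t k j) (∑ k, A i k * F t k j) 0 :=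
    HasDerivAt.fun_sum fun k _ => (h0 i k).mul_const _
  have h2 : (fun s => ∑ k, F s i k * F t k j) = fun s => F (s + t) i j := by
    funext s
    rw [hF, Matrix.mul_apply]
  rw [h2] at h1
  have h3 : (A * F t) i j = ∑ k, A i k * F t k j := Matrix.mul_apply
  rw [h3]
  have h4 : HasDerivAt (fun s => F s i j) (∑ k, A i k * F t k j) (0 + t) := by
    have h5 : HasDerivAt (fun s => F (s + t) i j) (∑ k, A i k * F t k j) (t - t) := by
      rw [sub_self]; exact h1
    have h6 := HasDerivAt.comp_sub_const (x := t) (a := t) h5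
    simp only [sub_add_cancel] at h6
    rw [zero_add]; exact h6
  rwa [zero_add] at h4

theorem lg_pow_zero {g : Matrix (Fin n) (Fin n) ℝ} (hg : (g - 1) ^ n = 0) :
    (lg g) ^ n = 0 := by
  obtain ⟨Y, hY, hXY⟩ : ∃ Y, lg g = (g - 1) * Y ∧ Commute (g - 1) Y := by
    rcases Nat.eq_zero_or_pos n with h | h
    · subst h; exact ⟨1, Subsingleton.elim _ _, Commute.one_right _⟩
    · obtain ⟨m, rfl⟩ : ∃ m, n = m + 1 := ⟨n - 1, by omega⟩
      refine ⟨∑ k ∈ Finset.range m, lc (k + 1) • (g - 1) ^ k, ?_, ?_⟩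
      · have lc0 : lc 0 = 0 := by simp [lc]
        rw [lg, Finset.sum_range_succ', Finset.mul_sum, lc0, zero_smul, add_zero]
        refine Finset.sum_congr rfl fun k _ => ?_
        rw [pow_succ', mul_smul_comm]
      · refine Commute.sum_right _ _ _ fun k _ => ?_
        exact ((Commute.refl (g - 1)).pow_right k).smul_right _
  rw [hY, hXY.mul_pow, hg, zero_mul]

theorem commute_ex {X Y : Matrix (Fin n) (Fin n) ℝ} (h : Commute X Y) : Commute X (ex Y) :=
  Commute.sum_right _ _ _ fun k _ => (h.pow_right k).smul_right _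

/-- The real power is the exponential of the logarithm. -/
theorem pw_eq_ex {g : Matrix (Fin n) (Fin n) ℝ} (hg : (g - 1) ^ n = 0) (t : ℝ) :
    pw g t = ex (t • lg g) := by
  set L := lg g with hL
  have hLn : L ^ n = 0 := lg_pow_zero hg
  have hLn' : (-L) ^ n = 0 := by rw [neg_pow, hLn, mul_zero]
  -- derivative of the product
  have h1 : ∀ t i j, HasDerivAt (fun s => pw g s i j) ((L * pw g t) i j) t := fun t i j =>
    hasDerivAt_of_group (pw_add hg) (fun i j => hasDerivAt_pw i j) t i j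
  have h2 : ∀ t i j, HasDerivAt (fun s : ℝ => ex (s • (-L)) i j)
      (((-L) * ex (t • (-L))) i j) t := fun t i j =>
    hasDerivAt_of_group (F := fun s => ex (s • (-L))) (fun s t => ex_add_smul hLn' s t)
      (fun i j => hasDerivAt_ex_zero hLn' i j) t i j
  have h3 : ∀ t i j, HasDerivAt (fun s : ℝ => (ex (s • (-L)) * pw g s) i j) 0 t := by
    intro t i j
    have e1 : (fun s : ℝ => (ex (s • (-L)) * pw g s) i j) =
        fun s : ℝ => ∑ k, ex (s • (-L)) i k * pw g s k j := by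
      funext s; rw [Matrix.mul_apply]
    have h4 : HasDerivAt (fun s : ℝ => ∑ k, ex (s • (-L)) i k * pw g s k j)
        (∑ k, (((-L) * ex (t • (-L))) i k * pw g t k j +
          ex (t • (-L)) i k * (L * pw g t) k j)) t :=
      HasDerivAt.fun_sum fun k _ => (h2 t i k).mul (h1 t k j)
    rw [e1]
    have e2 : (∑ k, (((-L) * ex (t • (-L))) i k * pw g t k j +
          ex (t • (-L)) i k * (L * pw g t) k j)) = 0 := by
      rw [Finset.sum_add_distrib, ← Matrix.mul_apply, ← Matrix.mul_apply]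
      have hc : Commute L (ex (t • (-L))) :=
        commute_ex (((Commute.refl L).neg_right).smul_right t)
      have : (-L) * ex (t • (-L)) * pw g t = - (ex (t • (-L)) * (L * pw g t)) := by
        rw [neg_mul, neg_mul, hc.eq, mul_assoc]
      rw [this, Matrix.neg_apply, neg_add_cancel]
    rw [e2] at h4
    exact h4
  have h5 : ∀ t, ex (t • (-L)) * pw g t = 1 := by
    intro t
    ext i j
    have h6 : ∀ x, deriv (fun s : ℝ => (ex (s • (-L)) * pw g s) i j) x = 0 := fun x =>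
      (h3 x i j).deriv
    have h7 := is_const_of_deriv_eq_zero (fun x => (h3 x i j).differentiableAt) h6 t 0
    rw [h7, zero_smul, ex_zero, pw_zero hg, one_mul]
  have h8 := ex_mul_ex_neg (smul_pow_zero hLn t)
  calc pw g t = (ex (t • L) * ex (-(t • L))) * pw g t := by rw [h8, one_mul]
    _ = ex (t • L) * (ex (t • (-L)) * pw g t) := by rw [mul_assoc, smul_neg]
    _ = ex (t • L) := by rw [h5, mul_one]

theorem ex_lg {g : Matrix (Fin n) (Fin n) ℝ} (hg : (g - 1) ^ n = 0) : ex (lg g) = g := by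
  have := pw_eq_ex hg 1
  rw [pw_one hg, one_smul] at this
  exact this.symm

theorem lg_ex {X : Matrix (Fin n) (Fin n) ℝ} (hX : X ^ n = 0) : lg (ex X) = X := by
  have hg := ex_sub_one_pow hX
  -- real powers of `ex X`
  have h1 : ∀ t : ℝ, pw (ex X) t = ex (t • X) := by
    intro t
    have hf : IsPolyM (fun x : Fin 1 → ℝ => pw (ex X) (x 0)) :=
      isPolyM_pw _ (Polyc.IsPoly.coord 0)
    have hg' : IsPolyM (fun x : Fin 1 → ℝ => ex (x 0 • X)) :=
      isPolyM_ex (IsPolyM.smul (Polyc.IsPoly.coord 0) (IsPolyM.const X))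
    exact hf.eq_of_nat hg' (fun z => by
      simp only
      rw [pw_nat hg, ex_nat hX]) (fun _ => t)
  ext i j
  have h2 := hasDerivAt_pw (g := ex X) i j
  have h3 := hasDerivAt_ex_zero hX i j
  have h4 : (fun t : ℝ => pw (ex X) t i j) = fun t : ℝ => ex (t • X) i j := by
    funext t; rw [h1]
  rw [h4] at h2
  exact h2.unique h3


theorem conj_pow {A B X : Matrix (Fin n) (Fin n) ℝ} (hBA : B * A = 1) (k : ℕ)
    (hk : 0 < k) : (A * X * B) ^ k = A * X ^ k * B := by
  induction k with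
  | zero => exact absurd hk (lt_irrefl _)
  | succ k ih =>
    rcases Nat.eq_zero_or_pos k with h | h
    · subst h; simp
    · rw [pow_succ, ih h, pow_succ]
      calc A * X ^ k * B * (A * X * B) = A * X ^ k * (B * A) * X * B := by
            simp only [mul_assoc]
        _ = A * (X ^ k * X) * B := by rw [hBA, mul_one]; simp only [mul_assoc]

theorem ex_conj {A B X : Matrix (Fin n) (Fin n) ℝ} (hAB : A * B = 1) (hBA : B * A = 1) :
    ex (A * X * B) = A * ex X * B := by
  rw [ex, ex, Finset.mul_sum, Finset.sum_mul]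
  refine Finset.sum_congr rfl fun k _ => ?_
  rcases Nat.eq_zero_or_pos k with h | h
  · subst h; simp [hAB]
  · rw [conj_pow hBA k h, mul_smul_comm, smul_mul_assoc]


/-- exponential as a unit -/
noncomputable def exU (X : Matrix (Fin n) (Fin n) ℝ) (hX : X ^ n = 0) :
    (Matrix (Fin n) (Fin n) ℝ)ˣ :=
  ⟨ex X, ex (-X), ex_mul_ex_neg hX, ex_neg_mul_ex hX⟩

end Crest.Agent.R182.Model
end

-- ▼ part R182/ModelLie

set_option autoImplicit false

namespace Crest.Agent.R182.Model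

open Polyc

section curves

variable {n : ℕ}

/-- polynomial curves -/
def PC1 (f : ℝ → ℝ) : Prop := IsPoly (fun x : Fin 1 → ℝ => f (x 0))

/-- polynomial matrix curves -/
def PCM (f : ℝ → Matrix (Fin n) (Fin n) ℝ) : Prop := IsPolyM (fun x : Fin 1 → ℝ => f (x 0))

theorem PC1.exists_poly {f : ℝ → ℝ} (hf : PC1 f) : ∃ q : Polynomial ℝ, ∀ s, f s = q.eval s := by
  obtain ⟨p, hp⟩ := hf
  refine ⟨MvPolynomial.aeval (fun _ => Polynomial.X) p, fun s => ?_⟩
  have h1 := hp (fun _ => s)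
  simp only at h1
  rw [h1]
  have h2 : ∀ p : MvPolynomial (Fin 1) ℝ, MvPolynomial.eval (fun _ => s) p =
      Polynomial.eval s (MvPolynomial.aeval (fun _ => Polynomial.X) p) := by
    intro p
    induction p using MvPolynomial.induction_on with
    | C a => simp
    | add p q hp hq => simp [hp, hq]
    | mul_X p i hp => simp [hp]
  exact h2 p

theorem PC1.of_poly (q : Polynomial ℝ) : PC1 (fun s => q.eval s) := by
  have : (fun x : Fin 1 → ℝ => q.eval (x 0)) = fun x => ∑ i ∈ Finset.range (q.natDegree + 1),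
      q.coeff i * x 0 ^ i := by
    funext x; rw [Polynomial.eval_eq_sum_range]
  rw [PC1, this]
  exact IsPoly.sum _ fun i _ => (Polyc.IsPoly.const _).mul ((IsPoly.coord 0).pow i)

/-- Splitting off the linear part of a polynomial curve. -/
theorem PCM.exists_div {f : ℝ → Matrix (Fin n) (Fin n) ℝ} (hf : PCM f) :
    ∃ v : ℝ → Matrix (Fin n) (Fin n) ℝ, PCM v ∧ (∀ s, f s = f 0 + s • v s) ∧
      ∀ i j, HasDerivAt (fun s => f s i j) (v 0 i j) 0 := by
  choose q hq using fun i j => PC1.exists_poly (f := fun s => f s i j) (hf i j)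
  let v : ℝ → Matrix (Fin n) (Fin n) ℝ := fun s => Matrix.of fun i j => (q i j).divX.eval s
  have hv : ∀ s i j, v s i j = (q i j).divX.eval s := fun s i j => rfl
  refine ⟨v, ?_, ?_, ?_⟩
  · intro i j
    exact PC1.of_poly _
  · intro s
    ext i j
    rw [Matrix.add_apply, Matrix.smul_apply, hv, smul_eq_mul, hq i j s, hq i j 0]
    conv_lhs => rw [← Polynomial.divX_mul_X_add (q i j)]
    rw [Polynomial.eval_add, Polynomial.eval_mul, Polynomial.eval_X, Polynomial.eval_C,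
      Polynomial.coeff_zero_eq_eval_zero]
    ring
  · intro i j
    have h1 := (q i j).hasDerivAt 0
    have h2 : (fun s => f s i j) = fun s => (q i j).eval s := funext (hq i j)
    rw [h2, hv]
    have h3 : Polynomial.eval 0 (Polynomial.derivative (q i j)) = (q i j).divX.eval 0 := by
      rw [← Polynomial.coeff_zero_eq_eval_zero, ← Polynomial.coeff_zero_eq_eval_zero,
        Polynomial.coeff_derivative, Polynomial.coeff_divX]
      simp
    rw [← h3]; exact h1

theorem PCM.eq_zero {f : ℝ → Matrix (Fin n) (Fin n) ℝ} (hf : PCM f)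
    (h : ∀ k : ℕ, f ((k : ℝ) + 1) = 0) (s : ℝ) : f s = 0 := by
  have h1 : IsPolyM (fun x : Fin 1 → ℝ => f (x 0 + 1)) :=
    hf.comp (g := fun (y : Fin 1 → ℝ) (_ : Fin 1) => y 0 + 1)
      (fun _ => (IsPoly.coord 0).add (Polyc.IsPoly.const 1))
  have h2 := h1.eq_of_nat (IsPolyM.const 0) (fun z => h (z 0)) (fun _ => s - 1)
  simpa using h2

theorem PC1.eq_zero {f : ℝ → ℝ} (hf : PC1 f)
    (h : ∀ k : ℕ, f ((k : ℝ) + 1) = 0) (s : ℝ) : f s = 0 := by
  have h1 : IsPoly (fun x : Fin 1 → ℝ => f (x 0 + 1)) :=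
    hf.comp (g := fun (y : Fin 1 → ℝ) (_ : Fin 1) => y 0 + 1)
      (fun _ => (IsPoly.coord 0).add (Polyc.IsPoly.const 1))
  have h2 := h1.eq_of_nat (Polyc.IsPoly.const 0) (fun z => h (z 0)) (fun _ => s - 1)
  simpa using h2

/-- polynomial curve in a subspace has its derivative at `0` in the subspace -/
theorem deriv_mem {L : Submodule ℝ (Matrix (Fin n) (Fin n) ℝ)}
    {f : ℝ → Matrix (Fin n) (Fin n) ℝ} (hf : PCM f) (hL : ∀ s, f s ∈ L)
    {A : Matrix (Fin n) (Fin n) ℝ} (hA : ∀ i j, HasDerivAt (fun s => f s i j) (A i j) 0) :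
    A ∈ L := by
  obtain ⟨v, hv, h1, h2⟩ := hf.exists_div
  have hAv : A = v 0 := by
    ext i j
    exact (hA i j).unique (h2 i j)
  rw [hAv]
  by_contra hcon
  obtain ⟨ℓ, hℓ1, hℓ2⟩ := Submodule.exists_le_ker_of_notMem hcon
  apply hℓ1
  have h3 : PC1 (fun s => ℓ (v s)) := hv.linear ℓ
  refine h3.eq_zero ?_ 0
  intro k
  have h4 : ((k : ℝ) + 1) ≠ 0 := by positivity
  have h5 : v ((k : ℝ) + 1) = ((k : ℝ) + 1)⁻¹ • (f ((k : ℝ) + 1) - f 0) := by
    rw [h1 ((k : ℝ) + 1), add_sub_cancel_left, smul_smul, inv_mul_cancel₀ h4, one_smul]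
  have h6 : v ((k : ℝ) + 1) ∈ L := by
    rw [h5]
    exact L.smul_mem _ (L.sub_mem (hL _) (hL 0))
  exact hℓ2 h6

end curves

theorem conj_pow_zero {n : ℕ} {A B X : Matrix (Fin n) (Fin n) ℝ} (hBA : B * A = 1)
    (hX : X ^ n = 0) : (A * X * B) ^ n = 0 := by
  rcases Nat.eq_zero_or_pos n with h | h
  · subst h; exact Subsingleton.elim _ _
  · rw [conj_pow hBA _ h, hX, mul_zero, zero_mul]

section lie

variable {Γ : Type*} [Group Γ] {N : Subgroup Γ} (D : EmbData Γ N)

theorem mem_NR_of_poly {σ : Type*} {f : (σ → ℝ) → (Matrix (Fin D.n) (Fin D.n) ℝ)ˣ}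
    (hf : IsPolyU f) (h : ∀ z : σ → ℕ, f (fun i => (z i : ℝ) + 1) ∈ D.NR) (x : σ → ℝ) :
    f x ∈ D.NR := by
  rw [D.mem_NR]
  have h1 : IsPolyU (fun x => D.Eu (D.crd (f x))) :=
    D.isPolyU_Eu.comp fun i => D.isPoly_crd hf i
  have hs : ∀ i, IsPoly (fun y : σ → ℝ => y i + 1) := fun i =>
    (IsPoly.coord i).add (Polyc.IsPoly.const 1)
  have h2 := (h1.1.comp (g := fun (y : σ → ℝ) i => y i + 1) hs).eq_of_nat
    (hf.1.comp (g := fun (y : σ → ℝ) i => y i + 1) hs) (fun z => by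
      have := h z
      rw [D.mem_NR] at this
      simp only
      rw [this]) (fun i => x i - 1)
  simp only [sub_add_cancel] at h2
  exact Units.ext h2

theorem isPolyU_exU {σ : Type*} {f : (σ → ℝ) → Matrix (Fin D.n) (Fin D.n) ℝ}
    (hf : IsPolyM f) (h : ∀ x, (f x) ^ D.n = 0) : IsPolyU (fun x => exU (f x) (h x)) :=
  ⟨isPolyM_ex hf, isPolyM_ex hf.neg⟩

/-- membership in the Lie algebra -/
def InLie (X : Matrix (Fin D.n) (Fin D.n) ℝ) : Prop :=
  ∃ h : X ^ D.n = 0, ∀ t : ℝ, exU (t • X) (smul_pow_zero h t) ∈ D.NR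

theorem exU_nat {n : ℕ} {X : Matrix (Fin n) (Fin n) ℝ} (h : X ^ n = 0) (m : ℕ) :
    exU ((m : ℝ) • X) (smul_pow_zero h _) = exU X h ^ m := by
  apply Units.ext
  rw [Units.val_pow_eq_pow_val]
  exact ex_nat h m

theorem exU_congr {n : ℕ} {X Y : Matrix (Fin n) (Fin n) ℝ} (h : X ^ n = 0) (h' : Y ^ n = 0)
    (hXY : X = Y) : exU X h = exU Y h' := by
  subst hXY; rfl

theorem exU_lg {g : (Matrix (Fin D.n) (Fin D.n) ℝ)ˣ} (hg : g ∈ D.NR) :
    exU (lg (g : Matrix (Fin D.n) (Fin D.n) ℝ)) (lg_pow_zero (D.unip_NR hg)) = g :=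
  Units.ext (ex_lg (D.unip_NR hg))

/-- The logarithm of an element of `N_ℝ` is in the Lie algebra. -/
theorem inLie_lg {g : (Matrix (Fin D.n) (Fin D.n) ℝ)ˣ} (hg : g ∈ D.NR) :
    InLie D (lg (g : Matrix (Fin D.n) (Fin D.n) ℝ)) := by
  refine ⟨lg_pow_zero (D.unip_NR hg), ?_⟩
  set X := lg (g : Matrix (Fin D.n) (Fin D.n) ℝ) with hX
  have hXn := lg_pow_zero (D.unip_NR hg)
  intro t
  have hf : IsPolyU (fun x : Fin 1 → ℝ => exU (x 0 • X) (smul_pow_zero hXn (x 0))) :=
    isPolyU_exU D (IsPolyM.smul (IsPoly.coord 0) (IsPolyM.const X)) _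
  refine mem_NR_of_poly D hf ?_ (fun _ => t)
  intro z
  simp only
  have h1 : exU (((z 0 : ℝ) + 1) • X) (smul_pow_zero hXn ((z 0 : ℝ) + 1)) = g ^ (z 0 + 1) := by
    have h2 : exU (((z 0 : ℝ) + 1) • X) (smul_pow_zero hXn ((z 0 : ℝ) + 1)) =
        exU X hXn ^ (z 0 + 1) := by
      rw [← exU_nat]
      exact exU_congr _ _ (by push_cast; rfl)
    rw [h2]
    exact congrArg (fun u => u ^ (z 0 + 1)) (exU_lg D hg)
  rw [h1]
  exact D.NR.pow_mem hg _

theorem InLie.exU_mem {X : Matrix (Fin D.n) (Fin D.n) ℝ} (h : InLie D X) :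
    exU X h.1 ∈ D.NR := by
  have := h.2 1
  rwa [exU_congr (smul_pow_zero h.1 1) h.1 (one_smul ℝ X)] at this

theorem InLie.smul {X : Matrix (Fin D.n) (Fin D.n) ℝ} (h : InLie D X) (c : ℝ) :
    InLie D (c • X) := by
  refine ⟨smul_pow_zero h.1 c, fun t => ?_⟩
  have := h.2 (t * c)
  rwa [exU_congr (smul_pow_zero h.1 (t * c)) (smul_pow_zero (smul_pow_zero h.1 c) t)
    (by rw [smul_smul])] at this

/-- tangent vectors at the identity of polynomial curves in `N_ℝ` are in the Lie algebra -/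
theorem tangent {c : ℝ → (Matrix (Fin D.n) (Fin D.n) ℝ)ˣ}
    (hc : IsPolyU (fun x : Fin 1 → ℝ => c (x 0))) (h0 : c 0 = 1) (hmem : ∀ s, c s ∈ D.NR)
    {A : Matrix (Fin D.n) (Fin D.n) ℝ}
    (hA : ∀ i j, HasDerivAt (fun s => (c s : Matrix (Fin D.n) (Fin D.n) ℝ) i j) (A i j) 0) :
    InLie D A := by
  have hcM : PCM (fun s => (c s : Matrix (Fin D.n) (Fin D.n) ℝ)) := hc.1
  obtain ⟨v, hv, h1, h2⟩ := hcM.exists_div
  have hAv : A = v 0 := by
    ext i j
    exact (hA i j).unique (h2 i j)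
  have h1' : ∀ s, (c s : Matrix (Fin D.n) (Fin D.n) ℝ) - 1 = s • v s := by
    intro s
    have := h1 s
    simp only [h0, Units.val_one] at this
    rw [this, add_sub_cancel_left]
  -- the normalized logarithm
  let k : ℝ → Matrix (Fin D.n) (Fin D.n) ℝ := fun s =>
    ∑ j ∈ Finset.range D.n, (lc j * s ^ (j - 1)) • v s ^ j
  have hk : PCM k := IsPolyM.sum _ fun j _ => IsPolyM.smul
    ((Polyc.IsPoly.const _).mul ((IsPoly.coord 0).pow _)) (hv.pow j)
  have hk1 : ∀ s, lg (c s : Matrix (Fin D.n) (Fin D.n) ℝ) = s • k s := by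
    intro s
    rw [lg, h1' s]
    change _ = s • ∑ j ∈ Finset.range D.n, (lc j * s ^ (j - 1)) • v s ^ j
    rw [Finset.smul_sum]
    refine Finset.sum_congr rfl fun j _ => ?_
    rcases Nat.eq_zero_or_pos j with hj | hj
    · subst hj; simp [lc]
    · rw [smul_pow, smul_smul, smul_smul]
      congr 1
      have : s ^ j = s * s ^ (j - 1) := by
        rw [← pow_succ']; congr 1; omega
      rw [this]; ring
  -- `k s` is nilpotent for `s ≠ 0`
  have hkn : ∀ s, (k s) ^ D.n = 0 := by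
    intro s
    refine PCM.eq_zero (f := fun s => (k s) ^ D.n) (hk.pow D.n) ?_ s
    intro m
    have h4 : ((m : ℝ) + 1) ≠ 0 := by positivity
    have h5 : k ((m : ℝ) + 1) = ((m : ℝ) + 1)⁻¹ • lg (c ((m : ℝ) + 1) : Matrix _ _ ℝ) := by
      rw [hk1, smul_smul, inv_mul_cancel₀ h4, one_smul]
    rw [h5]
    exact smul_pow_zero (lg_pow_zero (D.unip_NR (hmem _))) _
  have hkmem : ∀ t s, exU (t • k s) (smul_pow_zero (hkn s) t) ∈ D.NR := by
    intro t s
    have hf : IsPolyU (fun x : Fin 1 → ℝ => exU (t • k (x 0)) (smul_pow_zero (hkn (x 0)) t)) :=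
      isPolyU_exU D (IsPolyM.smul (Polyc.IsPoly.const t) hk) _
    refine mem_NR_of_poly D hf ?_ (fun _ => s)
    intro z
    have h4 : ((z 0 : ℝ) + 1) ≠ 0 := by positivity
    have h5 : t • k ((z 0 : ℝ) + 1) =
        (t * ((z 0 : ℝ) + 1)⁻¹) • lg (c ((z 0 : ℝ) + 1) : Matrix _ _ ℝ) := by
      rw [hk1, smul_smul, mul_assoc, inv_mul_cancel₀ h4, mul_one]
    have h6 := (inLie_lg D (hmem ((z 0 : ℝ) + 1))).2 (t * ((z 0 : ℝ) + 1)⁻¹)
    rwa [exU_congr _ (smul_pow_zero (hkn ((z 0 : ℝ) + 1)) t) h5.symm] at h6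
  have hk0 : k 0 = v 0 := by
    rcases Nat.lt_or_ge 1 D.n with h | h
    · change ∑ j ∈ Finset.range D.n, (lc j * (0 : ℝ) ^ (j - 1)) • v 0 ^ j = v 0
      rw [Finset.sum_eq_single 1]
      · simp [lc]
      · intro j _ hj
        rcases Nat.eq_zero_or_pos j with hj' | hj'
        · subst hj'; simp [lc]
        · rw [zero_pow (by omega), mul_zero, zero_smul]
      · intro h'; exact absurd (Finset.mem_range.mpr h) h'
    · -- trivial sizes
      have hz : ∀ X : Matrix (Fin D.n) (Fin D.n) ℝ, X ^ D.n = 0 → X = 0 := by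
        intro X hX
        have : X ^ 1 = 0 := pow_eq_zero_of_le h hX
        simpa using this
      have hv0 : ∀ s, v s = 0 := by
        intro s
        refine PCM.eq_zero hv ?_ s
        intro m
        have h4 : ((m : ℝ) + 1) ≠ 0 := by positivity
        have h5 := hz _ (D.unip_NR (hmem ((m : ℝ) + 1)))
        rw [h1'] at h5
        exact (smul_eq_zero.mp h5).resolve_left h4
      rw [hv0 0, hz (k 0) (hkn 0)]
  rw [hAv, ← hk0]
  exact ⟨hkn 0, fun t => hkmem t 0⟩

theorem InLie.add {X Y : Matrix (Fin D.n) (Fin D.n) ℝ} (hX : InLie D X) (hY : InLie D Y) :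
    InLie D (X + Y) := by
  refine tangent D (c := fun s => exU (s • X) (smul_pow_zero hX.1 s) *
    exU (s • Y) (smul_pow_zero hY.1 s)) ?_ ?_ ?_ ?_
  · exact (isPolyU_exU D (IsPolyM.smul (IsPoly.coord 0) (IsPolyM.const X)) _).mul
      (isPolyU_exU D (IsPolyM.smul (IsPoly.coord 0) (IsPolyM.const Y)) _)
  · apply Units.ext
    change ex ((0 : ℝ) • X) * ex ((0 : ℝ) • Y) = 1
    rw [zero_smul, zero_smul, ex_zero, one_mul]
  · intro s
    exact D.NR.mul_mem (hX.2 s) (hY.2 s)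
  · intro i j
    change HasDerivAt (fun s : ℝ => (ex (s • X) * ex (s • Y)) i j) ((X + Y) i j) 0
    have h1 : (fun s : ℝ => (ex (s • X) * ex (s • Y)) i j) =
        fun s : ℝ => ∑ k, ex (s • X) i k * ex (s • Y) k j := by
      funext s; rw [Matrix.mul_apply]
    rw [h1]
    have h2 : HasDerivAt (fun s : ℝ => ∑ k, ex (s • X) i k * ex (s • Y) k j)
        (∑ k, (X i k * ex ((0 : ℝ) • Y) k j + ex ((0 : ℝ) • X) i k * Y k j)) 0 :=
      HasDerivAt.fun_sum fun k _ => (hasDerivAt_ex_zero hX.1 i k).mul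
        (hasDerivAt_ex_zero hY.1 k j)
    have h3 : (∑ k, (X i k * ex ((0 : ℝ) • Y) k j + ex ((0 : ℝ) • X) i k * Y k j)) =
        (X + Y) i j := by
      rw [Finset.sum_add_distrib, ← Matrix.mul_apply, ← Matrix.mul_apply, zero_smul, zero_smul,
        ex_zero, mul_one, one_mul, Matrix.add_apply]
    rw [h3] at h2
    exact h2

/-- The Lie algebra `𝔫` of `N_ℝ`, as a subspace of the matrices. -/
def lie : Submodule ℝ (Matrix (Fin D.n) (Fin D.n) ℝ) where
  carrier := {X | InLie D X}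
  add_mem' := fun hX hY => hX.add D hY
  zero_mem' := by
    have h1 := inLie_lg D D.NR.one_mem
    have h2 : lg ((1 : (Matrix (Fin D.n) (Fin D.n) ℝ)ˣ) : Matrix (Fin D.n) (Fin D.n) ℝ) = 0 := by
      rw [Units.val_one, lg]
      apply Finset.sum_eq_zero
      intro k _
      rcases Nat.eq_zero_or_pos k with hk | hk
      · subst hk; simp [lc]
      · rw [sub_self, zero_pow (by omega), smul_zero]
    rwa [h2] at h1
  smul_mem' := fun c _ hX => hX.smul D c


theorem lie_pow_zero {X : Matrix (Fin D.n) (Fin D.n) ℝ} (h : X ∈ lie D) : X ^ D.n = 0 := h.1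

theorem exU_mem_of_lie {X : Matrix (Fin D.n) (Fin D.n) ℝ} (h : X ∈ lie D) :
    exU X (lie_pow_zero D h) ∈ D.NR := InLie.exU_mem D h

theorem lg_mem_lie {g : (Matrix (Fin D.n) (Fin D.n) ℝ)ˣ} (hg : g ∈ D.NR) :
    lg (g : Matrix (Fin D.n) (Fin D.n) ℝ) ∈ lie D := inLie_lg D hg

/-- elements normalising `N_ℝ` preserve the Lie algebra -/
theorem conj_mem_lie {u : (Matrix (Fin D.n) (Fin D.n) ℝ)ˣ}
    (hu : ∀ g ∈ D.NR, u * g * u⁻¹ ∈ D.NR) {X : Matrix (Fin D.n) (Fin D.n) ℝ} (hX : X ∈ lie D) :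
    (u : Matrix (Fin D.n) (Fin D.n) ℝ) * X * ((u⁻¹ : (Matrix (Fin D.n) (Fin D.n) ℝ)ˣ) :
      Matrix (Fin D.n) (Fin D.n) ℝ) ∈ lie D := by
  have hAB : (u : Matrix (Fin D.n) (Fin D.n) ℝ) * ((u⁻¹ : (Matrix (Fin D.n) (Fin D.n) ℝ)ˣ) :
      Matrix (Fin D.n) (Fin D.n) ℝ) = 1 := u.mul_inv
  have hBA : ((u⁻¹ : (Matrix (Fin D.n) (Fin D.n) ℝ)ˣ) :
      Matrix (Fin D.n) (Fin D.n) ℝ) * (u : Matrix (Fin D.n) (Fin D.n) ℝ) = 1 := u.inv_mul
  have hn : ((u : Matrix (Fin D.n) (Fin D.n) ℝ) * X * ((u⁻¹ : (Matrix (Fin D.n) (Fin D.n) ℝ)ˣ) :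
      Matrix (Fin D.n) (Fin D.n) ℝ)) ^ D.n = 0 := by
    exact conj_pow_zero hBA (lie_pow_zero D hX)
  refine ⟨hn, fun t => ?_⟩
  have h1 := hu _ (hX.2 t)
  have h2 : u * exU (t • X) (smul_pow_zero hX.1 t) * u⁻¹ =
      exU (t • ((u : Matrix (Fin D.n) (Fin D.n) ℝ) * X * ((u⁻¹ : (Matrix (Fin D.n) (Fin D.n) ℝ)ˣ) :
      Matrix (Fin D.n) (Fin D.n) ℝ))) (smul_pow_zero hn t) := by
    apply Units.ext
    change (u : Matrix (Fin D.n) (Fin D.n) ℝ) * ex (t • X) * ((u⁻¹ : (Matrix (Fin D.n) (Fin D.n) ℝ)ˣ) :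
      Matrix (Fin D.n) (Fin D.n) ℝ) = ex (t • _)
    rw [← ex_conj hAB hBA, mul_smul_comm, smul_mul_assoc]
  rwa [h2] at h1

/-- the Lie algebra is closed under brackets -/
theorem bracket_mem {X Y : Matrix (Fin D.n) (Fin D.n) ℝ} (hX : X ∈ lie D) (hY : Y ∈ lie D) :
    X * Y - Y * X ∈ lie D := by
  refine deriv_mem (L := lie D) (f := fun s => ex (s • X) * Y * ex (-(s • X))) ?_ ?_ ?_
  · have h1 : IsPolyM (fun x : Fin 1 → ℝ => x 0 • X) :=
      IsPolyM.smul (IsPoly.coord 0) (IsPolyM.const X)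
    exact ((isPolyM_ex h1).mul (IsPolyM.const Y)).mul (isPolyM_ex h1.neg)
  · intro s
    exact conj_mem_lie D (u := exU (s • X) (smul_pow_zero hX.1 s))
      (fun g hg => D.NR.mul_mem (D.NR.mul_mem (hX.2 s) hg) (D.NR.inv_mem (hX.2 s))) hY
  · intro i j
    have hXn : (-X) ^ D.n = 0 := by rw [neg_pow, lie_pow_zero D hX, mul_zero]
    have h1 : (fun s : ℝ => (ex (s • X) * Y * ex (-(s • X))) i j) =
        fun s : ℝ => ∑ k, (∑ l, ex (s • X) i l * Y l k) * ex (s • (-X)) k j := by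
      funext s
      rw [Matrix.mul_apply]
      refine Finset.sum_congr rfl fun k _ => ?_
      rw [Matrix.mul_apply, smul_neg]
    rw [h1]
    have h2 : HasDerivAt (fun s : ℝ => ∑ k, (∑ l, ex (s • X) i l * Y l k) * ex (s • (-X)) k j)
        (∑ k, ((∑ l, X i l * Y l k) * ex ((0 : ℝ) • (-X)) k j +
          (∑ l, ex ((0 : ℝ) • X) i l * Y l k) * (-X) k j)) 0 :=
      HasDerivAt.fun_sum fun k _ => (HasDerivAt.fun_sum fun l _ =>
        (hasDerivAt_ex_zero (lie_pow_zero D hX) i l).mul_const _).mul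
          (hasDerivAt_ex_zero hXn k j)
    have h3 : (∑ k, ((∑ l, X i l * Y l k) * ex ((0 : ℝ) • (-X)) k j +
          (∑ l, ex ((0 : ℝ) • X) i l * Y l k) * (-X) k j)) = (X * Y - Y * X) i j := by
      rw [Finset.sum_add_distrib]
      simp only [← Matrix.mul_apply]
      rw [zero_smul, zero_smul, ex_zero, mul_one, one_mul, mul_neg, Matrix.neg_apply,
        Matrix.sub_apply, sub_eq_add_neg]
    rw [h3] at h2
    exact h2

end lie

end Crest.Agent.R182.Model
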