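import Mathlib
import Crest.Agent.R182.ModelBCH
import Crest.Agent.R182.ModelGroup
import Crest.Agent.R182.PolycRoot

-- ▼ part R182/ModelAb
section

set_option autoImplicit false
set_option linter.unusedSectionVars false

namespace Crest.Agent.R182.Model

open Polyc Crest.GroupTheory Crest.Geometry

section

variable {Γ : Type*} [Group Γ] {N : Subgroup Γ} (D : EmbData Γ N)

/-- density for complex functionals -/
theorem linear_eq_of_int {σ : Type*} {n : ℕ} {F G : Matrix (Fin n) (Fin n) ℝ →ₗ[ℝ] ℂ}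
    {f g : (σ → ℝ) → Matrix (Fin n) (Fin n) ℝ} (hf : IsPolyM f) (hg : IsPolyM g)
    (h : ∀ z : σ → ℤ, F (f (fun i => (z i : ℝ))) = G (g (fun i => (z i : ℝ)))) (x : σ → ℝ) :
    F (f x) = G (g x) := by
  apply Complex.ext
  · exact (hf.linear (Complex.reLm ∘ₗ F)).eq_of_int (hg.linear (Complex.reLm ∘ₗ G))
      (fun z => congrArg Complex.re (h z)) x
  · exact (hf.linear (Complex.imLm ∘ₗ F)).eq_of_int (hg.linear (Complex.imLm ∘ₗ G))
      (fun z => congrArg Complex.im (h z)) x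

/-- the linear functional attached to values on the Mal'cev basis -/
noncomputable def Lm (ℓ : N → ℂ) : Matrix (Fin D.n) (Fin D.n) ℝ →ₗ[ℝ] ℂ :=
  ∑ j, (D.cR j).smulRight (ℓ ⟨D.a j, D.mem j⟩)

theorem Lm_apply (ℓ : N → ℂ) (M : Matrix (Fin D.n) (Fin D.n) ℝ) :
    Lm D ℓ M = ∑ j, D.cR j M • ℓ ⟨D.a j, D.mem j⟩ := by
  simp [Lm, LinearMap.sum_apply]

variable {D}

section hom

variable {ℓ : N → ℂ} (hℓ : ∀ a b, ℓ (a * b) = ℓ a + ℓ b)

include hℓ

theorem hom_one : ℓ 1 = 0 := by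
  have := hℓ 1 1
  rw [mul_one] at this
  simpa using this

theorem hom_inv (a : N) : ℓ a⁻¹ = - ℓ a := by
  have := hℓ a a⁻¹
  rw [mul_inv_cancel, hom_one hℓ] at this
  linear_combination -this

theorem hom_pow (a : N) (k : ℕ) : ℓ (a ^ k) = k * ℓ a := by
  induction k with
  | zero => simp [hom_one hℓ]
  | succ k ih => rw [pow_succ, hℓ, ih]; push_cast; ring

theorem hom_zpow (a : N) (k : ℤ) : ℓ (a ^ k) = k * ℓ a := by
  obtain ⟨m, rfl | rfl⟩ := k.eq_nat_or_neg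
  · rw [zpow_natCast, hom_pow hℓ]; simp
  · rw [zpow_neg, zpow_natCast, hom_inv hℓ, hom_pow hℓ]; push_cast; ring

theorem hom_list (l : List N) : ℓ l.prod = (l.map ℓ).sum := by
  induction l with
  | nil => simp [hom_one hℓ]
  | cons a l ih => rw [List.prod_cons, hℓ, ih, List.map_cons, List.sum_cons]

/-- the functional restricts to the homomorphism -/
theorem Lm_ρu (n : N) : Lm D ℓ (D.ρu n : Matrix (Fin D.n) (Fin D.n) ℝ) = ℓ n := by
  obtain ⟨e, he⟩ := D.surj n n.2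
  have h1 : n = (List.ofFn fun i => (⟨D.a i, D.mem i⟩ : N) ^ e i).prod := by
    apply Subtype.ext
    rw [he, prodE, ← N.coe_subtype, map_list_prod, List.map_ofFn]
    rfl
  have h2 : ℓ n = ∑ i, (e i : ℂ) * ℓ ⟨D.a i, D.mem i⟩ := by
    conv_lhs => rw [h1]
    rw [hom_list hℓ, List.map_ofFn, List.sum_ofFn]
    refine Finset.sum_congr rfl fun i _ => ?_
    simp only [Function.comp]
    exact hom_zpow hℓ _ _
  rw [h2, Lm_apply]
  refine Finset.sum_congr rfl fun i _ => ?_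
  have h3 : D.cR i (D.ρu n : Matrix (Fin D.n) (Fin D.n) ℝ) = (e i : ℝ) := by
    have h4 := D.crd_ρu n i
    rw [he, D.coord_spec] at h4
    rw [he]
    exact h4
  rw [h3, Complex.real_smul]
  norm_num

theorem Lm_mul {g h : (Matrix (Fin D.n) (Fin D.n) ℝ)ˣ} (hg : g ∈ D.NR) (hh : h ∈ D.NR) :
    Lm D ℓ ((g : Matrix (Fin D.n) (Fin D.n) ℝ) * h) =
      Lm D ℓ (g : Matrix (Fin D.n) (Fin D.n) ℝ) + Lm D ℓ (h : Matrix (Fin D.n) (Fin D.n) ℝ) := by
  obtain ⟨x, rfl⟩ := hg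
  obtain ⟨y, rfl⟩ := hh
  rw [← map_add]
  have p1 := D.isPolyU_Eu.comp (g := fun (z : Fin D.r ⊕ Fin D.r → ℝ) i => z (Sum.inl i))
    fun i => IsPoly.coord _
  have p2 := D.isPolyU_Eu.comp (g := fun (z : Fin D.r ⊕ Fin D.r → ℝ) i => z (Sum.inr i))
    fun i => IsPoly.coord _
  have h1 := linear_eq_of_int (F := Lm D ℓ) (G := Lm D ℓ) (p1.1.mul p2.1) (p1.1.add p2.1)
    (fun z => ?_) (Sum.elim x y)
  · simpa only [Sum.elim_inl, Sum.elim_inr] using h1
  · have e1 : D.Eu (fun i => (z (Sum.inl i) : ℝ)) = D.ρu (prodE D.a (fun i => z (Sum.inl i))) :=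
      D.Eu_int (fun i => z (Sum.inl i))
    have e2 : D.Eu (fun i => (z (Sum.inr i) : ℝ)) = D.ρu (prodE D.a (fun i => z (Sum.inr i))) :=
      D.Eu_int (fun i => z (Sum.inr i))
    simp only [e1, e2, map_add]
    rw [← Units.val_mul, ← map_mul]
    have m1 := D.prodE_mem (fun i => z (Sum.inl i))
    have m2 := D.prodE_mem (fun i => z (Sum.inr i))
    have h3 := Lm_ρu (D := D) hℓ (⟨_, m1⟩ * ⟨_, m2⟩)
    have h4 := Lm_ρu (D := D) hℓ ⟨_, m1⟩
    have h5 := Lm_ρu (D := D) hℓ ⟨_, m2⟩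
    simp only [Subgroup.coe_mul] at h3
    rw [h3, h4, h5, hℓ]

theorem Lm_one : Lm D ℓ 1 = 0 := by
  have := Lm_ρu (D := D) hℓ 1
  rwa [hom_one hℓ, Subgroup.coe_one, map_one, Units.val_one] at this

theorem Lm_inv {g : (Matrix (Fin D.n) (Fin D.n) ℝ)ˣ} (hg : g ∈ D.NR) :
    Lm D ℓ ((g⁻¹ : (Matrix (Fin D.n) (Fin D.n) ℝ)ˣ) : Matrix (Fin D.n) (Fin D.n) ℝ) =
      - Lm D ℓ (g : Matrix (Fin D.n) (Fin D.n) ℝ) := by
  have h1 := Lm_mul (D := D) hℓ hg (D.NR.inv_mem hg)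
  rw [Units.mul_inv, Lm_one hℓ] at h1
  exact (eq_neg_of_add_eq_zero_right h1.symm)

end hom

/-- a linear functional which is additive on `N_ℝ`: `F (ex X) = F X` on `𝔫`. -/
theorem real_ex {F : Matrix (Fin D.n) (Fin D.n) ℝ →ₗ[ℝ] ℝ}
    (hF : ∀ g ∈ D.NR, ∀ h ∈ D.NR, F ((g : Matrix (Fin D.n) (Fin D.n) ℝ) * h) =
      F (g : Matrix (Fin D.n) (Fin D.n) ℝ) + F (h : Matrix (Fin D.n) (Fin D.n) ℝ))
    {X : Matrix (Fin D.n) (Fin D.n) ℝ} (hX : X ∈ lie D) : F (ex X) = F X := by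
  have hXn := lie_pow_zero D hX
  have h1 : F 1 = 0 := by
    have := hF 1 D.NR.one_mem 1 D.NR.one_mem
    rw [Units.val_one, mul_one] at this
    linarith
  have h2 : ∀ m : ℕ, F (ex ((m : ℝ) • X)) = m * F (ex X) := by
    intro m
    induction m with
    | zero => simp [ex_zero, h1]
    | succ m ih =>
      have h3 := hF _ (exU_mem_of_lie D ((lie D).smul_mem (m : ℝ) hX)) _ (exU_mem_of_lie D hX)
      change F (ex ((m : ℝ) • X) * ex X) = F (ex ((m : ℝ) • X)) + F (ex X) at h3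
      rw [Nat.cast_succ, ex_add_smul hXn, one_smul, h3, ih]; ring
  have h3 : ∀ t : ℝ, F (ex (t • X)) - t * F (ex X) = 0 := by
    have hp : PC1 (fun t => F (ex (t • X)) - t * F (ex X)) :=
      ((isPolyM_ex (IsPolyM.smul (IsPoly.coord 0) (IsPolyM.const X))).linear F).sub
        ((IsPoly.coord 0).mul (Polyc.IsPoly.const _))
    refine hp.eq_zero ?_
    intro k
    have := h2 (k + 1)
    push_cast at this
    rw [this]; ring
  have h4 : HasDerivAt (fun t : ℝ => F (ex (t • X))) (F (X * ex ((0 : ℝ) • X))) 0 :=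
    (hdm_ex_smul hXn 0).linear F
  have h5 : HasDerivAt (fun t : ℝ => F (ex (t • X))) (1 * F (ex X)) 0 := by
    have : (fun t : ℝ => F (ex (t • X))) = fun t => t * F (ex X) := by
      funext t; linarith [h3 t]
    rw [this]
    exact (hasDerivAt_id (0 : ℝ)).mul_const _
  have h6 := h4.unique h5
  rw [zero_smul, ex_zero, mul_one, one_mul] at h6
  exact h6.symm

theorem real_bracket {F : Matrix (Fin D.n) (Fin D.n) ℝ →ₗ[ℝ] ℝ}
    (hF : ∀ g ∈ D.NR, ∀ h ∈ D.NR, F ((g : Matrix (Fin D.n) (Fin D.n) ℝ) * h) =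
      F (g : Matrix (Fin D.n) (Fin D.n) ℝ) + F (h : Matrix (Fin D.n) (Fin D.n) ℝ))
    {X Y : Matrix (Fin D.n) (Fin D.n) ℝ} (hX : X ∈ lie D) (hY : Y ∈ lie D) :
    F (X * Y - Y * X) = 0 := by
  have hXn := lie_pow_zero D hX
  have hXn' : (-X) ^ D.n = 0 := lie_pow_zero D ((lie D).neg_mem hX)
  have h0 : F 1 = 0 := by
    have := hF 1 D.NR.one_mem 1 D.NR.one_mem
    rw [Units.val_one, mul_one] at this
    linarith
  have hinv : ∀ g ∈ D.NR, F ((g⁻¹ : (Matrix (Fin D.n) (Fin D.n) ℝ)ˣ) :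
      Matrix (Fin D.n) (Fin D.n) ℝ) = - F (g : Matrix (Fin D.n) (Fin D.n) ℝ) := by
    intro g hg
    have := hF g hg g⁻¹ (D.NR.inv_mem hg)
    rw [Units.mul_inv, h0] at this
    linarith
  have hAd : ∀ t : ℝ, F (ex (t • X) * Y * ex (t • -X)) = F Y := by
    intro t
    have hg := exU_mem_of_lie D ((lie D).smul_mem t hX)
    have hconj : ∀ g ∈ D.NR, exU (t • X) (lie_pow_zero D ((lie D).smul_mem t hX)) * g *
        (exU (t • X) (lie_pow_zero D ((lie D).smul_mem t hX)))⁻¹ ∈ D.NR := fun g hg' =>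
      D.NR.mul_mem (D.NR.mul_mem hg hg') (D.NR.inv_mem hg)
    have h1 : ex (t • X) * Y * ex (t • -X) ∈ lie D := by
      have := conj_mem_lie D hconj hY
      change ex (t • X) * Y * ex (-(t • X)) ∈ lie D at this
      rwa [← smul_neg] at this
    rw [← real_ex hF h1, ← real_ex hF hY]
    have hAB : ex (t • X) * ex (t • -X) = 1 := by
      rw [smul_neg]; exact ex_mul_ex_neg (smul_pow_zero hXn t)
    have hBA : ex (t • -X) * ex (t • X) = 1 := by
      rw [smul_neg]; exact ex_neg_mul_ex (smul_pow_zero hXn t)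
    rw [ex_conj hAB hBA]
    have hY' := exU_mem_of_lie D hY
    have e1 := hF _ (D.NR.mul_mem hg hY') _ (D.NR.inv_mem hg)
    have e2 := hF _ hg _ hY'
    have e3 := hinv _ hg
    have e4 : (((exU (t • X) (lie_pow_zero D ((lie D).smul_mem t hX)))⁻¹ :
        (Matrix (Fin D.n) (Fin D.n) ℝ)ˣ) : Matrix (Fin D.n) (Fin D.n) ℝ) = ex (t • -X) := by
      change ex (-(t • X)) = _
      rw [smul_neg]
    rw [Units.val_mul, e2, e3, e4] at e1
    change F (ex (t • X) * ex Y * ex (t • -X)) = F (ex (t • X)) + F (ex Y) + -F (ex (t • X)) at e1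
    rw [e1]; ring
  have h1 : HasDerivAt (fun t : ℝ => F (ex (t • X) * Y * ex (t • -X)))
      (F ((X * ex ((0 : ℝ) • X) * Y) * ex ((0 : ℝ) • -X) +
        ex ((0 : ℝ) • X) * Y * (-X * ex ((0 : ℝ) • -X)))) 0 :=
    (((hdm_ex_smul hXn 0).mul_const Y).mul (hdm_ex_smul hXn' 0)).linear F
  have h2 : HasDerivAt (fun t : ℝ => F (ex (t • X) * Y * ex (t • -X))) 0 0 := by
    have : (fun t : ℝ => F (ex (t • X) * Y * ex (t • -X))) = fun _ => F Y := funext hAd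
    rw [this]
    exact hasDerivAt_const _ _
  have h3 := h1.unique h2
  rw [zero_smul, zero_smul, ex_zero, mul_one, mul_one, one_mul, mul_one] at h3
  rw [← h3]
  congr 1
  rw [mul_neg, sub_eq_add_neg]

section hom

variable {ℓ : N → ℂ} (hℓ : ∀ a b, ℓ (a * b) = ℓ a + ℓ b)

include hℓ

theorem Lm_ex {X : Matrix (Fin D.n) (Fin D.n) ℝ} (hX : X ∈ lie D) :
    Lm D ℓ (ex X) = Lm D ℓ X := by
  apply Complex.ext
  · exact real_ex (F := Complex.reLm ∘ₗ Lm D ℓ)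
      (fun g hg h hh => congrArg Complex.re (Lm_mul hℓ hg hh)) hX
  · exact real_ex (F := Complex.imLm ∘ₗ Lm D ℓ)
      (fun g hg h hh => congrArg Complex.im (Lm_mul hℓ hg hh)) hX

theorem Lm_bracket {X Y : Matrix (Fin D.n) (Fin D.n) ℝ} (hX : X ∈ lie D) (hY : Y ∈ lie D) :
    Lm D ℓ (X * Y - Y * X) = 0 := by
  apply Complex.ext
  · exact real_bracket (F := Complex.reLm ∘ₗ Lm D ℓ)
      (fun g hg h hh => congrArg Complex.re (Lm_mul hℓ hg hh)) hX hY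
  · exact real_bracket (F := Complex.imLm ∘ₗ Lm D ℓ)
      (fun g hg h hh => congrArg Complex.im (Lm_mul hℓ hg hh)) hX hY

theorem Lm_lg {g : (Matrix (Fin D.n) (Fin D.n) ℝ)ˣ} (hg : g ∈ D.NR) :
    Lm D ℓ (lg (g : Matrix (Fin D.n) (Fin D.n) ℝ)) = Lm D ℓ (g : Matrix (Fin D.n) (Fin D.n) ℝ) := by
  rw [← Lm_ex hℓ (lg_mem_lie D hg), ex_lg (D.unip_NR hg)]

/-- equivariance under `Γ` -/
theorem Lm_conj [hN : N.Normal] {χ : Γ → ℂ}
    (heq : ∀ (γ : Γ) (n : N), ℓ ⟨γ * n * γ⁻¹, hN.conj_mem n n.2 γ⟩ = χ γ * ℓ n)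
    (γ : Γ) {g : (Matrix (Fin D.n) (Fin D.n) ℝ)ˣ} (hg : g ∈ D.NR) :
    Lm D ℓ ((D.ρu γ : Matrix (Fin D.n) (Fin D.n) ℝ) * g *
      (((D.ρu γ)⁻¹ : (Matrix (Fin D.n) (Fin D.n) ℝ)ˣ) : Matrix (Fin D.n) (Fin D.n) ℝ)) =
      χ γ * Lm D ℓ (g : Matrix (Fin D.n) (Fin D.n) ℝ) := by
  obtain ⟨x, rfl⟩ := hg
  have h1 := linear_eq_of_int (F := Lm D ℓ) (G := LinearMap.mulLeft ℝ (χ γ) ∘ₗ Lm D ℓ)
    (((IsPolyM.const (D.ρu γ : Matrix (Fin D.n) (Fin D.n) ℝ)).mul D.isPolyU_Eu.1).mul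
      (IsPolyM.const (((D.ρu γ)⁻¹ : (Matrix (Fin D.n) (Fin D.n) ℝ)ˣ) :
        Matrix (Fin D.n) (Fin D.n) ℝ))) D.isPolyU_Eu.1 (fun z => ?_) x
  · simpa using h1
  · have e1 : D.Eu (fun i => (z i : ℝ)) = D.ρu (prodE D.a z) := D.Eu_int z
    simp only [e1]
    rw [← Units.val_mul, ← Units.val_mul, ← map_inv, ← map_mul, ← map_mul]
    have m1 := D.prodE_mem z
    have h3 := Lm_ρu (D := D) hℓ ⟨γ * (⟨_, m1⟩ : N) * γ⁻¹, hN.conj_mem _ m1 γ⟩
    have h4 := Lm_ρu (D := D) hℓ ⟨_, m1⟩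
    simp only at h3 h4
    rw [LinearMap.comp_apply, h3, h4]
    exact heq γ ⟨_, m1⟩

/-- equivariance under `G1` -/
theorem Lm_conj_G1 [hN : N.Normal] {χ : Γ →* ℂˣ} (hχ : ∀ n ∈ N, χ n = 1)
    (heq : ∀ (γ : Γ) (n : N), ℓ ⟨γ * n * γ⁻¹, hN.conj_mem n n.2 γ⟩ = χ γ * ℓ n)
    (g : G1 D) {u : (Matrix (Fin D.n) (Fin D.n) ℝ)ˣ} (hu : u ∈ D.NR) :
    Lm D ℓ (((g : (Matrix (Fin D.n) (Fin D.n) ℝ)ˣ) : Matrix (Fin D.n) (Fin D.n) ℝ) * u *
      (((g : (Matrix (Fin D.n) (Fin D.n) ℝ)ˣ)⁻¹ : (Matrix (Fin D.n) (Fin D.n) ℝ)ˣ) :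
        Matrix (Fin D.n) (Fin D.n) ℝ)) =
      (lift D χ hχ g : ℂˣ) * Lm D ℓ (u : Matrix (Fin D.n) (Fin D.n) ℝ) := by
  obtain ⟨v, hv, hg⟩ := rep_spec D g
  rw [lift_eq hv hg, hg]
  have h1 := D.conj_mem_NR (rep D g) hu
  have e1 : (((v * D.ρu (rep D g) : (Matrix (Fin D.n) (Fin D.n) ℝ)ˣ)) :
      Matrix (Fin D.n) (Fin D.n) ℝ) * u *
      (((v * D.ρu (rep D g))⁻¹ : (Matrix (Fin D.n) (Fin D.n) ℝ)ˣ) :
        Matrix (Fin D.n) (Fin D.n) ℝ) =
      ((v * (D.ρu (rep D g) * u * (D.ρu (rep D g))⁻¹) : (Matrix (Fin D.n) (Fin D.n) ℝ)ˣ) :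
        Matrix (Fin D.n) (Fin D.n) ℝ) *
      ((v⁻¹ : (Matrix (Fin D.n) (Fin D.n) ℝ)ˣ) : Matrix (Fin D.n) (Fin D.n) ℝ) := by
    rw [← Units.val_mul, ← Units.val_mul, ← Units.val_mul]
    congr 1
    group
  rw [e1, Lm_mul hℓ (D.NR.mul_mem hv h1) (D.NR.inv_mem hv), Units.val_mul, Lm_mul hℓ hv h1,
    Lm_inv hℓ hv, Units.val_mul, Units.val_mul, Lm_conj hℓ heq _ hu]
  ring

/-- equivariance on the Lie algebra -/
theorem Lm_Ad [hN : N.Normal] {χ : Γ →* ℂˣ} (hχ : ∀ n ∈ N, χ n = 1)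
    (heq : ∀ (γ : Γ) (n : N), ℓ ⟨γ * n * γ⁻¹, hN.conj_mem n n.2 γ⟩ = χ γ * ℓ n)
    (g : G1 D) {X : Matrix (Fin D.n) (Fin D.n) ℝ} (hX : X ∈ lie D) :
    Lm D ℓ (((g : (Matrix (Fin D.n) (Fin D.n) ℝ)ˣ) : Matrix (Fin D.n) (Fin D.n) ℝ) * X *
      (((g : (Matrix (Fin D.n) (Fin D.n) ℝ)ˣ)⁻¹ : (Matrix (Fin D.n) (Fin D.n) ℝ)ˣ) :
        Matrix (Fin D.n) (Fin D.n) ℝ)) =
      (lift D χ hχ g : ℂˣ) * Lm D ℓ X := by
  have h1 := conj_mem_lie D (u := (g : (Matrix (Fin D.n) (Fin D.n) ℝ)ˣ))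
    (fun u hu => conj_NR g.2 hu) hX
  rw [← Lm_ex hℓ h1, ← Lm_ex hℓ hX, ex_conj (Units.mul_inv _) (Units.inv_mul _)]
  exact Lm_conj_G1 hℓ hχ heq g (exU_mem_of_lie D hX)

end hom

/-- conversely, a functional on `𝔫` killing the brackets is a homomorphism on `N_ℝ`. -/
theorem lg_hom {E : Type*} [AddCommGroup E] [Module ℝ E]
    (F : Matrix (Fin D.n) (Fin D.n) ℝ →ₗ[ℝ] E)
    (hF : ∀ X ∈ lie D, ∀ Y ∈ lie D, F (X * Y - Y * X) = 0)
    {g h : (Matrix (Fin D.n) (Fin D.n) ℝ)ˣ} (hg : g ∈ D.NR) (hh : h ∈ D.NR) :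
    F (lg ((g : Matrix (Fin D.n) (Fin D.n) ℝ) * h)) =
      F (lg (g : Matrix (Fin D.n) (Fin D.n) ℝ)) + F (lg (h : Matrix (Fin D.n) (Fin D.n) ℝ)) := by
  have h1 := (isSub_lie D).lg_mul (L := lie D ⊓ LinearMap.ker F) inf_le_left
    (fun X hX Y hY => ⟨bracket_mem D hX hY, hF X hX Y hY⟩) (lg_mem_lie D hg) (lg_mem_lie D hh)
  rw [ex_lg (D.unip_NR hg), ex_lg (D.unip_NR hh)] at h1
  have h2 := LinearMap.mem_ker.mp h1.2
  rw [map_sub, map_add, sub_eq_zero] at h2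
  exact h2

/-! ### crossed homomorphisms on `G1` -/

section crossed

variable [hN : N.Normal] {ℓ : N → ℂ} (hℓ : ∀ a b, ℓ (a * b) = ℓ a + ℓ b)
  {χ : Γ →* ℂˣ} (hχ : ∀ n ∈ N, χ n = 1)
  (heq : ∀ (γ : Γ) (n : N), ℓ ⟨γ * n * γ⁻¹, hN.conj_mem n n.2 γ⟩ = χ γ * ℓ n)
  {δ : Γ → ℂ} (hδ : ∀ g h, δ (g * h) = δ g + χ g * δ h) (hδℓ : ∀ n : N, δ n = ℓ n)

variable (D) in
/-- the extension of a crossed homomorphism to `G1` -/
noncomputable def ext1 (ℓ : N → ℂ) (δ : Γ → ℂ) (g : G1 D) : ℂ :=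
  Lm D ℓ ((((g : (Matrix (Fin D.n) (Fin D.n) ℝ)ˣ) * (D.ρu (rep D g))⁻¹ :
    (Matrix (Fin D.n) (Fin D.n) ℝ)ˣ)) : Matrix (Fin D.n) (Fin D.n) ℝ) + δ (rep D g)

include hℓ hχ heq hδ hδℓ

theorem ext1_eq {g : G1 D} {u : (Matrix (Fin D.n) (Fin D.n) ℝ)ˣ} (hu : u ∈ D.NR) {γ : Γ}
    (h : (g : (Matrix (Fin D.n) (Fin D.n) ℝ)ˣ) = u * D.ρu γ) :
    ext1 D ℓ δ g = Lm D ℓ (u : Matrix (Fin D.n) (Fin D.n) ℝ) + δ γ := by
  obtain ⟨v, hv, h2⟩ := rep_spec D g
  have e1 : (g : (Matrix (Fin D.n) (Fin D.n) ℝ)ˣ) * (D.ρu (rep D g))⁻¹ = v := by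
    rw [h2]; group
  rw [ext1, e1]
  have h3 : v * D.ρu (rep D g) = u * D.ρu γ := by rw [← h2, h]
  have h4 := mem_N_of_eq hv hu h3
  have h5 : D.ρu (rep D g * γ⁻¹) = v⁻¹ * u := by
    rw [map_mul, map_inv, mul_inv_eq_iff_eq_mul, mul_assoc, ← h3]; group
  have h6 := Lm_ρu (D := D) hℓ ⟨_, h4⟩
  simp only at h6
  rw [h5, Units.val_mul, Lm_mul hℓ (D.NR.inv_mem hv) hu, Lm_inv hℓ hv] at h6
  have h7 := hδ (rep D g * γ⁻¹) γ
  rw [inv_mul_cancel_right] at h7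
  have h8 := hδℓ ⟨_, h4⟩
  simp only at h8
  rw [hχ _ h4, h8, ← h6, Units.val_one, one_mul] at h7
  rw [h7]
  ring

theorem ext1_mul (g h : G1 D) :
    ext1 D ℓ δ (g * h) = ext1 D ℓ δ g + (lift D χ hχ g : ℂˣ) * ext1 D ℓ δ h := by
  obtain ⟨u, hu, hg⟩ := rep_spec D g
  obtain ⟨v, hv, hh⟩ := rep_spec D h
  have h1 := D.conj_mem_NR (rep D g) hv
  rw [ext1_eq hℓ hχ heq hδ hδℓ hu hg, ext1_eq hℓ hχ heq hδ hδℓ hv hh, lift_eq hu hg,
    ext1_eq hℓ hχ heq hδ hδℓ (g := g * h) (D.NR.mul_mem hu h1) (γ := rep D g * rep D h) (by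
      rw [Subgroup.coe_mul, hg, hh, map_mul]
      group), hδ, Units.val_mul, Lm_mul hℓ hu h1, Units.val_mul, Units.val_mul,
    Lm_conj hℓ heq _ hv]
  ring

theorem ext1_inΓ (γ : Γ) : ext1 D ℓ δ (inΓ D γ) = δ γ := by
  rw [ext1_eq hℓ hχ heq hδ hδℓ D.NR.one_mem (γ := γ) (by rw [one_mul]; rfl), Units.val_one,
    Lm_one hℓ, zero_add]

theorem ext1_NR {g : G1 D} (hg : g ∈ NR1 D) : ext1 D ℓ δ g =
    Lm D ℓ ((g : (Matrix (Fin D.n) (Fin D.n) ℝ)ˣ) : Matrix (Fin D.n) (Fin D.n) ℝ) := by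
  have h1 : δ 1 = 0 := by
    have := hδℓ 1
    rw [Subgroup.coe_one, hom_one hℓ] at this
    exact this
  rw [ext1_eq hℓ hχ heq hδ hδℓ hg (γ := 1) (by rw [map_one, mul_one]; rfl), h1, add_zero]
  rfl

end crossed

/-- continuity of complex functionals -/
theorem exists_norm_le {n : ℕ} (F : Matrix (Fin n) (Fin n) ℝ →ₗ[ℝ] ℂ) :
    ∃ A : ℝ, 0 ≤ A ∧ ∀ M, ‖F M‖ ≤ A * nrm M := by
  refine ⟨∑ i, ∑ j, ‖F (Matrix.single i j 1)‖, Finset.sum_nonneg fun _ _ =>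
    Finset.sum_nonneg fun _ _ => norm_nonneg _, fun M => ?_⟩
  have h1 : F M = ∑ i, ∑ j, M i j • F (Matrix.single i j 1) := by
    conv_lhs => rw [Matrix.matrix_eq_sum_single M]
    rw [map_sum]
    refine Finset.sum_congr rfl fun i _ => ?_
    rw [map_sum]
    refine Finset.sum_congr rfl fun j _ => ?_
    have : Matrix.single i j (M i j) = M i j • Matrix.single i j (1 : ℝ) := by
      rw [Matrix.smul_single, smul_eq_mul, mul_one]
    rw [this, map_smul]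
  rw [h1]
  refine (norm_sum_le _ _).trans ?_
  rw [Finset.sum_mul]
  refine Finset.sum_le_sum fun i _ => ?_
  refine (norm_sum_le _ _).trans ?_
  rw [Finset.sum_mul]
  refine Finset.sum_le_sum fun j _ => ?_
  rw [norm_smul, mul_comm]
  exact mul_le_mul_of_nonneg_left (abs_le_nrm M i j) (norm_nonneg _)

end

end Crest.Agent.R182.Model
end

-- ▼ part R182/ModelCross

set_option autoImplicit false
set_option linter.unusedSectionVars false

namespace Crest.Agent.R182.Model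

open Polyc Crest.GroupTheory Crest.Geometry

/-! ### length of exponentials -/

section

variable {Γ : Type*} [Group Γ] {N : Subgroup Γ} [hN : N.Normal] {D : EmbData Γ N}
  {S : Set Γ} {C : ℝ}

/-- crude bound for the exponential -/
theorem nrm_ex_le {n : ℕ} (X : Matrix (Fin n) (Fin n) ℝ) :
    nrm (ex X) ≤ n * ((n + 1) * (1 + nrm X) ^ n) := by
  have h1 : nrm (ex X) ≤ ∑ _k ∈ Finset.range n, ((n + 1) * (1 + nrm X) ^ n) := by
    refine (nrm_sum _ _).trans (Finset.sum_le_sum fun k hk => ?_)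
    rw [nrm_smul]
    have h2 : |((k.factorial : ℝ)⁻¹)| ≤ 1 := by
      rw [abs_of_nonneg (by positivity)]
      exact inv_le_one_of_one_le₀ (by exact_mod_cast Nat.one_le_iff_ne_zero.mpr k.factorial_ne_zero)
    have h3 := nrm_pow X k
    have h4 : nrm X ^ k ≤ (1 + nrm X) ^ n := by
      have h5 := nrm_nonneg X
      calc nrm X ^ k ≤ (1 + nrm X) ^ k := pow_le_pow_left₀ h5 (by linarith) k
        _ ≤ (1 + nrm X) ^ n := pow_le_pow_right₀ (by linarith) (Finset.mem_range.mp hk).le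
    calc |((k.factorial : ℝ)⁻¹)| * nrm (X ^ k) ≤ 1 * nrm (X ^ k) :=
          mul_le_mul_of_nonneg_right h2 (nrm_nonneg _)
      _ = nrm (X ^ k) := one_mul _
      _ ≤ (n + 1) * nrm X ^ k := h3
      _ ≤ _ := mul_le_mul_of_nonneg_left h4 (by positivity)
  refine h1.trans_eq ?_
  rw [Finset.sum_const, Finset.card_range, nsmul_eq_mul]

theorem sz_exU_le {n : ℕ} {X : Matrix (Fin n) (Fin n) ℝ} (hX : X ^ n = 0) :
    sz (exU X hX) ≤ 1 + 2 * (n * ((n + 1) * (1 + nrm X) ^ n)) := by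
  have h1 := nrm_ex_le X
  have h2 := nrm_ex_le (-X)
  rw [nrm_neg] at h2
  change 1 + nrm (ex X) + nrm (ex (-X)) ≤ _
  linarith

/-- exponential of an element of `𝔫` as an element of `G1` -/
noncomputable def exG (D : EmbData Γ N) (X : Matrix (Fin D.n) (Fin D.n) ℝ) (hX : X ∈ lie D) :
    G1 D :=
  ⟨exU X (lie_pow_zero D hX), NR_le D (exU_mem_of_lie D hX)⟩

theorem coe_exG (X : Matrix (Fin D.n) (Fin D.n) ℝ) (hX : X ∈ lie D) :
    (((exG D X hX : G1 D) : (Matrix (Fin D.n) (Fin D.n) ℝ)ˣ) : Matrix (Fin D.n) (Fin D.n) ℝ) =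
      ex X := rfl

theorem exG_mem (X : Matrix (Fin D.n) (Fin D.n) ℝ) (hX : X ∈ lie D) : exG D X hX ∈ NR1 D :=
  exU_mem_of_lie D hX

/-- bounded exponentials have bounded length -/
theorem Big.len_exG_of_le (h : Big D S C) (R : ℝ) : ∃ K : ℕ, ∀ X (hX : X ∈ lie D),
    nrm X ≤ R → len D C (exG D X hX) ≤ K := by
  obtain ⟨K, hK⟩ := h.len_le_of_sz (1 + 2 * (D.n * ((D.n + 1) * (1 + R) ^ D.n)))
  refine ⟨K, fun X hX hR => hK _ ?_⟩
  refine (sz_exU_le (lie_pow_zero D hX)).trans ?_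
  have h0 := nrm_nonneg X
  have : (1 + nrm X) ^ D.n ≤ (1 + R) ^ D.n := pow_le_pow_left₀ (by linarith) (by linarith) _
  gcongr


/-- crude polynomial bound for the logarithm -/
theorem nrm_lg_le {n : ℕ} (g : Matrix (Fin n) (Fin n) ℝ) :
    nrm (lg g) ≤ n * ((n + 1) * (1 + n + nrm g) ^ n) := by
  have h1 : nrm (lg g) ≤ ∑ _k ∈ Finset.range n, ((n + 1) * (1 + n + nrm g) ^ n) := by
    refine (nrm_sum _ _).trans (Finset.sum_le_sum fun k hk => ?_)
    rw [nrm_smul]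
    have h2 : |lc k| ≤ 1 := by
      rw [lc]
      split_ifs with h
      · simp
      · rw [abs_div, abs_pow, abs_neg, abs_one, one_pow, Nat.abs_cast]
        exact div_le_one_of_le₀ (by exact_mod_cast Nat.one_le_iff_ne_zero.mpr h)
          (Nat.cast_nonneg _)
    have h3 := nrm_pow (g - 1) k
    have h0 := nrm_nonneg g
    have h4 : nrm (g - 1) ^ k ≤ (1 + n + nrm g) ^ n := by
      have h5 : nrm (g - 1) ≤ 1 + n + nrm g := by
        have := nrm_sub g 1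
        rw [nrm_one] at this
        linarith
      calc nrm (g - 1) ^ k ≤ (1 + n + nrm g) ^ k := pow_le_pow_left₀ (nrm_nonneg _) h5 k
        _ ≤ (1 + n + nrm g) ^ n := pow_le_pow_right₀ (by
            have : (0 : ℝ) ≤ n := Nat.cast_nonneg _
            linarith) (Finset.mem_range.mp hk).le
    calc |lc k| * nrm ((g - 1) ^ k) ≤ 1 * nrm ((g - 1) ^ k) :=
          mul_le_mul_of_nonneg_right h2 (nrm_nonneg _)
      _ = nrm ((g - 1) ^ k) := one_mul _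
      _ ≤ (n + 1) * nrm (g - 1) ^ k := h3
      _ ≤ _ := mul_le_mul_of_nonneg_left h4 (by positivity)
  refine h1.trans_eq ?_
  rw [Finset.sum_const, Finset.card_range, nsmul_eq_mul]

/-- `a function on `G1` which is subadditive up to factors is controlled by the length -/
theorem Big.letter (h : Big D S C) {g : G1 D} (hg : g ∈ gens D C) :
    ∃ (γ : Γ) (b : G1 D), g = inΓ D γ * b ∧ b ∈ NR1 D ∧ b ∈ gens D C ∧ sz (D.ρu γ) ≤ C * C := by
  obtain ⟨γ, b, hgb, hb, hbC⟩ := h.round g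
  refine ⟨γ, b, hgb, hb, hbC, ?_⟩
  have h2 : D.ρu γ = (g : (Matrix (Fin D.n) (Fin D.n) ℝ)ˣ) *
      (b : (Matrix (Fin D.n) (Fin D.n) ℝ)ˣ)⁻¹ := by
    rw [hgb]
    simp
  rw [h2]
  refine (sz_mul _ _).trans ?_
  rw [sz_inv]
  have h3 : sz (b : (Matrix (Fin D.n) (Fin D.n) ℝ)ˣ) ≤ C := hbC
  have h4 := one_le_sz (b : (Matrix (Fin D.n) (Fin D.n) ℝ)ˣ)
  exact mul_le_mul hg h3 (by linarith) (by linarith [h.one_le])

end

/-! ### heights -/

section

variable {Γ : Type*} [Group Γ] (R : RootData Γ) (D : EmbData Γ R.N)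

instance : R.N.Normal := R.normal

/-- the height homomorphism on `G1` -/
noncomputable def π1 : G1 D →* Multiplicative (Fin R.k → ℤ) :=
  lift D R.π fun n hn => (R.mem_N n).mpr hn

/-- real height -/
noncomputable def hgt (g : G1 D) : Fin R.k → ℝ :=
  fun j => ((Multiplicative.toAdd (π1 R D g) j : ℤ) : ℝ)

theorem hgt_mul (g g' : G1 D) : hgt R D (g * g') = hgt R D g + hgt R D g' := by
  funext j
  simp only [hgt, map_mul, toAdd_mul, Pi.add_apply]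
  push_cast
  rfl

theorem hgt_one : hgt R D 1 = 0 := by
  have := hgt_mul R D 1 1
  rw [mul_one] at this
  simpa using this

theorem hgt_inv (g : G1 D) : hgt R D g⁻¹ = - hgt R D g := by
  have := hgt_mul R D g g⁻¹
  rw [mul_inv_cancel, hgt_one] at this
  exact (neg_eq_of_add_eq_zero_right this.symm).symm

theorem hgt_inΓ (γ : Γ) : hgt R D (inΓ D γ) =
    fun j => ((Multiplicative.toAdd (R.π γ) j : ℤ) : ℝ) := by
  funext j
  rw [hgt, π1, lift_inΓ]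

theorem hgt_eq_zero_iff (g : G1 D) : hgt R D g = 0 ↔ g ∈ NR1 D := by
  rw [← lift_eq_one_iff (D := D) R.π (fun n => (R.mem_N n).symm) g]
  constructor
  · intro h
    apply Multiplicative.toAdd.injective
    funext j
    have := congrFun h j
    simp only [hgt, Pi.zero_apply, Int.cast_eq_zero] at this
    exact this
  · intro h
    funext j
    change ((Multiplicative.toAdd (lift D R.π _ g) j : ℤ) : ℝ) = 0
    rw [h]
    simp

/-- the `i`-th character on `G1` -/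
noncomputable def χ1 (i : Fin R.m) : G1 D →* ℂˣ := lift D (R.χ i) (R.χ_N i)

theorem χ1_one (i : Fin R.m) {g : G1 D} (hg : hgt R D g = 0) : χ1 R D i g = 1 :=
  lift_NR _ _ ((hgt_eq_zero_iff R D g).mp hg)

theorem log_χ1 (i : Fin R.m) (g : G1 D) :
    Real.log ‖((χ1 R D i g : ℂˣ) : ℂ)‖ = R.Λ i (hgt R D g) := by
  obtain ⟨u, hu, hg⟩ := rep_spec D g
  have h1 : hgt R D g = fun j => ((Multiplicative.toAdd (R.π (rep D g)) j : ℤ) : ℝ) := by
    funext j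
    rw [hgt, π1, lift_eq hu hg]
  rw [h1, χ1, lift_eq hu hg, R.log_χ]

theorem norm_χ1 (i : Fin R.m) (g : G1 D) :
    ‖((χ1 R D i g : ℂˣ) : ℂ)‖ = Real.exp (R.Λ i (hgt R D g)) := by
  rw [← log_χ1, Real.exp_log]
  exact norm_pos_iff.mpr (Units.ne_zero _)

variable {R D}
variable {S : Set Γ} {C : ℝ}

theorem Big.hgt_le (h : Big D S C) : ∃ a : ℝ, 0 ≤ a ∧ ∀ g i, |hgt R D g i| ≤ a * len D C g := by
  classical
  obtain ⟨a, ha⟩ := ((finite_sz (D := D) (C * C)).image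
    (fun γ => ∑ j, |((Multiplicative.toAdd (R.π γ) j : ℤ) : ℝ)|)).bddAbove
  have hletter : ∀ g ∈ gens D C, ∀ i, |hgt R D g i| ≤ max a 0 := by
    intro g hg i
    obtain ⟨γ, b, rfl, hb, -, hγ⟩ := h.letter hg
    rw [hgt_mul, (hgt_eq_zero_iff R D b).mpr hb, add_zero, hgt_inΓ]
    refine le_trans ?_ ((ha ⟨γ, hγ, rfl⟩).trans (le_max_left _ _))
    exact Finset.single_le_sum (f := fun j => |((Multiplicative.toAdd (R.π γ) j : ℤ) : ℝ)|)
      (fun j _ => abs_nonneg _) (Finset.mem_univ i)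
  refine ⟨max a 0, le_max_right _ _, fun g i => ?_⟩
  obtain ⟨l, hl, hw, rfl⟩ := QI.wordLength_spec h.closure g
  rw [len, ← hl]
  clear hl
  induction l with
  | nil => simp [hgt_one]
  | cons x l ih =>
    rw [List.prod_cons, hgt_mul, List.length_cons]
    have h1 := ih fun y hy => hw y (by simp [hy])
    have h2 : |hgt R D x i| ≤ max a 0 := by
      rcases hw x (by simp) with h2 | h2
      · exact hletter x h2 i
      · have h3 := hletter _ h2 i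
        rwa [hgt_inv, Pi.neg_apply, abs_neg] at h3
    rw [Pi.add_apply]
    push_cast
    calc |hgt R D x i + hgt R D l.prod i| ≤ |hgt R D x i| + |hgt R D l.prod i| := abs_add_le _ _
      _ ≤ max a 0 + max a 0 * l.length := add_le_add h2 h1
      _ = _ := by ring

/-- linear functionals of the height -/
theorem Big.lin_hgt_le (h : Big D S C) (w : (Fin R.k → ℝ) →ₗ[ℝ] ℝ) :
    ∃ c : ℝ, 0 ≤ c ∧ ∀ g, |w (hgt R D g)| ≤ c * len D C g := by
  obtain ⟨a, ha, h1⟩ := h.hgt_le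
  refine ⟨∑ i, |w (Pi.single i 1)| * a, Finset.sum_nonneg fun i _ =>
    mul_nonneg (abs_nonneg _) ha, fun g => ?_⟩
  have h2 : w (hgt R D g) = ∑ i, hgt R D g i * w (Pi.single i 1) := by
    conv_lhs => rw [← Finset.univ_sum_single (hgt R D g)]
    rw [map_sum]
    refine Finset.sum_congr rfl fun i _ => ?_
    have : Pi.single i (hgt R D g i) = hgt R D g i • (Pi.single i (1 : ℝ) : Fin R.k → ℝ) := by
      rw [← Pi.single_smul, smul_eq_mul, mul_one]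
    rw [this, map_smul, smul_eq_mul]
  rw [h2]
  refine (Finset.abs_sum_le_sum_abs _ _).trans ?_
  rw [Finset.sum_mul]
  refine Finset.sum_le_sum fun i _ => ?_
  rw [abs_mul, mul_comm, mul_assoc]
  exact mul_le_mul_of_nonneg_left (h1 g i) (abs_nonneg _)

/-- **crossed homomorphisms on `G1`** for the nonzero roots -/
theorem Big.exists_crossed (h : Big D S C) (i : Fin R.m) (hi : R.Λ i ≠ 0) :
    ∃ (δ : G1 D → ℂ) (c B : ℝ), Bnd.Crossed (fun g => (len D C g : ℝ))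
      (fun g => R.Λ i (hgt R D g)) (fun g => ((χ1 R D i g : ℂˣ) : ℂ)) δ c B ∧
      (∃ n, hgt R D n = 0 ∧ δ n ≠ 0) ∧
      (∀ g ∈ NR1 D, δ g = Lm D (R.ℓ i)
        ((g : (Matrix (Fin D.n) (Fin D.n) ℝ)ˣ) : Matrix (Fin D.n) (Fin D.n) ℝ)) := by
  classical
  have hab : ∀ g h : Γ, g * h * g⁻¹ * h⁻¹ ∈ R.N := by
    intro g h
    rw [← R.mem_N, map_mul, map_mul, map_mul, map_inv, map_inv, mul_comm (R.π g) (R.π h)]
    group
  -- an element with nontrivial character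
  obtain ⟨t, ht⟩ : ∃ t, R.χ i t ≠ 1 := by
    by_contra hcon
    push Not at hcon
    apply hi
    have h1 : ∀ v : Fin R.k → ℤ, R.Λ i (fun j => (v j : ℝ)) = 0 := by
      intro v
      obtain ⟨g, hg⟩ := R.surj (Multiplicative.ofAdd v)
      have h2 := R.log_χ i g
      rw [hcon g, hg, Units.val_one, norm_one, Real.log_one] at h2
      exact h2.symm
    apply LinearMap.pi_ext'
    intro j
    apply LinearMap.ext_ring
    have h2 := h1 (Pi.single j 1)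
    have h3 : (fun j' => ((Pi.single j 1 : Fin R.k → ℤ) j' : ℝ)) =
        (Pi.single j (1 : ℝ) : Fin R.k → ℝ) := by
      funext j'
      by_cases hj : j' = j
      · subst hj; simp
      · simp [Pi.single_eq_of_ne hj]
    rw [h3] at h2
    simpa using h2
  obtain ⟨δ, hδ, hδℓ, -⟩ := Polyc.exists_crossed hab R.normal (R.χ i) (R.ℓ i) (R.ℓ_mul i)
    (fun g n => R.ℓ_conj i g n) t ht
  have hmul := ext1_mul (D := D) (R.ℓ_mul i) (R.χ_N i) (fun γ n => R.ℓ_conj i γ n) hδ hδℓ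
  have hNR : ∀ g ∈ NR1 D, ext1 D (R.ℓ i) δ g = Lm D (R.ℓ i)
        ((g : (Matrix (Fin D.n) (Fin D.n) ℝ)ˣ) : Matrix (Fin D.n) (Fin D.n) ℝ) := fun g hg =>
    ext1_NR (D := D) (R.ℓ_mul i) (R.χ_N i) (fun γ n => R.ℓ_conj i γ n) hδ hδℓ hg
  obtain ⟨c, hc, hω⟩ := h.lin_hgt_le (R.Λ i)
  -- bound on letters
  obtain ⟨A, hA, hLm⟩ := exists_norm_le (Lm D (R.ℓ i))
  obtain ⟨a, ha⟩ := ((finite_sz (D := D) (C * C)).image
    (fun γ => ‖δ γ‖ + ‖((R.χ i γ : ℂˣ) : ℂ)‖ * (A * C))).bddAbove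
  have hone : ext1 D (R.ℓ i) δ 1 = 0 := by
    have := hmul 1 1
    rw [mul_one, map_one, Units.val_one, one_mul] at this
    simpa using this
  have hletter : ∀ g ∈ gens D C, ‖ext1 D (R.ℓ i) δ g‖ ≤ max a 0 := by
    intro g hg
    obtain ⟨γ, b, rfl, hb, hbC, hγ⟩ := h.letter hg
    refine le_trans ?_ ((ha ⟨γ, hγ, rfl⟩).trans (le_max_left _ _))
    rw [hmul, hNR b hb, lift_inΓ,
      ext1_inΓ (D := D) (R.ℓ_mul i) (R.χ_N i) (fun γ n => R.ℓ_conj i γ n) hδ hδℓ]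
    refine (norm_add_le _ _).trans ?_
    rw [norm_mul]
    refine add_le_add le_rfl (mul_le_mul_of_nonneg_left ?_ (norm_nonneg _))
    refine (hLm _).trans (mul_le_mul_of_nonneg_left ?_ hA)
    exact (nrm_le_sz _).trans hbC
  have hinv : ∀ g, ext1 D (R.ℓ i) δ g⁻¹ =
      - ((lift D (R.χ i) (R.χ_N i) g⁻¹ : ℂˣ) : ℂ) * ext1 D (R.ℓ i) δ g := by
    intro g
    have := hmul g⁻¹ g
    rw [inv_mul_cancel, hone] at this
    linear_combination -this
  have hχn : ∀ g, ‖((lift D (R.χ i) (R.χ_N i) g : ℂˣ) : ℂ)‖ = Real.exp (R.Λ i (hgt R D g)) :=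
    fun g => norm_χ1 R D i g
  have hχle : ∀ g, ‖((lift D (R.χ i) (R.χ_N i) g : ℂˣ) : ℂ)‖ ≤ Real.exp (c * len D C g) :=
    fun g => (hχn g).le.trans (Real.exp_le_exp.mpr ((le_abs_self _).trans (hω g)))
  set M : ℝ := max a 0 * Real.exp c with hM
  have hM0 : 0 ≤ M := mul_nonneg (le_max_right _ _) (Real.exp_pos _).le
  have hgrow : ∀ g, ‖ext1 D (R.ℓ i) δ g‖ ≤ M * Real.exp ((c + 1) * len D C g) := by
    intro g
    obtain ⟨l, hl, hw, rfl⟩ := QI.wordLength_spec h.closure g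
    rw [len, ← hl]
    clear hl
    have key : ‖ext1 D (R.ℓ i) δ l.prod‖ ≤ M * (l.length * Real.exp (c * l.length)) := by
      induction l with
      | nil => simp [hone]
      | cons x l ih =>
        rw [List.prod_cons, hmul, List.length_cons]
        have h1 := ih fun y hy => hw y (by simp [hy])
        have hx1 : len D C x ≤ 1 := by
          rcases hw x (by simp) with h2 | h2
          · exact h.len_letter h2
          · rw [← h.len_inv]; exact h.len_letter h2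
        have hx1' : (len D C x : ℝ) ≤ 1 := by exact_mod_cast hx1
        have hχx : ∀ y : G1 D, len D C y ≤ 1 →
            ‖((lift D (R.χ i) (R.χ_N i) y : ℂˣ) : ℂ)‖ ≤ Real.exp c := by
          intro y hy
          refine (hχle y).trans (Real.exp_le_exp.mpr ?_)
          have : (len D C y : ℝ) ≤ 1 := by exact_mod_cast hy
          nlinarith
        have hx : ‖ext1 D (R.ℓ i) δ x‖ ≤ M := by
          rcases hw x (by simp) with h2 | h2
          · refine (hletter x h2).trans ?_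
            exact le_mul_of_one_le_right (le_max_right _ _) (Real.one_le_exp hc)
          · have h3 := hinv x⁻¹
            rw [inv_inv] at h3
            rw [h3, norm_mul, norm_neg, hM, mul_comm]
            exact mul_le_mul (hletter _ h2) (hχx x hx1) (norm_nonneg _) (le_max_right _ _)
        refine (norm_add_le _ _).trans ?_
        rw [norm_mul]
        push_cast
        have e1 : Real.exp (c * (l.length + 1)) = Real.exp c * Real.exp (c * l.length) := by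
          rw [← Real.exp_add]; ring_nf
        have e2 : 1 ≤ Real.exp (c * (l.length + 1)) := Real.one_le_exp (by positivity)
        calc ‖ext1 D (R.ℓ i) δ x‖ + ‖((lift D (R.χ i) (R.χ_N i) x : ℂˣ) : ℂ)‖ *
              ‖ext1 D (R.ℓ i) δ l.prod‖ ≤ M + Real.exp c * (M * (l.length * Real.exp (c * l.length))) :=
              add_le_add hx (mul_le_mul (hχx x hx1) h1 (norm_nonneg _) (Real.exp_pos _).le)
          _ = M * (1 + l.length * Real.exp (c * (l.length + 1))) := by rw [e1]; ring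
          _ ≤ M * (Real.exp (c * (l.length + 1)) + l.length * Real.exp (c * (l.length + 1))) :=
              mul_le_mul_of_nonneg_left (by linarith) hM0
          _ = _ := by ring
    refine key.trans (mul_le_mul_of_nonneg_left ?_ hM0)
    have e1 : Real.exp ((c + 1) * l.length) = Real.exp (l.length : ℝ) * Real.exp (c * l.length) := by
      rw [← Real.exp_add]; ring_nf
    rw [e1]
    refine mul_le_mul_of_nonneg_right ?_ (Real.exp_pos _).le
    have := Real.add_one_le_exp (l.length : ℝ)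
    linarith
  refine ⟨ext1 D (R.ℓ i) δ, c + 1, M, ⟨by linarith, hM0, ?_, ?_, ?_, ?_, hgrow⟩, ?_, hNR⟩
  · intro g g'
    rw [hgt_mul, map_add]
  · intro g
    exact hχn g
  · intro g g'
    exact hmul g g'
  · intro g
    refine (hω g).trans ?_
    have : (0 : ℝ) ≤ len D C g := Nat.cast_nonneg _
    nlinarith
  · obtain ⟨n, hn⟩ := R.ℓ_ne i
    refine ⟨inΓ D n, ?_, ?_⟩
    · rw [hgt_eq_zero_iff, inΓ_mem_NR1]
      exact n.2
    · rw [ext1_inΓ (D := D) (R.ℓ_mul i) (R.χ_N i) (fun γ n => R.ℓ_conj i γ n) hδ hδℓ, hδℓ]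
      exact hn

end

end Crest.Agent.R182.Model
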