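import Mathlib
import Crest.Agent.R182.PolycComm
import Crest.Agent.R182.LinMod
import Crest.Agent.R182.PolycRoot
import Crest.Agent.R182.ModelBCH
import Crest.Agent.R182.ModelGroup

-- ▼ part R182/LinUni
section

set_option autoImplicit false
set_option linter.unusedSectionVars false

namespace Crest.Agent.R182.LinUni

open Module

universe u v w

section kolchin

variable {K : Type u} [Field K] [IsAlgClosed K]

theorem trace_unip {V : Type v} [AddCommGroup V] [Module K V] [FiniteDimensional K V]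
    {T : V →ₗ[K] V} {d : ℕ} (h : (T - 1) ^ d = 0) :
    LinearMap.trace K V T = (finrank K V : K) := by
  have h1 : IsNilpotent (T - 1) := ⟨d, h⟩
  have h2 := LinearMap.isNilpotent_trace_of_isNilpotent h1
  have h3 := h2.eq_zero
  rw [map_sub, sub_eq_zero] at h3
  rw [h3]
  exact LinearMap.trace_one K V

theorem eq_zero_of_trace {V : Type v} [AddCommGroup V] [Module K V] [FiniteDimensional K V]
    {T : V →ₗ[K] V} (h : ∀ a : V →ₗ[K] V, LinearMap.trace K V (T * a) = 0) : T = 0 := by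
  ext v
  rw [LinearMap.zero_apply, ← Module.forall_dual_apply_eq_zero_iff K]
  intro f
  have h1 := h (dualTensorHom K V V (f ⊗ₜ[K] v))
  have h2 : T * (dualTensorHom K V V (f ⊗ₜ[K] v)) = dualTensorHom K V V (f ⊗ₜ[K] (T v)) := by
    ext w
    simp [dualTensorHom_apply]
  rw [h2, LinearMap.trace_eq_contract_apply] at h1
  simpa using h1

/-- Burnside's theorem: an irreducible algebra of operators is everything. -/
theorem burnside {V : Type v} [AddCommGroup V] [Module K V] [FiniteDimensional K V]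
    [Nontrivial V] (A : Subalgebra K (Module.End K V))
    (hA : ∀ W : Submodule K V, (∀ a ∈ A, W ≤ W.comap a) → W = ⊥ ∨ W = ⊤) : A = ⊤ := by
  have hsimple : IsSimpleModule A V := by
    rw [isSimpleModule_iff]
    refine { exists_pair_ne := ⟨⊥, ⊤, bot_ne_top⟩, eq_bot_or_eq_top := ?_ }
    intro W
    let W' : Submodule K V := W.restrictScalars K
    rcases hA W' (fun a ha w hw => W.smul_mem (⟨a, ha⟩ : A) hw) with h | h
    · left
      ext x
      have : x ∈ W' ↔ x ∈ (⊥ : Submodule K V) := by rw [h]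
      exact this
    · right
      ext x
      have : x ∈ W' ↔ x ∈ (⊤ : Submodule K V) := by rw [h]
      exact ⟨fun _ => trivial, fun _ => this.2 trivial⟩
  classical
  have hbij := IsSimpleModule.algebraMap_end_bijective_of_isAlgClosed (A := A) (V := V) K
  rw [eq_top_iff]
  intro f _
  let f' : Module.End (Module.End A V) V :=
    { toFun := f
      map_add' := map_add f
      map_smul' := by
        intro φ v
        obtain ⟨c, rfl⟩ := hbij.2 φ
        simp only [Module.algebraMap_end_eq_smul_id]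
        exact map_smul f c v }
  let b := Module.finBasis K V
  obtain ⟨r, hr⟩ := jacobson_density (R := A) f' (Finset.univ.image b)
  have : f = (r : Module.End K V) := by
    refine b.ext fun i => ?_
    have := hr (b i) (by simp)
    exact this
  rw [this]
  exact r.2

/-- **Kolchin**: a group of unipotent operators has a common fixed vector. -/
theorem exists_fixed {V : Type v} [AddCommGroup V] [Module K V] [FiniteDimensional K V]
    [Nontrivial V] {N : Type w} [Group N] (ρ : Representation K N V)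
    (hρ : ∀ n, ∃ d : ℕ, (ρ n - 1) ^ d = 0) : ∃ v : V, v ≠ 0 ∧ ∀ n, ρ n v = v := by
  have hwf : WellFounded (fun A B : Submodule K V => A < B) := wellFounded_lt
  obtain ⟨W, ⟨hW0, hWi⟩, hmin⟩ := hwf.has_min
    {W : Submodule K V | W ≠ ⊥ ∧ ∀ g, W ≤ W.comap (ρ g)}
    ⟨⊤, by simp⟩
  have hnt : Nontrivial W := Submodule.nontrivial_iff_ne_bot.mpr hW0
  let σ : Representation K N W := Representation.subrepresentation ρ W hWi
  have hσ : ∀ n (w : W), ((σ n w : W) : V) = ρ n w := fun n w => rfl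
  have hσu : ∀ n, ∃ d : ℕ, (σ n - 1) ^ d = 0 := by
    intro n
    obtain ⟨d, hd⟩ := hρ n
    refine ⟨d, ?_⟩
    have key : ∀ (j : ℕ) (w : W), ((((σ n - 1) ^ j) w : W) : V) = ((ρ n - 1) ^ j) (w : V) := by
      intro j
      induction j with
      | zero => intro w; rfl
      | succ j ih =>
        intro w
        rw [pow_succ, pow_succ, Module.End.mul_apply, Module.End.mul_apply, ih]
        rfl
    ext w
    rw [key, hd]; rfl
  let A : Subalgebra K (Module.End K W) := Algebra.adjoin K (Set.range σ)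
  have hA : A = ⊤ := by
    refine burnside A ?_
    intro U hU
    by_cases hU0 : U = ⊥
    · exact Or.inl hU0
    · right
      have h1 : ¬ U.map W.subtype < W := by
        refine hmin _ ⟨?_, ?_⟩
        · intro h
          exact hU0 (Submodule.map_injective_of_injective W.subtype_injective
            (by rw [h, Submodule.map_bot]))
        · rintro g _ ⟨w, hw, rfl⟩
          exact ⟨σ g w, hU _ (Algebra.subset_adjoin ⟨g, rfl⟩) hw, rfl⟩
      have h2 : U.map W.subtype ≤ W := Submodule.map_subtype_le W U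
      have h3 : U.map W.subtype = W := by
        by_contra hne
        exact h1 (lt_of_le_of_ne h2 hne)
      rw [eq_top_iff]
      intro w _
      have h4 : (w : V) ∈ U.map W.subtype := by rw [h3]; exact w.2
      obtain ⟨w', hw', hww⟩ := h4
      have : w' = w := Subtype.ext hww
      rwa [← this]
  have htr : ∀ n (a : Module.End K W), LinearMap.trace K W ((σ n - 1) * a) = 0 := by
    intro n a
    have ha : a ∈ A := by rw [hA]; trivial
    have hspan : A.toSubmodule = Submodule.span K (Set.range σ) := by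
      have h1 : (Set.range σ) = ((MonoidHom.mrange σ : Submonoid (Module.End K W)) :
          Set (Module.End K W)) := by
        ext x; simp
      rw [show A.toSubmodule = (Algebra.adjoin K (Set.range σ)).toSubmodule from rfl,
        Algebra.adjoin_eq_span]
      congr 1
      rw [h1, Submonoid.closure_eq]
    have ha' : a ∈ Submodule.span K (Set.range σ) := by
      rw [← hspan]; exact ha
    induction ha' using Submodule.span_induction with
    | mem x hx =>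
      obtain ⟨m, rfl⟩ := hx
      rw [sub_mul, one_mul, map_sub, ← map_mul]
      obtain ⟨d1, hd1⟩ := hσu (n * m)
      obtain ⟨d2, hd2⟩ := hσu m
      rw [trace_unip hd1, trace_unip hd2, sub_self]
    | zero => rw [mul_zero, map_zero]
    | add x y hx hy ihx ihy =>
      rw [mul_add, map_add, ihx (by rw [hA]; trivial), ihy (by rw [hA]; trivial), add_zero]
    | smul c x hx ihx =>
      rw [mul_smul_comm, map_smul, ihx (by rw [hA]; trivial), smul_zero]
  obtain ⟨w, hw⟩ := exists_ne (0 : W)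
  refine ⟨w, fun h => hw (Subtype.ext h), fun n => ?_⟩
  have h1 : σ n - 1 = 0 := eq_zero_of_trace (htr n)
  have h2 : σ n w = w := by
    have := LinearMap.congr_fun h1 w
    rw [LinearMap.sub_apply, LinearMap.zero_apply, sub_eq_zero] at this
    exact this
  rw [← hσ, h2]

end kolchin

section flag

variable {K : Type u} [Field K] [IsAlgClosed K]

/-- one eigenvector -/
theorem exists_eigenvector {V : Type v} [AddCommGroup V] [Module K V] [FiniteDimensional K V]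
    [Nontrivial V] {G : Type w} [Group G] (N : Subgroup G) [hN : N.Normal]
    (hab : ∀ g h : G, g * h * g⁻¹ * h⁻¹ ∈ N) (ρ : Representation K G V)
    (hρ : ∀ n ∈ N, ∃ d : ℕ, (ρ n - 1) ^ d = 0) :
    ∃ v : V, v ≠ 0 ∧ (∀ g, ∃ c : K, ρ g v = c • v) ∧ ∀ n ∈ N, ρ n v = v := by
  let W : Submodule K V :=
    { carrier := {v | ∀ n ∈ N, ρ n v = v}
      zero_mem' := fun n _ => map_zero _
      add_mem' := fun {a b} ha hb n hn => by rw [map_add, ha n hn, hb n hn]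
      smul_mem' := fun c v hv n hn => by rw [map_smul, hv n hn] }
  have hmem : ∀ v, v ∈ W ↔ ∀ n ∈ N, ρ n v = v := fun v => Iff.rfl
  have hWi : ∀ g, W ≤ W.comap (ρ g) := by
    intro g v hv n hn
    have h1 : ρ n (ρ g v) = ρ g (ρ (g⁻¹ * n * g) v) := by
      rw [← Module.End.mul_apply, ← map_mul, ← Module.End.mul_apply, ← map_mul]
      congr 2; group
    have h2 : g⁻¹ * n * g ∈ N := by
      have := hN.conj_mem n hn g⁻¹
      simpa using this
    rw [h1, hv _ h2]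
  obtain ⟨v0, hv0, hv0N⟩ := exists_fixed (ρ.comp N.subtype) (fun n => hρ n n.2)
  have hnt : Nontrivial W := by
    refine Submodule.nontrivial_iff_ne_bot.mpr ?_
    intro h
    have : v0 ∈ W := fun n hn => hv0N ⟨n, hn⟩
    rw [h, Submodule.mem_bot] at this
    exact hv0 this
  let σ : Representation K G W := Representation.subrepresentation ρ W hWi
  have hcomm : ∀ g h, Commute (σ g) (σ h) := by
    intro g h
    have h1 : ∀ v : W, σ (g * h) v = σ (h * g) v := by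
      intro v
      have h2 : g * h = (g * h * g⁻¹ * h⁻¹) * (h * g) := by group
      ext
      show ρ (g * h) v = ρ (h * g) v
      rw [h2, map_mul, Module.End.mul_apply]
      exact hWi (h * g) v.2 _ (hab g h)
    show σ g * σ h = σ h * σ g
    rw [← map_mul, ← map_mul]
    exact LinearMap.ext h1
  obtain ⟨w, hw0, hw⟩ := Polyc.exists_common_eigenvector_comm σ hcomm
  refine ⟨w, fun h => hw0 (Subtype.ext h), fun g => ?_, fun n hn => w.2 n hn⟩
  obtain ⟨c, hc⟩ := hw g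
  exact ⟨c, congrArg Subtype.val hc⟩

theorem unip_quot {V : Type v} [AddCommGroup V] [Module K V]
    {U : Submodule K V} {T : V →ₗ[K] V} (hU : U ≤ U.comap T) {d : ℕ} (h : (T - 1) ^ d = 0) :
    (Submodule.mapQ U U T hU - 1) ^ d = 0 := by
  have key : ∀ (j : ℕ) (v : V), ((Submodule.mapQ U U T hU - 1) ^ j) (U.mkQ v) =
      U.mkQ (((T - 1) ^ j) v) := by
    intro j
    induction j with
    | zero => intro v; rfl
    | succ j ih =>
      intro v
      rw [pow_succ, pow_succ, Module.End.mul_apply, Module.End.mul_apply, ← ih]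
      rfl
  ext v
  rw [LinearMap.comp_apply, key, h]
  rfl

/-- full invariant flag, `N` acting trivially on the graded pieces -/
theorem exists_flag (n : ℕ) : ∀ (V : Type v) [AddCommGroup V] [Module K V]
    [FiniteDimensional K V], finrank K V = n → ∀ (G : Type w) [Group G] (N : Subgroup G)
    [N.Normal], (∀ g h : G, g * h * g⁻¹ * h⁻¹ ∈ N) → ∀ ρ : Representation K G V,
    (∀ n ∈ N, ∃ d : ℕ, (ρ n - 1) ^ d = 0) →
    ∃ W : Fin (n + 1) → Submodule K V, Monotone W ∧ W 0 = ⊥ ∧ W (Fin.last n) = ⊤ ∧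
      (∀ i, finrank K (W i) = i) ∧ (∀ g, ∀ i, (W i).map (ρ g) ≤ W i) ∧
      ∀ g ∈ N, ∀ i : Fin n, ∀ v ∈ W i.succ, ρ g v - v ∈ W i.castSucc := by
  induction n with
  | zero =>
    intro V _ _ _ hV G _ N _ hab ρ hρ
    have hsub : Subsingleton V := finrank_zero_iff.1 hV
    refine ⟨fun _ => ⊥, monotone_const, rfl, Subsingleton.elim _ _, ?_, ?_,
      fun _ _ i => i.elim0⟩
    · intro i
      rw [finrank_bot]
      omega
    · intro g i
      rw [Submodule.map_bot]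
  | succ n ih =>
    intro V _ _ _ hV G _ N _ hab ρ hρ
    have hnt : Nontrivial V := Module.nontrivial_of_finrank_pos (R := K) (by omega)
    obtain ⟨v, hv0, hv, hvN⟩ := exists_eigenvector N hab ρ hρ
    have hinv : ∀ g : G, (K ∙ v) ≤ (K ∙ v).comap (ρ g) := by
      intro g
      rw [Submodule.span_singleton_le_iff_mem, Submodule.mem_comap]
      obtain ⟨c, hc⟩ := hv g
      rw [hc]
      exact Submodule.smul_mem _ _ (Submodule.mem_span_singleton_self v)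
    have hdim : finrank K (V ⧸ (K ∙ v)) = n := by
      have h1 := (K ∙ v).finrank_quotient_add_finrank
      rw [finrank_span_singleton hv0] at h1
      omega
    obtain ⟨W, hWm, hW0, hWl, hWd, hWi, hWN⟩ := ih (V ⧸ (K ∙ v)) hdim G N hab
      (Representation.quotient ρ (K ∙ v) hinv) (fun g hg => by
        obtain ⟨d, hd⟩ := hρ g hg
        exact ⟨d, unip_quot (hinv g) hd⟩)
    refine ⟨Fin.cons ⊥ (fun i => (W i).comap (K ∙ v).mkQ), ?_, ?_, ?_, ?_, ?_, ?_⟩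
    · intro i j
      refine Fin.cases ?_ (fun i => ?_) i
      · intro _
        exact bot_le
      · refine Fin.cases ?_ (fun j => ?_) j
        · intro hij
          exact absurd hij (by simp)
        · intro hij
          exact Submodule.comap_mono (hWm (Fin.succ_le_succ_iff.1 hij))
    · rfl
    · rw [← Fin.succ_last]
      simp only [Fin.cons_succ]
      rw [hWl, Submodule.comap_top]
    · intro i
      refine Fin.cases ?_ (fun i => ?_) i
      · simp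
      · change finrank K ((W i).comap (K ∙ v).mkQ) = _
        rw [PolycLK.finrank_comap_mkQ, hWd, finrank_span_singleton hv0, Fin.val_succ]
    · intro g i
      refine Fin.cases ?_ (fun i => ?_) i
      · simp
      · simp only [Fin.cons_succ]
        rintro _ ⟨x, hx, rfl⟩
        refine hWi g i ⟨(K ∙ v).mkQ x, hx, ?_⟩
        rfl
    · intro g hg i
      refine Fin.cases ?_ (fun i => ?_) i
      · intro x hx
        have hx' : (K ∙ v).mkQ x ∈ W 0 := hx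
        rw [hW0, Submodule.mem_bot] at hx'
        have hx'' : x ∈ (K ∙ v) := by
          rwa [Submodule.mkQ_apply, Submodule.Quotient.mk_eq_zero] at hx'
        obtain ⟨c, rfl⟩ := Submodule.mem_span_singleton.1 hx''
        have h1 : ρ g (c • v) - c • v = 0 := by rw [map_smul, hvN g hg, sub_self]
        rw [h1]
        exact Submodule.zero_mem _
      · intro x hx
        have h1 := hWN g hg i ((K ∙ v).mkQ x) hx
        show (K ∙ v).mkQ (ρ g x - x) ∈ W i.castSucc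
        rw [map_sub]
        exact h1

/-- **LA2 (a)**: basis with triangular action, characters trivial on `N`. -/
theorem exists_triangular {V : Type v} [AddCommGroup V] [Module K V]
    [FiniteDimensional K V] {G : Type w} [Group G] (N : Subgroup G) [N.Normal]
    (hab : ∀ g h : G, g * h * g⁻¹ * h⁻¹ ∈ N) (ρ : Representation K G V)
    (hρ : ∀ n ∈ N, ∃ d : ℕ, (ρ n - 1) ^ d = 0) :
    ∃ (b : Basis (Fin (finrank K V)) K V) (χ : Fin (finrank K V) → G →* Kˣ),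
      (∀ (i : Fin (finrank K V)) (g : G), ∀ v ∈ b.flag i.succ,
          ρ g v - (χ i g : K) • v ∈ b.flag i.castSucc) ∧
      (∀ g : G, (LinearMap.toMatrix b b (ρ g)).IsUpperTriangular) ∧
      (∀ (g : G) i, LinearMap.toMatrix b b (ρ g) i i = χ i g) ∧
      (∀ g : G, LinearMap.charpoly (ρ g) =
          ∏ i, (Polynomial.X - Polynomial.C ((χ i g : Kˣ) : K))) ∧
      (∀ n ∈ N, ∀ i, χ i n = 1) := by
  obtain ⟨W, hWm, hW0, hWl, hWd, hWi, hWN⟩ := exists_flag (finrank K V) V rfl G N hab ρ hρ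
  obtain ⟨b, hb⟩ := PolycLK.exists_basis W hWm hWl hWd
  obtain ⟨χ, hχ⟩ := PolycLK.exists_chars ρ W hWm hWd (fun g i => hWi g i)
  have hχ' : ∀ (i : Fin (finrank K V)) (g : G), ∀ v ∈ b.flag i.succ,
      ρ g v - (χ i g : K) • v ∈ b.flag i.castSucc := by
    intro i g v hv
    rw [← hb] at hv ⊢
    exact hχ i g v hv
  refine ⟨b, χ, hχ', fun g => (PolycLK.toMatrix_tri ρ b χ hχ' g).1,
    fun g i => (PolycLK.toMatrix_tri ρ b χ hχ' g).2 i,
    fun g => PolycLK.charpoly_eq_prod ρ b χ hχ' g, ?_⟩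
  intro n hn i
  have h1 : ρ n (b i) - (χ i n : K) • b i ∈ b.flag i.castSucc :=
    hχ' i n _ (b.self_mem_flag Fin.castSucc_lt_succ)
  have h2 : ρ n (b i) - b i ∈ b.flag i.castSucc := by
    have h3 : b i ∈ W i.succ := by
      rw [hb]; exact b.self_mem_flag Fin.castSucc_lt_succ
    have h4 := hWN n hn i _ h3
    rwa [hb] at h4
  have h3 : ((χ i n : K) - 1) • b i ∈ b.flag i.castSucc := by
    have := Submodule.sub_mem _ h2 h1
    rwa [show ρ n (b i) - b i - (ρ n (b i) - (χ i n : K) • b i) = ((χ i n : K) - 1) • b i by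
      rw [sub_smul, one_smul]; abel] at this
  by_contra hne
  have hne' : ((χ i n : K) - 1) ≠ 0 := by
    intro h
    apply hne
    ext
    rw [sub_eq_zero] at h
    simpa using h
  have h4 := Submodule.smul_mem _ ((χ i n : K) - 1)⁻¹ h3
  rw [smul_smul, inv_mul_cancel₀ hne', one_smul, Basis.self_mem_flag_iff] at h4
  exact lt_irrefl _ h4

end flag

section growth

/-- products of upper triangular matrices with diagonal of modulus `≤ 1` and bounded entries -/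
theorem tri_prod_aux {n : ℕ} {A t : ℝ} (hA : 0 ≤ A) (ht : 0 ≤ t) (ht1 : t ≤ 1)
    (l : List (Matrix (Fin n) (Fin n) ℂ))
    (hl : ∀ M ∈ l, M.IsUpperTriangular ∧ (∀ i, ‖M i i‖ ≤ 1) ∧ ∀ i j, ‖M i j‖ ≤ A) :
    ∀ i, ∑ j, ‖l.prod i j‖ * t ^ (j : ℕ) ≤ (1 + n * A * t) ^ l.length * t ^ (i : ℕ) := by
  induction l with
  | nil =>
    intro i
    rw [List.prod_nil, List.length_nil, pow_zero, one_mul]
    rw [Finset.sum_eq_single i]
    · simp
    · intro j _ hj
      rw [Matrix.one_apply_ne (Ne.symm hj), norm_zero, zero_mul]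
    · intro h; exact absurd (Finset.mem_univ i) h
  | cons M l ih =>
    intro i
    have ih' := ih (fun M' hM' => hl M' (List.mem_cons_of_mem _ hM'))
    obtain ⟨hM1, hM2, hM3⟩ := hl M List.mem_cons_self
    set B : ℝ := (1 + n * A * t) ^ l.length with hB
    have hB0 : 0 ≤ B := by positivity
    have h1 : ∀ j, ‖(M :: l).prod i j‖ * t ^ (j : ℕ) ≤
        ∑ k, ‖M i k‖ * (‖l.prod k j‖ * t ^ (j : ℕ)) := by
      intro j
      rw [List.prod_cons, Matrix.mul_apply]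
      calc ‖∑ k, M i k * l.prod k j‖ * t ^ (j : ℕ)
          ≤ (∑ k, ‖M i k * l.prod k j‖) * t ^ (j : ℕ) :=
            mul_le_mul_of_nonneg_right (norm_sum_le _ _) (by positivity)
        _ = ∑ k, ‖M i k‖ * (‖l.prod k j‖ * t ^ (j : ℕ)) := by
            rw [Finset.sum_mul]
            refine Finset.sum_congr rfl fun k _ => ?_
            rw [norm_mul]; ring
    have h2 : ∑ k, ‖M i k‖ * t ^ (k : ℕ) ≤ t ^ (i : ℕ) * (1 + n * A * t) := by
      have h3 : ∀ k : Fin n, ‖M i k‖ * t ^ (k : ℕ) ≤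
          (if k = i then t ^ (i : ℕ) else 0) + A * t * t ^ (i : ℕ) := by
        intro k
        rcases lt_trichotomy k i with h | h | h
        · have : M i k = 0 := hM1 h
          rw [this, norm_zero, zero_mul, if_neg h.ne, zero_add]
          positivity
        · subst h
          rw [if_pos rfl]
          have := hM2 k
          have h4 : ‖M k k‖ * t ^ (k : ℕ) ≤ 1 * t ^ (k : ℕ) :=
            mul_le_mul_of_nonneg_right this (by positivity)
          have h5 : 0 ≤ A * t * t ^ (k : ℕ) := by positivity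
          linarith
        · rw [if_neg h.ne', zero_add]
          have h4 : t ^ (k : ℕ) ≤ t * t ^ (i : ℕ) := by
            rw [← pow_succ']
            exact pow_le_pow_of_le_one ht ht1 (Nat.succ_le_of_lt h)
          calc ‖M i k‖ * t ^ (k : ℕ) ≤ A * (t * t ^ (i : ℕ)) :=
                mul_le_mul (hM3 i k) h4 (by positivity) hA
            _ = A * t * t ^ (i : ℕ) := by ring
      calc ∑ k, ‖M i k‖ * t ^ (k : ℕ)
          ≤ ∑ k : Fin n, ((if k = i then t ^ (i : ℕ) else 0) + A * t * t ^ (i : ℕ)) :=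
            Finset.sum_le_sum fun k _ => h3 k
        _ = t ^ (i : ℕ) * (1 + n * A * t) := by
            rw [Finset.sum_add_distrib, Finset.sum_ite_eq' Finset.univ i, if_pos (Finset.mem_univ i),
              Finset.sum_const, Finset.card_univ, Fintype.card_fin, nsmul_eq_mul]
            ring
    calc ∑ j, ‖(M :: l).prod i j‖ * t ^ (j : ℕ)
        ≤ ∑ j, ∑ k, ‖M i k‖ * (‖l.prod k j‖ * t ^ (j : ℕ)) :=
          Finset.sum_le_sum fun j _ => h1 j
      _ = ∑ k, ‖M i k‖ * ∑ j, ‖l.prod k j‖ * t ^ (j : ℕ) := by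
          rw [Finset.sum_comm]
          refine Finset.sum_congr rfl fun k _ => ?_
          rw [Finset.mul_sum]
      _ ≤ ∑ k, ‖M i k‖ * (B * t ^ (k : ℕ)) :=
          Finset.sum_le_sum fun k _ => mul_le_mul_of_nonneg_left (ih' k) (norm_nonneg _)
      _ = B * ∑ k, ‖M i k‖ * t ^ (k : ℕ) := by
          rw [Finset.mul_sum]
          refine Finset.sum_congr rfl fun k _ => ?_
          ring
      _ ≤ B * (t ^ (i : ℕ) * (1 + n * A * t)) := mul_le_mul_of_nonneg_left h2 hB0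
      _ = (1 + n * A * t) ^ (M :: l).length * t ^ (i : ℕ) := by
          rw [List.length_cons, pow_succ, hB]; ring

theorem tri_prod_bound {n : ℕ} {A : ℝ} (hA : 0 ≤ A)
    (l : List (Matrix (Fin n) (Fin n) ℂ))
    (hl : ∀ M ∈ l, M.IsUpperTriangular ∧ (∀ i, ‖M i i‖ ≤ 1) ∧ ∀ i j, ‖M i j‖ ≤ A)
    (i j : Fin n) : ‖l.prod i j‖ ≤ Real.exp (n * A) * (1 + l.length : ℝ) ^ n := by
  set m : ℝ := 1 + l.length with hm
  have hm1 : 1 ≤ m := by rw [hm]; have : (0 : ℝ) ≤ l.length := Nat.cast_nonneg _; linarith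
  have hm0 : 0 < m := by linarith
  set t : ℝ := 1 / m with ht
  have ht0 : 0 < t := by positivity
  have ht1 : t ≤ 1 := by rw [ht, div_le_one hm0]; exact hm1
  have h1 := tri_prod_aux hA ht0.le ht1 l hl i
  have h2 : ‖l.prod i j‖ * t ^ (j : ℕ) ≤ (1 + n * A * t) ^ l.length * t ^ (i : ℕ) :=
    (Finset.single_le_sum (f := fun j : Fin n => ‖l.prod i j‖ * t ^ (j : ℕ))
      (fun j _ => by positivity) (Finset.mem_univ j)).trans h1
  have h3 : (1 + n * A * t) ^ l.length ≤ Real.exp (n * A) := by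
    have h4 : 1 + n * A * t ≤ Real.exp (n * A * t) := by
      have := Real.add_one_le_exp (n * A * t)
      linarith
    calc (1 + n * A * t) ^ l.length ≤ (Real.exp (n * A * t)) ^ l.length :=
          pow_le_pow_left₀ (by positivity) h4 _
      _ = Real.exp (n * A * (t * l.length)) := by
          rw [← Real.exp_nat_mul]; congr 1; ring
      _ ≤ Real.exp (n * A) := by
          refine Real.exp_le_exp.2 ?_
          have h5 : t * l.length ≤ 1 := by
            rw [ht, one_div, inv_mul_le_one₀ hm0, hm]; linarith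
          have h6 : 0 ≤ n * A := by positivity
          nlinarith
  have h4 : t ^ (i : ℕ) ≤ 1 := pow_le_one₀ ht0.le ht1
  have h5 : ‖l.prod i j‖ * t ^ (j : ℕ) ≤ Real.exp (n * A) := by
    refine h2.trans ?_
    calc (1 + n * A * t) ^ l.length * t ^ (i : ℕ) ≤ Real.exp (n * A) * 1 :=
          mul_le_mul h3 h4 (by positivity) (Real.exp_pos _).le
      _ = Real.exp (n * A) := mul_one _
  have h6 : m ^ (j : ℕ) * t ^ (j : ℕ) = 1 := by
    rw [← mul_pow, ht, mul_one_div_cancel hm0.ne', one_pow]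
  calc ‖l.prod i j‖ = m ^ (j : ℕ) * (‖l.prod i j‖ * t ^ (j : ℕ)) := by
        rw [mul_comm ‖l.prod i j‖, ← mul_assoc, h6, one_mul]
    _ ≤ m ^ n * Real.exp (n * A) :=
        mul_le_mul (pow_le_pow_right₀ hm1 j.2.le) h5 (by positivity) (by positivity)
    _ = Real.exp (n * A) * m ^ n := mul_comm _ _

/-- **LA2 (b)**: growth. `S` is a (possibly infinite) set on which `ρ` and `w` are bounded. -/
theorem growth {V : Type v} [NormedAddCommGroup V] [NormedSpace ℂ V] [FiniteDimensional ℂ V]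
    {G : Type w} [Group G] (N : Subgroup G) [N.Normal]
    (hab : ∀ g h : G, g * h * g⁻¹ * h⁻¹ ∈ N) (ρ : Representation ℂ G V)
    (hρ : ∀ n ∈ N, ∃ d : ℕ, (ρ n - 1) ^ d = 0) (ω : G → ℝ) (hω : ∀ g h, ω (g * h) = ω g + ω h)
    (hspec : ∀ g, ∀ z ∈ (LinearMap.charpoly (ρ g)).roots, ‖z‖ ≤ Real.exp (ω g))
    (S : Set G) {A : ℝ} (hA : ∀ s ∈ S, |ω s| ≤ A) (hS : ∀ s ∈ S, ∀ v, ‖ρ s v‖ ≤ A * ‖v‖) :
    ∃ (C : ℝ) (D : ℕ), 0 ≤ C ∧ ∀ l : List G, (∀ s ∈ l, s ∈ S) → ∀ v,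
      ‖ρ l.prod v‖ ≤ C * (1 + l.length : ℝ) ^ D * Real.exp (ω l.prod) * ‖v‖ := by
  classical
  obtain ⟨n, b, χ, htri, hdiag, hchar⟩ : ∃ (n : ℕ) (b : Basis (Fin n) ℂ V)
      (χ : Fin n → G →* ℂˣ), (∀ g : G, (LinearMap.toMatrix b b (ρ g)).IsUpperTriangular) ∧
      (∀ (g : G) i, LinearMap.toMatrix b b (ρ g) i i = χ i g) ∧
      (∀ g : G, LinearMap.charpoly (ρ g) =
          ∏ i, (Polynomial.X - Polynomial.C ((χ i g : ℂˣ) : ℂ))) := by
    obtain ⟨b, χ, -, htri, hdiag, hchar, -⟩ := exists_triangular N hab ρ hρ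
    exact ⟨_, b, χ, htri, hdiag, hchar⟩
  -- the norm of `χ`
  have hχ : ∀ g i, ‖(χ i g : ℂ)‖ ≤ Real.exp (ω g) := by
    intro g i
    refine hspec g _ ?_
    rw [hchar g, Polynomial.roots_prod _ _
      (Finset.prod_ne_zero_iff.2 fun i _ => Polynomial.X_sub_C_ne_zero _)]
    rw [Multiset.mem_bind]
    exact ⟨i, Finset.mem_univ i, by rw [Polynomial.roots_X_sub_C]; exact Multiset.mem_singleton_self _⟩
  -- constants
  have hcoord : ∃ c : ℝ, 0 ≤ c ∧ ∀ i v, ‖b.repr v i‖ ≤ c * ‖v‖ := by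
    let φ : V →L[ℂ] (Fin n → ℂ) := LinearMap.toContinuousLinearMap b.equivFun.toLinearMap
    refine ⟨‖φ‖, norm_nonneg _, fun i v => ?_⟩
    have h1 : ‖φ v i‖ ≤ ‖φ v‖ := norm_le_pi_norm _ i
    exact h1.trans (φ.le_opNorm v)
  obtain ⟨c, hc0, hc⟩ := hcoord
  set B : ℝ := ∑ i, ‖b i‖ with hB
  have hB0 : 0 ≤ B := Finset.sum_nonneg fun i _ => norm_nonneg _
  have hBi : ∀ i, ‖b i‖ ≤ B := fun i =>
    Finset.single_le_sum (f := fun i => ‖b i‖) (fun _ _ => norm_nonneg _) (Finset.mem_univ i)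
  -- scaled matrices
  have hw1 : ω 1 = 0 := by
    have := hω 1 1
    rw [mul_one] at this
    linarith
  let M : G →* Matrix (Fin n) (Fin n) ℂ :=
    { toFun := fun g => (Real.exp (-ω g) : ℂ) • LinearMap.toMatrix b b (ρ g)
      map_one' := by
        rw [hw1, neg_zero, Real.exp_zero, map_one, LinearMap.toMatrix_one]
        simp
      map_mul' := fun g h => by
        rw [hω, neg_add, Real.exp_add, map_mul, LinearMap.toMatrix_mul, Matrix.smul_mul,
          Matrix.mul_smul, smul_smul]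
        push_cast
        rfl }
  have hM : ∀ g i j, ‖M g i j‖ = Real.exp (-ω g) * ‖LinearMap.toMatrix b b (ρ g) i j‖ := by
    intro g i j
    show ‖((Real.exp (-ω g) : ℂ) • LinearMap.toMatrix b b (ρ g)) i j‖ = _
    rw [Matrix.smul_apply, smul_eq_mul, norm_mul, Complex.norm_real, Real.norm_eq_abs,
      abs_of_pos (Real.exp_pos _)]
  set A' : ℝ := Real.exp A * (c * (|A| * B)) with hA'
  have hA'0 : 0 ≤ A' := by positivity
  have hentry : ∀ g ∈ S, (M g).IsUpperTriangular ∧ (∀ i, ‖M g i i‖ ≤ 1) ∧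
      ∀ i j, ‖M g i j‖ ≤ A' := by
    intro g hg
    refine ⟨?_, ?_, ?_⟩
    · intro i j hij
      show ((Real.exp (-ω g) : ℂ) • LinearMap.toMatrix b b (ρ g)) i j = 0
      rw [Matrix.smul_apply, htri g hij, smul_zero]
    · intro i
      rw [hM, hdiag]
      calc Real.exp (-ω g) * ‖(χ i g : ℂ)‖ ≤ Real.exp (-ω g) * Real.exp (ω g) :=
            mul_le_mul_of_nonneg_left (hχ g i) (Real.exp_pos _).le
        _ = 1 := by rw [← Real.exp_add]; simp
    · intro i j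
      rw [hM, LinearMap.toMatrix_apply]
      refine mul_le_mul (Real.exp_le_exp.2 ((neg_le_abs _).trans (hA g hg))) ?_
        (norm_nonneg _) (Real.exp_pos _).le
      refine (hc i _).trans (mul_le_mul_of_nonneg_left ?_ hc0)
      refine (hS g hg _).trans ?_
      exact mul_le_mul (le_abs_self A) (hBi j) (norm_nonneg _) (abs_nonneg _)
  refine ⟨n * (n * (c * (Real.exp (n * A') * B))), n, by positivity, fun l hl v => ?_⟩
  have h1 : M l.prod = (l.map M).prod := map_list_prod M l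
  have h2 : ∀ i j, ‖LinearMap.toMatrix b b (ρ l.prod) i j‖ ≤
      Real.exp (ω l.prod) * (Real.exp (n * A') * (1 + l.length : ℝ) ^ n) := by
    intro i j
    have h3 := tri_prod_bound hA'0 (l.map M) (by
      intro M' hM'
      rw [List.mem_map] at hM'
      obtain ⟨g, hg, rfl⟩ := hM'
      exact hentry g (hl g hg)) i j
    rw [← h1, hM, List.length_map] at h3
    have h4 : ‖LinearMap.toMatrix b b (ρ l.prod) i j‖ = Real.exp (ω l.prod) *
        (Real.exp (-ω l.prod) * ‖LinearMap.toMatrix b b (ρ l.prod) i j‖) := by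
      rw [← mul_assoc, ← Real.exp_add]; simp
    rw [h4]
    exact mul_le_mul_of_nonneg_left h3 (Real.exp_pos _).le
  set Q : ℝ := Real.exp (ω l.prod) * (Real.exp (n * A') * (1 + l.length : ℝ) ^ n) with hQ
  have hQ0 : 0 ≤ Q := by positivity
  have h3 : ρ l.prod v = ∑ i, (∑ j, LinearMap.toMatrix b b (ρ l.prod) i j * b.repr v j) • b i := by
    conv_lhs => rw [← b.sum_repr (ρ l.prod v)]
    refine Finset.sum_congr rfl fun i _ => ?_
    congr 1
    have := LinearMap.toMatrix_mulVec_repr b b (ρ l.prod) v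
    rw [← this]; rfl
  rw [h3]
  calc ‖∑ i, (∑ j, LinearMap.toMatrix b b (ρ l.prod) i j * b.repr v j) • b i‖
      ≤ ∑ i, ‖(∑ j, LinearMap.toMatrix b b (ρ l.prod) i j * b.repr v j) • b i‖ :=
        norm_sum_le _ _
    _ ≤ ∑ _i : Fin n, (n * (Q * (c * ‖v‖))) * B := by
        refine Finset.sum_le_sum fun i _ => ?_
        rw [norm_smul]
        refine mul_le_mul ?_ (hBi i) (norm_nonneg _) (by positivity)
        calc ‖∑ j, LinearMap.toMatrix b b (ρ l.prod) i j * b.repr v j‖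
            ≤ ∑ j, ‖LinearMap.toMatrix b b (ρ l.prod) i j * b.repr v j‖ := norm_sum_le _ _
          _ ≤ ∑ _j : Fin n, Q * (c * ‖v‖) := by
              refine Finset.sum_le_sum fun j _ => ?_
              rw [norm_mul]
              exact mul_le_mul (h2 i j) (hc j v) (norm_nonneg _) hQ0
          _ = n * (Q * (c * ‖v‖)) := by
              rw [Finset.sum_const, Finset.card_univ, Fintype.card_fin, nsmul_eq_mul]
    _ = n * (n * (c * (Real.exp (n * A') * B))) * (1 + l.length : ℝ) ^ n *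
          Real.exp (ω l.prod) * ‖v‖ := by
        rw [Finset.sum_const, Finset.card_univ, Fintype.card_fin, nsmul_eq_mul, hQ]
        ring

end growth

end Crest.Agent.R182.LinUni
end

-- ▼ part R182/ModelWtLin
section

set_option autoImplicit false

namespace Crest.Agent.R182.ModelWt

open Module LinMod

section generic

/-- A finite family of nonzero linear forms on `ℝ^k` is simultaneously nonzero at an integer
vector. -/
theorem exists_generic_vec {k : ℕ} (F : Finset ((Fin k → ℝ) →ₗ[ℝ] ℝ)) (hF : ∀ f ∈ F, f ≠ 0) :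
    ∃ v : Fin k → ℤ, ∀ f ∈ F, f (fun j => ((v j : ℤ) : ℝ)) ≠ 0 := by
  classical
  induction F using Finset.induction_on with
  | empty => exact ⟨0, by simp⟩
  | insert f F hf ih =>
    obtain ⟨v, hv⟩ := ih fun g hg => hF g (Finset.mem_insert_of_mem hg)
    have hf0 : f ≠ 0 := hF f (Finset.mem_insert_self _ _)
    obtain ⟨j, hj⟩ : ∃ j, f (Pi.single j 1) ≠ 0 := by
      by_contra hcon
      push Not at hcon
      apply hf0
      apply LinearMap.pi_ext'
      intro j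
      ext
      simpa using hcon j
    -- `v + m e_j`
    have key : ∀ g ∈ insert f F, {m : ℕ | g (fun i => ((v i : ℤ) : ℝ)) +
        m * g (Pi.single j 1) = 0}.Subsingleton := by
      intro g hg m hm m' hm'
      simp only [Set.mem_ofPred_eq] at hm hm'
      by_cases h0 : g (Pi.single j 1) = 0
      · rcases Finset.mem_insert.1 hg with rfl | hg'
        · exact absurd h0 hj
        · rw [h0, mul_zero, add_zero] at hm
          exact absurd hm (hv g hg')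
      · have h1 : ((m : ℝ) - m') * g (Pi.single j 1) = 0 := by linarith
        have h2 := (mul_eq_zero.1 h1).resolve_right h0
        have h3 : (m : ℝ) = m' := by linarith
        exact_mod_cast h3
    have hfin : (⋃ g ∈ insert f F, {m : ℕ | g (fun i => ((v i : ℤ) : ℝ)) +
        m * g (Pi.single j 1) = 0}).Finite :=
      Set.Finite.biUnion (Finset.finite_toSet _) fun g hg => (key g hg).finite
    obtain ⟨m, hm⟩ := hfin.exists_notMem
    refine ⟨fun i => v i + (m : ℤ) * (Pi.single j 1 : Fin k → ℤ) i, ?_⟩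
    intro g hg hzero
    apply hm
    rw [Set.mem_iUnion₂]
    refine ⟨g, hg, ?_⟩
    rw [Set.mem_ofPred_eq, ← smul_eq_mul, ← map_smul, ← map_add, ← hzero]
    congr 1
    ext i
    simp only [Pi.add_apply, Pi.smul_apply, smul_eq_mul]
    by_cases h : i = j
    · subst h; simp
    · simp [Pi.single_eq_of_ne h]

end generic

/-- the height as a real vector -/
def hv {G : Type*} [Group G] {k : ℕ} (π : G →* Multiplicative (Fin k → ℤ)) (g : G) : Fin k → ℝ :=
  fun j => ((Multiplicative.toAdd (π g) j : ℤ) : ℝ)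

section hv

variable {G : Type*} [Group G] {k : ℕ} (π : G →* Multiplicative (Fin k → ℤ))

theorem hv_one : hv π 1 = 0 := by
  funext j; simp [hv]

theorem hv_mul (g h : G) : hv π (g * h) = hv π g + hv π h := by
  funext j; simp [hv]

theorem hv_inv (g : G) : hv π g⁻¹ = - hv π g := by
  funext j; simp [hv]

theorem hv_pow (g : G) (n : ℕ) : hv π (g ^ n) = (n : ℝ) • hv π g := by
  funext j; simp [hv]


theorem hv_conj (g h : G) : hv π (g * h * g⁻¹) = hv π h := by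
  rw [hv_mul, hv_mul, hv_inv]; abel

end hv

section rep

variable {V : Type*} [NormedAddCommGroup V] [NormedSpace ℝ V] [FiniteDimensional ℝ V]
  {G : Type*} [Group G]

/-- complexified representation -/
noncomputable def cRep (ρ : G →* (V ≃ₗ[ℝ] V)) : Representation ℂ G (Fin (finrank ℝ V) → ℂ) where
  toFun g := Matrix.toLin' (cMat (ρ g : V →ₗ[ℝ] V))
  map_one' := by
    rw [map_one]
    change Matrix.toLin' (cMat (LinearMap.id : V →ₗ[ℝ] V)) = 1
    rw [cMat_id, Matrix.toLin'_one]; rfl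
  map_mul' g h := by
    rw [map_mul]
    change Matrix.toLin' (cMat ((ρ g : V →ₗ[ℝ] V) ∘ₗ (ρ h : V →ₗ[ℝ] V))) = _
    rw [cMat_mul, Matrix.toLin'_mul]; rfl

theorem cRep_apply (ρ : G →* (V ≃ₗ[ℝ] V)) (g : G) (w : Fin (finrank ℝ V) → ℂ) :
    cRep ρ g w = cplx (ρ g) w := rfl

theorem cRep_coordC (ρ : G →* (V ≃ₗ[ℝ] V)) (g : G) (v : V) :
    cRep ρ g (coordC V v) = coordC V (ρ g v) := cplx_coordC (ρ g) v

theorem reC_cRep (ρ : G →* (V ≃ₗ[ℝ] V)) (g : G) (w : Fin (finrank ℝ V) → ℂ) :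
    reC V (cRep ρ g w) = ρ g (reC V w) := (reC_cplx (ρ g) w).symm

theorem cplx_mul (S T : V ≃ₗ[ℝ] V) : cplx (S * T) = cplx S * cplx T := by
  apply LinearEquiv.toLinearMap_injective
  change Matrix.toLin' (cMat ((S : V →ₗ[ℝ] V) ∘ₗ (T : V →ₗ[ℝ] V))) = _
  rw [cMat_mul, Matrix.toLin'_mul]; rfl

theorem cplx_one : cplx (1 : V ≃ₗ[ℝ] V) = 1 := by
  apply LinearEquiv.toLinearMap_injective
  change Matrix.toLin' (cMat (LinearMap.id : V →ₗ[ℝ] V)) = _
  rw [cMat_id, Matrix.toLin'_one]; rfl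

/-- `cplx` as a homomorphism -/
noncomputable def cplxHom : (V ≃ₗ[ℝ] V) →*
    ((Fin (finrank ℝ V) → ℂ) ≃ₗ[ℂ] (Fin (finrank ℝ V) → ℂ)) where
  toFun := cplx
  map_one' := cplx_one
  map_mul' := cplx_mul

theorem cplx_zpow (S : V ≃ₗ[ℝ] V) (j : ℤ) : cplx (S ^ j) = (cplx S) ^ j :=
  map_zpow cplxHom S j

theorem cMat_sub_one (T : V →ₗ[ℝ] V) : cMat (T - 1) = cMat T - 1 := by
  have h1 : cMat (1 : V →ₗ[ℝ] V) = 1 := cMat_id
  unfold cMat at *
  rw [map_sub, Matrix.map_sub _ (fun a b => map_sub _ a b), h1]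

theorem cMat_pow (T : V →ₗ[ℝ] V) (d : ℕ) : cMat (T ^ d) = cMat T ^ d := by
  induction d with
  | zero => simp only [pow_zero]; exact cMat_id
  | succ d ih =>
    rw [pow_succ, pow_succ, ← ih, ← cMat_mul]; rfl

theorem cRep_unip (ρ : G →* (V ≃ₗ[ℝ] V)) {g : G} {d : ℕ}
    (h : ((ρ g : V →ₗ[ℝ] V) - 1) ^ d = 0) : (cRep ρ g - 1) ^ d = 0 := by
  have h1 : cRep ρ g - 1 = Matrix.toLin' (cMat ((ρ g : V →ₗ[ℝ] V) - 1)) := by
    rw [cMat_sub_one, map_sub, Matrix.toLin'_one]; rfl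
  rw [h1]
  have h2 : (Matrix.toLin' (cMat ((ρ g : V →ₗ[ℝ] V) - 1))) ^ d =
      Matrix.toLin' ((cMat ((ρ g : V →ₗ[ℝ] V) - 1)) ^ d) := by
    induction d with
    | zero => simp only [pow_zero, Matrix.toLin'_one]; rfl
    | succ d _ =>
      exact (map_pow Matrix.toLinAlgEquiv' (cMat ((ρ g : V →ₗ[ℝ] V) - 1)) (d + 1)).symm
  rw [h2, ← cMat_pow, h]
  have h3 : cMat (0 : V →ₗ[ℝ] V) = 0 := by
    unfold cMat; simp
  rw [h3, map_zero]

/-- Weight data of a linear representation. -/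
structure WtData (ρ : G →* (V ≃ₗ[ℝ] V)) {k : ℕ} (π : G →* Multiplicative (Fin k → ℤ)) where
  n : ℕ
  b : Basis (Fin n) ℂ (Fin (finrank ℝ V) → ℂ)
  χ : Fin n → G →* ℂˣ
  M : Fin n → ((Fin k → ℝ) →ₗ[ℝ] ℝ)
  flag : ∀ (i : Fin n) (g : G), ∀ v ∈ b.flag i.succ,
    cRep ρ g v - (χ i g : ℂ) • v ∈ b.flag i.castSucc
  tri : ∀ g : G, (LinearMap.toMatrix b b (cRep ρ g)).IsUpperTriangular
  diag : ∀ (g : G) i, LinearMap.toMatrix b b (cRep ρ g) i i = χ i g
  charpoly : ∀ g : G, LinearMap.charpoly (cRep ρ g) =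
    ∏ i, (Polynomial.X - Polynomial.C ((χ i g : ℂˣ) : ℂ))
  χ_ker : ∀ g, π g = 1 → ∀ i, χ i g = 1
  log_χ : ∀ i g, Real.log ‖((χ i g : ℂˣ) : ℂ)‖ = M i (hv π g)

theorem exists_wtData (ρ : G →* (V ≃ₗ[ℝ] V)) {k : ℕ} (π : G →* Multiplicative (Fin k → ℤ))
    (hπ : Function.Surjective π)
    (hunip : ∀ g, π g = 1 → ∃ d : ℕ, ((ρ g : V →ₗ[ℝ] V) - 1) ^ d = 0) :
    Nonempty (WtData ρ π) := by
  obtain ⟨n, b, χ, h1, h2, h3, h4, h5⟩ : ∃ (n : ℕ) (b : Basis (Fin n) ℂ (Fin (finrank ℝ V) → ℂ))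
      (χ : Fin n → G →* ℂˣ),
      (∀ (i : Fin n) (g : G), ∀ v ∈ b.flag i.succ,
          cRep ρ g v - (χ i g : ℂ) • v ∈ b.flag i.castSucc) ∧
      (∀ g : G, (LinearMap.toMatrix b b (cRep ρ g)).IsUpperTriangular) ∧
      (∀ (g : G) i, LinearMap.toMatrix b b (cRep ρ g) i i = χ i g) ∧
      (∀ g : G, LinearMap.charpoly (cRep ρ g) =
          ∏ i, (Polynomial.X - Polynomial.C ((χ i g : ℂˣ) : ℂ))) ∧
      (∀ n ∈ π.ker, ∀ i, χ i n = 1) := by
    obtain ⟨b, χ, h⟩ := LinUni.exists_triangular π.ker (by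
      intro g h
      rw [MonoidHom.mem_ker, map_mul, map_mul, map_mul, map_inv, map_inv, mul_comm (π g) (π h)]
      group) (cRep ρ) (by
      intro g hg
      obtain ⟨d, hd⟩ := hunip g hg
      exact ⟨d, cRep_unip ρ hd⟩)
    exact ⟨_, b, χ, h⟩
  choose M hM using fun i => Polyc.exists_log_linear π hπ (χ i) (fun g hg => by
    rw [h5 g hg i]; simp)
  exact ⟨⟨n, b, χ, M, h1, h2, h3, h4, fun g hg => h5 g hg, hM⟩⟩

/-! ### weights -/

variable {ρ : G →* (V ≃ₗ[ℝ] V)} {k : ℕ} {π : G →* Multiplicative (Fin k → ℤ)}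

theorem WtData.isRoot_iff (W : WtData ρ π) (g : G) (z : ℂ) :
    ((LinearMap.charpoly (ρ g : V →ₗ[ℝ] V)).map (algebraMap ℝ ℂ)).IsRoot z ↔
      ∃ i, z = W.χ i g := by
  rw [charpoly_map_eq]
  change (LinearMap.charpoly (cRep ρ g)).IsRoot z ↔ _
  rw [W.charpoly, Polynomial.IsRoot.def, Polynomial.eval_prod, Finset.prod_eq_zero_iff]
  constructor
  · rintro ⟨i, -, hi⟩
    refine ⟨i, ?_⟩
    rw [Polynomial.eval_sub, Polynomial.eval_X, Polynomial.eval_C, sub_eq_zero] at hi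
    exact hi
  · rintro ⟨i, rfl⟩
    exact ⟨i, Finset.mem_univ i, by simp⟩

/-- the rates of `ρ g` are the values of the weights -/
theorem WtData.mem_rates (W : WtData ρ π) (g : G) (s : ℝ) :
    s ∈ rates (ρ g) ↔ ∃ i, W.M i (hv π g) = s := by
  constructor
  · intro hs
    obtain ⟨z, hz, -, hz2⟩ := exists_root_of_mem_rates hs
    obtain ⟨i, hi⟩ := (W.isRoot_iff g z).1 hz
    exact ⟨i, by rw [← W.log_χ, ← hi, hz2]⟩
  · rintro ⟨i, rfl⟩
    rw [← W.log_χ]
    exact mem_rates_of_isRoot ((W.isRoot_iff g _).2 ⟨i, rfl⟩)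

/-- `v` separates the weights, `0` and the sums of two weights. -/
def WtData.Generic (W : WtData ρ π) (v : Fin k → ℝ) : Prop :=
  (∀ i j, W.M i v = W.M j v → W.M i = W.M j) ∧ (∀ i, W.M i v = 0 → W.M i = 0) ∧
    (∀ i j l, W.M i v + W.M j v = W.M l v → W.M i + W.M j = W.M l)

theorem WtData.exists_generic (W : WtData ρ π) :
    ∃ v : Fin k → ℤ, W.Generic (fun j => ((v j : ℤ) : ℝ)) := by
  classical
  let F : Finset ((Fin k → ℝ) →ₗ[ℝ] ℝ) :=
    ((Finset.univ.image fun p : Fin W.n × Fin W.n => W.M p.1 - W.M p.2) ∪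
      (Finset.univ.image W.M ∪ Finset.univ.image fun p : Fin W.n × Fin W.n × Fin W.n =>
        W.M p.1 + W.M p.2.1 - W.M p.2.2)).filter (fun f => f ≠ 0)
  obtain ⟨v, hv⟩ := exists_generic_vec F (fun f hf => (Finset.mem_filter.1 hf).2)
  refine ⟨v, fun i j hij => ?_, fun i hi => ?_, fun i j l hl => ?_⟩
  · by_contra hne
    refine hv (W.M i - W.M j) ?_ ?_
    · refine Finset.mem_filter.2 ⟨Finset.mem_union_left _ (Finset.mem_image.2
        ⟨(i, j), Finset.mem_univ _, rfl⟩), sub_ne_zero.2 hne⟩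
    · rw [LinearMap.sub_apply, hij, sub_self]
  · by_contra hne
    refine hv (W.M i) ?_ hi
    exact Finset.mem_filter.2 ⟨Finset.mem_union_right _ (Finset.mem_union_left _
      (Finset.mem_image.2 ⟨i, Finset.mem_univ _, rfl⟩)), hne⟩
  · by_contra hne
    refine hv (W.M i + W.M j - W.M l) ?_ ?_
    · exact Finset.mem_filter.2 ⟨Finset.mem_union_right _ (Finset.mem_union_right _
        (Finset.mem_image.2 ⟨(i, j, l), Finset.mem_univ _, rfl⟩)), sub_ne_zero.2 hne⟩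
    · rw [LinearMap.sub_apply, LinearMap.add_apply, hl, sub_self]

/-- the finite set of weights -/
noncomputable def WtData.wts (W : WtData ρ π) : Finset ((Fin k → ℝ) →ₗ[ℝ] ℝ) := by
  classical
  exact Finset.univ.image W.M

theorem WtData.mem_wts (W : WtData ρ π) {μ : (Fin k → ℝ) →ₗ[ℝ] ℝ} :
    μ ∈ W.wts ↔ ∃ i, W.M i = μ := by
  classical
  simp [WtData.wts]

/-- complexification of an invariant subspace -/
theorem mem_growSpace_cplx_iff {T : V ≃ₗ[ℝ] V} {s : ℝ} {w : Fin (finrank ℝ V) → ℂ} :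
    w ∈ growSpace (cplx T) s ↔ reC V w ∈ growSpace T s ∧
      reC V ((-Complex.I) • w) ∈ growSpace T s := by
  constructor
  · intro hw
    exact ⟨reC_mem_growSpace hw, reC_mem_growSpace (Submodule.smul_mem _ _ hw)⟩
  · rintro ⟨h1, h2⟩
    have h3 : w = coordC V (reC V w) + Complex.I • coordC V (reC V ((-Complex.I) • w)) := by
      funext i
      rw [Pi.add_apply, Pi.smul_apply, coordC_apply, coordC_apply, equivFun_reC, equivFun_reC]
      apply Complex.ext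
      · simp
      · simp
    rw [h3]
    exact add_mem (coordC_mem_growSpace h1)
      (Submodule.smul_mem _ _ (coordC_mem_growSpace h2))

theorem reim_eq (w : Fin (finrank ℝ V) → ℂ) :
    w = coordC V (reC V w) + Complex.I • coordC V (reC V ((-Complex.I) • w)) := by
  funext i
  rw [Pi.add_apply, Pi.smul_apply, coordC_apply, coordC_apply, equivFun_reC, equivFun_reC]
  apply Complex.ext
  · simp
  · simp

theorem cRep_mem_growSpace {t g : G} {s : ℝ}
    (hg : ∀ v ∈ growSpace (ρ t) s, ρ g v ∈ growSpace (ρ t) s)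
    {w : Fin (finrank ℝ V) → ℂ} (hw : w ∈ growSpace (cplx (ρ t)) s) :
    cRep ρ g w ∈ growSpace (cplx (ρ t)) s := by
  rw [mem_growSpace_cplx_iff] at hw ⊢
  refine ⟨?_, ?_⟩
  · rw [reC_cRep]; exact hg _ hw.1
  · rw [← map_smul, reC_cRep]; exact hg _ hw.2

/-- a nonzero vector enters the flag at some step -/
theorem WtData.exists_step (W : WtData ρ π) {w : Fin (finrank ℝ V) → ℂ} (hw0 : w ≠ 0) :
    ∃ i : Fin W.n, w ∈ W.b.flag i.succ ∧ w ∉ W.b.flag i.castSucc := by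
  classical
  have hex : ∃ m : ℕ, ∃ hm : m < W.n + 1, w ∈ W.b.flag ⟨m, hm⟩ := by
    refine ⟨W.n, by omega, ?_⟩
    have : W.b.flag (⟨W.n, by omega⟩ : Fin (W.n + 1)) = ⊤ := W.b.flag_last
    rw [this]; trivial
  obtain ⟨hm, hmem⟩ := Nat.find_spec hex
  set m := Nat.find hex with hmdef
  have hm0 : m ≠ 0 := by
    intro h0
    have h1 : W.b.flag (⟨m, hm⟩ : Fin (W.n + 1)) = ⊥ := by
      have h2 : (⟨m, hm⟩ : Fin (W.n + 1)) = 0 := Fin.ext (by simp [h0])
      rw [h2, W.b.flag_zero]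
    rw [h1, Submodule.mem_bot] at hmem
    exact hw0 hmem
  obtain ⟨m', hm'⟩ := Nat.exists_eq_succ_of_ne_zero hm0
  refine ⟨⟨m', by omega⟩, ?_, ?_⟩
  · have : (⟨m', by omega⟩ : Fin W.n).succ = ⟨m, hm⟩ := Fin.ext (by simp [hm'])
    rw [this]; exact hmem
  · intro hcon
    exact Nat.find_min hex (m := m') (by omega) ⟨by omega, hcon⟩

/-- the action on a step of the flag -/
theorem WtData.exists_dual (W : WtData ρ π) {w : Fin (finrank ℝ V) → ℂ} {i : Fin W.n}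
    (hi1 : w ∈ W.b.flag i.succ) (hi2 : w ∉ W.b.flag i.castSucc) :
    ∃ f : Module.Dual ℂ (Fin (finrank ℝ V) → ℂ), f w ≠ 0 ∧
      ∀ x : G, f (cRep ρ x w) = W.χ i x * f w := by
  obtain ⟨f, hf1, hf2⟩ := Submodule.exists_le_ker_of_notMem hi2
  refine ⟨f, hf1, fun x => ?_⟩
  have h1 : f (cRep ρ x w - (W.χ i x : ℂ) • w) = 0 := hf2 (W.flag i x w hi1)
  rw [map_sub, map_smul, sub_eq_zero, smul_eq_mul] at h1
  exact h1

/-- Vectors of growth rate `s` live in the steps of the flag of rate `s`. -/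
theorem WtData.rate_of_step (W : WtData ρ π) {t : G} {s : ℝ} {w : Fin (finrank ℝ V) → ℂ}
    (hw : w ∈ growSpace (cplx (ρ t)) s) {i : Fin W.n}
    (hi1 : w ∈ W.b.flag i.succ) (hi2 : w ∉ W.b.flag i.castSucc) : W.M i (hv π t) = s := by
  obtain ⟨f, hf1, hact⟩ := W.exists_dual hi1 hi2
  rw [← W.log_χ]
  -- use the growth lemma on the one-dimensional space
  obtain ⟨B, hB0, hB⟩ : ∃ B : ℝ, 0 ≤ B ∧ ∀ x, ‖f x‖ ≤ B * ‖x‖ := by
    refine ⟨‖LinearMap.toContinuousLinearMap f‖, norm_nonneg _, fun x => ?_⟩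
    exact (LinearMap.toContinuousLinearMap f).le_opNorm x
  let S : ℂ ≃ₗ[ℂ] ℂ := LinearEquiv.smulOfNeZero ℂ ℂ (W.χ i t : ℂ) (Units.ne_zero _)
  have hS : ∀ x, S x = (W.χ i t : ℂ) * x := fun x => rfl
  have hgr : f w ∈ growSpace S s := by
    refine Grows.map (T := cplx (ρ t)) (T' := S) hw f B hB ?_
    intro j
    have h1 : ∀ j : ℤ, (S ^ j) (f w) = ((W.χ i t : ℂ)) ^ j * f w := by
      intro j
      induction j using Int.induction_on with
      | zero => simp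
      | succ j ih =>
        rw [add_comm, zpow_add, LinearEquiv.mul_apply, ih, zpow_one, hS, zpow_add₀ (Units.ne_zero _),
          zpow_one]
        ring
      | pred j ih =>
        have h2 : S ((S ^ (-(j : ℤ) - 1)) (f w)) = (W.χ i t : ℂ) ^ (-(j : ℤ)) * f w := by
          rw [← ih, ← LinearEquiv.mul_apply]
          congr 1
          rw [← zpow_one_add]
          congr 1
          ring
        rw [hS] at h2
        have h3 : (W.χ i t : ℂ) ≠ 0 := Units.ne_zero _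
        apply mul_left_cancel₀ h3
        rw [h2, zpow_sub_one₀ h3]
        field_simp
    rw [h1 j, ← cplx_zpow, ← map_zpow]
    have h2 := hact (t ^ j)
    rw [cRep_apply] at h2
    rw [h2, map_zpow, Units.val_zpow_eq_zpow_val]
  exact log_norm_of_eigen (Units.ne_zero _) hf1 hgr (by rw [hS]; rfl)

/-- Spectrum on a weight space: if `w ≠ 0` in the `s`-growth space of `t` is an eigenvector of `g`
with eigenvalue `z` then `z = χ i g` for some `i` with `M i (t) = s`. -/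
theorem WtData.exists_of_eigen (W : WtData ρ π) {t g : G} {s : ℝ} {w : Fin (finrank ℝ V) → ℂ}
    (hw0 : w ≠ 0) (hw : w ∈ growSpace (cplx (ρ t)) s) {z : ℂ} (hz : cRep ρ g w = z • w) :
    ∃ i, z = W.χ i g ∧ W.M i (hv π t) = s := by
  obtain ⟨i, hi1, hi2⟩ := W.exists_step hw0
  refine ⟨i, ?_, W.rate_of_step hw hi1 hi2⟩
  obtain ⟨f, hf1, hact⟩ := W.exists_dual hi1 hi2
  have h1 := hact g
  rw [hz, map_smul, smul_eq_mul] at h1
  exact mul_right_cancel₀ hf1 h1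

/-! ### multiplicities -/

theorem finrank_le_ker {K E : Type*} [Field K] [AddCommGroup E] [Module K E]
    [FiniteDimensional K E] (Q : Submodule K E) (f : Module.Dual K E) :
    finrank K Q ≤ finrank K (Q ⊓ LinearMap.ker f : Submodule K E) + 1 := by
  have h1 := LinearMap.finrank_range_add_finrank_ker (f.domRestrict Q)
  have h2 : finrank K (LinearMap.range (f.domRestrict Q)) ≤ 1 := by
    have := Submodule.finrank_le (LinearMap.range (f.domRestrict Q))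
    rwa [Module.finrank_self] at this
  have h3 : finrank K (LinearMap.ker (f.domRestrict Q)) =
      finrank K (Q ⊓ LinearMap.ker f : Submodule K E) := by
    have e : (Q ⊓ LinearMap.ker f : Submodule K E) =
        (LinearMap.ker (f.domRestrict Q)).map Q.subtype := by
      ext x
      simp only [Submodule.mem_inf, LinearMap.mem_ker, Submodule.mem_map, Submodule.subtype_apply,
        Subtype.exists, exists_and_right, exists_eq_right]
      constructor
      · rintro ⟨h, h'⟩; exact ⟨h, h'⟩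
      · rintro ⟨h, h'⟩; exact ⟨h, h'⟩
    rw [e, Submodule.finrank_map_subtype_eq]
  omega

theorem WtData.finrank_cplx_le (W : WtData ρ π) (t : G) (s : ℝ) :
    finrank ℂ (growSpace (cplx (ρ t)) s) ≤
      (Finset.univ.filter fun i => W.M i (hv π t) = s).card := by
  classical
  set P := growSpace (cplx (ρ t)) s with hP
  have key : ∀ m : ℕ, ∀ hm : m < W.n + 1,
      finrank ℂ (P ⊓ W.b.flag ⟨m, hm⟩ : Submodule ℂ (Fin (finrank ℝ V) → ℂ)) ≤
        (Finset.univ.filter fun i : Fin W.n => (i : ℕ) < m ∧ W.M i (hv π t) = s).card := by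
    intro m
    induction m with
    | zero =>
      intro hm
      have h2 : (⟨0, hm⟩ : Fin (W.n + 1)) = 0 := rfl
      rw [h2, W.b.flag_zero, inf_bot_eq, finrank_bot]
      exact Nat.zero_le _
    | succ m ih =>
      intro hm
      have hm' : m < W.n := by omega
      have ih' := ih (by omega)
      set i : Fin W.n := ⟨m, hm'⟩ with hi
      have e1 : (⟨m + 1, hm⟩ : Fin (W.n + 1)) = i.succ := rfl
      have e2 : (⟨m, by omega⟩ : Fin (W.n + 1)) = i.castSucc := rfl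
      rw [e1]
      rw [e2] at ih'
      by_cases hs : W.M i (hv π t) = s
      · have h1 := finrank_le_ker (P ⊓ W.b.flag i.succ) (W.b.coord i)
        have h2 : (P ⊓ W.b.flag i.succ ⊓ LinearMap.ker (W.b.coord i) :
            Submodule ℂ (Fin (finrank ℝ V) → ℂ)) ≤ P ⊓ W.b.flag i.castSucc := by
          rintro x ⟨⟨hx1, hx2⟩, hx3⟩
          refine ⟨hx1, ?_⟩
          have hx2' : x ∈ W.b.flag i.succ := hx2
          rw [Basis.flag_succ, Submodule.mem_sup] at hx2'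
          obtain ⟨y, hy, z, hz, rfl⟩ := hx2'
          obtain ⟨c, rfl⟩ := Submodule.mem_span_singleton.1 hy
          have h4 : W.b.coord i z = 0 := by
            have := W.b.flag_le_ker_coord (k := i.castSucc) (l := i) le_rfl hz
            exact this
          have h3 : W.b.coord i (c • W.b i + z) = 0 := hx3
          rw [map_add, h4, add_zero, map_smul, W.b.coord_apply, W.b.repr_self,
            Finsupp.single_eq_same, smul_eq_mul, mul_one] at h3
          rw [h3, zero_smul, zero_add]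
          exact hz
        have h3 := Submodule.finrank_mono h2
        have h5 : (Finset.univ.filter fun j : Fin W.n => (j : ℕ) < m ∧ W.M j (hv π t) = s).card + 1
            ≤ (Finset.univ.filter fun j : Fin W.n => (j : ℕ) < m + 1 ∧
              W.M j (hv π t) = s).card := by
          rw [← Finset.card_insert_of_notMem (a := i)]
          · apply Finset.card_le_card
            intro j hj
            rcases Finset.mem_insert.1 hj with rfl | hj
            · exact Finset.mem_filter.2 ⟨Finset.mem_univ _, by simp [hi], hs⟩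
            · obtain ⟨-, hj1, hj2⟩ := Finset.mem_filter.1 hj
              exact Finset.mem_filter.2 ⟨Finset.mem_univ _, by omega, hj2⟩
          · intro hj
            have := (Finset.mem_filter.1 hj).2.1
            simp [hi] at this
        omega
      · have h2 : (P ⊓ W.b.flag i.succ : Submodule ℂ (Fin (finrank ℝ V) → ℂ)) ≤
            P ⊓ W.b.flag i.castSucc := by
          rintro x ⟨hx1, hx2⟩
          refine ⟨hx1, ?_⟩
          by_contra hx3
          exact hs (W.rate_of_step hx1 hx2 hx3)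
        have h3 := Submodule.finrank_mono h2
        have h5 : (Finset.univ.filter fun j : Fin W.n => (j : ℕ) < m ∧ W.M j (hv π t) = s).card
            ≤ (Finset.univ.filter fun j : Fin W.n => (j : ℕ) < m + 1 ∧
              W.M j (hv π t) = s).card := by
          apply Finset.card_le_card
          intro j hj
          obtain ⟨-, hj1, hj2⟩ := Finset.mem_filter.1 hj
          exact Finset.mem_filter.2 ⟨Finset.mem_univ _, by omega, hj2⟩
        omega
  have h := key W.n (by omega)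
  have h1 : W.b.flag (⟨W.n, by omega⟩ : Fin (W.n + 1)) = ⊤ := W.b.flag_last
  rw [h1, inf_top_eq] at h
  refine h.trans (Finset.card_le_card ?_)
  intro j hj
  exact Finset.mem_filter.2 ⟨Finset.mem_univ _, (Finset.mem_filter.1 hj).2.2⟩

theorem reC_smul_coordC (z : ℂ) (v : V) : reC V (z • coordC V v) = z.re • v := by
  apply (finBasis ℝ V).equivFun.injective
  funext i
  rw [equivFun_reC, map_smul, Pi.smul_apply, Pi.smul_apply, coordC_apply]
  simp

theorem finrank_growSpace_le_cplx (T : V ≃ₗ[ℝ] V) (s : ℝ) :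
    finrank ℝ (growSpace T s) ≤ finrank ℂ (growSpace (cplx T) s) := by
  classical
  let b := finBasis ℝ (growSpace T s)
  let f : Fin (finrank ℝ (growSpace T s)) → growSpace (cplx T) s := fun j =>
    ⟨coordC V (b j : V), coordC_mem_growSpace (b j).2⟩
  have hf : LinearIndependent ℂ f := by
    have hb := b.linearIndependent
    rw [Fintype.linearIndependent_iff] at hb ⊢
    intro z hz
    have hz' : ∑ j, z j • coordC V (b j : V) = 0 := by
      have := congrArg (Submodule.subtype _) hz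
      simpa [f] using this
    have hre : ∀ y : Fin (finrank ℝ (growSpace T s)) → ℂ,
        ∑ j, y j • coordC V (b j : V) = 0 → ∀ j, (y j).re = 0 := by
      intro y hy
      apply hb (fun j => (y j).re)
      apply Subtype.ext
      have h1 := congrArg (reC V) hy
      rw [map_sum, map_zero] at h1
      simp only [reC_smul_coordC] at h1
      simpa using h1
    intro j
    apply Complex.ext
    · exact hre z hz' j
    · have h2 := hre (fun j => (-Complex.I) * z j) (by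
        simp only [mul_smul]
        rw [← Finset.smul_sum, hz', smul_zero]) j
      simpa using h2
  have := hf.fintype_card_le_finrank
  simpa using this

theorem sum_finrank_growSpace (T : V ≃ₗ[ℝ] V) :
    ∑ s ∈ rates T, finrank ℝ (growSpace T s) = finrank ℝ V := by
  classical
  let e : (DirectSum (rates T) fun s => growSpace T (s : ℝ)) ≃ₗ[ℝ] V :=
    LinearEquiv.ofBijective (DirectSum.coeLinearMap fun s : rates T => growSpace T (s : ℝ))
      (isInternal_growSpace T)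
  rw [← e.finrank_eq, Module.finrank_directSum, ← Finset.sum_coe_sort]

/-- **Multiplicities.** -/
theorem WtData.finrank_growSpace (W : WtData ρ π) (t : G) (s : ℝ) :
    finrank ℝ (growSpace (ρ t) s) = (Finset.univ.filter fun i => W.M i (hv π t) = s).card := by
  classical
  have hle : ∀ s, finrank ℝ (growSpace (ρ t) s) ≤
      (Finset.univ.filter fun i => W.M i (hv π t) = s).card := fun s =>
    (finrank_growSpace_le_cplx (ρ t) s).trans (W.finrank_cplx_le t s)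
  have hn : W.n = finrank ℝ V := by
    have h1 := Module.finrank_eq_card_basis W.b
    simpa using h1.symm
  have hsum : ∑ s ∈ rates (ρ t), (Finset.univ.filter fun i => W.M i (hv π t) = s).card = W.n := by
    have h1 := Finset.card_eq_sum_card_fiberwise (s := (Finset.univ : Finset (Fin W.n)))
      (f := fun i => W.M i (hv π t)) (t := rates (ρ t)) (fun i _ => by
        simp only [Finset.mem_coe]
        exact (W.mem_rates t _).2 ⟨i, rfl⟩)
    rw [Finset.card_univ, Fintype.card_fin] at h1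
    exact h1.symm
  by_cases hs : s ∈ rates (ρ t)
  · have h1 := sum_finrank_growSpace (ρ t)
    rw [← hn, ← hsum] at h1
    exact (Finset.sum_eq_sum_iff_of_le fun s _ => hle s).1 h1 s hs
  · rw [growSpace_eq_bot hs, finrank_bot]
    symm
    rw [Finset.card_eq_zero, Finset.filter_eq_empty_iff]
    intro i _ hi
    exact hs ((W.mem_rates t s).2 ⟨i, hi⟩)

/-- the sum of the weights is the logarithm of the determinant -/
theorem WtData.sum_M (W : WtData ρ π) (g : G) :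
    ∑ i, W.M i (hv π g) = Real.log |LinearMap.det (ρ g : V →ₗ[ℝ] V)| := by
  have h1 : LinearMap.det (cRep ρ g) = ∏ i, (W.χ i g : ℂ) := by
    rw [← LinearMap.det_toMatrix W.b, Matrix.det_of_isUpperTriangular (W.tri g)]
    exact Finset.prod_congr rfl fun i _ => W.diag g i
  have h2 : LinearMap.det (cRep ρ g) = ((LinearMap.det (ρ g : V →ₗ[ℝ] V) : ℝ) : ℂ) := by
    change LinearMap.det (Matrix.toLin' (cMat (ρ g : V →ₗ[ℝ] V))) = _
    rw [LinearMap.det_toLin', ← LinearMap.det_toMatrix (finBasis ℝ V)]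
    exact (RingHom.map_det (algebraMap ℝ ℂ)
      (LinearMap.toMatrix (finBasis ℝ V) (finBasis ℝ V) (ρ g : V →ₗ[ℝ] V))).symm
  have h3 : |LinearMap.det (ρ g : V →ₗ[ℝ] V)| = ∏ i, ‖(W.χ i g : ℂ)‖ := by
    rw [← norm_prod, ← h1, h2, Complex.norm_real, Real.norm_eq_abs]
  rw [h3, Real.log_prod]
  · exact Finset.sum_congr rfl fun i _ => (W.log_χ i g).symm
  · intro i _
    exact norm_ne_zero_iff.2 (Units.ne_zero _)

/-- Sum of the weights with multiplicities. -/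
theorem WtData.sum_wts (W : WtData ρ π) {t : G} (ht : W.Generic (hv π t)) :
    ∑ μ ∈ W.wts, (finrank ℝ (growSpace (ρ t) (μ (hv π t)))) • μ = ∑ i, W.M i := by
  classical
  rw [← Finset.sum_fiberwise_of_maps_to (s := Finset.univ) (t := W.wts) (g := W.M)
    (fun i _ => W.mem_wts.2 ⟨i, rfl⟩)]
  refine Finset.sum_congr rfl fun μ hμ => ?_
  obtain ⟨j, rfl⟩ := W.mem_wts.1 hμ
  rw [W.finrank_growSpace, Finset.sum_congr rfl (g := fun _ => W.M j)
    (fun i hi => (Finset.mem_filter.1 hi).2), Finset.sum_const]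
  congr 2
  ext i
  simp only [Finset.mem_filter, Finset.mem_univ, true_and]
  exact ⟨fun h => ht.1 i j h, fun h => by rw [h]⟩

variable (V) in
theorem exists_cplx_bound : ∃ B : ℝ, 0 ≤ B ∧ ∀ (T : V ≃ₗ[ℝ] V) (a : ℝ), (∀ v, ‖T v‖ ≤ a * ‖v‖) →
    ∀ w, ‖cplx T w‖ ≤ B * |a| * ‖w‖ := by
  obtain ⟨B₁, h1, hB₁⟩ := exists_bound_of_real_linear (coordC V)
  obtain ⟨B₂, h2, hB₂⟩ := exists_bound_of_real_linear (reC V)
  refine ⟨2 * (B₁ * B₂), by positivity, fun T a ha w => ?_⟩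
  have key : ∀ u : Fin (finrank ℝ V) → ℂ, ‖u‖ = ‖w‖ →
      ‖coordC V (T (reC V u))‖ ≤ B₁ * (|a| * (B₂ * ‖w‖)) := by
    intro u hu
    refine (hB₁ _).trans (mul_le_mul_of_nonneg_left ?_ h1)
    refine (ha _).trans ((mul_le_mul_of_nonneg_right (le_abs_self a) (norm_nonneg _)).trans ?_)
    refine mul_le_mul_of_nonneg_left ?_ (abs_nonneg a)
    rw [← hu]; exact hB₂ u
  have e : cplx T w = coordC V (T (reC V w)) +
      Complex.I • coordC V (T (reC V ((-Complex.I) • w))) := by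
    have h3 := reim_eq (cplx T w)
    rw [← (cplx T).map_smul (-Complex.I) w, ← reC_cplx, ← reC_cplx] at h3
    exact h3
  have k1 := key w rfl
  have k2 := key ((-Complex.I) • w) (by rw [norm_smul]; simp)
  rw [e]
  refine (norm_add_le _ _).trans ?_
  rw [norm_smul, Complex.norm_I, one_mul]
  nlinarith

/-- Uniform growth of products of elements of a bounded subset of a group preserving a growth
space. -/
theorem WtData.growth (W : WtData ρ π) {t : G} {s : ℝ} {μ : (Fin k → ℝ) →ₗ[ℝ] ℝ}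
    (hμ : ∀ i, W.M i (hv π t) = s → W.M i = μ)
    (hunip : ∀ g, π g = 1 → ∃ d : ℕ, ((ρ g : V →ₗ[ℝ] V) - 1) ^ d = 0)
    (C : Subgroup G) (hC : ∀ g ∈ C, ∀ v ∈ growSpace (ρ t) s, ρ g v ∈ growSpace (ρ t) s)
    (S : Set G) (hS : ∀ g ∈ S, g ∈ C) {A : ℝ} (hA : ∀ g ∈ S, |μ (hv π g)| ≤ A)
    (hA' : ∀ g ∈ S, ∀ v, ‖ρ g v‖ ≤ A * ‖v‖) :
    ∃ (K : ℝ) (D : ℕ), 0 ≤ K ∧ ∀ l : List G, (∀ g ∈ l, g ∈ S) → ∀ v ∈ growSpace (ρ t) s,
      ‖ρ l.prod v‖ ≤ K * (1 + l.length : ℝ) ^ D * Real.exp (μ (hv π l.prod)) * ‖v‖ := by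
  classical
  let P : Submodule ℂ (Fin (finrank ℝ V) → ℂ) := growSpace (cplx (ρ t)) s
  have hP : ∀ g ∈ C, ∀ w ∈ P, cRep ρ g w ∈ P := fun g hg w hw =>
    cRep_mem_growSpace (hC g hg) hw
  let σ : Representation ℂ C P :=
    { toFun := fun g => (cRep ρ (g : G)).restrict (hP g g.2)
      map_one' := by
        ext x
        simp [LinearMap.restrict_apply]
      map_mul' := fun g h => by
        ext x
        simp [LinearMap.restrict_apply] }
  have hσ : ∀ (g : C) (x : P), ((σ g x : P) : Fin (finrank ℝ V) → ℂ) = cRep ρ (g : G) x :=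
    fun g x => rfl
  let N : Subgroup C := (π.comp C.subtype).ker
  have hNmem : ∀ g : C, g ∈ N ↔ π (g : G) = 1 := fun g => Iff.rfl
  obtain ⟨B₀, hB₀, hcb⟩ := exists_cplx_bound V
  have h := LinUni.growth N (by
    intro g h
    rw [hNmem]
    change π ((g : G) * h * (g : G)⁻¹ * (h : G)⁻¹) = 1
    rw [map_mul, map_mul, map_mul, map_inv, map_inv, mul_comm (π (g : G)) (π (h : G))]
    group) σ (by
    intro n hn
    obtain ⟨d, hd⟩ := hunip (n : G) ((hNmem n).1 hn)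
    refine ⟨d, ?_⟩
    have h1 := cRep_unip ρ hd
    have h2 : ∀ (d : ℕ) (x : P), ((((σ n - 1) ^ d) x : P) : Fin (finrank ℝ V) → ℂ) =
        ((cRep ρ (n : G) - 1) ^ d) x := by
      intro d
      induction d with
      | zero => intro x; rfl
      | succ d ih =>
        intro x
        rw [pow_succ, pow_succ, Module.End.mul_apply, Module.End.mul_apply, ih]
        rfl
    ext x : 1
    apply Subtype.ext
    rw [h2, h1]; rfl) (fun g => μ (hv π (g : G))) (by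
    intro g h
    rw [Subgroup.coe_mul, hv_mul, map_add]) (by
    intro g z hz
    have hz' : (LinearMap.charpoly (σ g)).IsRoot z := Polynomial.isRoot_of_mem_roots hz
    rw [← End.hasEigenvalue_iff_isRoot_charpoly] at hz'
    obtain ⟨w, hw⟩ := hz'.exists_hasEigenvector
    have hw0 : (w : Fin (finrank ℝ V) → ℂ) ≠ 0 := by
      intro h; exact hw.2 (Subtype.ext h)
    have hw1 : cRep ρ (g : G) w = z • (w : Fin (finrank ℝ V) → ℂ) := by
      rw [← hσ, hw.apply_eq_smul]; rfl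
    obtain ⟨i, hi, hi2⟩ := W.exists_of_eigen hw0 w.2 hw1
    rw [hi, ← hμ i hi2, ← W.log_χ, Real.exp_log (norm_pos_iff.2 (Units.ne_zero _))])
    ({g : C | (g : G) ∈ S}) (A := max A (B₀ * |A|)) (by
    intro g hg
    exact (hA g hg).trans (le_max_left _ _)) (by
    intro g hg x
    refine le_trans ?_ (mul_le_mul_of_nonneg_right (le_max_right _ _) (norm_nonneg _))
    change ‖cRep ρ (g : G) x‖ ≤ _
    rw [cRep_apply]
    exact hcb _ A (hA' g hg) _)
  obtain ⟨K, D, hK0, hK⟩ := h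
  obtain ⟨B₁, h1, hB₁⟩ := exists_bound_of_real_linear (coordC V)
  obtain ⟨B₂, h2, hB₂⟩ := exists_bound_of_real_linear (reC V)
  refine ⟨B₂ * (K * B₁), D, by positivity, fun l hl v hv' => ?_⟩
  let l' : List C := l.attach.map fun x => ⟨x.1, hS _ (hl x.1 x.2)⟩
  have hl'1 : l'.map C.subtype = l := by
    rw [List.map_map]
    have : (C.subtype ∘ fun x : {x // x ∈ l} => (⟨x.1, hS _ (hl x.1 x.2)⟩ : C)) = Subtype.val := by
      funext x; rfl
    rw [this, List.attach_map_subtype_val]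
  have hl'2 : ((l'.prod : C) : G) = l.prod := by
    have := map_list_prod C.subtype l'
    rw [hl'1] at this
    exact this
  have hl'3 : l'.length = l.length := by simp [l']
  have h3 := hK l' (by
    intro g hg
    obtain ⟨x, -, rfl⟩ := List.mem_map.1 hg
    exact hl x.1 x.2) ⟨coordC V v, coordC_mem_growSpace hv'⟩
  rw [hl'3] at h3
  have h4 : ‖cRep ρ l.prod (coordC V v)‖ ≤
      K * (1 + l.length : ℝ) ^ D * Real.exp (μ (hv π l.prod)) * ‖coordC V v‖ := by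
    have := h3
    simp only [hl'2] at this
    rw [← hl'2]
    rw [← hl'2] at this
    exact this
  have hE : 0 ≤ K * (1 + l.length : ℝ) ^ D * Real.exp (μ (hv π l.prod)) := by positivity
  calc ‖ρ l.prod v‖ = ‖reC V (coordC V (ρ l.prod v))‖ := by rw [reC_coordC]
    _ ≤ B₂ * ‖coordC V (ρ l.prod v)‖ := hB₂ _
    _ = B₂ * ‖cRep ρ l.prod (coordC V v)‖ := by rw [cRep_coordC]
    _ ≤ B₂ * (K * (1 + l.length : ℝ) ^ D * Real.exp (μ (hv π l.prod)) * (B₁ * ‖v‖)) := by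
        refine mul_le_mul_of_nonneg_left (h4.trans ?_) h2
        exact mul_le_mul_of_nonneg_left (hB₁ v) hE
    _ = _ := by ring

/-- An element preserving the growth space of `t` acts on it with growth rate `μ`. -/
theorem WtData.mem_growSpace (W : WtData ρ π) {t : G} {s : ℝ} {μ : (Fin k → ℝ) →ₗ[ℝ] ℝ}
    (hμ : ∀ i, W.M i (hv π t) = s → W.M i = μ)
    (hunip : ∀ g, π g = 1 → ∃ d : ℕ, ((ρ g : V →ₗ[ℝ] V) - 1) ^ d = 0)
    {g : G} (hg : ∀ v ∈ growSpace (ρ t) s, ρ g v ∈ growSpace (ρ t) s)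
    (hg' : ∀ v ∈ growSpace (ρ t) s, ρ g⁻¹ v ∈ growSpace (ρ t) s) {v : V}
    (hvv : v ∈ growSpace (ρ t) s) : v ∈ growSpace (ρ g) (μ (hv π g)) := by
  let C : Subgroup G := Subgroup.zpowers g
  have hC : ∀ x ∈ C, ∀ v ∈ growSpace (ρ t) s, ρ x v ∈ growSpace (ρ t) s := by
    have hCl : C = Subgroup.closure {g} := Subgroup.zpowers_eq_closure g
    rw [hCl]
    intro x hx
    induction hx using Subgroup.closure_induction'' with
    | one => intro v hv; rw [map_one]; exact hv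
    | mem x hx => rw [Set.mem_singleton_iff.1 hx]; exact hg
    | inv_mem x hx => rw [Set.mem_singleton_iff.1 hx]; exact hg'
    | mul x y _ _ ihx ihy =>
      intro v hv
      rw [map_mul]
      exact ihx _ (ihy v hv)
  obtain ⟨a, ha⟩ : ∃ a : ℝ, ∀ x ∈ ({g, g⁻¹} : Set G), |μ (hv π x)| ≤ a ∧
      ∀ v, ‖ρ x v‖ ≤ a * ‖v‖ := by
    obtain ⟨B₁, h1, hB₁⟩ := exists_bound_of_real_linear (ρ g : V →ₗ[ℝ] V)
    obtain ⟨B₂, h2, hB₂⟩ := exists_bound_of_real_linear (ρ g⁻¹ : V →ₗ[ℝ] V)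
    refine ⟨|μ (hv π g)| + |μ (hv π g⁻¹)| + B₁ + B₂, ?_⟩
    have a1 := abs_nonneg (μ (hv π g))
    have a2 := abs_nonneg (μ (hv π g⁻¹))
    rintro x (rfl | rfl)
    · refine ⟨by linarith, fun v => (hB₁ v).trans ?_⟩
      exact mul_le_mul_of_nonneg_right (by linarith) (norm_nonneg _)
    · refine ⟨by linarith, fun v => (hB₂ v).trans ?_⟩
      exact mul_le_mul_of_nonneg_right (by linarith) (norm_nonneg _)
  obtain ⟨K, D, hK0, hK⟩ := W.growth hμ hunip C hC {g, g⁻¹} (by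
    rintro x (rfl | rfl)
    · exact Subgroup.mem_zpowers _
    · exact C.inv_mem (Subgroup.mem_zpowers _)) (fun x hx => (ha x hx).1)
    (fun x hx => (ha x hx).2)
  refine LinMod.mem_growSpace.2 ⟨K * ‖v‖, D, fun j => ?_⟩
  obtain ⟨m, rfl | rfl⟩ := j.eq_nat_or_neg
  · have h1 := hK (List.replicate m g) (by
      intro x hx
      rw [List.eq_of_mem_replicate hx]; simp) v hvv
    rw [List.prod_replicate, List.length_replicate, hv_pow, map_smul, smul_eq_mul] at h1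
    rw [zpow_natCast, ← map_pow]
    refine h1.trans_eq ?_
    rw [Int.cast_natCast, Nat.abs_cast]
    ring_nf
  · have h1 := hK (List.replicate m g⁻¹) (by
      intro x hx
      rw [List.eq_of_mem_replicate hx]; simp) v hvv
    rw [List.prod_replicate, List.length_replicate, hv_pow, map_smul, smul_eq_mul, hv_inv,
      map_neg] at h1
    rw [zpow_neg, zpow_natCast, ← inv_pow, ← map_inv, ← map_pow]
    refine h1.trans_eq ?_
    rw [Int.cast_neg, Int.cast_natCast, abs_neg, Nat.abs_cast]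
    ring_nf

end rep

/-! ### the projections on the growth spaces -/

section pr

variable {V : Type*} [NormedAddCommGroup V] [NormedSpace ℝ V] [FiniteDimensional ℝ V]
  (T : V ≃ₗ[ℝ] V)

/-- the decomposition as a linear equivalence -/
noncomputable def dirE : (DirectSum (rates T) fun s => growSpace T (s : ℝ)) ≃ₗ[ℝ] V := by
  classical
  exact LinearEquiv.ofBijective
    (DirectSum.coeLinearMap fun s : rates T => growSpace T (s : ℝ)) (isInternal_growSpace T)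

open Classical in
/-- the projection on `growSpace T s` -/
noncomputable def pr (s : ℝ) : V →ₗ[ℝ] V :=
  if h : s ∈ rates T then (growSpace T s).subtype ∘ₗ
    (DirectSum.component ℝ (rates T) (fun s => growSpace T (s : ℝ)) ⟨s, h⟩) ∘ₗ
      (dirE T).symm.toLinearMap else 0

theorem pr_mem (s : ℝ) (v : V) : pr T s v ∈ growSpace T s := by
  classical
  unfold pr
  split_ifs with h
  · exact Submodule.coe_mem _
  · exact Submodule.zero_mem _

theorem dirE_symm_of_mem {s : ℝ} (hs : s ∈ rates T) {v : V} (hv : v ∈ growSpace T s) :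
    (dirE T).symm v = DirectSum.lof ℝ (rates T) (fun s => growSpace T (s : ℝ)) ⟨s, hs⟩ ⟨v, hv⟩ := by
  classical
  rw [LinearEquiv.symm_apply_eq]
  change v = DirectSum.coeLinearMap _ _
  convert (DirectSum.coeLinearMap_lof (fun s : rates T => growSpace T (s : ℝ)) ⟨s, hs⟩
    (⟨v, hv⟩ : growSpace T s)).symm

theorem pr_of_mem {s : ℝ} {v : V} (hv : v ∈ growSpace T s) : pr T s v = v := by
  classical
  by_cases hs : s ∈ rates T
  · unfold pr
    rw [dif_pos hs]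
    simp only [LinearMap.comp_apply, LinearEquiv.coe_coe]
    rw [dirE_symm_of_mem T hs hv, DirectSum.component.lof_self]
    rfl
  · rw [growSpace_eq_bot hs, Submodule.mem_bot] at hv
    rw [hv, map_zero]

theorem pr_of_mem_ne {s s' : ℝ} (hss : s ≠ s') {v : V} (hv : v ∈ growSpace T s) :
    pr T s' v = 0 := by
  classical
  by_cases hs : s ∈ rates T
  · unfold pr
    split_ifs with hs'
    · simp only [LinearMap.comp_apply, LinearEquiv.coe_coe]
      rw [dirE_symm_of_mem T hs hv, DirectSum.component.of, dif_neg]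
      · rfl
      · intro h
        exact hss (congrArg Subtype.val h)
    · rfl
  · rw [growSpace_eq_bot hs, Submodule.mem_bot] at hv
    rw [hv, map_zero]

theorem sum_pr (v : V) : ∑ s ∈ rates T, pr T s v = v := by
  classical
  obtain ⟨f, hf, -, h⟩ := exists_decomp T v
  conv_lhs => rw [h]
  conv_rhs => rw [h]
  refine Finset.sum_congr rfl fun s hs => ?_
  rw [map_sum, Finset.sum_eq_single s]
  · exact pr_of_mem T (hf s)
  · intro b _ hb
    exact pr_of_mem_ne T hb (hf b)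
  · intro h; exact absurd hs h

/-- an invariant subspace is the sum of its intersections with the growth spaces -/
theorem pr_mem_of_invariant {p : Submodule ℝ V} (h : ∀ x ∈ p, T x ∈ p)
    (h' : ∀ x ∈ p, T.symm x ∈ p) (s : ℝ) {v : V} (hv : v ∈ p) : pr T s v ∈ p := by
  classical
  have h1 : (⟨v, hv⟩ : p) ∈ ⨆ s, growSpace (restrictE T p h h') s := by
    rw [iSup_growSpace]; trivial
  have h2 : ∀ x ∈ ⨆ s, growSpace (restrictE T p h h') s, pr T s (x : V) ∈ p := by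
    intro x hx
    refine Submodule.iSup_induction (fun s => growSpace (restrictE T p h h') s)
      (motive := fun x => pr T s (x : V) ∈ p) hx ?_ ?_ ?_
    · intro s' y hy
      have hy' : (y : V) ∈ growSpace T s' := by
        obtain ⟨C, D, hCD⟩ := mem_growSpace.1 hy
        refine mem_growSpace.2 ⟨C, D, fun j => ?_⟩
        rw [← restrictE_zpow_coe T p h h' j y]
        exact hCD j
      by_cases hs : s' = s
      · subst hs; rw [pr_of_mem T hy']; exact y.2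
      · rw [pr_of_mem_ne T hs hy']; exact p.zero_mem
    · rw [Submodule.coe_zero, map_zero]; exact p.zero_mem
    · intro x y hx hy
      rw [Submodule.coe_add, map_add]
      exact p.add_mem hx hy
  exact h2 _ h1

omit [FiniteDimensional ℝ V] in
theorem mem_growSpace_zero_of_fixed {v : V} (h : T v = v) : v ∈ growSpace T 0 := by
  have h1 := grows_of_sub (T := T) (w := v) (μ := (1 : ℝ)) one_ne_zero (by
    rw [h, one_smul, sub_self]; exact Submodule.zero_mem _)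
  simpa using h1

theorem eq_zero_of_mem_ne {s s' : ℝ} (hss : s ≠ s') {v : V} (hv : v ∈ growSpace T s)
    (hv' : v ∈ growSpace T s') : v = 0 := by
  rw [← pr_of_mem T hv, pr_of_mem_ne T hss.symm hv']

/-- cohomological equation, linear version (Fitting) -/
theorem exists_solve {p : Submodule ℝ V} (h : ∀ x ∈ p, T x ∈ p) {x : V} (hx : x ∈ p) :
    ∃ y ∈ p, ∃ z ∈ p, y ∈ growSpace T 0 ∧ x = y + (T z - z) := by
  let f : Module.End ℝ p := ((T : V →ₗ[ℝ] V).restrict h) - 1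
  have hf : ∀ y : p, ((f y : p) : V) = T y - y := fun y => rfl
  obtain ⟨n, hn⟩ := (LinearMap.eventually_isCompl_ker_pow_range_pow f).exists_forall_of_atTop
  have hc := hn (n + 1) (by omega)
  obtain ⟨y, hy, w, hw, hyw⟩ := Submodule.mem_sup.1
    (show (⟨x, hx⟩ : p) ∈ LinearMap.ker (f ^ (n + 1)) ⊔ LinearMap.range (f ^ (n + 1)) by
      rw [hc.sup_eq_top]; trivial)
  obtain ⟨z, hz⟩ := hw
  refine ⟨y, y.2, ((f ^ n) z : p), Submodule.coe_mem _, ?_, ?_⟩
  · have h1 : ∀ (m : ℕ) (y : p), (((f ^ m) y : p) : V) =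
        (((T : V →ₗ[ℝ] V) - (1 : ℝ) • (1 : End ℝ V)) ^ m) (y : V) := by
      intro m
      induction m with
      | zero => intro y; rfl
      | succ m ih =>
        intro y
        rw [pow_succ, pow_succ, Module.End.mul_apply, Module.End.mul_apply, ih, hf]
        simp
    have h2 := mem_growSpace_of_pow (T := T) (μ := (1 : ℝ)) one_ne_zero (n + 1) (y : V) (by
      rw [← h1, LinearMap.mem_ker.1 hy]; rfl)
    simpa using h2
  · have h3 := congrArg (Subtype.val) hyw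
    rw [← hz, pow_succ', Module.End.mul_apply] at h3
    rw [← hf]
    exact h3.symm

/-- uniqueness in the cohomological equation -/
theorem mem_sup_of_sub_mem {p p' : Submodule ℝ V} (hp : ∀ x ∈ p, T x ∈ p)
    (hps : ∀ x ∈ p, T.symm x ∈ p) (hp' : ∀ x ∈ p', T x ∈ p') (hps' : ∀ x ∈ p', T.symm x ∈ p')
    {x : V} (hx : x ∈ p) {a b : V} (ha : a ∈ growSpace T 0) (hb : b ∈ p') (h : T x - x = a + b) :
    ∃ y ∈ p, ∃ z ∈ p', y ∈ growSpace T 0 ∧ x = y + z := by
  classical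
  refine ⟨pr T 0 x, pr_mem_of_invariant T hp hps 0 hx, x - pr T 0 x, ?_, pr_mem T 0 x, by abel⟩
  -- each component of nonzero rate is in `p'`
  have hcomp : ∀ s, s ≠ 0 → pr T s x ∈ p' := by
    intro s hs
    have hTpr : ∀ v, pr T s (T v) = T (pr T s v) := by
      intro v
      conv_lhs => rw [← sum_pr T v]
      rw [map_sum, map_sum]
      by_cases hsr : s ∈ rates T
      · rw [Finset.sum_eq_single s]
        · exact pr_of_mem T (growSpace_map T s (pr_mem T s v))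
        · intro s' _ hs'
          exact pr_of_mem_ne T hs' (growSpace_map T s' (pr_mem T s' v))
        · intro h; exact absurd hsr h
      · have h0 : ∀ v, pr T s v = 0 := by
          intro v
          have := pr_mem T s v
          rwa [growSpace_eq_bot hsr, Submodule.mem_bot] at this
        simp only [h0, map_zero, Finset.sum_const_zero]
    have h1 : T (pr T s x) - pr T s x = pr T s b := by
      have h2 := congrArg (pr T s) h
      rw [map_sub, map_add, hTpr, pr_of_mem_ne T hs.symm ha, zero_add] at h2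
      exact h2
    -- `T - 1` is bijective on `growSpace T s ⊓ p'`
    let q : Submodule ℝ V := growSpace T s ⊓ p'
    have hq : ∀ y ∈ q, T y ∈ q := fun y hy => ⟨growSpace_map T s hy.1, hp' y hy.2⟩
    let f : q →ₗ[ℝ] q := ((T : V →ₗ[ℝ] V).restrict hq) - 1
    have hfv : ∀ y : q, ((f y : q) : V) = T y - y := fun y => rfl
    have hinj : Function.Injective f := by
      rw [← LinearMap.ker_eq_bot, LinearMap.ker_eq_bot']
      intro y hy
      have h3 : T (y : V) = y := by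
        have := congrArg Subtype.val hy
        rw [hfv] at this
        exact sub_eq_zero.1 this
      apply Subtype.ext
      exact eq_zero_of_mem_ne T hs y.2.1 (mem_growSpace_zero_of_fixed T h3)
    obtain ⟨y, hy⟩ := (LinearMap.injective_iff_surjective.1 hinj)
      ⟨pr T s b, pr_mem T s b, pr_mem_of_invariant T hp' hps' s hb⟩
    have h4 : T (y : V) - y = pr T s b := by
      have := congrArg Subtype.val hy
      rwa [hfv] at this
    have h5 : pr T s x = y := by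
      have h6 : T (pr T s x - y) = pr T s x - y := by
        rw [map_sub]
        have : T (pr T s x) - T (y : V) - (pr T s x - y) = 0 := by
          have : T (pr T s x) - T (y : V) - (pr T s x - y) =
            (T (pr T s x) - pr T s x) - (T (y : V) - y) := by abel
          rw [this, h1, h4, sub_self]
        exact sub_eq_zero.1 this
      exact sub_eq_zero.1 (eq_zero_of_mem_ne T hs
        (Submodule.sub_mem _ (pr_mem T s x) y.2.1) (mem_growSpace_zero_of_fixed T h6))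
    rw [h5]; exact y.2.2
  have h7 : x - pr T 0 x = ∑ s ∈ (rates T).erase 0, pr T s x := by
    by_cases h0 : (0 : ℝ) ∈ rates T
    · have h8 := Finset.add_sum_erase (rates T) (fun s => pr T s x) h0
      rw [sum_pr] at h8
      rw [sub_eq_iff_eq_add, add_comm]
      exact h8.symm
    · have h8 : pr T 0 x = 0 := by
        have := pr_mem T 0 x
        rwa [growSpace_eq_bot h0, Submodule.mem_bot] at this
      rw [Finset.erase_eq_of_notMem h0, sum_pr, h8, sub_zero]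
  rw [h7]
  exact Submodule.sum_mem _ fun s hs => hcomp s (Finset.ne_of_mem_erase hs)

end pr

end Crest.Agent.R182.ModelWt
end

-- ▼ part R182/ModelWt

set_option autoImplicit false
set_option linter.unusedSectionVars false

namespace Crest.Agent.R182.ModelWt

open Module LinMod Polyc Model

section mat

attribute [local instance] Matrix.linftyOpNormedRing Matrix.linftyOpNormedAlgebra

variable {n : ℕ}

/-- conjugation on matrices -/
noncomputable def cj (g : (Matrix (Fin n) (Fin n) ℝ)ˣ) :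
    Matrix (Fin n) (Fin n) ℝ ≃ₗ[ℝ] Matrix (Fin n) (Fin n) ℝ where
  toFun X := (g : Matrix (Fin n) (Fin n) ℝ) * X *
    ((g⁻¹ : (Matrix (Fin n) (Fin n) ℝ)ˣ) : Matrix (Fin n) (Fin n) ℝ)
  invFun X := ((g⁻¹ : (Matrix (Fin n) (Fin n) ℝ)ˣ) : Matrix (Fin n) (Fin n) ℝ) * X *
    (g : Matrix (Fin n) (Fin n) ℝ)
  map_add' X Y := by rw [mul_add, add_mul]
  map_smul' c X := by rw [mul_smul_comm, smul_mul_assoc]; rfl
  left_inv X := by
    simp only [← mul_assoc]
    rw [Units.inv_mul, one_mul, mul_assoc, Units.inv_mul, mul_one]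
  right_inv X := by
    simp only [← mul_assoc]
    rw [Units.mul_inv, one_mul, mul_assoc, Units.mul_inv, mul_one]

theorem cj_apply (g : (Matrix (Fin n) (Fin n) ℝ)ˣ) (X : Matrix (Fin n) (Fin n) ℝ) :
    cj g X = (g : Matrix (Fin n) (Fin n) ℝ) * X *
      ((g⁻¹ : (Matrix (Fin n) (Fin n) ℝ)ˣ) : Matrix (Fin n) (Fin n) ℝ) := rfl

theorem cj_symm_apply (g : (Matrix (Fin n) (Fin n) ℝ)ˣ) (X : Matrix (Fin n) (Fin n) ℝ) :
    (cj g).symm X = cj g⁻¹ X := by
  rw [cj_apply, inv_inv]; rfl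

/-- conjugation as a homomorphism -/
noncomputable def cjHom : (Matrix (Fin n) (Fin n) ℝ)ˣ →*
    (Matrix (Fin n) (Fin n) ℝ ≃ₗ[ℝ] Matrix (Fin n) (Fin n) ℝ) where
  toFun := cj
  map_one' := by
    apply LinearEquiv.ext
    intro X
    rw [cj_apply, inv_one, Units.val_one, one_mul, mul_one]; rfl
  map_mul' g h := by
    apply LinearEquiv.ext
    intro X
    rw [LinearEquiv.mul_apply, cj_apply, cj_apply, cj_apply, mul_inv_rev, Units.val_mul,
      Units.val_mul]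
    simp only [mul_assoc]

theorem cj_mul (g h : (Matrix (Fin n) (Fin n) ℝ)ˣ) (X : Matrix (Fin n) (Fin n) ℝ) :
    cj (g * h) X = cj g (cj h X) := by
  have := congrArg (fun f => f X) (cjHom.map_mul g h)
  exact this

theorem cj_one (X : Matrix (Fin n) (Fin n) ℝ) :
    cj (1 : (Matrix (Fin n) (Fin n) ℝ)ˣ) X = X := by
  have := congrArg (fun f => f X) (cjHom (n := n)).map_one
  exact this

theorem cj_inv_cj (g : (Matrix (Fin n) (Fin n) ℝ)ˣ) (X : Matrix (Fin n) (Fin n) ℝ) :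
    cj g⁻¹ (cj g X) = X := by
  rw [← cj_mul, inv_mul_cancel, cj_one]

theorem cj_cj_inv (g : (Matrix (Fin n) (Fin n) ℝ)ˣ) (X : Matrix (Fin n) (Fin n) ℝ) :
    cj g (cj g⁻¹ X) = X := by
  rw [← cj_mul, mul_inv_cancel, cj_one]

theorem cj_zpow (g : (Matrix (Fin n) (Fin n) ℝ)ˣ) (j : ℤ) : cj (g ^ j) = (cj g) ^ j :=
  map_zpow cjHom g j

theorem cj_matmul (g : (Matrix (Fin n) (Fin n) ℝ)ˣ) (X Y : Matrix (Fin n) (Fin n) ℝ) :
    cj g (X * Y) = cj g X * cj g Y := by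
  rw [cj_apply, cj_apply, cj_apply]
  calc (g : Matrix (Fin n) (Fin n) ℝ) * (X * Y) *
      ((g⁻¹ : (Matrix (Fin n) (Fin n) ℝ)ˣ) : Matrix (Fin n) (Fin n) ℝ) =
      (g : Matrix (Fin n) (Fin n) ℝ) * X * 1 * Y *
      ((g⁻¹ : (Matrix (Fin n) (Fin n) ℝ)ˣ) : Matrix (Fin n) (Fin n) ℝ) := by
        rw [mul_one]; simp only [mul_assoc]
    _ = _ := by
        rw [← Units.inv_mul g]; simp only [mul_assoc]

theorem cj_bracket (g : (Matrix (Fin n) (Fin n) ℝ)ˣ) (X Y : Matrix (Fin n) (Fin n) ℝ) :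
    cj g (X * Y - Y * X) = cj g X * cj g Y - cj g Y * cj g X := by
  rw [map_sub, cj_matmul, cj_matmul]

theorem cj_ex (g : (Matrix (Fin n) (Fin n) ℝ)ˣ) (X : Matrix (Fin n) (Fin n) ℝ) :
    cj g (ex X) = ex (cj g X) := (ex_conj g.mul_inv g.inv_mul).symm

theorem cj_matone (g : (Matrix (Fin n) (Fin n) ℝ)ˣ) :
    cj g (1 : Matrix (Fin n) (Fin n) ℝ) = 1 := by
  rw [cj_apply, mul_one, Units.mul_inv]

/-- the space of matrices of growth rate `s` under conjugation by `t` -/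
noncomputable def gm (t : (Matrix (Fin n) (Fin n) ℝ)ˣ) (s : ℝ) :
    Submodule ℝ (Matrix (Fin n) (Fin n) ℝ) := growSpace (cj t) s

theorem mul_mem_gm {t : (Matrix (Fin n) (Fin n) ℝ)ˣ} {s s' : ℝ}
    {X Y : Matrix (Fin n) (Fin n) ℝ} (hX : X ∈ gm t s) (hY : Y ∈ gm t s') :
    X * Y ∈ gm t (s + s') :=
  bilin_mem_growSpace (T := cj t) (T' := cj t) (T'' := cj t) (fun X Y => X * Y) 1
    (fun X Y => by rw [one_mul]; exact norm_mul_le X Y) (fun X Y => cj_matmul t X Y) hX hY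

theorem one_mem_gm (t : (Matrix (Fin n) (Fin n) ℝ)ˣ) :
    (1 : Matrix (Fin n) (Fin n) ℝ) ∈ gm t 0 :=
  mem_growSpace_zero_of_fixed (cj t) (cj_matone t)

theorem pow_mem_gm {t : (Matrix (Fin n) (Fin n) ℝ)ˣ} {X : Matrix (Fin n) (Fin n) ℝ}
    (hX : X ∈ gm t 0) (k : ℕ) : X ^ k ∈ gm t 0 := by
  induction k with
  | zero => rw [pow_zero]; exact one_mem_gm t
  | succ k ih =>
    rw [pow_succ]
    have := mul_mem_gm ih hX
    rwa [add_zero] at this

theorem ex_mem_gm {t : (Matrix (Fin n) (Fin n) ℝ)ˣ} {X : Matrix (Fin n) (Fin n) ℝ}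
    (hX : X ∈ gm t 0) : ex X ∈ gm t 0 :=
  Submodule.sum_mem _ fun k _ => Submodule.smul_mem _ _ (pow_mem_gm hX k)

theorem lg_mem_gm {t : (Matrix (Fin n) (Fin n) ℝ)ˣ} {g : Matrix (Fin n) (Fin n) ℝ}
    (hg : g ∈ gm t 0) : lg g ∈ gm t 0 :=
  Submodule.sum_mem _ fun k _ => Submodule.smul_mem _ _
    (pow_mem_gm (Submodule.sub_mem _ hg (one_mem_gm t)) k)

theorem cj_mem_gm {t : (Matrix (Fin n) (Fin n) ℝ)ˣ} {s : ℝ} {X : Matrix (Fin n) (Fin n) ℝ}
    (hX : X ∈ gm t s) : cj t X ∈ gm t s := growSpace_map (cj t) s hX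

theorem cj_inv_mem_gm {t : (Matrix (Fin n) (Fin n) ℝ)ˣ} {s : ℝ} {X : Matrix (Fin n) (Fin n) ℝ}
    (hX : X ∈ gm t s) : cj t⁻¹ X ∈ gm t s := by
  rw [← cj_symm_apply]
  exact growSpace_map_symm (cj t) s hX

/-- conjugating the base point -/
theorem cj_mem_gm_conj {t g : (Matrix (Fin n) (Fin n) ℝ)ˣ} {s : ℝ}
    {X : Matrix (Fin n) (Fin n) ℝ} (hX : X ∈ gm t s) : cj g X ∈ gm (g * t * g⁻¹) s := by
  have h : ∀ Y, cj (g * t * g⁻¹) ((cj g).toLinearMap Y) = (cj g).toLinearMap (cj t Y) := by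
    intro Y
    rw [LinearEquiv.coe_coe, cj_mul, cj_mul, cj_inv_cj]
  exact map_mem_growSpace (T := cj t) (T' := cj (g * t * g⁻¹)) (cj g).toLinearMap h hX

end mat

section lie

attribute [local instance] Matrix.linftyOpNormedRing Matrix.linftyOpNormedAlgebra

variable {Γ : Type*} [Group Γ] {N : Subgroup Γ} [hN : N.Normal] (D : EmbData Γ N)

theorem cj_mem_lie {g : (Matrix (Fin D.n) (Fin D.n) ℝ)ˣ} (hg : g ∈ G1 D)
    {X : Matrix (Fin D.n) (Fin D.n) ℝ} (hX : X ∈ lie D) : cj g X ∈ lie D :=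
  conj_mem_lie D (fun _ hu => conj_NR hg hu) hX

theorem cj_mem_lcs {g : (Matrix (Fin D.n) (Fin D.n) ℝ)ˣ} (hg : g ∈ G1 D) (k : ℕ)
    {X : Matrix (Fin D.n) (Fin D.n) ℝ} (hX : X ∈ lcs D k) : cj g X ∈ lcs D k := by
  induction k generalizing X with
  | zero => exact cj_mem_lie D hg hX
  | succ k ih =>
    have h1 : lcs D (k + 1) ≤ (lcs D (k + 1)).comap (cj g).toLinearMap := by
      refine Submodule.span_le.2 ?_
      rintro _ ⟨X, hX, Y, hY, rfl⟩
      change cj g (X * Y - Y * X) ∈ lcs D (k + 1)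
      rw [cj_bracket]
      exact bracket_mem_lcs D (cj_mem_lie D hg hX) (ih hY)
    exact h1 hX

/-- `Ad` of `G1` on `𝔫` -/
noncomputable def adE : G1 D →* (lie D ≃ₗ[ℝ] lie D) where
  toFun g :=
    { toFun := fun X => ⟨cj (g : (Matrix (Fin D.n) (Fin D.n) ℝ)ˣ) X, cj_mem_lie D g.2 X.2⟩
      invFun := fun X => ⟨cj (g : (Matrix (Fin D.n) (Fin D.n) ℝ)ˣ)⁻¹ X,
        cj_mem_lie D ((G1 D).inv_mem g.2) X.2⟩
      map_add' := fun X Y => Subtype.ext (map_add _ _ _)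
      map_smul' := fun c X => Subtype.ext (map_smul _ _ _)
      left_inv := fun X => Subtype.ext (cj_inv_cj _ _)
      right_inv := fun X => Subtype.ext (cj_cj_inv _ _) }
  map_one' := by
    apply LinearEquiv.ext
    intro X
    exact Subtype.ext (cj_one _)
  map_mul' g h := by
    apply LinearEquiv.ext
    intro X
    exact Subtype.ext (cj_mul _ _ _)

theorem coe_adE (g : G1 D) (X : lie D) : ((adE D g X : lie D) : Matrix (Fin D.n) (Fin D.n) ℝ) =
    cj (g : (Matrix (Fin D.n) (Fin D.n) ℝ)ˣ) X := rfl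

/-- the growth spaces in `𝔫` -/
noncomputable def gs (t : (Matrix (Fin D.n) (Fin D.n) ℝ)ˣ) (s : ℝ) :
    Submodule ℝ (Matrix (Fin D.n) (Fin D.n) ℝ) := lie D ⊓ gm t s

theorem coe_mem_gm_iff (t : G1 D) (s : ℝ) (X : lie D) :
    (X : Matrix (Fin D.n) (Fin D.n) ℝ) ∈ gm (t : (Matrix (Fin D.n) (Fin D.n) ℝ)ˣ) s ↔
      X ∈ growSpace (adE D t) s := by
  have h1 : ∀ j : ℤ, (((adE D t) ^ j) X : Matrix (Fin D.n) (Fin D.n) ℝ) =
      ((cj (t : (Matrix (Fin D.n) (Fin D.n) ℝ)ˣ)) ^ j) X := by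
    intro j
    rw [← map_zpow, coe_adE, Subgroup.coe_zpow, cj_zpow]
  constructor
  · intro h
    obtain ⟨C, E, hCE⟩ := mem_growSpace.1 h
    refine mem_growSpace.2 ⟨C, E, fun j => ?_⟩
    have := hCE j
    rw [← h1] at this
    exact this
  · intro h
    obtain ⟨C, E, hCE⟩ := mem_growSpace.1 h
    refine mem_growSpace.2 ⟨C, E, fun j => ?_⟩
    rw [← h1]
    exact hCE j

theorem gs_eq_map (t : G1 D) (s : ℝ) : gs D (t : (Matrix (Fin D.n) (Fin D.n) ℝ)ˣ) s =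
    (growSpace (adE D t) s).map (lie D).subtype := by
  ext X
  constructor
  · rintro ⟨h1, h2⟩
    exact ⟨⟨X, h1⟩, (coe_mem_gm_iff D t s ⟨X, h1⟩).1 h2, rfl⟩
  · rintro ⟨Y, hY, rfl⟩
    exact ⟨Y.2, (coe_mem_gm_iff D t s Y).2 hY⟩

theorem gs_le (t : (Matrix (Fin D.n) (Fin D.n) ℝ)ˣ) (s : ℝ) : gs D t s ≤ lie D := inf_le_left

theorem bracket_mem_gs {t : (Matrix (Fin D.n) (Fin D.n) ℝ)ˣ} {s s' : ℝ}
    {X Y : Matrix (Fin D.n) (Fin D.n) ℝ} (hX : X ∈ gs D t s) (hY : Y ∈ gs D t s') :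
    X * Y - Y * X ∈ gs D t (s + s') := by
  refine ⟨bracket_mem D hX.1 hY.1, Submodule.sub_mem _ (mul_mem_gm hX.2 hY.2) ?_⟩
  rw [add_comm]
  exact mul_mem_gm hY.2 hX.2

theorem isSub_gs_zero (t : (Matrix (Fin D.n) (Fin D.n) ℝ)ˣ) : IsSub D (gs D t 0) where
  le := gs_le D t 0
  br X hX Y hY := by
    have := bracket_mem_gs D hX hY
    rwa [add_zero] at this

/-- `exp` of the zero growth space -/
noncomputable def E0 (t : (Matrix (Fin D.n) (Fin D.n) ℝ)ˣ) :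
    Subgroup (Matrix (Fin D.n) (Fin D.n) ℝ)ˣ := expG (isSub_gs_zero D t)

variable {D}

theorem mem_E0 {t g : (Matrix (Fin D.n) (Fin D.n) ℝ)ˣ} : g ∈ E0 D t ↔ g ∈ D.NR ∧
    lg (g : Matrix (Fin D.n) (Fin D.n) ℝ) ∈ gs D t 0 := Iff.rfl

theorem E0_le {t g : (Matrix (Fin D.n) (Fin D.n) ℝ)ˣ} (h : g ∈ E0 D t) : g ∈ D.NR := h.1

theorem mem_E0_iff {t g : (Matrix (Fin D.n) (Fin D.n) ℝ)ˣ} : g ∈ E0 D t ↔ g ∈ D.NR ∧
    (g : Matrix (Fin D.n) (Fin D.n) ℝ) ∈ gm t 0 := by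
  constructor
  · rintro ⟨h1, h2⟩
    refine ⟨h1, ?_⟩
    rw [← ex_lg (D.unip_NR h1)]
    exact ex_mem_gm h2.2
  · rintro ⟨h1, h2⟩
    exact ⟨h1, lg_mem_lie D h1, lg_mem_gm h2⟩

/-- elements of `E0` preserve the growth spaces -/
theorem cj_mem_gs_of_E0 {t u : (Matrix (Fin D.n) (Fin D.n) ℝ)ˣ} (hu : u ∈ E0 D t) {s : ℝ}
    {X : Matrix (Fin D.n) (Fin D.n) ℝ} (hX : X ∈ gs D t s) : cj u X ∈ gs D t s := by
  refine ⟨cj_mem_lie D (NR_le D hu.1) hX.1, ?_⟩
  have h1 := (mem_E0_iff.1 hu).2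
  have h2 := (mem_E0_iff.1 ((E0 D t).inv_mem hu)).2
  have h3 := mul_mem_gm (mul_mem_gm h1 hX.2) h2
  rwa [zero_add, add_zero] at h3

/-- `t` normalises `E0` -/
theorem conj_mem_E0 {t u : (Matrix (Fin D.n) (Fin D.n) ℝ)ˣ} (ht : t ∈ G1 D) (hu : u ∈ E0 D t) :
    t * u * t⁻¹ ∈ E0 D t := by
  rw [mem_E0_iff] at hu ⊢
  refine ⟨conj_NR ht hu.1, ?_⟩
  rw [Units.val_mul, Units.val_mul]
  exact cj_mem_gm hu.2

/-! ### the cohomological equation -/

theorem isSub_lcs (k : ℕ) : IsSub D (lcs D k) where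
  le := lcs_le_lie D k
  br _ hX _ hY := lcs_succ_le D k (bracket_mem_lcs D (lcs_le_lie D k hX) hY)

/-- `N_ℝ` acts trivially on the quotients of the lower central series -/
theorem cj_sub_mem_lcs {u : (Matrix (Fin D.n) (Fin D.n) ℝ)ˣ} (hu : u ∈ D.NR) {k : ℕ}
    {Z : Matrix (Fin D.n) (Fin D.n) ℝ} (hZ : Z ∈ lcs D k) : cj u Z - Z ∈ lcs D (k + 1) := by
  set X := lg (u : Matrix (Fin D.n) (Fin D.n) ℝ) with hX
  have hXl : X ∈ lie D := lg_mem_lie D hu
  have hXn := lie_pow_zero D hXl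
  have hXn' : (-X) ^ D.n = 0 := by rw [neg_pow, hXn, mul_zero]
  let f : ℝ → Matrix (Fin D.n) (Fin D.n) ℝ := fun s =>
    cj (exU (s • X) (smul_pow_zero hXn s)) Z
  have hf : ∀ s, f s = ex (s • X) * Z * ex (s • (-X)) := by
    intro s
    change ex (s • X) * Z * ex (-(s • X)) = _
    rw [smul_neg]
  have hmem : ∀ s, f s ∈ lcs D k := fun s =>
    cj_mem_lcs D (NR_le D (exU_mem_of_lie D ((lie D).smul_mem s hXl))) k hZ
  have hder : ∀ s, HDM f (X * f s - f s * X) s := by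
    intro s
    have h1 : HDM (fun s => ex (s • X) * Z * ex (s • (-X)))
        (X * ex (s • X) * Z * ex (s • (-X)) +
          ex (s • X) * Z * (-X * ex (s • (-X)))) s :=
      ((hdm_ex_smul hXn s).mul_const Z).mul (hdm_ex_smul hXn' s)
    refine (h1.congr hf).congr_deriv ?_
    have hc : Commute X (ex (s • (-X))) :=
      commute_ex (((Commute.refl X).neg_right).smul_right s)
    rw [hf, neg_mul, hc.eq]
    noncomm_ring
  have h1 := mem_of_deriv_mem (L := lcs D (k + 1)) (f := fun s => f s - Z)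
    (f' := fun s => (X * f s - f s * X) - 0) (fun s => (hder s).sub (HDM.const Z s))
    (by
      simp only [hf, zero_smul, ex_zero, one_mul, mul_one, sub_self]
      exact Submodule.zero_mem _)
    (fun s => by rw [sub_zero]; exact bracket_mem_lcs D hXl (hmem s)) 1
  have h2 : f 1 = cj u Z := by
    change cj (exU ((1 : ℝ) • X) (smul_pow_zero hXn 1)) Z = cj u Z
    rw [exU_congr (smul_pow_zero hXn 1) hXn (one_smul ℝ X)]
    congr 1
    exact congrArg cj (exU_lg D hu)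
  rw [← h2]
  exact h1

/-- `g ≡ exp X` modulo the next term of the lower central series -/
structure Q (k : ℕ) (g : (Matrix (Fin D.n) (Fin D.n) ℝ)ˣ) (X : Matrix (Fin D.n) (Fin D.n) ℝ) :
    Prop where
  mem : g ∈ D.NR
  lg_mem : lg (g : Matrix (Fin D.n) (Fin D.n) ℝ) ∈ lcs D k
  congr : lg (g : Matrix (Fin D.n) (Fin D.n) ℝ) - X ∈ lcs D (k + 1)

theorem Q.mul {k : ℕ} {g h : (Matrix (Fin D.n) (Fin D.n) ℝ)ˣ}
    {X Y : Matrix (Fin D.n) (Fin D.n) ℝ} (hg : Q k g X) (hh : Q k h Y) :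
    Q k (g * h) (X + Y) := by
  have h1 := (isSub_lcs (D := D) k).lg_mul (lcs_succ_le D k)
    (fun X hX Y hY => bracket_mem_lcs D (lcs_le_lie D k hX) hY) hg.lg_mem hh.lg_mem
  rw [ex_lg (D.unip_NR hg.mem), ex_lg (D.unip_NR hh.mem), ← Units.val_mul] at h1
  refine ⟨D.NR.mul_mem hg.mem hh.mem, ?_, ?_⟩
  · have h2 : lg ((g * h : (Matrix (Fin D.n) (Fin D.n) ℝ)ˣ) : Matrix (Fin D.n) (Fin D.n) ℝ) =
        (lg ((g * h : (Matrix (Fin D.n) (Fin D.n) ℝ)ˣ) : Matrix (Fin D.n) (Fin D.n) ℝ) -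
          (lg (g : Matrix (Fin D.n) (Fin D.n) ℝ) + lg (h : Matrix (Fin D.n) (Fin D.n) ℝ))) +
        (lg (g : Matrix (Fin D.n) (Fin D.n) ℝ) + lg (h : Matrix (Fin D.n) (Fin D.n) ℝ)) := by
      abel
    rw [h2]
    exact Submodule.add_mem _ (lcs_succ_le D k h1) (Submodule.add_mem _ hg.lg_mem hh.lg_mem)
  · have h2 : lg ((g * h : (Matrix (Fin D.n) (Fin D.n) ℝ)ˣ) : Matrix (Fin D.n) (Fin D.n) ℝ) -
        (X + Y) =
        (lg ((g * h : (Matrix (Fin D.n) (Fin D.n) ℝ)ˣ) : Matrix (Fin D.n) (Fin D.n) ℝ) -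
          (lg (g : Matrix (Fin D.n) (Fin D.n) ℝ) + lg (h : Matrix (Fin D.n) (Fin D.n) ℝ))) +
        ((lg (g : Matrix (Fin D.n) (Fin D.n) ℝ) - X) +
          (lg (h : Matrix (Fin D.n) (Fin D.n) ℝ) - Y)) := by
      abel
    rw [h2]
    exact Submodule.add_mem _ h1 (Submodule.add_mem _ hg.congr hh.congr)

theorem Q.of_mem {k : ℕ} {g : (Matrix (Fin D.n) (Fin D.n) ℝ)ˣ} (hg : g ∈ D.NR)
    (h : lg (g : Matrix (Fin D.n) (Fin D.n) ℝ) ∈ lcs D k) :
    Q k g (lg (g : Matrix (Fin D.n) (Fin D.n) ℝ)) :=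
  ⟨hg, h, by rw [sub_self]; exact Submodule.zero_mem _⟩

/-- `exp` as a unit of an element of `𝔫` -/
noncomputable def eU (X : Matrix (Fin D.n) (Fin D.n) ℝ) (hX : X ∈ lie D) :
    (Matrix (Fin D.n) (Fin D.n) ℝ)ˣ := exU X (lie_pow_zero D hX)

theorem eU_mem {X : Matrix (Fin D.n) (Fin D.n) ℝ} (hX : X ∈ lie D) : eU X hX ∈ D.NR :=
  exU_mem_of_lie D hX

theorem coe_eU {X : Matrix (Fin D.n) (Fin D.n) ℝ} (hX : X ∈ lie D) :
    ((eU X hX : (Matrix (Fin D.n) (Fin D.n) ℝ)ˣ) : Matrix (Fin D.n) (Fin D.n) ℝ) = ex X := rfl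

theorem lg_eU {X : Matrix (Fin D.n) (Fin D.n) ℝ} (hX : X ∈ lie D) :
    lg ((eU X hX : (Matrix (Fin D.n) (Fin D.n) ℝ)ˣ) : Matrix (Fin D.n) (Fin D.n) ℝ) = X :=
  lg_ex (lie_pow_zero D hX)

theorem eU_neg {X : Matrix (Fin D.n) (Fin D.n) ℝ} (hX : X ∈ lie D) :
    eU (-X) ((lie D).neg_mem hX) = (eU X hX)⁻¹ := Units.ext rfl

theorem eU_lg {g : (Matrix (Fin D.n) (Fin D.n) ℝ)ˣ} (hg : g ∈ D.NR) :
    eU (lg (g : Matrix (Fin D.n) (Fin D.n) ℝ)) (lg_mem_lie D hg) = g := exU_lg D hg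

theorem conj_eU {g : (Matrix (Fin D.n) (Fin D.n) ℝ)ˣ} (hg : g ∈ G1 D)
    {X : Matrix (Fin D.n) (Fin D.n) ℝ} (hX : X ∈ lie D) :
    g * eU X hX * g⁻¹ = eU (cj g X) (cj_mem_lie D hg hX) := by
  apply Units.ext
  rw [Units.val_mul, Units.val_mul, coe_eU, coe_eU, ← cj_ex]; rfl

theorem eq_one_of_lg {g : (Matrix (Fin D.n) (Fin D.n) ℝ)ˣ} (hg : g ∈ D.NR)
    (h : lg (g : Matrix (Fin D.n) (Fin D.n) ℝ) = 0) : g = 1 := by
  rw [← eU_lg hg]
  apply Units.ext
  rw [coe_eU, h, ex_zero]; rfl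

theorem Q.eU {k : ℕ} {X : Matrix (Fin D.n) (Fin D.n) ℝ} (hX : X ∈ lcs D k) :
    Q k (eU X (lcs_le_lie D k hX)) X := by
  have h1 := lg_eU (lcs_le_lie D k hX)
  exact ⟨eU_mem _, by rw [h1]; exact hX, by rw [h1, sub_self]; exact Submodule.zero_mem _⟩

theorem eU_mem_E0 {t : (Matrix (Fin D.n) (Fin D.n) ℝ)ˣ} {X : Matrix (Fin D.n) (Fin D.n) ℝ}
    (hX : X ∈ lie D) (h : X ∈ gm t 0) : ModelWt.eU X hX ∈ E0 D t :=
  mem_E0.2 ⟨eU_mem hX, by rw [lg_eU]; exact ⟨hX, h⟩⟩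

/-- **Cohomological equation**: every `n₁ ∈ N_ℝ` is `t`-twisted conjugate to an element of
`E0`. -/
theorem exists_coh {t n₁ : (Matrix (Fin D.n) (Fin D.n) ℝ)ˣ} (ht : t ∈ G1 D) (hn₁ : n₁ ∈ D.NR) :
    ∃ m ∈ D.NR, m * n₁ * (t * m⁻¹ * t⁻¹) ∈ E0 D t := by
  have key : ∀ k, ∃ m ∈ D.NR, ∃ u ∈ E0 D t, ∃ w ∈ D.NR,
      lg (w : Matrix (Fin D.n) (Fin D.n) ℝ) ∈ lcs D k ∧ m * n₁ * (t * m⁻¹ * t⁻¹) = u * w := by
    intro k
    induction k with
    | zero =>
      refine ⟨1, D.NR.one_mem, 1, (E0 D t).one_mem, n₁, hn₁, lg_mem_lie D hn₁, ?_⟩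
      group
    | succ k ih =>
      obtain ⟨m, hm, u, hu, w, hw, hwk, h⟩ := ih
      obtain ⟨y, hy, z, hz, hy0, hyz⟩ := exists_solve (cj t)
        (p := lcs D k) (fun x hx => cj_mem_lcs D ht k hx) hwk
      have hyl := lcs_le_lie D k hy
      have hzl := lcs_le_lie D k hz
      have hTz : cj t z ∈ lcs D k := cj_mem_lcs D ht k hz
      have huG := NR_le D (E0_le hu)
      have huz : cj u⁻¹ z ∈ lcs D k := cj_mem_lcs D ((G1 D).inv_mem huG) k hz
      refine ⟨eU z hzl * m, D.NR.mul_mem (eU_mem hzl) hm, u * eU y hyl,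
        (E0 D t).mul_mem hu (eU_mem_E0 hyl hy0),
        eU (-y) ((lie D).neg_mem hyl) * eU (cj u⁻¹ z) (lcs_le_lie D k huz) * w *
          eU (-(cj t z)) ((lie D).neg_mem (lcs_le_lie D k hTz)), ?_, ?_, ?_⟩
      · exact D.NR.mul_mem (D.NR.mul_mem (D.NR.mul_mem (eU_mem _) (eU_mem _)) hw) (eU_mem _)
      · have q1 := Q.eU (k := k) ((lcs D k).neg_mem hy)
        have q2 := Q.eU (k := k) huz
        have q3 := Q.of_mem hw hwk
        have q4 := Q.eU (k := k) ((lcs D k).neg_mem hTz)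
        have q := ((q1.mul q2).mul q3).mul q4
        have h1 := cj_sub_mem_lcs (D.NR.inv_mem (E0_le hu)) hz
        have h2 := Submodule.add_mem _ q.congr h1
        have h3 : lg ((eU (-y) ((lie D).neg_mem hyl) * eU (cj u⁻¹ z) (lcs_le_lie D k huz) * w *
          eU (-(cj t z)) ((lie D).neg_mem (lcs_le_lie D k hTz)) :
            (Matrix (Fin D.n) (Fin D.n) ℝ)ˣ) : Matrix (Fin D.n) (Fin D.n) ℝ) =
          lg ((eU (-y) ((lie D).neg_mem hyl) * eU (cj u⁻¹ z) (lcs_le_lie D k huz) * w *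
          eU (-(cj t z)) ((lie D).neg_mem (lcs_le_lie D k hTz)) :
            (Matrix (Fin D.n) (Fin D.n) ℝ)ˣ) : Matrix (Fin D.n) (Fin D.n) ℝ) -
            (-y + cj u⁻¹ z + lg (w : Matrix (Fin D.n) (Fin D.n) ℝ) + -(cj t z)) +
            (cj u⁻¹ z - z) := by
          conv_rhs => rw [hyz]
          abel
        rw [h3]
        exact h2
      · rw [← conj_eU ((G1 D).inv_mem huG) hzl, eU_neg hyl, eU_neg (lcs_le_lie D k hTz),
          ← conj_eU ht hzl]
        calc eU z hzl * m * n₁ * (t * (eU z hzl * m)⁻¹ * t⁻¹) =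
            eU z hzl * (m * n₁ * (t * m⁻¹ * t⁻¹)) * (t * (eU z hzl)⁻¹ * t⁻¹) := by group
          _ = eU z hzl * (u * w) * (t * (eU z hzl)⁻¹ * t⁻¹) := by rw [h]
          _ = _ := by group
  obtain ⟨K, hK⟩ := exists_lcs_eq_bot D
  obtain ⟨m, hm, u, hu, w, hw, hwk, h⟩ := key K
  rw [hK, Submodule.mem_bot] at hwk
  rw [eq_one_of_lg hw hwk, mul_one] at h
  exact ⟨m, hm, by rw [h]; exact hu⟩

/-- Uniqueness: a twisted coboundary in `E0` comes from `E0`. -/
theorem mem_E0_of_coh {t g : (Matrix (Fin D.n) (Fin D.n) ℝ)ˣ} (ht : t ∈ G1 D) (hg : g ∈ D.NR)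
    (h : g * (t * g * t⁻¹)⁻¹ ∈ E0 D t) : g ∈ E0 D t := by
  have key : ∀ k, ∃ u ∈ E0 D t, ∃ w ∈ D.NR,
      lg (w : Matrix (Fin D.n) (Fin D.n) ℝ) ∈ lcs D k ∧ g = u * w := by
    intro k
    induction k with
    | zero => exact ⟨1, (E0 D t).one_mem, g, hg, lg_mem_lie D hg, by rw [one_mul]⟩
    | succ k ih =>
      obtain ⟨u, hu, w, hw, hwk, hguw⟩ := ih
      -- the twisted coboundary of `w` is in `E0`
      have hwE : w * (t * w * t⁻¹)⁻¹ ∈ E0 D t := by
        have h1 := (E0 D t).mul_mem ((E0 D t).mul_mem ((E0 D t).inv_mem hu) h)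
          (conj_mem_E0 ht hu)
        have e : u⁻¹ * (g * (t * g * t⁻¹)⁻¹) * (t * u * t⁻¹) = w * (t * w * t⁻¹)⁻¹ := by
          rw [hguw]; group
        rwa [e] at h1
      set Y := lg (w : Matrix (Fin D.n) (Fin D.n) ℝ) with hY
      have hYl := lcs_le_lie D k hwk
      have hTY : cj t Y ∈ lcs D k := cj_mem_lcs D ht k hwk
      have hwe : (t * w * t⁻¹)⁻¹ = eU (-(cj t Y)) ((lie D).neg_mem (lcs_le_lie D k hTY)) := by
        rw [eU_neg (lcs_le_lie D k hTY), ← conj_eU ht hYl, eU_lg hw]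
      have q := (Q.of_mem hw hwk).mul (Q.eU (k := k) ((lcs D k).neg_mem hTY))
      rw [← hwe] at q
      have ha : lg ((w * (t * w * t⁻¹)⁻¹ : (Matrix (Fin D.n) (Fin D.n) ℝ)ˣ) :
          Matrix (Fin D.n) (Fin D.n) ℝ) ∈ gs D t 0 := (mem_E0.1 hwE).2
      obtain ⟨y, hy, z, hz, hy0, hyz⟩ := mem_sup_of_sub_mem (cj t)
        (p := lcs D k) (p' := lcs D (k + 1)) (fun x hx => cj_mem_lcs D ht k hx)
        (fun x hx => by rw [cj_symm_apply]; exact cj_mem_lcs D ((G1 D).inv_mem ht) k hx)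
        (fun x hx => cj_mem_lcs D ht (k + 1) hx)
        (fun x hx => by rw [cj_symm_apply]; exact cj_mem_lcs D ((G1 D).inv_mem ht) (k + 1) hx)
        hwk ((growSpace (cj t) 0).neg_mem ha.2) q.congr (by abel)
      have hyl := lcs_le_lie D k hy
      refine ⟨u * eU y hyl, (E0 D t).mul_mem hu (eU_mem_E0 hyl hy0),
        eU (-y) ((lie D).neg_mem hyl) * w, D.NR.mul_mem (eU_mem _) hw, ?_, ?_⟩
      · have q2 := (Q.eU (k := k) ((lcs D k).neg_mem hy)).mul (Q.of_mem hw hwk)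
        have h2 := Submodule.add_mem _ q2.congr hz
        have h3 : lg ((eU (-y) ((lie D).neg_mem hyl) * w :
            (Matrix (Fin D.n) (Fin D.n) ℝ)ˣ) : Matrix (Fin D.n) (Fin D.n) ℝ) =
            lg ((eU (-y) ((lie D).neg_mem hyl) * w :
            (Matrix (Fin D.n) (Fin D.n) ℝ)ˣ) : Matrix (Fin D.n) (Fin D.n) ℝ) -
            (-y + lg (w : Matrix (Fin D.n) (Fin D.n) ℝ)) + z := by
          rw [← hY, hyz]; abel
        rw [h3]
        exact h2
      · rw [hguw, eU_neg hyl]; group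
  obtain ⟨K, hK⟩ := exists_lcs_eq_bot D
  obtain ⟨u, hu, w, hw, hwk, h⟩ := key K
  rw [hK, Submodule.mem_bot] at hwk
  rw [eq_one_of_lg hw hwk, mul_one] at h
  rw [h]; exact hu

theorem unip_ad {g : G1 D} (hg : g ∈ NR1 D) :
    ∃ d : ℕ, ((adE D g : lie D →ₗ[ℝ] lie D) - 1) ^ d = 0 := by
  obtain ⟨K, hK⟩ := exists_lcs_eq_bot D
  refine ⟨K, ?_⟩
  have key : ∀ (k : ℕ) (X : lie D), ((((adE D g : lie D →ₗ[ℝ] lie D) - 1) ^ k) X :
      Matrix (Fin D.n) (Fin D.n) ℝ) ∈ lcs D k := by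
    intro k
    induction k with
    | zero => intro X; exact X.2
    | succ k ih =>
      intro X
      rw [pow_succ', Module.End.mul_apply]
      exact cj_sub_mem_lcs hg (ih X)
  ext X : 1
  apply Subtype.ext
  have h1 := key K X
  rw [hK, Submodule.mem_bot] at h1
  rw [h1]; rfl

end lie

/-! ### the weight spaces and the group `C` -/

section cartan

attribute [local instance] Matrix.linftyOpNormedRing Matrix.linftyOpNormedAlgebra

variable {Γ : Type*} [Group Γ] {N : Subgroup Γ} [hN : N.Normal]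

/-- Weight data of the model: a generic element of `G1`. -/
structure Cartan (D : EmbData Γ N) {k : ℕ} (π₁ : G1 D →* Multiplicative (Fin k → ℤ)) where
  ker : ∀ g, π₁ g = 1 ↔ g ∈ NR1 D
  W : WtData (adE D) π₁
  t : G1 D
  gen : W.Generic (hv π₁ t)

variable {D : EmbData Γ N} {k : ℕ} {π₁ : G1 D →* Multiplicative (Fin k → ℤ)}


namespace Cartan

variable (𝒞 : Cartan D π₁)

include 𝒞 in
theorem unip {g : G1 D} (hg : π₁ g = 1) :
    ∃ d : ℕ, ((adE D g : lie D →ₗ[ℝ] lie D) - 1) ^ d = 0 := unip_ad ((𝒞.ker g).1 hg)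

/-- the base point -/
noncomputable def tm : (Matrix (Fin D.n) (Fin D.n) ℝ)ˣ := (𝒞.t : (Matrix (Fin D.n) (Fin D.n) ℝ)ˣ)

theorem tm_mem : 𝒞.tm ∈ G1 D := 𝒞.t.2


/-- If `c` has the same height as the generic element and preserves its growth spaces, then it has
the same growth spaces. -/
theorem growSpace_eq {c : G1 D} (hc : hv π₁ c = hv π₁ 𝒞.t) {s : ℝ}
    (h1 : ∀ v ∈ growSpace (adE D 𝒞.t) s, adE D c v ∈ growSpace (adE D 𝒞.t) s)
    (h2 : ∀ v ∈ growSpace (adE D 𝒞.t) s, adE D c⁻¹ v ∈ growSpace (adE D 𝒞.t) s) :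
    growSpace (adE D c) s = growSpace (adE D 𝒞.t) s := by
  symm
  refine Submodule.eq_of_le_of_finrank_eq ?_ ?_
  · by_cases hs : s ∈ rates (adE D 𝒞.t)
    · obtain ⟨i, hi⟩ := (𝒞.W.mem_rates 𝒞.t s).1 hs
      intro v hv
      have h3 := 𝒞.W.mem_growSpace (t := 𝒞.t) (s := s) (μ := 𝒞.W.M i)
        (fun j hj => 𝒞.gen.1 j i (by rw [hj, hi])) (fun g hg => 𝒞.unip hg) h1 h2 hv
      rwa [hc, hi] at h3
    · rw [growSpace_eq_bot hs]; exact bot_le
  · rw [𝒞.W.finrank_growSpace, 𝒞.W.finrank_growSpace, hc]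

theorem gs_eq_of_E0 {c : G1 D} {u : (Matrix (Fin D.n) (Fin D.n) ℝ)ˣ} (hu : u ∈ E0 D 𝒞.tm)
    (hc : (c : (Matrix (Fin D.n) (Fin D.n) ℝ)ˣ) = u * 𝒞.tm) (s : ℝ) :
    gs D (c : (Matrix (Fin D.n) (Fin D.n) ℝ)ˣ) s = gs D 𝒞.tm s := by
  have hht : hv π₁ c = hv π₁ 𝒞.t := by
    have h1 : c = (⟨u, NR_le D hu.1⟩ : G1 D) * 𝒞.t := Subtype.ext hc
    rw [h1, hv_mul]
    have h2 : π₁ (⟨u, NR_le D hu.1⟩ : G1 D) = 1 := (𝒞.ker _).2 hu.1
    have h3 : hv π₁ (⟨u, NR_le D hu.1⟩ : G1 D) = 0 := by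
      funext j
      rw [hv, h2]; simp
    rw [h3, zero_add]
  have htt : gs D 𝒞.tm s = (growSpace (adE D 𝒞.t) s).map (lie D).subtype := gs_eq_map D 𝒞.t s
  rw [htt, gs_eq_map D c s]
  congr 1
  have key : ∀ x : G1 D, (∀ X ∈ gs D 𝒞.tm s,
      cj (x : (Matrix (Fin D.n) (Fin D.n) ℝ)ˣ) X ∈ gs D 𝒞.tm s) →
      ∀ v ∈ growSpace (adE D 𝒞.t) s, adE D x v ∈ growSpace (adE D 𝒞.t) s := by
    intro x hx v hv
    rw [← coe_mem_gm_iff]
    exact (hx v ⟨v.2, (coe_mem_gm_iff D 𝒞.t s v).2 hv⟩).2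
  refine 𝒞.growSpace_eq hht (key c ?_) (key c⁻¹ ?_)
  · intro X hX
    rw [hc, cj_mul]
    exact cj_mem_gs_of_E0 hu ⟨cj_mem_lie D 𝒞.tm_mem hX.1, cj_mem_gm hX.2⟩
  · intro X hX
    have h1 : ((c⁻¹ : G1 D) : (Matrix (Fin D.n) (Fin D.n) ℝ)ˣ) = 𝒞.tm⁻¹ * u⁻¹ := by
      rw [Subgroup.coe_inv, hc, mul_inv_rev]
    have h2 := cj_mem_gs_of_E0 ((E0 D 𝒞.tm).inv_mem hu) hX
    rw [h1, cj_mul]
    exact ⟨cj_mem_lie D ((G1 D).inv_mem 𝒞.tm_mem) h2.1, cj_inv_mem_gm h2.2⟩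

/-- the condition defining `C` -/
def InC (g : G1 D) : Prop :=
  (g : (Matrix (Fin D.n) (Fin D.n) ℝ)ˣ) * 𝒞.tm * (g : (Matrix (Fin D.n) (Fin D.n) ℝ)ˣ)⁻¹ *
    𝒞.tm⁻¹ ∈ E0 D 𝒞.tm

variable {𝒞}

theorem InC.conj_gs {g : G1 D} (hg : 𝒞.InC g) (s : ℝ) :
    gs D ((g : (Matrix (Fin D.n) (Fin D.n) ℝ)ˣ) * 𝒞.tm *
      (g : (Matrix (Fin D.n) (Fin D.n) ℝ)ˣ)⁻¹) s = gs D 𝒞.tm s := by
  have h1 : ((g * 𝒞.t * g⁻¹ : G1 D) : (Matrix (Fin D.n) (Fin D.n) ℝ)ˣ) =
      ((g : (Matrix (Fin D.n) (Fin D.n) ℝ)ˣ) * 𝒞.tm *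
        (g : (Matrix (Fin D.n) (Fin D.n) ℝ)ˣ)⁻¹) := rfl
  rw [← h1]
  refine 𝒞.gs_eq_of_E0 hg ?_ s
  rw [h1]; group

/-- elements of `C` preserve the growth spaces of `t` -/
theorem InC.cj_mem {g : G1 D} (hg : 𝒞.InC g) {s : ℝ} {X : Matrix (Fin D.n) (Fin D.n) ℝ}
    (hX : X ∈ gs D 𝒞.tm s) : cj (g : (Matrix (Fin D.n) (Fin D.n) ℝ)ˣ) X ∈ gs D 𝒞.tm s := by
  rw [← hg.conj_gs s]
  exact ⟨cj_mem_lie D g.2 hX.1, cj_mem_gm_conj hX.2⟩

theorem InC.cj_inv_mem {g : G1 D} (hg : 𝒞.InC g) {s : ℝ} {X : Matrix (Fin D.n) (Fin D.n) ℝ}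
    (hX : X ∈ gs D 𝒞.tm s) : cj (g : (Matrix (Fin D.n) (Fin D.n) ℝ)ˣ)⁻¹ X ∈ gs D 𝒞.tm s := by
  rw [← hg.conj_gs s] at hX
  refine ⟨cj_mem_lie D ((G1 D).inv_mem g.2) hX.1, ?_⟩
  have h1 := cj_mem_gm_conj (g := (g : (Matrix (Fin D.n) (Fin D.n) ℝ)ˣ)⁻¹) hX.2
  have h2 : (g : (Matrix (Fin D.n) (Fin D.n) ℝ)ˣ)⁻¹ *
      ((g : (Matrix (Fin D.n) (Fin D.n) ℝ)ˣ) * 𝒞.tm *
        (g : (Matrix (Fin D.n) (Fin D.n) ℝ)ˣ)⁻¹) *
      ((g : (Matrix (Fin D.n) (Fin D.n) ℝ)ˣ)⁻¹)⁻¹ = 𝒞.tm := by group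
  rwa [h2] at h1

theorem InC.conj_E0 {g : G1 D} (hg : 𝒞.InC g) {u : (Matrix (Fin D.n) (Fin D.n) ℝ)ˣ}
    (hu : u ∈ E0 D 𝒞.tm) : (g : (Matrix (Fin D.n) (Fin D.n) ℝ)ˣ) * u *
      (g : (Matrix (Fin D.n) (Fin D.n) ℝ)ˣ)⁻¹ ∈ E0 D 𝒞.tm := by
  have h1 := hg.cj_mem (mem_E0.1 hu).2
  rw [← eU_lg hu.1, conj_eU g.2]
  exact eU_mem_E0 _ h1.2

theorem InC.conj_inv_E0 {g : G1 D} (hg : 𝒞.InC g) {u : (Matrix (Fin D.n) (Fin D.n) ℝ)ˣ}
    (hu : u ∈ E0 D 𝒞.tm) : (g : (Matrix (Fin D.n) (Fin D.n) ℝ)ˣ)⁻¹ * u *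
      (g : (Matrix (Fin D.n) (Fin D.n) ℝ)ˣ) ∈ E0 D 𝒞.tm := by
  have h1 := hg.cj_inv_mem (mem_E0.1 hu).2
  have h2 := conj_eU ((G1 D).inv_mem g.2) (lg_mem_lie D hu.1)
  rw [eU_lg hu.1, inv_inv] at h2
  rw [h2]
  exact eU_mem_E0 _ h1.2

variable (𝒞)

/-- **The Cartan-type subgroup** -/
noncomputable def C : Subgroup (G1 D) where
  carrier := {g | 𝒞.InC g}
  one_mem' := by
    change ((1 : G1 D) : (Matrix (Fin D.n) (Fin D.n) ℝ)ˣ) * 𝒞.tm *
      ((1 : G1 D) : (Matrix (Fin D.n) (Fin D.n) ℝ)ˣ)⁻¹ * 𝒞.tm⁻¹ ∈ E0 D 𝒞.tm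
    rw [Subgroup.coe_one]
    have : (1 : (Matrix (Fin D.n) (Fin D.n) ℝ)ˣ) * 𝒞.tm * 1⁻¹ * 𝒞.tm⁻¹ = 1 := by group
    rw [this]
    exact (E0 D 𝒞.tm).one_mem
  mul_mem' := by
    intro g h hg hh
    have h1 := (E0 D 𝒞.tm).mul_mem (InC.conj_E0 hg hh) hg
    change ((g * h : G1 D) : (Matrix (Fin D.n) (Fin D.n) ℝ)ˣ) * 𝒞.tm *
      ((g * h : G1 D) : (Matrix (Fin D.n) (Fin D.n) ℝ)ˣ)⁻¹ * 𝒞.tm⁻¹ ∈ E0 D 𝒞.tm
    have e : ((g * h : G1 D) : (Matrix (Fin D.n) (Fin D.n) ℝ)ˣ) * 𝒞.tm *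
      ((g * h : G1 D) : (Matrix (Fin D.n) (Fin D.n) ℝ)ˣ)⁻¹ * 𝒞.tm⁻¹ =
      ((g : (Matrix (Fin D.n) (Fin D.n) ℝ)ˣ) *
        ((h : (Matrix (Fin D.n) (Fin D.n) ℝ)ˣ) * 𝒞.tm *
          (h : (Matrix (Fin D.n) (Fin D.n) ℝ)ˣ)⁻¹ * 𝒞.tm⁻¹) *
        (g : (Matrix (Fin D.n) (Fin D.n) ℝ)ˣ)⁻¹) *
      ((g : (Matrix (Fin D.n) (Fin D.n) ℝ)ˣ) * 𝒞.tm *
        (g : (Matrix (Fin D.n) (Fin D.n) ℝ)ˣ)⁻¹ * 𝒞.tm⁻¹) := by
      rw [Subgroup.coe_mul]; group
    rw [e]; exact h1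
  inv_mem' := by
    intro g hg
    have h1 := (E0 D 𝒞.tm).inv_mem (InC.conj_inv_E0 hg hg)
    change ((g⁻¹ : G1 D) : (Matrix (Fin D.n) (Fin D.n) ℝ)ˣ) * 𝒞.tm *
      ((g⁻¹ : G1 D) : (Matrix (Fin D.n) (Fin D.n) ℝ)ˣ)⁻¹ * 𝒞.tm⁻¹ ∈ E0 D 𝒞.tm
    have e : ((g⁻¹ : G1 D) : (Matrix (Fin D.n) (Fin D.n) ℝ)ˣ) * 𝒞.tm *
      ((g⁻¹ : G1 D) : (Matrix (Fin D.n) (Fin D.n) ℝ)ˣ)⁻¹ * 𝒞.tm⁻¹ =
      ((g : (Matrix (Fin D.n) (Fin D.n) ℝ)ˣ)⁻¹ *
        ((g : (Matrix (Fin D.n) (Fin D.n) ℝ)ˣ) * 𝒞.tm *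
          (g : (Matrix (Fin D.n) (Fin D.n) ℝ)ˣ)⁻¹ * 𝒞.tm⁻¹) *
        (g : (Matrix (Fin D.n) (Fin D.n) ℝ)ˣ))⁻¹ := by
      rw [Subgroup.coe_inv]; group
    rw [e]; exact h1

theorem mem_C {g : G1 D} : g ∈ 𝒞.C ↔ 𝒞.InC g := Iff.rfl

theorem t_mem_C : 𝒞.t ∈ 𝒞.C := by
  rw [mem_C]
  change 𝒞.tm * 𝒞.tm * 𝒞.tm⁻¹ * 𝒞.tm⁻¹ ∈ E0 D 𝒞.tm
  have : 𝒞.tm * 𝒞.tm * 𝒞.tm⁻¹ * 𝒞.tm⁻¹ = 1 := by group
  rw [this]
  exact (E0 D 𝒞.tm).one_mem

/-- **`G1 = N_ℝ · C`** -/
theorem exists_mul (g : G1 D) : ∃ u ∈ NR1 D, ∃ c ∈ 𝒞.C, g = u * c := by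
  have hn : (g : (Matrix (Fin D.n) (Fin D.n) ℝ)ˣ) * 𝒞.tm *
      (g : (Matrix (Fin D.n) (Fin D.n) ℝ)ˣ)⁻¹ * 𝒞.tm⁻¹ ∈ D.NR := by
    have h1 : g * 𝒞.t * g⁻¹ * 𝒞.t⁻¹ ∈ NR1 D := by
      rw [← 𝒞.ker, map_mul, map_mul, map_mul, map_inv, map_inv, mul_comm (π₁ g) (π₁ 𝒞.t)]
      group
    exact h1
  obtain ⟨m, hm, h⟩ := exists_coh 𝒞.tm_mem hn
  refine ⟨(⟨m, NR_le D hm⟩ : G1 D)⁻¹, (NR1 D).inv_mem hm, ⟨m, NR_le D hm⟩ * g, ?_, by group⟩
  rw [mem_C]
  change (m * (g : (Matrix (Fin D.n) (Fin D.n) ℝ)ˣ)) * 𝒞.tm *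
    (m * (g : (Matrix (Fin D.n) (Fin D.n) ℝ)ˣ))⁻¹ * 𝒞.tm⁻¹ ∈ E0 D 𝒞.tm
  have e : (m * (g : (Matrix (Fin D.n) (Fin D.n) ℝ)ˣ)) * 𝒞.tm *
    (m * (g : (Matrix (Fin D.n) (Fin D.n) ℝ)ˣ))⁻¹ * 𝒞.tm⁻¹ =
    m * ((g : (Matrix (Fin D.n) (Fin D.n) ℝ)ˣ) * 𝒞.tm *
      (g : (Matrix (Fin D.n) (Fin D.n) ℝ)ˣ)⁻¹ * 𝒞.tm⁻¹) * (𝒞.tm * m⁻¹ * 𝒞.tm⁻¹) := by group
  rw [e]; exact h

/-- **`C ∩ N_ℝ = exp 𝔫_0`** -/
theorem mem_C_NR_iff (g : G1 D) : (g ∈ 𝒞.C ∧ g ∈ NR1 D) ↔
    (g : (Matrix (Fin D.n) (Fin D.n) ℝ)ˣ) ∈ E0 D 𝒞.tm := by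
  constructor
  · rintro ⟨h1, h2⟩
    refine mem_E0_of_coh 𝒞.tm_mem h2 ?_
    have h3 : 𝒞.InC g := h1
    have e : (g : (Matrix (Fin D.n) (Fin D.n) ℝ)ˣ) *
      (𝒞.tm * (g : (Matrix (Fin D.n) (Fin D.n) ℝ)ˣ) * 𝒞.tm⁻¹)⁻¹ =
      (g : (Matrix (Fin D.n) (Fin D.n) ℝ)ˣ) * 𝒞.tm *
      (g : (Matrix (Fin D.n) (Fin D.n) ℝ)ˣ)⁻¹ * 𝒞.tm⁻¹ := by group
    rw [e]; exact h3
  · intro h
    refine ⟨?_, h.1⟩
    have h1 := (E0 D 𝒞.tm).mul_mem h ((E0 D 𝒞.tm).inv_mem (conj_mem_E0 𝒞.tm_mem h))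
    have e : (g : (Matrix (Fin D.n) (Fin D.n) ℝ)ˣ) *
      (𝒞.tm * (g : (Matrix (Fin D.n) (Fin D.n) ℝ)ˣ) * 𝒞.tm⁻¹)⁻¹ =
      (g : (Matrix (Fin D.n) (Fin D.n) ℝ)ˣ) * 𝒞.tm *
      (g : (Matrix (Fin D.n) (Fin D.n) ℝ)ˣ)⁻¹ * 𝒞.tm⁻¹ := by group
    rw [e] at h1
    exact h1

/-! #### weights and weight spaces -/

/-- the finite set of weights of `𝔫` -/
noncomputable def wts : Finset ((Fin k → ℝ) →ₗ[ℝ] ℝ) := 𝒞.W.wts

theorem mem_wts {μ : (Fin k → ℝ) →ₗ[ℝ] ℝ} : μ ∈ 𝒞.wts ↔ ∃ i, 𝒞.W.M i = μ := 𝒞.W.mem_wts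

open Classical in
/-- the weight space -/
noncomputable def nw (μ : (Fin k → ℝ) →ₗ[ℝ] ℝ) : Submodule ℝ (Matrix (Fin D.n) (Fin D.n) ℝ) :=
  if μ ∈ 𝒞.wts then gs D 𝒞.tm (μ (hv π₁ 𝒞.t)) else ⊥

theorem nw_of_mem {μ : (Fin k → ℝ) →ₗ[ℝ] ℝ} (h : μ ∈ 𝒞.wts) :
    𝒞.nw μ = gs D 𝒞.tm (μ (hv π₁ 𝒞.t)) := if_pos h

theorem nw_of_notMem {μ : (Fin k → ℝ) →ₗ[ℝ] ℝ} (h : μ ∉ 𝒞.wts) : 𝒞.nw μ = ⊥ := if_neg h

theorem nw_le (μ : (Fin k → ℝ) →ₗ[ℝ] ℝ) : 𝒞.nw μ ≤ lie D := by
  by_cases h : μ ∈ 𝒞.wts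
  · rw [𝒞.nw_of_mem h]; exact gs_le D _ _
  · rw [𝒞.nw_of_notMem h]; exact bot_le

theorem gs_eq_bot_iff (s : ℝ) : gs D 𝒞.tm s = ⊥ ↔ s ∉ rates (adE D 𝒞.t) := by
  have htt : gs D 𝒞.tm s = (growSpace (adE D 𝒞.t) s).map (lie D).subtype := gs_eq_map D 𝒞.t s
  rw [htt, mem_rates, not_not]
  constructor
  · intro h
    apply Submodule.map_injective_of_injective (lie D).injective_subtype
    rw [h, Submodule.map_bot]
  · intro h
    rw [h, Submodule.map_bot]


/-- every growth space of `t` is a weight space or zero -/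
theorem gs_eq_nw_or {s : ℝ} : gs D 𝒞.tm s = ⊥ ∨
    ∃ μ ∈ 𝒞.wts, s = μ (hv π₁ 𝒞.t) ∧ 𝒞.nw μ = gs D 𝒞.tm s := by
  by_cases hs : s ∈ rates (adE D 𝒞.t)
  · obtain ⟨i, hi⟩ := (𝒞.W.mem_rates 𝒞.t s).1 hs
    right
    refine ⟨𝒞.W.M i, 𝒞.mem_wts.2 ⟨i, rfl⟩, hi.symm, ?_⟩
    rw [𝒞.nw_of_mem (𝒞.mem_wts.2 ⟨i, rfl⟩), hi]
  · left; exact (𝒞.gs_eq_bot_iff s).2 hs

theorem nw_zero : 𝒞.nw 0 = gs D 𝒞.tm 0 := by
  by_cases h : (0 : (Fin k → ℝ) →ₗ[ℝ] ℝ) ∈ 𝒞.wts
  · rw [𝒞.nw_of_mem h, LinearMap.zero_apply]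
  · rw [𝒞.nw_of_notMem h]
    symm
    rw [𝒞.gs_eq_bot_iff, 𝒞.W.mem_rates]
    rintro ⟨i, hi⟩
    exact h (𝒞.mem_wts.2 ⟨i, 𝒞.gen.2.1 i hi⟩)

/-- **brackets** -/
theorem bracket_mem_nw {μ ν : (Fin k → ℝ) →ₗ[ℝ] ℝ} {X Y : Matrix (Fin D.n) (Fin D.n) ℝ}
    (hX : X ∈ 𝒞.nw μ) (hY : Y ∈ 𝒞.nw ν) : X * Y - Y * X ∈ 𝒞.nw (μ + ν) := by
  by_cases hμ : μ ∈ 𝒞.wts
  swap
  · rw [𝒞.nw_of_notMem hμ, Submodule.mem_bot] at hX
    rw [hX, zero_mul, mul_zero, sub_zero]; exact Submodule.zero_mem _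
  by_cases hν : ν ∈ 𝒞.wts
  swap
  · rw [𝒞.nw_of_notMem hν, Submodule.mem_bot] at hY
    rw [hY, zero_mul, mul_zero, sub_zero]; exact Submodule.zero_mem _
  rw [𝒞.nw_of_mem hμ] at hX
  rw [𝒞.nw_of_mem hν] at hY
  have h1 := bracket_mem_gs D hX hY
  rcases 𝒞.gs_eq_nw_or (s := μ (hv π₁ 𝒞.t) + ν (hv π₁ 𝒞.t)) with h2 | ⟨lam, hlam, h3, h4⟩
  · rw [h2, Submodule.mem_bot] at h1
    rw [h1]; exact Submodule.zero_mem _
  · obtain ⟨i, rfl⟩ := 𝒞.mem_wts.1 hμ
    obtain ⟨j, rfl⟩ := 𝒞.mem_wts.1 hν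
    obtain ⟨l, rfl⟩ := 𝒞.mem_wts.1 hlam
    rw [← h4] at h1
    rw [𝒞.gen.2.2 i j l h3]
    exact h1

/-- `C` preserves the weight spaces -/
theorem cj_mem_nw {g : G1 D} (hg : g ∈ 𝒞.C) {μ : (Fin k → ℝ) →ₗ[ℝ] ℝ}
    {X : Matrix (Fin D.n) (Fin D.n) ℝ} (hX : X ∈ 𝒞.nw μ) :
    cj (g : (Matrix (Fin D.n) (Fin D.n) ℝ)ˣ) X ∈ 𝒞.nw μ := by
  by_cases hμ : μ ∈ 𝒞.wts
  · rw [𝒞.nw_of_mem hμ] at hX ⊢
    exact InC.cj_mem hg hX
  · rw [𝒞.nw_of_notMem hμ, Submodule.mem_bot] at hX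
    rw [hX, map_zero]; exact Submodule.zero_mem _

theorem mem_growSpace_of_mem_gs {s : ℝ} {X : Matrix (Fin D.n) (Fin D.n) ℝ}
    (hX : X ∈ gs D 𝒞.tm s) : (⟨X, hX.1⟩ : lie D) ∈ growSpace (adE D 𝒞.t) s :=
  (coe_mem_gm_iff D 𝒞.t s ⟨X, hX.1⟩).1 hX.2

/-- the decomposition of `𝔫` -/
theorem exists_decomp {X : Matrix (Fin D.n) (Fin D.n) ℝ} (hX : X ∈ lie D) :
    ∃ f : ((Fin k → ℝ) →ₗ[ℝ] ℝ) → Matrix (Fin D.n) (Fin D.n) ℝ,
      (∀ μ, f μ ∈ 𝒞.nw μ) ∧ X = ∑ μ ∈ 𝒞.wts, f μ := by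
  classical
  refine ⟨fun μ => if μ ∈ 𝒞.wts then
    (pr (adE D 𝒞.t) (μ (hv π₁ 𝒞.t)) ⟨X, hX⟩ : lie D) else 0, ?_, ?_⟩
  · intro μ
    by_cases hμ : μ ∈ 𝒞.wts
    · simp only [if_pos hμ]
      rw [𝒞.nw_of_mem hμ]
      exact ⟨Submodule.coe_mem _, (coe_mem_gm_iff D 𝒞.t _ _).2 (pr_mem _ _ _)⟩
    · simp only [if_neg hμ]; exact Submodule.zero_mem _
  · have h1 := congrArg (Subtype.val) (sum_pr (adE D 𝒞.t) ⟨X, hX⟩)
    rw [Submodule.coe_sum] at h1
    have h2 : rates (adE D 𝒞.t) = 𝒞.wts.image (fun μ => μ (hv π₁ 𝒞.t)) := by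
      ext s
      rw [𝒞.W.mem_rates, Finset.mem_image]
      constructor
      · rintro ⟨i, hi⟩
        exact ⟨𝒞.W.M i, 𝒞.mem_wts.2 ⟨i, rfl⟩, hi⟩
      · rintro ⟨μ, hμ, hs⟩
        obtain ⟨i, rfl⟩ := 𝒞.mem_wts.1 hμ
        exact ⟨i, hs⟩
    rw [h2, Finset.sum_image] at h1
    · rw [Finset.sum_congr rfl fun μ hμ => if_pos hμ]
      exact h1.symm
    · intro μ hμ ν hν h
      obtain ⟨i, rfl⟩ := 𝒞.mem_wts.1 hμ
      obtain ⟨j, rfl⟩ := 𝒞.mem_wts.1 hν
      exact 𝒞.gen.1 i j h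


/-- components stay in subspaces invariant under `Ad` of the base point -/
theorem mem_of_invariant {p : Submodule ℝ (Matrix (Fin D.n) (Fin D.n) ℝ)}
    (h1 : ∀ X ∈ p, cj 𝒞.tm X ∈ p) (h2 : ∀ X ∈ p, cj 𝒞.tm⁻¹ X ∈ p)
    {f : ((Fin k → ℝ) →ₗ[ℝ] ℝ) → Matrix (Fin D.n) (Fin D.n) ℝ}
    (hf : ∀ μ, f μ ∈ 𝒞.nw μ) (h : ∑ μ ∈ 𝒞.wts, f μ ∈ p) (μ : (Fin k → ℝ) →ₗ[ℝ] ℝ) :
    f μ ∈ p := by
  classical
  by_cases hμ : μ ∈ 𝒞.wts
  swap
  · have := hf μ
    rw [𝒞.nw_of_notMem hμ, Submodule.mem_bot] at this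
    rw [this]; exact Submodule.zero_mem _
  have hmem : ∀ ν ∈ 𝒞.wts, f ν ∈ gs D 𝒞.tm (ν (hv π₁ 𝒞.t)) := fun ν hν => by
    rw [← 𝒞.nw_of_mem hν]; exact hf ν
  have h3 : ((∑ ν ∈ 𝒞.wts.attach, (⟨f ν, 𝒞.nw_le _ (hf ν)⟩ : lie D) : lie D) :
      Matrix (Fin D.n) (Fin D.n) ℝ) = ∑ μ ∈ 𝒞.wts, f μ := by
    rw [Submodule.coe_sum]
    change ∑ ν ∈ 𝒞.wts.attach, f ν = _
    rw [Finset.sum_attach 𝒞.wts f]
  have h4 := pr_mem_of_invariant (adE D 𝒞.t) (p := p.comap (lie D).subtype)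
    (fun x hx => h1 _ hx) (fun x hx => h2 _ hx) (μ (hv π₁ 𝒞.t))
    (v := ∑ ν ∈ 𝒞.wts.attach, (⟨f ν, 𝒞.nw_le _ (hf ν)⟩ : lie D)) (by
      rw [Submodule.mem_comap, Submodule.subtype_apply, h3]; exact h)
  rw [map_sum, Finset.sum_eq_single ⟨μ, hμ⟩] at h4
  · rw [pr_of_mem _ (𝒞.mem_growSpace_of_mem_gs (hmem μ hμ))] at h4
    exact h4
  · rintro ⟨ν, hν⟩ - hne
    refine pr_of_mem_ne _ ?_ (𝒞.mem_growSpace_of_mem_gs (hmem ν hν))
    intro heq
    apply hne
    obtain ⟨i, rfl⟩ := 𝒞.mem_wts.1 hμ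
    obtain ⟨j, rfl⟩ := 𝒞.mem_wts.1 hν
    exact Subtype.ext (𝒞.gen.1 j i heq)
  · intro h; exact absurd (Finset.mem_attach _ _) h

end Cartan

end cartan

end Crest.Agent.R182.ModelWt
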