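/-
R182, module MODEL (S2, S3): `𝔫/[𝔫,𝔫] ≅ N^ab ⊗ ℝ`, and the eigenvalues of `Ad(γ)` on `𝔫` are
products of the `χ_i(γ)`.
-/
import Mathlib
import Crest.Agent.R182.ModelWt
import Crest.Agent.R182.ModelCross

set_option autoImplicit false
set_option linter.unusedSectionVars false

namespace Crest.Agent.R182.Model

open Polyc ModelWt Module

section K

variable {Γ : Type*} [Group Γ] (R : RootData Γ) (D : EmbData Γ R.N)

/-- the coordinates of `κ` as complex homomorphisms -/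
noncomputable def κc (j : Fin R.m) (n : R.N) : ℂ := (R.κ n j : ℂ)

theorem κc_mul (j : Fin R.m) (a b : R.N) : κc R j (a * b) = κc R j a + κc R j b := by
  simp only [κc, R.κ_mul, Pi.add_apply]
  push_cast
  rfl

/-- the linear map `𝔫 → N^ab ⊗ ℝ` -/
noncomputable def Kx : Matrix (Fin D.n) (Fin D.n) ℝ →ₗ[ℝ] (Fin R.m → ℝ) :=
  LinearMap.pi fun j => ∑ i, (R.κ ⟨D.a i, D.mem i⟩ j : ℝ) • D.cR i

theorem Kx_eq (M : Matrix (Fin D.n) (Fin D.n) ℝ) (j : Fin R.m) :
    ((Kx R D M j : ℝ) : ℂ) = Lm D (κc R j) M := by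
  rw [Lm_apply, Kx, LinearMap.pi_apply, LinearMap.sum_apply]
  push_cast
  refine Finset.sum_congr rfl fun i _ => ?_
  rw [LinearMap.smul_apply, smul_eq_mul, Complex.real_smul, κc]
  push_cast
  ring

variable {R D}

theorem Kx_ext {M M' : Matrix (Fin D.n) (Fin D.n) ℝ}
    (h : ∀ j, Lm D (κc R j) M = Lm D (κc R j) M') : Kx R D M = Kx R D M' := by
  funext j
  have := h j
  rw [← Kx_eq, ← Kx_eq] at this
  exact_mod_cast this

theorem Kx_ρu (n : R.N) : Kx R D (D.ρu n : Matrix (Fin D.n) (Fin D.n) ℝ) =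
    fun j => (R.κ n j : ℝ) := by
  funext j
  have h1 := Lm_ρu (D := D) (κc_mul R j) n
  rw [← Kx_eq] at h1
  simp only [κc] at h1
  exact_mod_cast h1


theorem Kx_ex {X : Matrix (Fin D.n) (Fin D.n) ℝ} (hX : X ∈ lie D) :
    Kx R D (ex X) = Kx R D X := Kx_ext fun j => Lm_ex (κc_mul R j) hX



theorem Kx_lg {g : (Matrix (Fin D.n) (Fin D.n) ℝ)ˣ} (hg : g ∈ D.NR) :
    Kx R D (lg (g : Matrix (Fin D.n) (Fin D.n) ℝ)) =
      Kx R D (g : Matrix (Fin D.n) (Fin D.n) ℝ) := Kx_ext fun j => Lm_lg (κc_mul R j) hg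

/-- equivariance -/
theorem Kx_Ad (γ : Γ) {X : Matrix (Fin D.n) (Fin D.n) ℝ} (hX : X ∈ lie D) :
    Kx R D (cj (D.ρu γ) X) = ((R.A γ).map (Int.cast : ℤ → ℝ)).mulVec (Kx R D X) := by
  have hA : ∀ n : R.N, Kx R D (D.ρu (γ * n * γ⁻¹) : Matrix (Fin D.n) (Fin D.n) ℝ) =
      ((R.A γ).map (Int.cast : ℤ → ℝ)).mulVec
        (Kx R D (D.ρu n : Matrix (Fin D.n) (Fin D.n) ℝ)) := by
    intro n
    have h1 := Kx_ρu (D := D) (R := R) ⟨γ * n * γ⁻¹, R.normal.conj_mem n n.2 γ⟩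
    rw [h1, Kx_ρu, R.κ_conj]
    funext j
    simp only [Matrix.mulVec, dotProduct, Matrix.map_apply]
    push_cast
    rfl
  have key : ∀ x, Kx R D (cj (D.ρu γ) (D.Eu x : Matrix (Fin D.n) (Fin D.n) ℝ)) =
      ((R.A γ).map (Int.cast : ℤ → ℝ)).mulVec
        (Kx R D (D.Eu x : Matrix (Fin D.n) (Fin D.n) ℝ)) := by
    intro x
    funext j
    have p1 : IsPolyM (fun x : Fin D.r → ℝ => (cj (D.ρu γ) (D.Eu x :
        Matrix (Fin D.n) (Fin D.n) ℝ))) :=
      ((IsPolyM.const (D.ρu γ : Matrix (Fin D.n) (Fin D.n) ℝ)).mul D.isPolyU_Eu.1).mul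
      (IsPolyM.const (((D.ρu γ)⁻¹ : (Matrix (Fin D.n) (Fin D.n) ℝ)ˣ) :
        Matrix (Fin D.n) (Fin D.n) ℝ))
    refine (p1.linear ((LinearMap.proj j) ∘ₗ Kx R D)).eq_of_int
      (D.isPolyU_Eu.1.linear ((LinearMap.proj j) ∘ₗ
        (Matrix.mulVecLin ((R.A γ).map (Int.cast : ℤ → ℝ))) ∘ₗ Kx R D)) (fun z => ?_) x
    have e1 : D.Eu (fun i => (z i : ℝ)) = D.ρu (prodE D.a z) := D.Eu_int z
    simp only [e1, LinearMap.comp_apply, LinearMap.proj_apply, Matrix.mulVecLin_apply]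
    have h1 := hA ⟨_, D.prodE_mem z⟩
    rw [← h1, cj_apply, ← Units.val_mul, ← map_inv, ← Units.val_mul, ← map_mul, ← map_mul]
  have h1 : cj (D.ρu γ) X ∈ lie D := cj_mem_lie D (ρu_mem D γ) hX
  rw [← Kx_ex h1, ← Kx_ex hX, ← cj_ex]
  obtain ⟨x, hx⟩ : ∃ x, D.Eu x = exU X (lie_pow_zero D hX) := exU_mem_of_lie D hX
  have h2 : ex X = (D.Eu x : Matrix (Fin D.n) (Fin D.n) ℝ) := by rw [hx]; rfl
  rw [h2]
  exact key x

theorem Kx_surj (v : Fin R.m → ℝ) : ∃ X ∈ lie D, Kx R D X = v := by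
  have h1 : (lie D).map (Kx R D) = ⊤ := by
    rw [eq_top_iff]
    intro v _
    rw [← Finset.univ_sum_single v]
    refine Submodule.sum_mem _ fun i _ => ?_
    have h2 : Pi.single i (v i) = v i • (Pi.single i (1 : ℝ) : Fin R.m → ℝ) := by
      rw [← Pi.single_smul, smul_eq_mul, mul_one]
    rw [h2]
    refine Submodule.smul_mem _ _ ?_
    obtain ⟨n, hn⟩ := R.κ_surj (Pi.single i 1)
    refine ⟨lg (D.ρu n : Matrix (Fin D.n) (Fin D.n) ℝ), lg_mem_lie D
      ((D.ρu_mem_NR_iff _).mpr n.2), ?_⟩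
    rw [Kx_lg ((D.ρu_mem_NR_iff _).mpr n.2), Kx_ρu, hn]
    funext j
    by_cases hj : j = i
    · subst hj; simp
    · simp [Pi.single_eq_of_ne hj]
  have h2 : v ∈ (lie D).map (Kx R D) := by rw [h1]; trivial
  exact h2

/-- the kernel of `K` on `𝔫` is `[𝔫,𝔫]` -/
theorem Kx_ker {X : Matrix (Fin D.n) (Fin D.n) ℝ} (hX : X ∈ lie D) (h0 : Kx R D X = 0) :
    X ∈ lcs D 1 := by
  classical
  by_contra hcon
  obtain ⟨F, hF1, hF2⟩ := Submodule.exists_le_ker_of_notMem hcon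
  have hbr : ∀ X ∈ lie D, ∀ Y ∈ lie D, F (X * Y - Y * X) = 0 := fun X hX Y hY =>
    hF2 (Submodule.subset_span ⟨X, hX, Y, hY, rfl⟩)
  have hNR : ∀ n : R.N, D.ρu n ∈ D.NR := fun n => (D.ρu_mem_NR_iff _).mpr n.2
  let f : R.N → ℂ := fun n => ((F (lg (D.ρu n : Matrix (Fin D.n) (Fin D.n) ℝ)) : ℝ) : ℂ)
  have hf : ∀ a b, f (a * b) = f a + f b := by
    intro a b
    have h1 := lg_hom F hbr (hNR a) (hNR b)
    rw [← Units.val_mul, ← map_mul] at h1
    change ((F (lg (D.ρu ((a * b : R.N) : Γ) : Matrix (Fin D.n) (Fin D.n) ℝ)) : ℝ) : ℂ) = _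
    rw [Subgroup.coe_mul, h1]
    push_cast
    rfl
  -- `f` kills the kernel of `κ`
  have hker : ∀ n : R.N, R.κ n = 0 → f n = 0 := by
    intro n hn
    obtain ⟨j, hj, h⟩ := R.κ_ker n hn
    let f' : R.N →* Multiplicative ℂ :=
      { toFun := fun n => Multiplicative.ofAdd (f n)
        map_one' := by rw [hom_one hf]; rfl
        map_mul' := fun a b => by rw [hf]; rfl }
    have h1 : ⁅R.N, R.N⁆ ≤ f'.ker.map R.N.subtype := by
      rw [Subgroup.commutator_le]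
      intro g hg h hh
      refine ⟨(⟨g, hg⟩ : R.N) * (⟨h, hh⟩ : R.N) * (⟨g, hg⟩ : R.N)⁻¹ * (⟨h, hh⟩ : R.N)⁻¹, ?_, rfl⟩
      rw [SetLike.mem_coe, MonoidHom.mem_ker, map_mul, map_mul, map_mul,
        map_inv, map_inv, mul_comm (f' ⟨g, hg⟩) (f' ⟨h, hh⟩)]
      group
    obtain ⟨y, hy, hyx⟩ := h1 h
    have h2 : y = n ^ j := Subtype.ext hyx
    have h3 : f (n ^ j) = 0 := by
      rw [← h2]
      exact congrArg Multiplicative.toAdd (MonoidHom.mem_ker.mp hy)
    rw [hom_pow hf] at h3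
    exact (mul_eq_zero.mp h3).resolve_left (by exact_mod_cast hj.ne')
  choose nn hnn using fun i : Fin R.m => R.κ_surj (Pi.single i 1)
  have hform : ∀ n : R.N, f n = ∑ i, (R.κ n i : ℂ) * f (nn i) := by
    intro n
    let p : R.N := (List.ofFn fun i => nn i ^ R.κ n i).prod
    have h1 : ∀ (ℓ : R.N → ℂ), (∀ a b, ℓ (a * b) = ℓ a + ℓ b) →
        ℓ p = ∑ i, (R.κ n i : ℂ) * ℓ (nn i) := by
      intro ℓ hℓ
      rw [hom_list hℓ, List.map_ofFn, List.sum_ofFn]
      exact Finset.sum_congr rfl fun i _ => hom_zpow hℓ _ _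
    have h2 : R.κ (n * p⁻¹) = 0 := by
      funext j
      have h3 := κc_mul R j n p⁻¹
      rw [hom_inv (κc_mul R j), h1 _ (κc_mul R j)] at h3
      have h4 : ∑ i, (R.κ n i : ℂ) * κc R j (nn i) = κc R j n := by
        rw [Finset.sum_eq_single j]
        · simp only [κc, hnn]; simp
        · intro i _ hi
          simp only [κc, hnn]
          rw [Pi.single_eq_of_ne (Ne.symm hi)]; simp
        · intro h; exact absurd (Finset.mem_univ j) h
      rw [h4, add_neg_cancel] at h3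
      simp only [κc] at h3
      exact_mod_cast h3
    have h3 := hker _ h2
    rw [hf, hom_inv hf, h1 f hf] at h3
    linear_combination h3
  -- density
  have key : ∀ x, F (lg (D.Eu x : Matrix (Fin D.n) (Fin D.n) ℝ)) =
      ∑ i, (F (lg (D.ρu (nn i) : Matrix (Fin D.n) (Fin D.n) ℝ))) *
        Kx R D (D.Eu x : Matrix (Fin D.n) (Fin D.n) ℝ) i := by
    intro x
    have p2 : IsPoly (fun x : Fin D.r → ℝ =>
        ∑ i, (F (lg (D.ρu (nn i) : Matrix (Fin D.n) (Fin D.n) ℝ))) *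
        Kx R D (D.Eu x : Matrix (Fin D.n) (Fin D.n) ℝ) i) :=
      IsPoly.sum _ fun i _ => (Polyc.IsPoly.const _).mul
        (D.isPolyU_Eu.1.linear ((LinearMap.proj i) ∘ₗ Kx R D))
    refine ((isPolyM_lg D.isPolyU_Eu.1).linear F).eq_of_int p2 (fun z => ?_) x
    have e1 : D.Eu (fun i => (z i : ℝ)) = D.ρu (prodE D.a z) := D.Eu_int z
    simp only [e1]
    have h1 := hform ⟨_, D.prodE_mem z⟩
    have h2 := Kx_ρu (D := D) (R := R) ⟨_, D.prodE_mem z⟩
    simp only at h2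
    rw [h2]
    simp only [f] at h1
    have h3 : ((F (lg (D.ρu (prodE D.a z) : Matrix (Fin D.n) (Fin D.n) ℝ)) : ℝ) : ℂ) =
        ((∑ i, (F (lg (D.ρu (nn i) : Matrix (Fin D.n) (Fin D.n) ℝ))) *
          (R.κ ⟨_, D.prodE_mem z⟩ i : ℝ) : ℝ) : ℂ) := by
      rw [h1]
      push_cast
      exact Finset.sum_congr rfl fun i _ => mul_comm _ _
    exact_mod_cast h3
  apply hF1
  obtain ⟨x, hx⟩ : ∃ x, D.Eu x = exU X (lie_pow_zero D hX) := exU_mem_of_lie D hX
  have h2 : (D.Eu x : Matrix (Fin D.n) (Fin D.n) ℝ) = ex X := by rw [hx]; rfl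
  have h3 := key x
  rw [h2, lg_ex (lie_pow_zero D hX), Kx_ex hX, h0] at h3
  rw [h3]
  simp

end K

/-! ### eigenvalues of `Ad(γ)` -/

section eig

variable {Γ : Type*} [Group Γ] {R : RootData Γ} {D : EmbData Γ R.N}

/-- `z` is a nonempty product of `χ_i(γ)`'s -/
def IsProd (R : RootData Γ) (γ : Γ) (z : ℂ) : Prop :=
  ∃ s : Multiset (Fin R.m), s ≠ 0 ∧ z = (s.map fun i => ((R.χ i γ : ℂˣ) : ℂ)).prod

theorem IsProd.mem_B {γ : Γ} {z : ℂ} (h : IsProd R γ z) : ∃ u ∈ R.B, ((u : ℂˣ) : ℂ) = z := by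
  obtain ⟨s, -, rfl⟩ := h
  refine ⟨(s.map fun i => R.χ i γ).prod, ?_, ?_⟩
  · refine Subgroup.multiset_prod_mem _ _ ?_
    intro x hx
    obtain ⟨i, -, rfl⟩ := Multiset.mem_map.mp hx
    exact R.χ_B i γ
  · induction s using Multiset.induction_on with
    | empty => simp
    | cons a s ih => simp [ih]

/-- conjugation by `γ` on the terms of the lower central series -/
noncomputable def Tk (D : EmbData Γ R.N) (γ : Γ) (k : ℕ) : lcs D k →ₗ[ℝ] lcs D k :=
  ((cj (D.ρu γ)).toLinearMap.restrict fun _ hX => cj_mem_lcs D (ρu_mem D γ) k hX)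

theorem coe_Tk (γ : Γ) (k : ℕ) (X : lcs D k) :
    ((Tk D γ k X : lcs D k) : Matrix (Fin D.n) (Fin D.n) ℝ) = cj (D.ρu γ) X := rfl

theorem Tk_surjective (γ : Γ) (k : ℕ) : Function.Surjective (Tk D γ k) := by
  intro X
  refine ⟨⟨cj (D.ρu γ)⁻¹ X, cj_mem_lcs D ((G1 D).inv_mem (ρu_mem D γ)) k X.2⟩, ?_⟩
  apply Subtype.ext
  rw [coe_Tk, cj_cj_inv]

/-- eigenfunctionals on `𝔫/[𝔫,𝔫]` -/
theorem eig_zero (γ : Γ) (φ : lie D →ₗ[ℝ] ℂ) (hφ : φ ≠ 0)
    (h1 : ∀ X : lie D, (X : Matrix (Fin D.n) (Fin D.n) ℝ) ∈ lcs D 1 → φ X = 0) (z : ℂ)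
    (hz : ∀ X : lie D, φ (Tk D γ 0 X) = z * φ X) :
    ∃ i, z = ((R.χ i γ : ℂˣ) : ℂ) := by
  classical
  choose X hX using fun j : Fin R.m => Kx_surj (D := D) (R := R) (Pi.single j 1)
  let w : Fin R.m → ℂ := fun j => φ ⟨X j, (hX j).1⟩
  have hform : ∀ Y : lie D, φ Y = ∑ j, Kx R D Y j • w j := by
    intro Y
    have h2 : φ (Y - ∑ j, Kx R D Y j • (⟨X j, (hX j).1⟩ : lie D)) = 0 := by
      apply h1
      apply Kx_ker (Submodule.coe_mem _)
      rw [Submodule.coe_sub, Submodule.coe_sum, map_sub, map_sum]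
      simp only [Submodule.coe_smul, map_smul, (hX _).2]
      rw [sub_eq_zero]
      funext i
      rw [Finset.sum_apply, Finset.sum_eq_single i]
      · simp
      · intro j _ hj
        rw [Pi.smul_apply, Pi.single_eq_of_ne (Ne.symm hj), smul_zero]
      · intro h; exact absurd (Finset.mem_univ i) h
    rw [map_sub, map_sum, sub_eq_zero] at h2
    rw [h2]
    refine Finset.sum_congr rfl fun j _ => ?_
    rw [map_smul]
  have hw : w ≠ 0 := by
    intro hw
    apply hφ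
    ext Y
    rw [hform Y, hw]
    simp
  have hwA : Matrix.vecMul w (Matrix.scalar (Fin R.m) z -
      (R.A γ).map (Int.castRingHom ℂ)) = 0 := by
    funext i
    rw [Matrix.vecMul_sub, Pi.sub_apply, Pi.zero_apply, sub_eq_zero]
    have h2 : (Matrix.vecMul w (Matrix.scalar (Fin R.m) z)) i = z * w i := by
      rw [Matrix.scalar_apply, Matrix.vecMul_diagonal, mul_comm]
    rw [h2]
    have h3 := hz ⟨X i, (hX i).1⟩
    rw [hform, coe_Tk] at h3
    simp only at h3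
    have h4 : Kx R D (cj (D.ρu γ) (X i)) =
        ((R.A γ).map (Int.cast : ℤ → ℝ)).mulVec (Pi.single i 1) := by
      rw [Kx_Ad γ (hX i).1, (hX i).2]
    rw [h4] at h3
    change _ = z * w i at h3
    rw [← h3, Matrix.vecMul, dotProduct]
    refine Finset.sum_congr rfl fun j _ => ?_
    rw [Matrix.mulVec_single_one, Complex.real_smul, mul_comm]
    simp
  have hdet := Matrix.exists_vecMul_eq_zero_iff.mp ⟨w, hw, hwA⟩
  rw [← Matrix.eval_charpoly, Matrix.charpoly_map, R.A_charpoly, R.cp_eq,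
    Polynomial.eval_prod, Finset.prod_eq_zero_iff] at hdet
  obtain ⟨i, -, hi⟩ := hdet
  refine ⟨i, ?_⟩
  rw [Polynomial.eval_sub, Polynomial.eval_X, Polynomial.eval_C, sub_eq_zero] at hi
  exact hi

/-- `[𝔫', 𝔫^k] ⊆ 𝔫^{k+2}` -/
theorem bracket_lcs_one {X Y : Matrix (Fin D.n) (Fin D.n) ℝ} {k : ℕ} (hX : X ∈ lcs D 1)
    (hY : Y ∈ lcs D k) : X * Y - Y * X ∈ lcs D (k + 2) := by
  have h1 : lcs D 1 ≤ (lcs D (k + 2)).comap
      (LinearMap.mulRight ℝ Y - LinearMap.mulLeft ℝ Y) := by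
    refine Submodule.span_le.mpr ?_
    rintro _ ⟨A, hA, B, hB, rfl⟩
    change (A * B - B * A) * Y - Y * (A * B - B * A) ∈ lcs D (k + 2)
    have e : (A * B - B * A) * Y - Y * (A * B - B * A) =
        (A * (B * Y - Y * B) - (B * Y - Y * B) * A) -
        (B * (A * Y - Y * A) - (A * Y - Y * A) * B) := by noncomm_ring
    rw [e]
    exact Submodule.sub_mem _ (bracket_mem_lcs D hA (bracket_mem_lcs D hB hY))
      (bracket_mem_lcs D hB (bracket_mem_lcs D hA hY))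
  exact h1 hX

/-- **eigenvalues of `Ad(γ)` are products of the `χ_i(γ)`** -/
theorem eig_lcs (γ : Γ) (k : ℕ) : ∀ (φ : lcs D k →ₗ[ℝ] ℂ), φ ≠ 0 →
    (∀ X : lcs D k, (X : Matrix (Fin D.n) (Fin D.n) ℝ) ∈ lcs D (k + 1) → φ X = 0) → ∀ z : ℂ,
    (∀ X : lcs D k, φ (Tk D γ k X) = z * φ X) → IsProd R γ z := by
  classical
  induction k with
  | zero =>
    intro φ hφ h1 z hz
    obtain ⟨i, hi⟩ := eig_zero γ φ hφ h1 z hz
    exact ⟨{i}, by simp, by simp [hi]⟩
  | succ k ih =>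
    intro φ hφ h1 z hz
    -- the space of bilinear maps
    let br : lie D → lcs D k → lcs D (k + 1) := fun X Y =>
      ⟨(X : Matrix (Fin D.n) (Fin D.n) ℝ) * Y - Y * X, bracket_mem_lcs D X.2 Y.2⟩
    let E : Submodule ℂ (lie D →ₗ[ℝ] lcs D k →ₗ[ℝ] ℂ) :=
      { carrier := {β | (∀ X : lie D, (X : Matrix (Fin D.n) (Fin D.n) ℝ) ∈ lcs D 1 →
            ∀ Y, β X Y = 0) ∧
          (∀ X, ∀ Y : lcs D k, (Y : Matrix (Fin D.n) (Fin D.n) ℝ) ∈ lcs D (k + 1) →
            β X Y = 0) ∧ ∀ X Y, β (Tk D γ 0 X) (Tk D γ k Y) = z * β X Y}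
        add_mem' := by
          rintro a b ⟨a1, a2, a3⟩ ⟨b1, b2, b3⟩
          refine ⟨fun X hX Y => ?_, fun X Y hY => ?_, fun X Y => ?_⟩
          · rw [LinearMap.add_apply, LinearMap.add_apply, a1 X hX, b1 X hX, add_zero]
          · rw [LinearMap.add_apply, LinearMap.add_apply, a2 X Y hY, b2 X Y hY, add_zero]
          · rw [LinearMap.add_apply, LinearMap.add_apply, a3, b3, LinearMap.add_apply,
              LinearMap.add_apply, mul_add]
        zero_mem' := by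
          refine ⟨fun X hX Y => rfl, fun X Y hY => rfl, fun X Y => ?_⟩
          simp
        smul_mem' := by
          rintro c a ⟨a1, a2, a3⟩
          refine ⟨fun X hX Y => ?_, fun X Y hY => ?_, fun X Y => ?_⟩
          · rw [LinearMap.smul_apply, LinearMap.smul_apply, a1 X hX, smul_zero]
          · rw [LinearMap.smul_apply, LinearMap.smul_apply, a2 X Y hY, smul_zero]
          · rw [LinearMap.smul_apply, LinearMap.smul_apply, a3, LinearMap.smul_apply,
              LinearMap.smul_apply, smul_eq_mul, smul_eq_mul]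
            ring }
    have hfinR : Module.Finite ℝ (lie D →ₗ[ℝ] lcs D k →ₗ[ℝ] ℂ) := inferInstance
    have hfin : Module.Finite ℂ (lie D →ₗ[ℝ] lcs D k →ₗ[ℝ] ℂ) :=
      Module.Finite.of_restrictScalars_finite ℝ ℂ _
    have hfinE : FiniteDimensional ℂ E := inferInstance
    -- the operator
    let S : (lie D →ₗ[ℝ] lcs D k →ₗ[ℝ] ℂ) →ₗ[ℂ] (lie D →ₗ[ℝ] lcs D k →ₗ[ℝ] ℂ) :=
      { toFun := fun β => β ∘ₗ (Tk D γ 0)
        map_add' := fun a b => rfl
        map_smul' := fun c a => rfl }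
    have hS : ∀ β X Y, S β X Y = β (Tk D γ 0 X) Y := fun β X Y => rfl
    have hSE : ∀ β ∈ E, S β ∈ E := by
      rintro β ⟨a1, a2, a3⟩
      refine ⟨fun X hX Y => ?_, fun X Y hY => ?_, fun X Y => ?_⟩
      · rw [hS]
        exact a1 _ (cj_mem_lcs D (ρu_mem D γ) 1 hX) Y
      · rw [hS]; exact a2 _ _ hY
      · rw [hS, hS, a3]
    -- a nonzero element
    let β₀ : lie D →ₗ[ℝ] lcs D k →ₗ[ℝ] ℂ :=
      LinearMap.mk₂ ℝ (fun X Y => φ (br X Y))
        (by
          intro X X' Y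
          rw [← map_add]; congr 1
          apply Subtype.ext
          change ((X + X' : lie D) : Matrix (Fin D.n) (Fin D.n) ℝ) * Y - Y * (X + X' : lie D) =
            (X * Y - Y * X : Matrix (Fin D.n) (Fin D.n) ℝ) + (X' * Y - Y * X')
          rw [Submodule.coe_add]
          noncomm_ring)
        (by
          intro c X Y
          rw [← map_smul]; congr 1
          apply Subtype.ext
          change ((c • X : lie D) : Matrix (Fin D.n) (Fin D.n) ℝ) * Y - Y * (c • X : lie D) =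
            c • (X * Y - Y * X : Matrix (Fin D.n) (Fin D.n) ℝ)
          rw [Submodule.coe_smul, smul_mul_assoc, mul_smul_comm, smul_sub])
        (by
          intro X Y Y'
          rw [← map_add]; congr 1
          apply Subtype.ext
          change (X : Matrix (Fin D.n) (Fin D.n) ℝ) * ((Y + Y' : lcs D k) :
            Matrix (Fin D.n) (Fin D.n) ℝ) - (Y + Y' : lcs D k) * X =
            (X * Y - Y * X : Matrix (Fin D.n) (Fin D.n) ℝ) + (X * Y' - Y' * X)
          rw [Submodule.coe_add]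
          noncomm_ring)
        (by
          intro c X Y
          rw [← map_smul]; congr 1
          apply Subtype.ext
          change (X : Matrix (Fin D.n) (Fin D.n) ℝ) * ((c • Y : lcs D k) :
            Matrix (Fin D.n) (Fin D.n) ℝ) - (c • Y : lcs D k) * X =
            c • (X * Y - Y * X : Matrix (Fin D.n) (Fin D.n) ℝ)
          rw [Submodule.coe_smul, smul_mul_assoc, mul_smul_comm, smul_sub])
    have hβ₀ : ∀ X Y, β₀ X Y = φ (br X Y) := fun X Y => rfl
    have hβ₀E : β₀ ∈ E := by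
      refine ⟨fun X hX Y => ?_, fun X Y hY => ?_, fun X Y => ?_⟩
      · rw [hβ₀]; exact h1 _ (bracket_lcs_one hX Y.2)
      · rw [hβ₀]; exact h1 _ (bracket_mem_lcs D X.2 hY)
      · rw [hβ₀, hβ₀, ← hz]
        congr 1
        apply Subtype.ext
        rw [coe_Tk]
        change cj (D.ρu γ) (X : Matrix (Fin D.n) (Fin D.n) ℝ) * cj (D.ρu γ) Y -
          cj (D.ρu γ) Y * cj (D.ρu γ) X = cj (D.ρu γ) (X * Y - Y * X)
        rw [cj_bracket]
    have hβ₀0 : β₀ ≠ 0 := by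
      intro h
      apply hφ
      have h2 : ∀ (Z : Matrix (Fin D.n) (Fin D.n) ℝ) (hZ : Z ∈ lcs D (k + 1)),
          φ ⟨Z, hZ⟩ = 0 := by
        intro Z hZ
        have hle : lcs D (k + 1) ≤ (φ.ker).map (lcs D (k + 1)).subtype := by
          refine Submodule.span_le.mpr ?_
          rintro _ ⟨X, hX, Y, hY, rfl⟩
          refine ⟨br ⟨X, hX⟩ ⟨Y, hY⟩, ?_, rfl⟩
          have h3 : β₀ ⟨X, hX⟩ ⟨Y, hY⟩ = 0 := by rw [h]; rfl
          exact h3
        obtain ⟨W, hW, hWZ⟩ := hle hZ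
        have h3 : W = ⟨Z, hZ⟩ := Subtype.ext hWZ
        rw [← h3]; exact hW
      ext ⟨Z, hZ⟩
      exact h2 Z hZ
    have hnt : Nontrivial E := ⟨⟨⟨β₀, hβ₀E⟩, 0, fun h => hβ₀0 (congrArg Subtype.val h)⟩⟩
    let S' : Module.End ℂ E := S.restrict hSE
    obtain ⟨z₁, hz₁⟩ := Module.End.exists_eigenvalue (K := ℂ) (V := E) S'
    obtain ⟨⟨β, hβE⟩, hβ⟩ := hz₁.exists_hasEigenvector
    have hβ0 : β ≠ 0 := fun h => hβ.2 (Subtype.ext h)
    have hβ1 : ∀ X Y, β (Tk D γ 0 X) Y = z₁ * β X Y := by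
      intro X Y
      have h2 := congrArg (fun b : E => (b : lie D →ₗ[ℝ] lcs D k →ₗ[ℝ] ℂ) X Y) hβ.apply_eq_smul
      exact h2
    obtain ⟨X₀, Y₀, hXY⟩ : ∃ X₀ Y₀, β X₀ Y₀ ≠ 0 := by
      by_contra hcon
      push Not at hcon
      apply hβ0
      ext X Y
      exact hcon X Y
    have hz₁0 : z₁ ≠ 0 := by
      intro h
      obtain ⟨X, hX⟩ := Tk_surjective (D := D) γ 0 X₀
      apply hXY
      have := hβ1 X Y₀
      rw [h, zero_mul] at this
      rw [← hX]; exact this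
    have hβ2 : ∀ X Y, β X (Tk D γ k Y) = (z / z₁) * β X Y := by
      intro X Y
      have h2 := hβE.2.2 X Y
      rw [hβ1] at h2
      field_simp
      linear_combination h2
    obtain ⟨i, hi⟩ := eig_zero γ (β.flip Y₀) (by
        intro h
        apply hXY
        have := congrArg (fun f : lie D →ₗ[ℝ] ℂ => f X₀) h
        exact this) (fun X hX => hβE.1 X hX Y₀) z₁ (fun X => hβ1 X Y₀)
    obtain ⟨s, hs, hsz⟩ := ih (β X₀) (by
        intro h
        apply hXY
        rw [h]; rfl) (fun Y hY => hβE.2.1 X₀ Y hY) (z / z₁) (fun Y => hβ2 X₀ Y)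
    refine ⟨i ::ₘ s, by simp, ?_⟩
    rw [Multiset.map_cons, Multiset.prod_cons, ← hsz, ← hi]
    field_simp

/-- left eigenfunctionals of a real operator for complex roots of the characteristic polynomial -/
theorem exists_functional {V : Type*} [AddCommGroup V] [Module ℝ V] [FiniteDimensional ℝ V]
    (T : V →ₗ[ℝ] V) {z : ℂ} (hz : (T.charpoly.map (algebraMap ℝ ℂ)).IsRoot z) :
    ∃ φ : V →ₗ[ℝ] ℂ, φ ≠ 0 ∧ ∀ X, φ (T X) = z * φ X := by
  classical
  let b := finBasis ℝ V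
  let M := LinearMap.toMatrix b b T
  have h1 : (Matrix.scalar _ z - M.map (algebraMap ℝ ℂ)).det = 0 := by
    rw [← Matrix.eval_charpoly, Matrix.charpoly_map, LinearMap.charpoly_toMatrix]
    exact hz
  obtain ⟨w, hw, hwM⟩ := Matrix.exists_vecMul_eq_zero_iff.mpr h1
  let φ : V →ₗ[ℝ] ℂ := ∑ i, (b.coord i).smulRight (w i)
  have hφ : ∀ X, φ X = ∑ i, (b.repr X i : ℂ) * w i := by
    intro X
    rw [LinearMap.sum_apply]
    refine Finset.sum_congr rfl fun i _ => ?_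
    rw [LinearMap.smulRight_apply, Complex.real_smul]; rfl
  refine ⟨φ, ?_, ?_⟩
  · intro h
    apply hw
    funext i
    have h2 := hφ (b i)
    rw [h, Finset.sum_eq_single i] at h2
    · simpa using h2.symm
    · intro j _ hj
      rw [b.repr_self, Finsupp.single_eq_of_ne hj]; simp
    · intro h'; exact absurd (Finset.mem_univ i) h'
  · intro X
    have h2 : ∀ j, ∑ i, w i * (M i j : ℂ) = z * w j := by
      intro j
      have h3 := congrFun hwM j
      rw [Matrix.vecMul_sub, Pi.sub_apply, Pi.zero_apply, sub_eq_zero, Matrix.scalar_apply,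
        Matrix.vecMul_diagonal] at h3
      rw [mul_comm, h3, Matrix.vecMul, dotProduct]
      rfl
    have h3 : ∀ i, (b.repr (T X) i : ℂ) = ∑ j, (M i j : ℂ) * (b.repr X j : ℂ) := by
      intro i
      have h4 := congrFun (LinearMap.toMatrix_mulVec_repr b b T X) i
      rw [← h4, Matrix.mulVec, dotProduct]
      push_cast
      rfl
    rw [hφ, hφ, Finset.mul_sum]
    calc ∑ i, (b.repr (T X) i : ℂ) * w i = ∑ i, ∑ j, w i * (M i j : ℂ) * (b.repr X j : ℂ) := by
          refine Finset.sum_congr rfl fun i _ => ?_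
          rw [h3 i, Finset.sum_mul]
          refine Finset.sum_congr rfl fun j _ => ?_
          ring
      _ = ∑ j, (∑ i, w i * (M i j : ℂ)) * (b.repr X j : ℂ) := by
          rw [Finset.sum_comm]
          refine Finset.sum_congr rfl fun j _ => ?_
          rw [Finset.sum_mul]
      _ = _ := by
          refine Finset.sum_congr rfl fun j _ => ?_
          rw [h2 j]; ring

/-- complex eigenfunctionals of `Ad(γ)` on `𝔫` have product eigenvalues -/
theorem eig_lie (γ : Γ) (φ : lie D →ₗ[ℝ] ℂ) (hφ : φ ≠ 0) (z : ℂ)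
    (hz : ∀ X : lie D, φ (Tk D γ 0 X) = z * φ X) : IsProd R γ z := by
  classical
  -- the last term of the series on which `φ` is nonzero
  obtain ⟨K, hK⟩ := exists_lcs_eq_bot D
  have hex : ∃ k, ∀ X : lie D, (X : Matrix (Fin D.n) (Fin D.n) ℝ) ∈ lcs D k → φ X = 0 := by
    refine ⟨K, fun X hX => ?_⟩
    rw [hK, Submodule.mem_bot] at hX
    have : X = 0 := Subtype.ext hX
    rw [this, map_zero]
  have hmin := Nat.find_spec hex
  set k := Nat.find hex with hk
  have hk0 : k ≠ 0 := by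
    intro h
    rw [h] at hmin
    apply hφ
    ext X
    exact hmin X X.2
  obtain ⟨j, hj⟩ : ∃ j, k = j + 1 := ⟨k - 1, by omega⟩
  have hnot : ¬ ∀ X : lie D, (X : Matrix (Fin D.n) (Fin D.n) ℝ) ∈ lcs D j → φ X = 0 :=
    Nat.find_min hex (by omega)
  let ψ : lcs D j →ₗ[ℝ] ℂ := φ ∘ₗ Submodule.inclusion (lcs_le_lie D j)
  refine eig_lcs γ j ψ ?_ ?_ z ?_
  · intro h
    apply hnot
    intro X hX
    have := congrArg (fun f : lcs D j →ₗ[ℝ] ℂ => f ⟨X, hX⟩) h
    exact this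
  · intro X hX
    rw [hj] at hmin
    exact hmin _ hX
  · intro X
    exact hz (Submodule.inclusion (lcs_le_lie D j) X)

/-- the complex eigenvalues of `Ad(γ)` on `𝔫` are products of the `χ_i(γ)` -/
theorem isProd_of_isRoot (γ : Γ) {z : ℂ}
    (hz : ((LinearMap.charpoly (adE D (inΓ D γ) : lie D →ₗ[ℝ] lie D)).map
      (algebraMap ℝ ℂ)).IsRoot z) : IsProd R γ z := by
  obtain ⟨φ, hφ, h⟩ := exists_functional _ hz
  exact eig_lie γ φ hφ z h

end eig

end Crest.Agent.R182.Model
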