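/-
R182, module MODEL (S4, part 1): the Cartan subgroup with full characters.
-/
import Mathlib
import Crest.Agent.R182.ModelRoots

set_option autoImplicit false
set_option linter.unusedSectionVars false

namespace Crest.Agent.R182.ModelCt

open Module LinMod Polyc Model ModelWt

section mat

variable {n : ℕ}

/-- `Ad(t) - 1` on matrices -/
noncomputable def dl (t : (Matrix (Fin n) (Fin n) ℝ)ˣ) :
    Module.End ℝ (Matrix (Fin n) (Fin n) ℝ) := (cj t).toLinearMap - 1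

theorem dl_apply (t : (Matrix (Fin n) (Fin n) ℝ)ˣ) (X : Matrix (Fin n) (Fin n) ℝ) :
    dl t X = cj t X - X := rfl

/-- the generalised fixed space of conjugation by `t` -/
noncomputable def fm (t : (Matrix (Fin n) (Fin n) ℝ)ˣ) :
    Submodule ℝ (Matrix (Fin n) (Fin n) ℝ) := ⨆ k, LinearMap.ker (dl t ^ k)

theorem mem_fm {t : (Matrix (Fin n) (Fin n) ℝ)ˣ} {X : Matrix (Fin n) (Fin n) ℝ} :
    X ∈ fm t ↔ ∃ k, (dl t ^ k) X = 0 := by
  rw [fm, Submodule.mem_iSup_of_directed]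
  · rfl
  · intro a b
    refine ⟨max a b, ?_, ?_⟩
    · intro x hx
      obtain ⟨c, hc⟩ := Nat.exists_eq_add_of_le (le_max_left a b)
      rw [LinearMap.mem_ker] at hx ⊢
      rw [hc, add_comm, pow_add, Module.End.mul_apply, hx, map_zero]
    · intro x hx
      obtain ⟨c, hc⟩ := Nat.exists_eq_add_of_le (le_max_right a b)
      rw [LinearMap.mem_ker] at hx ⊢
      rw [hc, add_comm, pow_add, Module.End.mul_apply, hx, map_zero]

theorem mem_fm_of_dl {t : (Matrix (Fin n) (Fin n) ℝ)ˣ} {X : Matrix (Fin n) (Fin n) ℝ}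
    (h : dl t X ∈ fm t) : X ∈ fm t := by
  obtain ⟨k, hk⟩ := mem_fm.mp h
  exact mem_fm.mpr ⟨k + 1, by rw [pow_succ, Module.End.mul_apply, hk]⟩

theorem dl_mem_fm {t : (Matrix (Fin n) (Fin n) ℝ)ˣ} {X : Matrix (Fin n) (Fin n) ℝ}
    (h : X ∈ fm t) : dl t X ∈ fm t := by
  obtain ⟨k, hk⟩ := mem_fm.mp h
  refine mem_fm.mpr ⟨k, ?_⟩
  rw [← Module.End.mul_apply, ← pow_succ, pow_succ', Module.End.mul_apply, hk, map_zero]

theorem cj_mem_fm {t : (Matrix (Fin n) (Fin n) ℝ)ˣ} {X : Matrix (Fin n) (Fin n) ℝ}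
    (h : X ∈ fm t) : cj t X ∈ fm t := by
  have : cj t X = dl t X + X := by rw [dl_apply]; abel
  rw [this]
  exact Submodule.add_mem _ (dl_mem_fm h) h

theorem fm_one_mem (t : (Matrix (Fin n) (Fin n) ℝ)ˣ) : (1 : Matrix (Fin n) (Fin n) ℝ) ∈ fm t :=
  mem_fm.mpr ⟨1, by rw [pow_one, dl_apply, cj_matone, sub_self]⟩

theorem fm_mul_mem {t : (Matrix (Fin n) (Fin n) ℝ)ˣ} {X Y : Matrix (Fin n) (Fin n) ℝ}
    (hX : X ∈ fm t) (hY : Y ∈ fm t) : X * Y ∈ fm t := by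
  obtain ⟨a, ha⟩ := mem_fm.mp hX
  obtain ⟨b, hb⟩ := mem_fm.mp hY
  have key : ∀ N a b : ℕ, a + b ≤ N → ∀ X Y : Matrix (Fin n) (Fin n) ℝ, (dl t ^ a) X = 0 →
      (dl t ^ b) Y = 0 → X * Y ∈ fm t := by
    intro N
    induction N with
    | zero =>
      intro a b hab X Y hX _
      have : a = 0 := by omega
      subst this
      rw [pow_zero, Module.End.one_apply] at hX
      rw [hX, zero_mul]; exact Submodule.zero_mem _
    | succ N ih =>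
      intro a b hab X Y hX hY
      rcases Nat.eq_zero_or_pos a with h | h
      · subst h
        rw [pow_zero, Module.End.one_apply] at hX
        rw [hX, zero_mul]; exact Submodule.zero_mem _
      rcases Nat.eq_zero_or_pos b with h' | h'
      · subst h'
        rw [pow_zero, Module.End.one_apply] at hY
        rw [hY, mul_zero]; exact Submodule.zero_mem _
      obtain ⟨a, rfl⟩ : ∃ a', a = a' + 1 := ⟨a - 1, by omega⟩
      obtain ⟨b, rfl⟩ : ∃ b', b = b' + 1 := ⟨b - 1, by omega⟩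
      rw [pow_succ, Module.End.mul_apply] at hX hY
      have hX' : (dl t ^ (a + 1)) X = 0 := by rw [pow_succ, Module.End.mul_apply, hX]
      have hY' : (dl t ^ (b + 1)) Y = 0 := by rw [pow_succ, Module.End.mul_apply, hY]
      apply mem_fm_of_dl
      have e : dl t (X * Y) = dl t X * Y + dl t X * dl t Y + X * dl t Y := by
        rw [dl_apply, dl_apply, dl_apply, cj_matmul]
        noncomm_ring
      rw [e]
      refine Submodule.add_mem _ (Submodule.add_mem _ ?_ ?_) ?_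
      · exact ih a (b + 1) (by omega) _ _ hX hY'
      · exact ih a b (by omega) _ _ hX hY
      · exact ih (a + 1) b (by omega) _ _ hX' hY
  exact key _ a b le_rfl X Y ha hb

theorem fm_pow_mem {t : (Matrix (Fin n) (Fin n) ℝ)ˣ} {X : Matrix (Fin n) (Fin n) ℝ}
    (hX : X ∈ fm t) (k : ℕ) : X ^ k ∈ fm t := by
  induction k with
  | zero => rw [pow_zero]; exact fm_one_mem t
  | succ k ih => rw [pow_succ]; exact fm_mul_mem ih hX

theorem ex_mem_fm {t : (Matrix (Fin n) (Fin n) ℝ)ˣ} {X : Matrix (Fin n) (Fin n) ℝ}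
    (hX : X ∈ fm t) : ex X ∈ fm t :=
  Submodule.sum_mem _ fun k _ => Submodule.smul_mem _ _ (fm_pow_mem hX k)

theorem lg_mem_fm {t : (Matrix (Fin n) (Fin n) ℝ)ˣ} {g : Matrix (Fin n) (Fin n) ℝ}
    (hg : g ∈ fm t) : lg g ∈ fm t :=
  Submodule.sum_mem _ fun k _ => Submodule.smul_mem _ _
    (fm_pow_mem (Submodule.sub_mem _ hg (fm_one_mem t)) k)

/-- conjugating the base point -/
theorem cj_mem_fm_conj {t g : (Matrix (Fin n) (Fin n) ℝ)ˣ}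
    {X : Matrix (Fin n) (Fin n) ℝ} (hX : X ∈ fm t) : cj g X ∈ fm (g * t * g⁻¹) := by
  obtain ⟨k, hk⟩ := mem_fm.mp hX
  have h1 : ∀ Y, dl (g * t * g⁻¹) (cj g Y) = cj g (dl t Y) := by
    intro Y
    rw [dl_apply, dl_apply, cj_mul, cj_mul, cj_inv_cj, map_sub]
  have h2 : ∀ k Y, (dl (g * t * g⁻¹) ^ k) (cj g Y) = cj g ((dl t ^ k) Y) := by
    intro k
    induction k with
    | zero => intro Y; rfl
    | succ k ih =>
      intro Y
      rw [pow_succ, Module.End.mul_apply, h1, ih, pow_succ, Module.End.mul_apply]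
  exact mem_fm.mpr ⟨k, by rw [h2, hk, map_zero]⟩


/-- Fitting decomposition in an invariant subspace -/
theorem fm_solve {t : (Matrix (Fin n) (Fin n) ℝ)ˣ}
    {p : Submodule ℝ (Matrix (Fin n) (Fin n) ℝ)} (hp : ∀ X ∈ p, cj t X ∈ p)
    {w : Matrix (Fin n) (Fin n) ℝ} (hw : w ∈ p) :
    ∃ y ∈ p, ∃ z ∈ p, y ∈ fm t ∧ w = y + (cj t z - z) := by
  have hdp : ∀ X ∈ p, dl t X ∈ p := fun X hX => p.sub_mem (hp X hX) hX
  let f : p →ₗ[ℝ] p := (dl t).restrict hdp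
  have hf : ∀ (k : ℕ) (x : p), (((f ^ k) x : p) : Matrix (Fin n) (Fin n) ℝ) = (dl t ^ k) x := by
    intro k
    induction k with
    | zero => intro x; rfl
    | succ k ih =>
      intro x
      rw [pow_succ, Module.End.mul_apply, ih, pow_succ, Module.End.mul_apply]
      rfl
  have h1 := LinearMap.isCompl_iSup_ker_pow_iInf_range_pow f
  have h2 : (⟨w, hw⟩ : p) ∈ (⨆ n, (f ^ n).ker) ⊔ (⨅ n, (f ^ n).range) := by
    rw [h1.sup_eq_top]; trivial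
  obtain ⟨y, hy, x, hx, hyx⟩ := Submodule.mem_sup.mp h2
  have hx1 : x ∈ (f ^ 1).range := (Submodule.mem_iInf _).mp hx 1
  obtain ⟨z, hz⟩ := hx1
  have hy' : ∃ k, (f ^ k) y = 0 := by
    have hdir : Directed (· ≤ ·) fun k => (f ^ k).ker := by
      intro a b
      refine ⟨max a b, ?_, ?_⟩
      · intro x hx
        obtain ⟨c, hc⟩ := Nat.exists_eq_add_of_le (le_max_left a b)
        rw [LinearMap.mem_ker] at hx ⊢
        rw [hc, add_comm, pow_add, Module.End.mul_apply, hx, map_zero]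
      · intro x hx
        obtain ⟨c, hc⟩ := Nat.exists_eq_add_of_le (le_max_right a b)
        rw [LinearMap.mem_ker] at hx ⊢
        rw [hc, add_comm, pow_add, Module.End.mul_apply, hx, map_zero]
    rw [Submodule.mem_iSup_of_directed _ hdir] at hy
    exact hy
  obtain ⟨k, hk⟩ := hy'
  refine ⟨y, y.2, z, z.2, mem_fm.mpr ⟨k, ?_⟩, ?_⟩
  · rw [← hf, hk]; rfl
  · have h3 := congrArg Subtype.val hyx
    rw [pow_one] at hz
    rw [← hz] at h3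
    exact h3.symm

theorem fm_unique {t : (Matrix (Fin n) (Fin n) ℝ)ˣ}
    {p p' : Submodule ℝ (Matrix (Fin n) (Fin n) ℝ)} (hpp : p' ≤ p)
    (hp' : ∀ X ∈ p', cj t X ∈ p') {Y a : Matrix (Fin n) (Fin n) ℝ} (hY : Y ∈ p)
    (ha : a ∈ fm t) (h : a - (Y - cj t Y) ∈ p') :
    ∃ y ∈ p, ∃ z ∈ p', y ∈ fm t ∧ Y = y + z := by
  obtain ⟨y', hy', z, hz, hy'f, e⟩ := fm_solve hp' h
  refine ⟨Y - z, p.sub_mem hY (hpp hz), z, hz, ?_, by abel⟩
  apply mem_fm_of_dl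
  have e2 : dl t (Y - z) = y' - a := by
    rw [map_sub, dl_apply, dl_apply]
    have : cj t Y - Y = (a - (Y - cj t Y)) - a := by abel
    rw [this, e]
    abel
  rw [e2]
  exact Submodule.sub_mem _ hy'f ha

end mat

section lie

variable {Γ : Type*} [Group Γ] {N : Subgroup Γ} [hN : N.Normal] (D : EmbData Γ N)

/-- the generalised fixed space in `𝔫` -/
noncomputable def fs (t : (Matrix (Fin D.n) (Fin D.n) ℝ)ˣ) :
    Submodule ℝ (Matrix (Fin D.n) (Fin D.n) ℝ) := lie D ⊓ fm t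

theorem fs_le (t : (Matrix (Fin D.n) (Fin D.n) ℝ)ˣ) : fs D t ≤ lie D := inf_le_left

theorem isSub_fs (t : (Matrix (Fin D.n) (Fin D.n) ℝ)ˣ) : IsSub D (fs D t) where
  le := fs_le D t
  br X hX Y hY := ⟨bracket_mem D hX.1 hY.1,
    Submodule.sub_mem _ (fm_mul_mem hX.2 hY.2) (fm_mul_mem hY.2 hX.2)⟩

/-- `exp` of the generalised fixed space -/
noncomputable def E1 (t : (Matrix (Fin D.n) (Fin D.n) ℝ)ˣ) :
    Subgroup (Matrix (Fin D.n) (Fin D.n) ℝ)ˣ := expG (isSub_fs D t)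

variable {D}

theorem mem_E1 {t g : (Matrix (Fin D.n) (Fin D.n) ℝ)ˣ} : g ∈ E1 D t ↔ g ∈ D.NR ∧
    lg (g : Matrix (Fin D.n) (Fin D.n) ℝ) ∈ fs D t := Iff.rfl

theorem mem_E1_iff {t g : (Matrix (Fin D.n) (Fin D.n) ℝ)ˣ} : g ∈ E1 D t ↔ g ∈ D.NR ∧
    (g : Matrix (Fin D.n) (Fin D.n) ℝ) ∈ fm t := by
  constructor
  · rintro ⟨h1, h2⟩
    refine ⟨h1, ?_⟩
    rw [← ex_lg (D.unip_NR h1)]
    exact ex_mem_fm h2.2
  · rintro ⟨h1, h2⟩
    exact ⟨h1, lg_mem_lie D h1, lg_mem_fm h2⟩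

theorem cj_mem_fs_of_E1 {t u : (Matrix (Fin D.n) (Fin D.n) ℝ)ˣ} (hu : u ∈ E1 D t)
    {X : Matrix (Fin D.n) (Fin D.n) ℝ} (hX : X ∈ fs D t) : cj u X ∈ fs D t := by
  refine ⟨cj_mem_lie D (NR_le D hu.1) hX.1, ?_⟩
  exact fm_mul_mem (fm_mul_mem (mem_E1_iff.1 hu).2 hX.2)
    (mem_E1_iff.1 ((E1 D t).inv_mem hu)).2

theorem conj_mem_E1 {t u : (Matrix (Fin D.n) (Fin D.n) ℝ)ˣ} (ht : t ∈ G1 D) (hu : u ∈ E1 D t) :
    t * u * t⁻¹ ∈ E1 D t := by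
  rw [mem_E1_iff] at hu ⊢
  refine ⟨conj_NR ht hu.1, ?_⟩
  rw [Units.val_mul, Units.val_mul]
  exact cj_mem_fm hu.2

theorem eU_mem_E1 {t : (Matrix (Fin D.n) (Fin D.n) ℝ)ˣ} {X : Matrix (Fin D.n) (Fin D.n) ℝ}
    (hX : X ∈ lie D) (h : X ∈ fm t) : ModelWt.eU X hX ∈ E1 D t :=
  mem_E1.2 ⟨eU_mem hX, by rw [lg_eU]; exact ⟨hX, h⟩⟩

/-- **Cohomological equation** -/
theorem exists_coh {t n₁ : (Matrix (Fin D.n) (Fin D.n) ℝ)ˣ} (ht : t ∈ G1 D) (hn₁ : n₁ ∈ D.NR) :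
    ∃ m ∈ D.NR, m * n₁ * (t * m⁻¹ * t⁻¹) ∈ E1 D t := by
  have key : ∀ k, ∃ m ∈ D.NR, ∃ u ∈ E1 D t, ∃ w ∈ D.NR,
      lg (w : Matrix (Fin D.n) (Fin D.n) ℝ) ∈ lcs D k ∧ m * n₁ * (t * m⁻¹ * t⁻¹) = u * w := by
    intro k
    induction k with
    | zero =>
      refine ⟨1, D.NR.one_mem, 1, (E1 D t).one_mem, n₁, hn₁, lg_mem_lie D hn₁, ?_⟩
      group
    | succ k ih =>
      obtain ⟨m, hm, u, hu, w, hw, hwk, h⟩ := ih
      obtain ⟨y, hy, z, hz, hy0, hyz⟩ := fm_solve (t := t)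
        (p := lcs D k) (fun x hx => cj_mem_lcs D ht k hx) hwk
      have hyl := lcs_le_lie D k hy
      have hzl := lcs_le_lie D k hz
      have hTz : cj t z ∈ lcs D k := cj_mem_lcs D ht k hz
      have huG := NR_le D hu.1
      have huz : cj u⁻¹ z ∈ lcs D k := cj_mem_lcs D ((G1 D).inv_mem huG) k hz
      refine ⟨eU z hzl * m, D.NR.mul_mem (eU_mem hzl) hm, u * eU y hyl,
        (E1 D t).mul_mem hu (eU_mem_E1 hyl hy0),
        eU (-y) ((lie D).neg_mem hyl) * eU (cj u⁻¹ z) (lcs_le_lie D k huz) * w *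
          eU (-(cj t z)) ((lie D).neg_mem (lcs_le_lie D k hTz)), ?_, ?_, ?_⟩
      · exact D.NR.mul_mem (D.NR.mul_mem (D.NR.mul_mem (eU_mem _) (eU_mem _)) hw) (eU_mem _)
      · have q1 := Q.eU (k := k) ((lcs D k).neg_mem hy)
        have q2 := Q.eU (k := k) huz
        have q3 := Q.of_mem hw hwk
        have q4 := Q.eU (k := k) ((lcs D k).neg_mem hTz)
        have q := ((q1.mul q2).mul q3).mul q4
        have h1 := cj_sub_mem_lcs (D.NR.inv_mem hu.1) hz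
        have h2 := Submodule.add_mem _ q.congr h1
        have h3 : lg ((eU (-y) ((lie D).neg_mem hyl) * eU (cj u⁻¹ z) (lcs_le_lie D k huz) * w *
          eU (-(cj t z)) ((lie D).neg_mem (lcs_le_lie D k hTz)) :
            (Matrix (Fin D.n) (Fin D.n) ℝ)ˣ) : Matrix (Fin D.n) (Fin D.n) ℝ) =
          lg ((eU (-y) ((lie D).neg_mem hyl) * eU (cj u⁻¹ z) (lcs_le_lie D k huz) * w *
          eU (-(cj t z)) ((lie D).neg_mem (lcs_le_lie D k hTz)) :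
            (Matrix (Fin D.n) (Fin D.n) ℝ)ˣ) : Matrix (Fin D.n) (Fin D.n) ℝ) -
            (-y + cj u⁻¹ z + lg (w : Matrix (Fin D.n) (Fin D.n) ℝ) + -(cj t z)) +
            (cj u⁻¹ z - z) := by
          conv_rhs => rw [hyz]
          abel
        rw [h3]
        exact h2
      · rw [← conj_eU ((G1 D).inv_mem huG) hzl, eU_neg hyl, eU_neg (lcs_le_lie D k hTz),
          ← conj_eU ht hzl]
        calc eU z hzl * m * n₁ * (t * (eU z hzl * m)⁻¹ * t⁻¹) =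
            eU z hzl * (m * n₁ * (t * m⁻¹ * t⁻¹)) * (t * (eU z hzl)⁻¹ * t⁻¹) := by group
          _ = eU z hzl * (u * w) * (t * (eU z hzl)⁻¹ * t⁻¹) := by rw [h]
          _ = _ := by group
  obtain ⟨K, hK⟩ := exists_lcs_eq_bot D
  obtain ⟨m, hm, u, hu, w, hw, hwk, h⟩ := key K
  rw [hK, Submodule.mem_bot] at hwk
  rw [eq_one_of_lg hw hwk, mul_one] at h
  exact ⟨m, hm, by rw [h]; exact hu⟩

/-- Uniqueness: a twisted coboundary in `E1` comes from `E1`. -/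
theorem mem_E1_of_coh {t g : (Matrix (Fin D.n) (Fin D.n) ℝ)ˣ} (ht : t ∈ G1 D) (hg : g ∈ D.NR)
    (h : g * (t * g * t⁻¹)⁻¹ ∈ E1 D t) : g ∈ E1 D t := by
  have key : ∀ k, ∃ u ∈ E1 D t, ∃ w ∈ D.NR,
      lg (w : Matrix (Fin D.n) (Fin D.n) ℝ) ∈ lcs D k ∧ g = u * w := by
    intro k
    induction k with
    | zero => exact ⟨1, (E1 D t).one_mem, g, hg, lg_mem_lie D hg, by rw [one_mul]⟩
    | succ k ih =>
      obtain ⟨u, hu, w, hw, hwk, hguw⟩ := ih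
      have hwE : w * (t * w * t⁻¹)⁻¹ ∈ E1 D t := by
        have h1 := (E1 D t).mul_mem ((E1 D t).mul_mem ((E1 D t).inv_mem hu) h)
          (conj_mem_E1 ht hu)
        have e : u⁻¹ * (g * (t * g * t⁻¹)⁻¹) * (t * u * t⁻¹) = w * (t * w * t⁻¹)⁻¹ := by
          rw [hguw]; group
        rwa [e] at h1
      set Y := lg (w : Matrix (Fin D.n) (Fin D.n) ℝ) with hY
      have hYl := lcs_le_lie D k hwk
      have hTY : cj t Y ∈ lcs D k := cj_mem_lcs D ht k hwk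
      have hwe : (t * w * t⁻¹)⁻¹ = eU (-(cj t Y)) ((lie D).neg_mem (lcs_le_lie D k hTY)) := by
        rw [eU_neg (lcs_le_lie D k hTY), ← conj_eU ht hYl, eU_lg hw]
      have q := (Q.of_mem hw hwk).mul (Q.eU (k := k) ((lcs D k).neg_mem hTY))
      rw [← hwe] at q
      have ha : lg ((w * (t * w * t⁻¹)⁻¹ : (Matrix (Fin D.n) (Fin D.n) ℝ)ˣ) :
          Matrix (Fin D.n) (Fin D.n) ℝ) ∈ fs D t := (mem_E1.1 hwE).2
      have hqc := q.congr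
      rw [← sub_eq_add_neg] at hqc
      obtain ⟨y, hy, z, hz, hy0, hyz⟩ := fm_unique (t := t)
        (p := lcs D k) (p' := lcs D (k + 1)) (lcs_succ_le D k)
        (fun x hx => cj_mem_lcs D ht (k + 1) hx) hwk ha.2 hqc
      have hyl := lcs_le_lie D k hy
      refine ⟨u * eU y hyl, (E1 D t).mul_mem hu (eU_mem_E1 hyl hy0),
        eU (-y) ((lie D).neg_mem hyl) * w, D.NR.mul_mem (eU_mem _) hw, ?_, ?_⟩
      · have q2 := (Q.eU (k := k) ((lcs D k).neg_mem hy)).mul (Q.of_mem hw hwk)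
        have h2 := Submodule.add_mem _ q2.congr hz
        have h3 : lg ((eU (-y) ((lie D).neg_mem hyl) * w :
            (Matrix (Fin D.n) (Fin D.n) ℝ)ˣ) : Matrix (Fin D.n) (Fin D.n) ℝ) =
            lg ((eU (-y) ((lie D).neg_mem hyl) * w :
            (Matrix (Fin D.n) (Fin D.n) ℝ)ˣ) : Matrix (Fin D.n) (Fin D.n) ℝ) -
            (-y + lg (w : Matrix (Fin D.n) (Fin D.n) ℝ)) + z := by
          rw [← hY, hyz]; abel
        rw [h3]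
        exact h2
      · rw [hguw, eU_neg hyl]; group
  obtain ⟨K, hK⟩ := exists_lcs_eq_bot D
  obtain ⟨u, hu, w, hw, hwk, h⟩ := key K
  rw [hK, Submodule.mem_bot] at hwk
  rw [eq_one_of_lg hw hwk, mul_one] at h
  rw [h]; exact hu

/-- the generalised fixed spaces of `t` and `u t`, `u ∈ E1` -/
theorem fs_le_of_E1 {t u : (Matrix (Fin D.n) (Fin D.n) ℝ)ˣ} (ht : t ∈ G1 D) (hu : u ∈ E1 D t) :
    fs D t ≤ fs D (u * t) := by
  obtain ⟨K, hK⟩ := exists_lcs_eq_bot D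
  have key : ∀ j, j ≤ K → ∀ (a : ℕ) (X : Matrix (Fin D.n) (Fin D.n) ℝ), X ∈ fs D t →
      X ∈ lcs D (K - j) → (dl t ^ a) X = 0 → X ∈ fm (u * t) := by
    intro j
    induction j with
    | zero =>
      intro _ a X _ hX _
      rw [Nat.sub_zero, hK, Submodule.mem_bot] at hX
      rw [hX]; exact Submodule.zero_mem _
    | succ j ih =>
      intro hj a
      induction a with
      | zero =>
        intro X _ _ hX
        rw [pow_zero, Module.End.one_apply] at hX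
        rw [hX]; exact Submodule.zero_mem _
      | succ a ih2 =>
        intro X hX hXk ha
        rw [pow_succ, Module.End.mul_apply] at ha
        have hTX : cj t X ∈ fs D t := ⟨cj_mem_lie D ht hX.1, cj_mem_fm hX.2⟩
        have hTXk : cj t X ∈ lcs D (K - (j + 1)) := cj_mem_lcs D ht _ hXk
        apply mem_fm_of_dl
        have e : dl (u * t) X = (cj u (cj t X) - cj t X) + dl t X := by
          rw [dl_apply, dl_apply, cj_mul]; abel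
        rw [e]
        refine Submodule.add_mem _ ?_ ?_
        · have h1 : cj u (cj t X) - cj t X ∈ fs D t :=
            Submodule.sub_mem _ (cj_mem_fs_of_E1 hu hTX) hTX
          have h2 := cj_sub_mem_lcs hu.1 hTXk
          have h3 : K - (j + 1) + 1 = K - j := by omega
          rw [h3] at h2
          obtain ⟨b, hb⟩ := mem_fm.mp h1.2
          exact ih (by omega) b _ h1 h2 hb
        · have h1 : dl t X ∈ fs D t := Submodule.sub_mem _ hTX hX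
          have h2 : dl t X ∈ lcs D (K - (j + 1)) := Submodule.sub_mem _ hTXk hXk
          exact ih2 _ h1 h2 ha
  intro X hX
  obtain ⟨a, ha⟩ := mem_fm.mp hX.2
  refine ⟨hX.1, key K le_rfl a X hX ?_ ha⟩
  rw [Nat.sub_self]
  exact hX.1

theorem fs_eq_of_E1 {t u : (Matrix (Fin D.n) (Fin D.n) ℝ)ˣ} (ht : t ∈ G1 D) (hu : u ∈ E1 D t) :
    fs D (u * t) = fs D t := by
  apply le_antisymm _ (fs_le_of_E1 ht hu)
  have hut : u * t ∈ G1 D := (G1 D).mul_mem (NR_le D hu.1) ht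
  have h1 : u⁻¹ ∈ E1 D (u * t) := by
    have h2 := (E1 D t).inv_mem hu
    exact ⟨h2.1, fs_le_of_E1 ht hu h2.2⟩
  have h2 := fs_le_of_E1 hut h1
  rwa [inv_mul_cancel_left] at h2

/-! ### the Cartan subgroup -/

/-- the condition defining the Cartan subgroup -/
def InC (t g : (Matrix (Fin D.n) (Fin D.n) ℝ)ˣ) : Prop := g * t * g⁻¹ * t⁻¹ ∈ E1 D t

theorem InC.cj_mem {t g : (Matrix (Fin D.n) (Fin D.n) ℝ)ˣ} (ht : t ∈ G1 D) (hgG : g ∈ G1 D)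
    (hg : InC t g) {X : Matrix (Fin D.n) (Fin D.n) ℝ} (hX : X ∈ fs D t) : cj g X ∈ fs D t := by
  rw [← fs_eq_of_E1 ht hg]
  refine ⟨cj_mem_lie D hgG hX.1, ?_⟩
  have h1 := cj_mem_fm_conj (g := g) hX.2
  have e : g * t * g⁻¹ * t⁻¹ * t = g * t * g⁻¹ := by group
  rwa [e]

theorem InC.cj_inv_mem {t g : (Matrix (Fin D.n) (Fin D.n) ℝ)ˣ} (ht : t ∈ G1 D) (hgG : g ∈ G1 D)
    (hg : InC t g) {X : Matrix (Fin D.n) (Fin D.n) ℝ} (hX : X ∈ fs D t) :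
    cj g⁻¹ X ∈ fs D t := by
  rw [← fs_eq_of_E1 ht hg] at hX
  refine ⟨cj_mem_lie D ((G1 D).inv_mem hgG) hX.1, ?_⟩
  have h1 := cj_mem_fm_conj (g := g⁻¹) hX.2
  have e : g⁻¹ * (g * t * g⁻¹ * t⁻¹ * t) * (g⁻¹)⁻¹ = t := by group
  rwa [e] at h1

theorem InC.conj_E1 {t g : (Matrix (Fin D.n) (Fin D.n) ℝ)ˣ} (ht : t ∈ G1 D) (hgG : g ∈ G1 D)
    (hg : InC t g) {u : (Matrix (Fin D.n) (Fin D.n) ℝ)ˣ} (hu : u ∈ E1 D t) :
    g * u * g⁻¹ ∈ E1 D t := by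
  have h1 := hg.cj_mem ht hgG (mem_E1.1 hu).2
  rw [← eU_lg hu.1, conj_eU hgG]
  exact eU_mem_E1 _ h1.2

theorem InC.conj_inv_E1 {t g : (Matrix (Fin D.n) (Fin D.n) ℝ)ˣ} (ht : t ∈ G1 D)
    (hgG : g ∈ G1 D) (hg : InC t g) {u : (Matrix (Fin D.n) (Fin D.n) ℝ)ˣ} (hu : u ∈ E1 D t) :
    g⁻¹ * u * g ∈ E1 D t := by
  have h1 := hg.cj_inv_mem ht hgG (mem_E1.1 hu).2
  have h2 := conj_eU ((G1 D).inv_mem hgG) (lg_mem_lie D hu.1)
  rw [eU_lg hu.1, inv_inv] at h2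
  rw [h2]
  exact eU_mem_E1 _ h1.2

variable (D)

/-- **The Cartan subgroup** of `G1` attached to `t` -/
noncomputable def Cf (t : G1 D) : Subgroup (G1 D) where
  carrier := {g | InC (D := D) (t : (Matrix (Fin D.n) (Fin D.n) ℝ)ˣ) g}
  one_mem' := by
    change ((1 : G1 D) : (Matrix (Fin D.n) (Fin D.n) ℝ)ˣ) * t *
      ((1 : G1 D) : (Matrix (Fin D.n) (Fin D.n) ℝ)ˣ)⁻¹ *
        (t : (Matrix (Fin D.n) (Fin D.n) ℝ)ˣ)⁻¹ ∈ E1 D _
    rw [Subgroup.coe_one]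
    have : (1 : (Matrix (Fin D.n) (Fin D.n) ℝ)ˣ) * t * 1⁻¹ *
      (t : (Matrix (Fin D.n) (Fin D.n) ℝ)ˣ)⁻¹ = 1 := by group
    rw [this]
    exact (E1 D _).one_mem
  mul_mem' := by
    intro g h hg hh
    have h1 := (E1 D _).mul_mem (InC.conj_E1 t.2 g.2 hg hh) hg
    change ((g * h : G1 D) : (Matrix (Fin D.n) (Fin D.n) ℝ)ˣ) * t *
      ((g * h : G1 D) : (Matrix (Fin D.n) (Fin D.n) ℝ)ˣ)⁻¹ *
        (t : (Matrix (Fin D.n) (Fin D.n) ℝ)ˣ)⁻¹ ∈ E1 D _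
    have e : ((g * h : G1 D) : (Matrix (Fin D.n) (Fin D.n) ℝ)ˣ) * t *
      ((g * h : G1 D) : (Matrix (Fin D.n) (Fin D.n) ℝ)ˣ)⁻¹ *
        (t : (Matrix (Fin D.n) (Fin D.n) ℝ)ˣ)⁻¹ =
      ((g : (Matrix (Fin D.n) (Fin D.n) ℝ)ˣ) *
        ((h : (Matrix (Fin D.n) (Fin D.n) ℝ)ˣ) * t *
          (h : (Matrix (Fin D.n) (Fin D.n) ℝ)ˣ)⁻¹ * (t : (Matrix (Fin D.n) (Fin D.n) ℝ)ˣ)⁻¹) *
        (g : (Matrix (Fin D.n) (Fin D.n) ℝ)ˣ)⁻¹) *
      ((g : (Matrix (Fin D.n) (Fin D.n) ℝ)ˣ) * t *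
        (g : (Matrix (Fin D.n) (Fin D.n) ℝ)ˣ)⁻¹ * (t : (Matrix (Fin D.n) (Fin D.n) ℝ)ˣ)⁻¹) := by
      rw [Subgroup.coe_mul]; group
    rw [e]; exact h1
  inv_mem' := by
    intro g hg
    have h1 := (E1 D _).inv_mem (InC.conj_inv_E1 t.2 g.2 hg hg)
    change ((g⁻¹ : G1 D) : (Matrix (Fin D.n) (Fin D.n) ℝ)ˣ) * t *
      ((g⁻¹ : G1 D) : (Matrix (Fin D.n) (Fin D.n) ℝ)ˣ)⁻¹ *
        (t : (Matrix (Fin D.n) (Fin D.n) ℝ)ˣ)⁻¹ ∈ E1 D _
    have e : ((g⁻¹ : G1 D) : (Matrix (Fin D.n) (Fin D.n) ℝ)ˣ) * t *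
      ((g⁻¹ : G1 D) : (Matrix (Fin D.n) (Fin D.n) ℝ)ˣ)⁻¹ *
        (t : (Matrix (Fin D.n) (Fin D.n) ℝ)ˣ)⁻¹ =
      ((g : (Matrix (Fin D.n) (Fin D.n) ℝ)ˣ)⁻¹ *
        ((g : (Matrix (Fin D.n) (Fin D.n) ℝ)ˣ) * t *
          (g : (Matrix (Fin D.n) (Fin D.n) ℝ)ˣ)⁻¹ * (t : (Matrix (Fin D.n) (Fin D.n) ℝ)ˣ)⁻¹) *
        (g : (Matrix (Fin D.n) (Fin D.n) ℝ)ˣ))⁻¹ := by
      rw [Subgroup.coe_inv]; group
    rw [e]; exact h1

variable {D}

theorem mem_Cf {t g : G1 D} : g ∈ Cf D t ↔ InC (D := D) (t : (Matrix (Fin D.n) (Fin D.n) ℝ)ˣ) g :=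
  Iff.rfl

theorem t_mem_Cf (t : G1 D) : t ∈ Cf D t := by
  rw [mem_Cf, InC]
  have : (t : (Matrix (Fin D.n) (Fin D.n) ℝ)ˣ) * t * (t : (Matrix (Fin D.n) (Fin D.n) ℝ)ˣ)⁻¹ *
      (t : (Matrix (Fin D.n) (Fin D.n) ℝ)ˣ)⁻¹ = 1 := by group
  rw [this]
  exact (E1 D _).one_mem

/-- `G1/N_ℝ` is abelian -/
def AbQ (D : EmbData Γ N) : Prop := ∀ g h : G1 D, g * h * g⁻¹ * h⁻¹ ∈ NR1 D

/-- **`G1 = N_ℝ · C`** -/
theorem exists_mul_Cf (hab : AbQ D) (t g : G1 D) : ∃ u ∈ NR1 D, ∃ c ∈ Cf D t, g = u * c := by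
  have hn : (g : (Matrix (Fin D.n) (Fin D.n) ℝ)ˣ) * t *
      (g : (Matrix (Fin D.n) (Fin D.n) ℝ)ˣ)⁻¹ *
        (t : (Matrix (Fin D.n) (Fin D.n) ℝ)ˣ)⁻¹ ∈ D.NR := hab g t
  obtain ⟨m, hm, h⟩ := exists_coh t.2 hn
  refine ⟨(⟨m, NR_le D hm⟩ : G1 D)⁻¹, (NR1 D).inv_mem hm, ⟨m, NR_le D hm⟩ * g, ?_, by group⟩
  rw [mem_Cf]
  change (m * (g : (Matrix (Fin D.n) (Fin D.n) ℝ)ˣ)) * t *
    (m * (g : (Matrix (Fin D.n) (Fin D.n) ℝ)ˣ))⁻¹ *
      (t : (Matrix (Fin D.n) (Fin D.n) ℝ)ˣ)⁻¹ ∈ E1 D _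
  have e : (m * (g : (Matrix (Fin D.n) (Fin D.n) ℝ)ˣ)) * t *
    (m * (g : (Matrix (Fin D.n) (Fin D.n) ℝ)ˣ))⁻¹ * (t : (Matrix (Fin D.n) (Fin D.n) ℝ)ˣ)⁻¹ =
    m * ((g : (Matrix (Fin D.n) (Fin D.n) ℝ)ˣ) * t *
      (g : (Matrix (Fin D.n) (Fin D.n) ℝ)ˣ)⁻¹ * (t : (Matrix (Fin D.n) (Fin D.n) ℝ)ˣ)⁻¹) *
      ((t : (Matrix (Fin D.n) (Fin D.n) ℝ)ˣ) * m⁻¹ *
        (t : (Matrix (Fin D.n) (Fin D.n) ℝ)ˣ)⁻¹) := by group
  rw [e]; exact h

/-- **`C ∩ N_ℝ = exp 𝔫_00`** -/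
theorem mem_Cf_NR_iff (t g : G1 D) : (g ∈ Cf D t ∧ g ∈ NR1 D) ↔
    (g : (Matrix (Fin D.n) (Fin D.n) ℝ)ˣ) ∈ E1 D t := by
  constructor
  · rintro ⟨h1, h2⟩
    refine mem_E1_of_coh t.2 h2 ?_
    have h3 : InC (D := D) (t : (Matrix (Fin D.n) (Fin D.n) ℝ)ˣ) g := h1
    have e : (g : (Matrix (Fin D.n) (Fin D.n) ℝ)ˣ) *
      ((t : (Matrix (Fin D.n) (Fin D.n) ℝ)ˣ) * (g : (Matrix (Fin D.n) (Fin D.n) ℝ)ˣ) *
        (t : (Matrix (Fin D.n) (Fin D.n) ℝ)ˣ)⁻¹)⁻¹ =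
      (g : (Matrix (Fin D.n) (Fin D.n) ℝ)ˣ) * t *
      (g : (Matrix (Fin D.n) (Fin D.n) ℝ)ˣ)⁻¹ *
        (t : (Matrix (Fin D.n) (Fin D.n) ℝ)ˣ)⁻¹ := by group
    rw [e]; exact h3
  · intro h
    refine ⟨?_, h.1⟩
    have h1 := (E1 D _).mul_mem h ((E1 D _).inv_mem (conj_mem_E1 t.2 h))
    have e : (g : (Matrix (Fin D.n) (Fin D.n) ℝ)ˣ) *
      ((t : (Matrix (Fin D.n) (Fin D.n) ℝ)ˣ) * (g : (Matrix (Fin D.n) (Fin D.n) ℝ)ˣ) *
        (t : (Matrix (Fin D.n) (Fin D.n) ℝ)ˣ)⁻¹)⁻¹ =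
      (g : (Matrix (Fin D.n) (Fin D.n) ℝ)ˣ) * t *
      (g : (Matrix (Fin D.n) (Fin D.n) ℝ)ˣ)⁻¹ *
        (t : (Matrix (Fin D.n) (Fin D.n) ℝ)ˣ)⁻¹ := by group
    rw [e] at h1
    exact h1

section growth

attribute [local instance] Matrix.linftyOpNormedRing Matrix.linftyOpNormedAlgebra

theorem fm_le_gm {n : ℕ} (t : (Matrix (Fin n) (Fin n) ℝ)ˣ) : fm t ≤ gm t 0 := by
  intro X hX
  obtain ⟨k, hk⟩ := mem_fm.mp hX
  have h1 : X ∈ End.maxGenEigenspace ((cj t : Matrix (Fin n) (Fin n) ℝ ≃ₗ[ℝ] _) :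
      Matrix (Fin n) (Fin n) ℝ →ₗ[ℝ] Matrix (Fin n) (Fin n) ℝ) 1 := by
    rw [End.mem_maxGenEigenspace]
    refine ⟨k, ?_⟩
    rw [one_smul]; exact hk
  have h2 := mem_growSpace_of_mem_maxGenEigenspace (T := cj t) (one_ne_zero) h1
  rwa [norm_one, Real.log_one] at h2

theorem E1_le_E0 (t : (Matrix (Fin D.n) (Fin D.n) ℝ)ˣ) : E1 D t ≤ E0 D t := by
  rintro g ⟨h1, h2⟩
  exact ⟨h1, h2.1, fm_le_gm t h2.2⟩

/-- the full Cartan subgroup is contained in helper936's `C` (same base point) -/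
theorem Cf_le {k : ℕ} {π₁ : G1 D →* Multiplicative (Fin k → ℤ)} (𝒞 : Cartan D π₁) :
    Cf D 𝒞.t ≤ 𝒞.C := fun _ hg => E1_le_E0 _ hg

end growth

end lie

end Crest.Agent.R182.ModelCt
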