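/-
R182, module MODEL (S4, part 2): the full-character Cartan subgroup is nilpotent.
-/
import Mathlib
import Crest.Agent.R182.ModelCartan

set_option autoImplicit false
set_option linter.unusedSectionVars false

namespace Crest.Agent.R182.ModelCt

open Module LinMod Polyc Model ModelWt

/-! ### avoiding pure subgroups -/

section avoid

/-- finitely many proper pure subgroups do not cover a group -/
theorem exists_avoid {A : Type*} [Group A] (s : Finset (Subgroup A)) :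
    (∀ P ∈ s, P ≠ ⊤) → (∀ P ∈ s, ∀ v : A, ∀ p : ℕ, 0 < p → v ^ p ∈ P → v ∈ P) →
    ∃ v : A, ∀ P ∈ s, v ∉ P := by
  classical
  induction s using Finset.induction_on with
  | empty => intro _ _; exact ⟨1, by simp⟩
  | insert Q s hQ ih =>
    intro hP hpure
    obtain ⟨v, hv⟩ := ih (fun P h => hP P (Finset.mem_insert_of_mem h))
      (fun P h => hpure P (Finset.mem_insert_of_mem h))
    by_cases hvQ : v ∈ Q
    · obtain ⟨w, hw⟩ : ∃ w, w ∉ Q := by
        by_contra hcon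
        push Not at hcon
        exact hP Q (Finset.mem_insert_self _ _) (eq_top_iff.mpr fun x _ => hcon x)
      have key : ∀ P ∈ s, ∀ m m' : ℕ, m < m' → w * v ^ m ∈ P → w * v ^ m' ∈ P → False := by
        intro P hP' m m' h h1 h2
        have h3 : v ^ (m' - m) ∈ P := by
          have h4 := P.mul_mem (P.inv_mem h1) h2
          have e : (w * v ^ m)⁻¹ * (w * v ^ m') = v ^ (m' - m) := by
            rw [mul_inv_rev, mul_assoc, inv_mul_cancel_left, inv_mul_eq_iff_eq_mul, ← pow_add]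
            congr 1; omega
          rwa [e] at h4
        exact hv P hP' (hpure P (Finset.mem_insert_of_mem hP') v (m' - m) (by omega) h3)
      have hfin : (⋃ P ∈ s, {m : ℕ | w * v ^ m ∈ P}).Finite := by
        refine Set.Finite.biUnion s.finite_toSet fun P hP' => ?_
        refine Set.Subsingleton.finite ?_
        intro m hm m' hm'
        by_contra hne
        rcases lt_or_gt_of_ne hne with h | h
        · exact key P hP' m m' h hm hm'
        · exact key P hP' m' m h hm' hm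
      obtain ⟨m, hm⟩ := hfin.infinite_compl.nonempty
      refine ⟨w * v ^ m, fun P hP' => ?_⟩
      rcases Finset.mem_insert.mp hP' with rfl | h
      · intro h
        apply hw
        have h1 := P.mul_mem h (P.inv_mem (P.pow_mem hvQ m))
        rwa [mul_inv_cancel_right] at h1
      · intro h'
        exact hm (Set.mem_biUnion h h')
    · refine ⟨v, fun P hP' => ?_⟩
      rcases Finset.mem_insert.mp hP' with rfl | h
      · exact hvQ
      · exact hv P h

end avoid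

/-! ### intertwiners and polynomials -/

section poly

variable {V V' : Type*} [AddCommGroup V] [Module ℝ V] [AddCommGroup V'] [Module ℝ V']

theorem aeval_comm (T : V →ₗ[ℝ] V) (T' : V' →ₗ[ℝ] V') (f : V →ₗ[ℝ] V')
    (h : ∀ x, f (T x) = T' (f x)) (p : Polynomial ℝ) (x : V) :
    f (Polynomial.aeval T p x) = Polynomial.aeval T' p (f x) := by
  induction p using Polynomial.induction_on' with
  | add p q hp hq => rw [map_add, map_add, LinearMap.add_apply, map_add, hp, hq,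
      LinearMap.add_apply]
  | monomial k a =>
    rw [Polynomial.aeval_monomial, Polynomial.aeval_monomial, Module.End.mul_apply,
      Module.End.mul_apply, Module.algebraMap_end_apply, Module.algebraMap_end_apply, map_smul]
    congr 1
    induction k generalizing x with
    | zero => simp
    | succ k ih => rw [pow_succ, pow_succ, Module.End.mul_apply, Module.End.mul_apply, ih, h]

theorem aeval_functional (T : V →ₗ[ℝ] V) (φ : V →ₗ[ℝ] ℂ) (z : ℂ)
    (h : ∀ x, φ (T x) = z * φ x) (p : Polynomial ℝ) (x : V) :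
    φ (Polynomial.aeval T p x) = Polynomial.aeval z p * φ x := by
  induction p using Polynomial.induction_on' with
  | add p q hp hq => rw [map_add, map_add, LinearMap.add_apply, map_add, hp, hq]; ring
  | monomial k a =>
    rw [Polynomial.aeval_monomial, Polynomial.aeval_monomial, Module.End.mul_apply,
      Module.algebraMap_end_apply, map_smul, Complex.real_smul, mul_assoc]
    congr 1
    induction k generalizing x with
    | zero => simp
    | succ k ih => rw [pow_succ, Module.End.mul_apply, ih, h, pow_succ]; ring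

end poly

/-! ### nilpotency from a filtration -/

section filt

variable {Γ : Type*} [Group Γ] {N : Subgroup Γ} [hN : N.Normal] {D : EmbData Γ N}

/-- exponentials of `𝔫_00` lie in the Cartan subgroup -/
theorem exG_mem_Cf (t : G1 D) {Y : Matrix (Fin D.n) (Fin D.n) ℝ}
    (hY : Y ∈ fs D (t : (Matrix (Fin D.n) (Fin D.n) ℝ)ˣ)) :
    exG D Y hY.1 ∈ Cf D t ∧ exG D Y hY.1 ∈ NR1 D :=
  (mem_Cf_NR_iff t _).mpr (eU_mem_E1 hY.1 hY.2)

/-- brackets with a filtration -/
theorem bracket_mem_filt (t : G1 D) {F F' : Submodule ℝ (Matrix (Fin D.n) (Fin D.n) ℝ)}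
    (hF : ∀ X ∈ F, ∀ c ∈ Cf D t, cj (c : (Matrix (Fin D.n) (Fin D.n) ℝ)ˣ) X - X ∈ F')
    {X Y : Matrix (Fin D.n) (Fin D.n) ℝ} (hX : X ∈ F)
    (hY : Y ∈ fs D (t : (Matrix (Fin D.n) (Fin D.n) ℝ)ˣ)) : Y * X - X * Y ∈ F' := by
  have hYn := lie_pow_zero D hY.1
  have hYn' : (-Y) ^ D.n = 0 := by rw [neg_pow, hYn, mul_zero]
  have h1 : HDM (fun u : ℝ => ex (u • Y)) (Y * ex ((0 : ℝ) • Y)) 0 := hdm_ex_smul hYn 0
  have h2 : HDM (fun u : ℝ => ex (-(u • Y))) (-Y * ex ((0 : ℝ) • -Y)) 0 :=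
    (hdm_ex_smul hYn' 0).congr fun s => by rw [smul_neg]
  have h3 := ((h1.mul_const X).mul h2).sub (HDM.const X 0)
  have hA : HDM (fun u : ℝ => ex (u • Y) * X * ex (-(u • Y)) - X) (Y * X - X * Y) 0 := by
    refine h3.congr_deriv ?_
    rw [zero_smul, zero_smul, neg_zero, ex_zero]
    noncomm_ring
  have hP1 : PCM (fun u : ℝ => ex (u • Y)) := isPolyM_ex (PCM.of_smul Y)
  have hP2 : PCM (fun u : ℝ => ex (-(u • Y))) :=
    isPolyM_ex (IsPolyM.smul (IsPoly.coord 0) (IsPolyM.const Y)).neg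
  have hP : PCM (fun u : ℝ => ex (u • Y) * X * ex (-(u • Y)) - X) :=
    ((hP1.mul (PCM.of_const X)).mul hP2).sub (PCM.of_const X)
  refine deriv_mem' hP (fun s => ?_) hA
  exact hF X hX _ (exG_mem_Cf t (Submodule.smul_mem _ s hY)).1

/-- **nilpotency** of the Cartan subgroup from a filtration of `𝔫_00` -/
theorem isNilpotent_of_filt (hab : AbQ D) (t : G1 D)
    (F : ℕ → Submodule ℝ (Matrix (Fin D.n) (Fin D.n) ℝ)) (n : ℕ)
    (h0 : F 0 = fs D (t : (Matrix (Fin D.n) (Fin D.n) ℝ)ˣ)) (hn : F n = ⊥)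
    (hanti : ∀ j, F (j + 1) ≤ F j)
    (hF : ∀ j, ∀ X ∈ F j, ∀ c ∈ Cf D t,
      cj (c : (Matrix (Fin D.n) (Fin D.n) ℝ)ˣ) X - X ∈ F (j + 1)) :
    Group.IsNilpotent (Cf D t) := by
  have hle : ∀ j, F j ≤ fs D (t : (Matrix (Fin D.n) (Fin D.n) ℝ)ˣ) := by
    intro j
    induction j with
    | zero => exact h0.le
    | succ j ih => exact (hanti j).trans ih
  have hbr : ∀ j, ∀ X ∈ F j, ∀ Y ∈ F j, X * Y - Y * X ∈ F (j + 1) := fun j X hX Y hY =>
    bracket_mem_filt t (hF j) hY (hle j hX)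
  have hsub : ∀ j, IsSub D (F j) := fun j =>
    ⟨(hle j).trans (fs_le D _), fun X hX Y hY => hanti j (hbr j X hX Y hY)⟩
  let E : ℕ → Subgroup (Cf D t) := fun j =>
    ((expG (hsub j)).comap ((G1 D).subtype.comp (Cf D t).subtype))
  have hE : ∀ j (g : Cf D t), g ∈ E j ↔
      ((g : G1 D) : (Matrix (Fin D.n) (Fin D.n) ℝ)ˣ) ∈ D.NR ∧
      lg (((g : G1 D) : (Matrix (Fin D.n) (Fin D.n) ℝ)ˣ) : Matrix (Fin D.n) (Fin D.n) ℝ) ∈ F j :=
    fun j g => Iff.rfl
  let H : ℕ → Subgroup (Cf D t) := fun j => match j with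
    | 0 => ⊤
    | j + 1 => E j
  rw [Subgroup.nilpotent_iff_finite_descending_central_series]
  refine ⟨n + 1, H, ⟨rfl, ?_⟩, ?_⟩
  · intro x j hx g
    rcases j with _ | j
    · -- commutators
      change x * g * x⁻¹ * g⁻¹ ∈ E 0
      have h1 : (((x * g * x⁻¹ * g⁻¹ : Cf D t) : G1 D)) ∈ Cf D t ∧
          ((x * g * x⁻¹ * g⁻¹ : Cf D t) : G1 D) ∈ NR1 D :=
        ⟨(x * g * x⁻¹ * g⁻¹).2, hab x g⟩
      rw [mem_Cf_NR_iff] at h1
      rw [hE, h0]
      exact h1
    · change x ∈ E j at hx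
      change x * g * x⁻¹ * g⁻¹ ∈ E (j + 1)
      rw [hE] at hx ⊢
      obtain ⟨hxN, hxF⟩ := hx
      set X := lg (((x : G1 D) : (Matrix (Fin D.n) (Fin D.n) ℝ)ˣ) :
        Matrix (Fin D.n) (Fin D.n) ℝ) with hXdef
      have hXl : X ∈ lie D := lg_mem_lie D hxN
      have hgX : cj ((g : G1 D) : (Matrix (Fin D.n) (Fin D.n) ℝ)ˣ) X - X ∈ F (j + 1) :=
        hF j X hxF g g.2
      have hgX' : cj ((g : G1 D) : (Matrix (Fin D.n) (Fin D.n) ℝ)ˣ) X ∈ F j := by
        have : cj ((g : G1 D) : (Matrix (Fin D.n) (Fin D.n) ℝ)ˣ) X =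
          (cj ((g : G1 D) : (Matrix (Fin D.n) (Fin D.n) ℝ)ˣ) X - X) + X := by abel
        rw [this]
        exact (F j).add_mem (hanti j hgX) hxF
      have hgXl := (hsub j).le hgX'
      have e : (((x * g * x⁻¹ * g⁻¹ : Cf D t) : G1 D) : (Matrix (Fin D.n) (Fin D.n) ℝ)ˣ) =
          ModelWt.eU X hXl * ModelWt.eU (-cj ((g : G1 D) : (Matrix (Fin D.n) (Fin D.n) ℝ)ˣ) X)
            ((lie D).neg_mem hgXl) := by
        rw [eU_neg hgXl, ← conj_eU (g : G1 D).2 hXl]
        have hx' : ModelWt.eU X hXl = ((x : G1 D) : (Matrix (Fin D.n) (Fin D.n) ℝ)ˣ) := eU_lg hxN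
        rw [hx']
        simp only [Subgroup.coe_mul, InvMemClass.coe_inv]
        group
      refine ⟨?_, ?_⟩
      · rw [e]
        exact D.NR.mul_mem (eU_mem _) (eU_mem _)
      · rw [e, Units.val_mul, coe_eU, coe_eU]
        have h1 := (hsub j).lg_mul (hanti j) (hbr j) hxF ((F j).neg_mem hgX')
        have h2 : lg (ex X * ex (-cj ((g : G1 D) : (Matrix (Fin D.n) (Fin D.n) ℝ)ˣ) X)) =
            (lg (ex X * ex (-cj ((g : G1 D) : (Matrix (Fin D.n) (Fin D.n) ℝ)ˣ) X)) -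
              (X + -cj ((g : G1 D) : (Matrix (Fin D.n) (Fin D.n) ℝ)ˣ) X)) -
              (cj ((g : G1 D) : (Matrix (Fin D.n) (Fin D.n) ℝ)ˣ) X - X) := by abel
        rw [h2]
        exact (F (j + 1)).sub_mem h1 hgX
  · change E n = ⊥
    rw [eq_bot_iff]
    intro g hg
    rw [hE, hn, Submodule.mem_bot] at hg
    have h1 : ((g : G1 D) : (Matrix (Fin D.n) (Fin D.n) ℝ)ˣ) = 1 := by
      rw [← eU_lg hg.1]
      apply Units.ext
      rw [coe_eU, hg.2, ex_zero, Units.val_one]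
    rw [Subgroup.mem_bot]
    exact Subtype.ext (Subtype.ext h1)

end filt

/-! ### generic elements -/

section generic

attribute [local instance] Matrix.linftyOpNormedRing Matrix.linftyOpNormedAlgebra

variable {Γ : Type*} [Group Γ] {R : RootData Γ} (D : EmbData Γ R.N)

theorem π1_eq_one_iff (g : G1 D) : π1 R D g = 1 ↔ g ∈ NR1 D :=
  lift_eq_one_iff (D := D) R.π (fun n => (R.mem_N n).symm) g

theorem π1_surj (v : Fin R.k → ℤ) : ∃ γ : Γ, Multiplicative.toAdd (π1 R D (inΓ D γ)) = v := by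
  obtain ⟨γ, hγ⟩ := R.surj (Multiplicative.ofAdd v)
  exact ⟨γ, by rw [π1, lift_inΓ, hγ]; rfl⟩

theorem abQ : AbQ D := by
  intro g h
  rw [← π1_eq_one_iff, map_mul, map_mul, map_mul, map_inv, map_inv, mul_comm (π1 R D g)]
  group

/-- **netness** of the characters of `𝔫` -/
theorem net {W : WtData (adE D) (π1 R D)} (j : Fin W.n) (g : G1 D) (p : ℕ) (hp : 0 < p)
    (h : W.χ j g ^ p = 1) : W.χ j g = 1 := by
  obtain ⟨u, hu, hg⟩ := rep_spec D g
  have h1 : g = (⟨u, NR_le D hu⟩ : G1 D) * inΓ D (rep D g) := Subtype.ext hg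
  have h2 : W.χ j g = W.χ j (inΓ D (rep D g)) := by
    conv_lhs => rw [h1]
    rw [map_mul, W.χ_ker _ ((π1_eq_one_iff D _).mpr hu), one_mul]
  rw [h2] at h ⊢
  have h3 := (W.isRoot_iff (inΓ D (rep D g)) ((W.χ j (inΓ D (rep D g)) : ℂˣ) : ℂ)).2 ⟨j, rfl⟩
  obtain ⟨z, hz, hz'⟩ := (isProd_of_isRoot _ h3).mem_B
  have h4 : z = W.χ j (inΓ D (rep D g)) := Units.ext hz'
  rw [← h4] at h ⊢
  exact R.B_tf z hz p hp h

/-- **existence of generic elements** for the full characters -/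
theorem exists_cartan_full : ∃ 𝒞 : Cartan D (π1 R D), (∃ γ : Γ, 𝒞.t = inΓ D γ) ∧
    ∀ j, 𝒞.W.χ j 𝒞.t = 1 → 𝒞.W.χ j = 1 := by
  classical
  have hsurj : Function.Surjective (π1 R D) := by
    intro v
    obtain ⟨γ, hγ⟩ := π1_surj D (Multiplicative.toAdd v)
    exact ⟨inΓ D γ, by rw [← ofAdd_toAdd (π1 R D (inΓ D γ)), hγ, ofAdd_toAdd]⟩
  obtain ⟨W⟩ := exists_wtData (adE D) (π1 R D) hsurj
    (fun g hg => unip_ad ((π1_eq_one_iff D g).1 hg))
  -- the subgroups to avoid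
  let Pf : ((Fin R.k → ℝ) →ₗ[ℝ] ℝ) → Subgroup Γ := fun f =>
    { carrier := {γ | f (hv (π1 R D) (inΓ D γ)) = 0}
      one_mem' := by
        change f (hv (π1 R D) (inΓ D 1)) = 0
        rw [map_one, hv_one, map_zero]
      mul_mem' := by
        intro a b ha hb
        change f (hv (π1 R D) (inΓ D (a * b))) = 0
        change f (hv (π1 R D) (inΓ D a)) = 0 at ha
        change f (hv (π1 R D) (inΓ D b)) = 0 at hb
        rw [map_mul, hv_mul, map_add, ha, hb, add_zero]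
      inv_mem' := by
        intro a ha
        change f (hv (π1 R D) (inΓ D a⁻¹)) = 0
        change f (hv (π1 R D) (inΓ D a)) = 0 at ha
        rw [map_inv, hv_inv, map_neg, ha, neg_zero] }
  have hPf : ∀ f γ, γ ∈ Pf f ↔ f (hv (π1 R D) (inΓ D γ)) = 0 := fun f γ => Iff.rfl
  have hPf_top : ∀ f, f ≠ 0 → Pf f ≠ ⊤ := by
    intro f hf htop
    apply hf
    apply LinearMap.pi_ext'
    intro j
    ext
    obtain ⟨γ, hγ⟩ := π1_surj D (Pi.single j 1)
    have h1 : γ ∈ Pf f := by rw [htop]; trivial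
    rw [hPf] at h1
    have h2 : hv (π1 R D) (inΓ D γ) = Pi.single j 1 := by
      funext i
      rw [hv, hγ]
      by_cases h : i = j
      · subst h; simp
      · simp [Pi.single_eq_of_ne h]
    rw [h2] at h1
    simpa using h1
  have hPf_pure : ∀ f, ∀ v : Γ, ∀ p : ℕ, 0 < p → v ^ p ∈ Pf f → v ∈ Pf f := by
    intro f v p hp h
    rw [hPf] at h ⊢
    rw [map_pow, hv_pow, map_smul, smul_eq_mul] at h
    exact (mul_eq_zero.mp h).resolve_left (by exact_mod_cast hp.ne')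
  let Pj : Fin W.n → Subgroup Γ := fun j => ((W.χ j).comp (inΓ D)).ker
  have hPj : ∀ j γ, γ ∈ Pj j ↔ W.χ j (inΓ D γ) = 1 := fun j γ => Iff.rfl
  have hPj_pure : ∀ j, ∀ v : Γ, ∀ p : ℕ, 0 < p → v ^ p ∈ Pj j → v ∈ Pj j := by
    intro j v p hp h
    rw [hPj] at h ⊢
    rw [map_pow, map_pow] at h
    exact net D j _ p hp h
  let s : Finset (Subgroup Γ) :=
    ((((Finset.univ.image fun p : Fin W.n × Fin W.n => Pf (W.M p.1 - W.M p.2)) ∪
      (Finset.univ.image fun i => Pf (W.M i))) ∪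
      (Finset.univ.image fun p : Fin W.n × Fin W.n × Fin W.n =>
        Pf (W.M p.1 + W.M p.2.1 - W.M p.2.2))) ∪ (Finset.univ.image Pj)).filter (fun P => P ≠ ⊤)
  obtain ⟨γ, hγ⟩ := exists_avoid s (fun P hP => (Finset.mem_filter.1 hP).2) (by
    intro P hP
    have h1 := (Finset.mem_filter.1 hP).1
    simp only [Finset.mem_union, Finset.mem_image, Finset.mem_univ, true_and] at h1
    rcases h1 with ((⟨p, rfl⟩ | ⟨i, rfl⟩) | ⟨p, rfl⟩) | ⟨j, rfl⟩
    · exact hPf_pure _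
    · exact hPf_pure _
    · exact hPf_pure _
    · exact hPj_pure j)
  have hgen : W.Generic (hv (π1 R D) (inΓ D γ)) := by
    refine ⟨fun i j hij => ?_, fun i hi => ?_, fun i j l hl => ?_⟩
    · by_contra hne
      have h1 := hPf_top (W.M i - W.M j) (sub_ne_zero.2 hne)
      refine hγ (Pf (W.M i - W.M j)) (Finset.mem_filter.2 ⟨?_, h1⟩) ?_
      · refine Finset.mem_union_left _ (Finset.mem_union_left _ (Finset.mem_union_left _ ?_))
        exact Finset.mem_image.2 ⟨(i, j), Finset.mem_univ _, rfl⟩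
      · rw [hPf, LinearMap.sub_apply, hij, sub_self]
    · by_contra hne
      refine hγ (Pf (W.M i)) (Finset.mem_filter.2 ⟨?_, hPf_top _ hne⟩) hi
      refine Finset.mem_union_left _ (Finset.mem_union_left _ (Finset.mem_union_right _ ?_))
      exact Finset.mem_image.2 ⟨i, Finset.mem_univ _, rfl⟩
    · by_contra hne
      have h1 := hPf_top (W.M i + W.M j - W.M l) (sub_ne_zero.2 hne)
      refine hγ (Pf (W.M i + W.M j - W.M l)) (Finset.mem_filter.2 ⟨?_, h1⟩) ?_
      · refine Finset.mem_union_left _ (Finset.mem_union_right _ ?_)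
        exact Finset.mem_image.2 ⟨(i, j, l), Finset.mem_univ _, rfl⟩
      · rw [hPf, LinearMap.sub_apply, LinearMap.add_apply, hl, sub_self]
  refine ⟨⟨π1_eq_one_iff D, W, inΓ D γ, hgen⟩, ⟨γ, rfl⟩, fun j hj => ?_⟩
  change W.χ j (inΓ D γ) = 1 at hj
  change W.χ j = 1
  by_contra hne
  refine hγ (Pj j) (Finset.mem_filter.2 ⟨Finset.mem_union_right _
    (Finset.mem_image.2 ⟨j, Finset.mem_univ _, rfl⟩), fun htop => hne ?_⟩) hj
  ext g
  obtain ⟨u, hu, hg⟩ := rep_spec D g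
  have h1 : g = (⟨u, NR_le D hu⟩ : G1 D) * inΓ D (rep D g) := Subtype.ext hg
  have h2 : rep D g ∈ Pj j := by rw [htop]; trivial
  rw [h1, map_mul, W.χ_ker _ ((π1_eq_one_iff D _).mpr hu), one_mul, (hPj j _).mp h2]
  rfl

end generic

/-! ### the action of the Cartan subgroup on `𝔫_00` -/

section action

attribute [local instance] Matrix.linftyOpNormedRing Matrix.linftyOpNormedAlgebra

variable {Γ : Type*} [Group Γ] {R : RootData Γ} {D : EmbData Γ R.N}

/-- the action of the Cartan subgroup on `𝔫_00` -/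
noncomputable def adC (t : G1 D) :
    Cf D t →* (fs D (t : (Matrix (Fin D.n) (Fin D.n) ℝ)ˣ) ≃ₗ[ℝ]
      fs D (t : (Matrix (Fin D.n) (Fin D.n) ℝ)ˣ)) where
  toFun g :=
    { toFun := fun X => ⟨cj ((g : G1 D) : (Matrix (Fin D.n) (Fin D.n) ℝ)ˣ) X,
        InC.cj_mem t.2 (g : G1 D).2 g.2 X.2⟩
      invFun := fun X => ⟨cj ((g : G1 D) : (Matrix (Fin D.n) (Fin D.n) ℝ)ˣ)⁻¹ X,
        InC.cj_inv_mem t.2 (g : G1 D).2 g.2 X.2⟩
      map_add' := fun X Y => Subtype.ext (map_add _ _ _)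
      map_smul' := fun c X => Subtype.ext (map_smul _ _ _)
      left_inv := fun X => Subtype.ext (cj_inv_cj _ _)
      right_inv := fun X => Subtype.ext (cj_cj_inv _ _) }
  map_one' := by
    apply LinearEquiv.ext
    intro X
    exact Subtype.ext (cj_one _)
  map_mul' g h := by
    apply LinearEquiv.ext
    intro X
    exact Subtype.ext (cj_mul _ _ _)


/-- polynomials of `Ad` on `𝔫_00` and on `𝔫` -/
theorem coe_aeval (t : G1 D) (g : Cf D t) (p : Polynomial ℝ)
    (X : fs D (t : (Matrix (Fin D.n) (Fin D.n) ℝ)ˣ)) :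
    Submodule.inclusion (fs_le D _) (Polynomial.aeval
      (adC t g).toLinearMap p X) =
    Polynomial.aeval (adE D (g : G1 D) : lie D →ₗ[ℝ] lie D) p
      (Submodule.inclusion (fs_le D _) X) :=
  aeval_comm _ _ (Submodule.inclusion (fs_le D _)) (fun _ => rfl) p X

theorem coe_sub_one_pow (t : G1 D) (g : Cf D t) (d : ℕ)
    (X : fs D (t : (Matrix (Fin D.n) (Fin D.n) ℝ)ˣ)) :
    Submodule.inclusion (fs_le D _)
      ((((adC t g).toLinearMap - 1) ^ d) X) =
    (((adE D (g : G1 D) : lie D →ₗ[ℝ] lie D) - 1) ^ d) (Submodule.inclusion (fs_le D _) X) := by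
  have h1 := coe_aeval t g ((Polynomial.X - 1) ^ d) X
  simpa using h1

theorem adC_unip (t : G1 D) (g : Cf D t) (hg : (g : G1 D) ∈ NR1 D) :
    ∃ d : ℕ, ((adC t g).toLinearMap - 1) ^ d = 0 := by
  obtain ⟨d, hd⟩ := unip_ad hg
  refine ⟨d, ?_⟩
  ext1 X
  apply Submodule.inclusion_injective (fs_le D _)
  rw [coe_sub_one_pow, hd, LinearMap.zero_apply, LinearMap.zero_apply, map_zero]

/-- heights on the Cartan subgroup -/
noncomputable def πC (t : G1 D) : Cf D t →* Multiplicative (Fin R.k → ℤ) :=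
  (π1 R D).comp (Cf D t).subtype

theorem πC_surjective (t : G1 D) : Function.Surjective (πC t) := by
  intro v
  obtain ⟨γ, hγ⟩ := π1_surj D (Multiplicative.toAdd v)
  obtain ⟨u, hu, c, hc, hg⟩ := exists_mul_Cf (abQ D) t (inΓ D γ)
  refine ⟨⟨c, hc⟩, ?_⟩
  have h1 : π1 R D (inΓ D γ) = π1 R D c := by
    rw [hg, map_mul, (π1_eq_one_iff D u).mpr hu, one_mul]
  change π1 R D c = v
  rw [← h1, ← ofAdd_toAdd (π1 R D (inΓ D γ)), hγ, ofAdd_toAdd]

theorem exists_wtC (t : G1 D) : Nonempty (WtData (adC t) (πC t)) :=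
  exists_wtData (adC t) (πC t) (πC_surjective t)
    (fun g hg => adC_unip t g ((π1_eq_one_iff D _).1 hg))

/-- `t` acts on `𝔫_00` with the only eigenvalue `1` -/
theorem χ_t (t : G1 D) (W : WtData (adC t) (πC t)) (i : Fin W.n) :
    W.χ i ⟨t, t_mem_Cf t⟩ = 1 := by
  have h1 := (W.isRoot_iff ⟨t, t_mem_Cf t⟩ ((W.χ i ⟨t, t_mem_Cf t⟩ : ℂˣ) : ℂ)).2 ⟨i, rfl⟩
  set z := ((W.χ i ⟨t, t_mem_Cf t⟩ : ℂˣ) : ℂ) with hz
  obtain ⟨φ, hφ, h⟩ := exists_functional _ h1
  obtain ⟨X, hX⟩ : ∃ X, φ X ≠ 0 := by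
    by_contra hcon
    push Not at hcon
    exact hφ (LinearMap.ext hcon)
  obtain ⟨k, hk⟩ := mem_fm.mp X.2.2
  have h2 : (((adC t ⟨t, t_mem_Cf t⟩).toLinearMap - 1) ^ k)
      X = 0 := by
    have key : ∀ (k : ℕ) (Y : fs D (t : (Matrix (Fin D.n) (Fin D.n) ℝ)ˣ)),
        (((((adC t ⟨t, t_mem_Cf t⟩).toLinearMap - 1) ^ k)
        Y : fs D (t : (Matrix (Fin D.n) (Fin D.n) ℝ)ˣ)) : Matrix (Fin D.n) (Fin D.n) ℝ) =
        (dl (t : (Matrix (Fin D.n) (Fin D.n) ℝ)ˣ) ^ k) Y := by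
      intro k
      induction k with
      | zero => intro Y; rfl
      | succ k ih =>
        intro Y
        rw [pow_succ, pow_succ, Module.End.mul_apply, Module.End.mul_apply, ih]
        rfl
    apply Subtype.ext
    rw [key, hk]; rfl
  have h3 := aeval_functional _ φ z h ((Polynomial.X - 1) ^ k) X
  have h4 : Polynomial.aeval (adC t ⟨t, t_mem_Cf t⟩).toLinearMap ((Polynomial.X - 1 : Polynomial ℝ) ^ k) =
      ((adC t ⟨t, t_mem_Cf t⟩).toLinearMap - 1) ^ k := by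
    simp
  rw [h4, h2, map_zero] at h3
  have h5 : Polynomial.aeval z ((Polynomial.X - 1 : Polynomial ℝ) ^ k) = (z - 1) ^ k := by simp
  rw [h5] at h3
  have h6 := (mul_eq_zero.mp h3.symm).resolve_right hX
  have h7 : z - 1 = 0 := by
    rcases Nat.eq_zero_or_pos k with h | h
    · subst h; simp at h6
    · exact (pow_eq_zero_iff h.ne').mp h6
  apply Units.ext
  rw [← hz, Units.val_one]
  linear_combination h7

/-- the characters on `𝔫_00` are values of the characters on `𝔫` -/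
theorem exists_χ_eq (t : G1 D) (W : WtData (adC t) (πC t)) (W' : WtData (adE D) (π1 R D))
    (i : Fin W.n) (c : Cf D t) : ∃ j, W.χ i c = W'.χ j (c : G1 D) := by
  have h1 := (W.isRoot_iff c ((W.χ i c : ℂˣ) : ℂ)).2 ⟨i, rfl⟩
  obtain ⟨φ, hφ, h⟩ := exists_functional _ h1
  obtain ⟨X, hX⟩ : ∃ X, φ X ≠ 0 := by
    by_contra hcon
    push Not at hcon
    exact hφ (LinearMap.ext hcon)
  set p := LinearMap.charpoly (adE D (c : G1 D) : lie D →ₗ[ℝ] lie D) with hp
  have h2 := aeval_functional _ φ _ h p X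
  have h3 : Polynomial.aeval (adC t c).toLinearMap p X =
      0 := by
    apply Submodule.inclusion_injective (fs_le D _)
    rw [coe_aeval, hp, LinearMap.aeval_self_charpoly, LinearMap.zero_apply, map_zero]
  rw [h3, map_zero] at h2
  have h4 := (mul_eq_zero.mp h2.symm).resolve_right hX
  have h5 : (p.map (algebraMap ℝ ℂ)).IsRoot ((W.χ i c : ℂˣ) : ℂ) := by
    rw [Polynomial.IsRoot.def, Polynomial.eval_map_algebraMap]
    exact h4
  obtain ⟨j, hj⟩ := (W'.isRoot_iff (c : G1 D) _).1 h5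
  exact ⟨j, Units.ext hj⟩

/-- **unipotence** of the Cartan subgroup on `𝔫_00` -/
theorem χ_eq_one (𝒞 : Cartan D (π1 R D)) (h1 : ∀ j, 𝒞.W.χ j 𝒞.t = 1 → 𝒞.W.χ j = 1)
    (W : WtData (adC 𝒞.t) (πC 𝒞.t)) (i : Fin W.n) (c : Cf D 𝒞.t) : W.χ i c = 1 := by
  choose j hj using fun m : ℕ =>
    exists_χ_eq 𝒞.t W 𝒞.W i ((⟨𝒞.t, t_mem_Cf 𝒞.t⟩ : Cf D 𝒞.t) ^ m * c)
  have h2 : ∀ m, W.χ i c = 𝒞.W.χ (j m) 𝒞.t ^ m * 𝒞.W.χ (j m) (c : G1 D) := by
    intro m
    have h3 := hj m
    rw [map_mul, map_pow, χ_t, one_pow, one_mul] at h3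
    rw [h3, Subgroup.coe_mul, Subgroup.coe_pow, map_mul, map_pow]
  obtain ⟨m, m', hne, hmm⟩ := Finite.exists_ne_map_eq_of_infinite j
  have key : ∀ m m' : ℕ, m < m' → j m = j m' → W.χ i c = 1 := by
    intro m m' hlt hmm
    have e1 := h2 m
    have e2 := h2 m'
    rw [← hmm] at e2
    have e3 : 𝒞.W.χ (j m) 𝒞.t ^ (m' - m) = 1 := by
      have e4 : 𝒞.W.χ (j m) 𝒞.t ^ m = 𝒞.W.χ (j m) 𝒞.t ^ m' :=
        mul_right_cancel (e1.symm.trans e2)
      have e5 : 𝒞.W.χ (j m) 𝒞.t ^ m * 𝒞.W.χ (j m) 𝒞.t ^ (m' - m) =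
          𝒞.W.χ (j m) 𝒞.t ^ m * 1 := by
        rw [← pow_add, mul_one, e4]
        congr 1; omega
      exact mul_left_cancel e5
    have e6 := net D (j m) 𝒞.t (m' - m) (by omega) e3
    have e7 := h1 (j m) e6
    rw [e1, e7]
    simp
  rcases lt_or_gt_of_ne hne with h | h
  · exact key m m' h hmm
  · exact key m' m h hmm.symm

/-- **The full-character Cartan subgroup is nilpotent.** -/
theorem isNilpotent_Cf (𝒞 : Cartan D (π1 R D)) (h1 : ∀ j, 𝒞.W.χ j 𝒞.t = 1 → 𝒞.W.χ j = 1) :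
    Group.IsNilpotent (Cf D 𝒞.t) := by
  obtain ⟨W⟩ := exists_wtC 𝒞.t
  -- the filtration
  let V := fs D (𝒞.t : (Matrix (Fin D.n) (Fin D.n) ℝ)ˣ)
  let F : ℕ → Submodule ℝ (Matrix (Fin D.n) (Fin D.n) ℝ) := fun j =>
    Submodule.map V.subtype (Submodule.comap (coordC V)
      ((W.b.flag ⟨W.n - j, by omega⟩).restrictScalars ℝ))
  have hmem : ∀ j X, X ∈ F j ↔ ∃ h : X ∈ V,
      coordC V ⟨X, h⟩ ∈ W.b.flag ⟨W.n - j, by omega⟩ := by
    intro j X
    constructor
    · rintro ⟨Y, hY, rfl⟩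
      exact ⟨Y.2, hY⟩
    · rintro ⟨h, hX⟩
      exact ⟨⟨X, h⟩, hX, rfl⟩
  refine isNilpotent_of_filt (abQ D) 𝒞.t F W.n ?_ ?_ ?_ ?_
  · apply le_antisymm
    · rintro X hX
      exact ((hmem 0 X).1 hX).1
    · intro X hX
      refine (hmem 0 X).2 ⟨hX, ?_⟩
      have : (⟨W.n - 0, by omega⟩ : Fin (W.n + 1)) = Fin.last W.n := by
        apply Fin.ext; simp
      rw [this, Basis.flag_last]
      trivial
  · rw [eq_bot_iff]
    intro X hX
    obtain ⟨h, hX⟩ := (hmem W.n X).1 hX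
    have : (⟨W.n - W.n, by omega⟩ : Fin (W.n + 1)) = 0 := by
      apply Fin.ext; simp
    rw [this, Basis.flag_zero, Submodule.mem_bot] at hX
    have h2 : (⟨X, h⟩ : V) = 0 := coordC_injective (by rw [hX, map_zero])
    rw [Submodule.mem_bot]
    exact congrArg Subtype.val h2
  · intro j X hX
    obtain ⟨h, hX⟩ := (hmem (j + 1) X).1 hX
    refine (hmem j X).2 ⟨h, ?_⟩
    refine W.b.flag_mono ?_ hX
    rw [Fin.le_def]
    change W.n - (j + 1) ≤ W.n - j
    omega
  · intro j X hX c hc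
    obtain ⟨h, hX⟩ := (hmem j X).1 hX
    have hcX : cj (c : (Matrix (Fin D.n) (Fin D.n) ℝ)ˣ) X ∈ V := InC.cj_mem 𝒞.t.2 c.2 hc h
    refine (hmem (j + 1) _).2 ⟨V.sub_mem hcX h, ?_⟩
    have e : (⟨cj (c : (Matrix (Fin D.n) (Fin D.n) ℝ)ˣ) X - X, V.sub_mem hcX h⟩ : V) =
        adC 𝒞.t ⟨c, hc⟩ ⟨X, h⟩ - ⟨X, h⟩ := rfl
    rw [e, map_sub, ← cRep_coordC]
    rcases Nat.lt_or_ge j W.n with hj | hj
    · have h2 := W.flag ⟨W.n - j - 1, by omega⟩ ⟨c, hc⟩ (coordC V ⟨X, h⟩) (by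
        have : (⟨W.n - j - 1, by omega⟩ : Fin W.n).succ = ⟨W.n - j, by omega⟩ := by
          apply Fin.ext
          simp only [Fin.val_succ]
          omega
        rw [this]; exact hX)
      rw [χ_eq_one 𝒞 h1 W, Units.val_one, one_smul] at h2
      have : (⟨W.n - j - 1, by omega⟩ : Fin W.n).castSucc = ⟨W.n - (j + 1), by omega⟩ := by
        apply Fin.ext
        simp only [Fin.val_castSucc]
        omega
      rw [this] at h2
      exact h2
    · have h3 : coordC V ⟨X, h⟩ = 0 := by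
        have : (⟨W.n - j, by omega⟩ : Fin (W.n + 1)) = 0 := by
          apply Fin.ext
          simp only [Fin.val_zero]
          omega
        rw [this, Basis.flag_zero, Submodule.mem_bot] at hX
        exact hX
      rw [h3, map_zero, sub_zero]
      exact Submodule.zero_mem _

end action

end Crest.Agent.R182.ModelCt
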