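import Mathlib
import Crest.Agent.R182.ModelCross
import Crest.Agent.R182.FinRed
import Crest.Agent.R182.ModelCartan2
import Crest.Agent.R182.ModelWt2

-- ▼ part R182/ModelInst1
section

set_option autoImplicit false
set_option linter.unusedSectionVars false

namespace Crest.Agent.R182.Model

open Polyc Crest.GroupTheory Crest.Geometry Crest.Agent.R182.FinPath Crest.Agent.R182.FinRed

section rounding

variable {Γ : Type*} [Group Γ] {N : Subgroup Γ} [N.Normal] {D : EmbData Γ N} {S : Set Γ} {C : ℝ}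

theorem countable_Γ (D : EmbData Γ N) : Countable Γ := by
  rw [← Set.countable_univ_iff]
  have h1 : (Set.univ : Set Γ) = ⋃ R : ℕ, {γ : Γ | sz (D.ρu γ) ≤ (R : ℝ)} := by
    symm
    rw [Set.eq_univ_iff_forall]
    intro γ
    obtain ⟨R, hR⟩ := exists_nat_ge (sz (D.ρu γ))
    exact Set.mem_iUnion.mpr ⟨R, hR⟩
  rw [h1]
  exact Set.countable_iUnion fun R => (finite_sz (D := D) R).countable

/-- an enumeration of `Γ` -/
noncomputable def enum (D : EmbData Γ N) : ℕ → Γ :=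
  letI := countable_Γ D
  (exists_surjective_nat Γ).choose

theorem enum_surjective (D : EmbData Γ N) : Function.Surjective (enum D) := by
  have := countable_Γ D
  exact (exists_surjective_nat Γ).choose_spec

theorem Big.exists_enum (h : Big D S C) (g : G1 D) :
    ∃ k : ℕ, (inΓ D (enum D k))⁻¹ * g ∈ gens D C := by
  obtain ⟨γ, b, hg, -, hb⟩ := h.round g
  obtain ⟨k, rfl⟩ := enum_surjective D γ
  refine ⟨k, ?_⟩
  rw [hg, inv_mul_cancel_left]
  exact hb

open Classical in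
/-- rounding to the lattice -/
noncomputable def rnd (D : EmbData Γ N) (C : ℝ) (g : G1 D) : Γ :=
  if h : ∃ k : ℕ, (inΓ D (enum D k))⁻¹ * g ∈ gens D C then enum D (Nat.find h) else 1

theorem Big.rnd_mem (h : Big D S C) (g : G1 D) : (inΓ D (rnd D C g))⁻¹ * g ∈ gens D C := by
  classical
  have h1 := h.exists_enum g
  rw [rnd, dif_pos h1]
  exact Nat.find_spec h1

theorem Big.rnd_eq_iff (h : Big D S C) (g : G1 D) (γ : Γ) : rnd D C g = γ ↔
    ∃ k : ℕ, enum D k = γ ∧ (inΓ D (enum D k))⁻¹ * g ∈ gens D C ∧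
      ∀ j < k, (inΓ D (enum D j))⁻¹ * g ∉ gens D C := by
  classical
  have h1 := h.exists_enum g
  rw [rnd, dif_pos h1]
  constructor
  · intro h2
    exact ⟨Nat.find h1, h2, Nat.find_spec h1, fun j hj => Nat.find_min h1 hj⟩
  · rintro ⟨k, hk, h2, h3⟩
    have : Nat.find h1 = k := (Nat.find_eq_iff h1).mpr ⟨h2, h3⟩
    rw [this, hk]

theorem Big.measurableSet_rnd (h : Big D S C) {X : Type*} [MeasurableSpace X] (F : X → G1 D)
    (hF : ∀ γ : Γ, MeasurableSet {x | (inΓ D γ)⁻¹ * F x ∈ gens D C}) (γ : Γ) :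
    MeasurableSet {x | rnd D C (F x) = γ} := by
  have h1 : {x | rnd D C (F x) = γ} = ⋃ k : ℕ, ({_x : X | enum D k = γ} ∩
      ({x | (inΓ D (enum D k))⁻¹ * F x ∈ gens D C} ∩
      ⋂ j : ℕ, ⋂ _ : j < k, {x | (inΓ D (enum D j))⁻¹ * F x ∈ gens D C}ᶜ)) := by
    ext x
    simp only [Set.mem_ofPred_eq, h.rnd_eq_iff, Set.mem_iUnion, Set.mem_inter_iff, Set.mem_iInter,
      Set.mem_compl_iff]
  rw [h1]
  refine MeasurableSet.iUnion fun k => (MeasurableSet.const _).inter ((hF _).inter ?_)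
  exact MeasurableSet.iInter fun j => MeasurableSet.iInter fun _ => (hF _).compl

end rounding

/-! ### continuity -/

section cont

variable {n : ℕ}

theorem continuous_nrm : Continuous (nrm : Matrix (Fin n) (Fin n) ℝ → ℝ) := by
  refine continuous_finsetSum _ fun i _ => continuous_finsetSum _ fun j _ => ?_
  exact (continuous_id.matrix_elem i j).abs

theorem continuous_ex : Continuous (ex : Matrix (Fin n) (Fin n) ℝ → Matrix (Fin n) (Fin n) ℝ) := by
  unfold ex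
  refine continuous_finsetSum _ fun k _ => ?_
  exact Continuous.smul (f := fun _ : Matrix (Fin n) (Fin n) ℝ => ((k.factorial : ℝ))⁻¹)
    continuous_const (continuous_pow k)

theorem continuous_sz {X : Type*} [TopologicalSpace X] (F : X → (Matrix (Fin n) (Fin n) ℝ)ˣ)
    (h1 : Continuous fun x => (F x : Matrix (Fin n) (Fin n) ℝ))
    (h2 : Continuous fun x => ((F x)⁻¹ : (Matrix (Fin n) (Fin n) ℝ)ˣ).val) :
    Continuous fun x => sz (F x) := by
  unfold sz
  exact ((continuous_const.add (continuous_nrm.comp h1)).add (continuous_nrm.comp h2))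

theorem continuous_sz_exU {X : Type*} [TopologicalSpace X] (A B : (Matrix (Fin n) (Fin n) ℝ)ˣ)
    (f : X → Matrix (Fin n) (Fin n) ℝ) (hf : Continuous f) (h0 : ∀ x, f x ^ n = 0) :
    Continuous fun x => sz (A * exU (f x) (h0 x) * B) := by
  refine continuous_sz _ ?_ ?_
  · have : (fun x => ((A * exU (f x) (h0 x) * B : (Matrix (Fin n) (Fin n) ℝ)ˣ) :
        Matrix (Fin n) (Fin n) ℝ)) = fun x => (A : Matrix (Fin n) (Fin n) ℝ) * ex (f x) * B := rfl
    rw [this]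
    exact (continuous_const.mul (continuous_ex.comp hf)).mul continuous_const
  · have : (fun x => ((A * exU (f x) (h0 x) * B)⁻¹ : (Matrix (Fin n) (Fin n) ℝ)ˣ).val) =
        fun x => ((B⁻¹ : (Matrix (Fin n) (Fin n) ℝ)ˣ) : Matrix (Fin n) (Fin n) ℝ) *
          (ex (-(f x)) * ((A⁻¹ : (Matrix (Fin n) (Fin n) ℝ)ˣ) : Matrix (Fin n) (Fin n) ℝ)) := by
      funext x
      rw [mul_inv_rev, mul_inv_rev]
      rfl
    rw [this]
    exact continuous_const.mul ((continuous_ex.comp hf.neg).mul continuous_const)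

end cont

section rounding2

variable {Γ : Type*} [Group Γ] {N : Subgroup Γ} [N.Normal] {D : EmbData Γ N} {S : Set Γ} {C : ℝ}

/-- **measurability of the rounding** along exponentials -/
theorem Big.measurableSet_rnd_exG (h : Big D S C) {X : Type*} [TopologicalSpace X]
    [MeasurableSpace X] [OpensMeasurableSpace X] (f : X → Matrix (Fin D.n) (Fin D.n) ℝ)
    (hf : Continuous f) (hL : ∀ x, f x ∈ lie D) (g g' : G1 D) (γ : Γ) :
    MeasurableSet {x | rnd D C (g * exG D (f x) (hL x) * g') = γ} := by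
  refine h.measurableSet_rnd _ (fun γ => ?_) γ
  have h1 : {x | (inΓ D γ)⁻¹ * (g * exG D (f x) (hL x) * g') ∈ gens D C} =
      {x | sz ((((inΓ D γ)⁻¹ * g : G1 D) : (Matrix (Fin D.n) (Fin D.n) ℝ)ˣ) *
        exU (f x) (lie_pow_zero D (hL x)) * (g' : (Matrix (Fin D.n) (Fin D.n) ℝ)ˣ)) ≤ C} := by
    ext x
    simp only [Set.mem_ofPred_eq]
    have h2 : (((inΓ D γ)⁻¹ * (g * exG D (f x) (hL x) * g') : G1 D) :
        (Matrix (Fin D.n) (Fin D.n) ℝ)ˣ) =
        (((inΓ D γ)⁻¹ * g : G1 D) : (Matrix (Fin D.n) (Fin D.n) ℝ)ˣ) *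
        exU (f x) (lie_pow_zero D (hL x)) * (g' : (Matrix (Fin D.n) (Fin D.n) ℝ)ˣ) := by
      rw [← mul_assoc, ← mul_assoc]
      rfl
    change sz (((inΓ D γ)⁻¹ * (g * exG D (f x) (hL x) * g') : G1 D) :
        (Matrix (Fin D.n) (Fin D.n) ℝ)ˣ) ≤ C ↔ _
    rw [h2]
  rw [h1]
  exact (isClosed_le (continuous_sz_exU _ _ f hf fun x => lie_pow_zero D (hL x))
    continuous_const).measurableSet

/-- every element of `G1` is a product of `len g` letters. -/
theorem Big.letters (h : Big D S C) (g : G1 D) : ∃ l : List (G1 D), g = l.prod ∧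
    l.length = len D C g ∧ ∀ s ∈ l, len D C s ≤ 1 := by
  obtain ⟨l, hl, hw, hg⟩ := QI.wordLength_spec h.closure g
  refine ⟨l, hg.symm, hl, fun s hs => ?_⟩
  rcases hw s hs with h1 | h1
  · exact h.len_letter h1
  · rw [← h.len_inv]; exact h.len_letter h1

end rounding2

/-! ### verticals -/

section vert

variable {Γ : Type*} [Group Γ] (R : RootData Γ) (D : EmbData Γ R.N)

/-- product of integral powers of a family (in the order of `Fin k`) -/
noncomputable def vert {G : Type*} [Group G] {k : ℕ} (c : Fin k → G) (v : Fin k → ℤ) : G :=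
  (List.ofFn fun i => c i ^ v i).prod

theorem exists_vert_list {G : Type*} [Group G] {k : ℕ} (c : Fin k → G) (v : Fin k → ℤ)
    (P : G → Prop) (hP : ∀ i, P (c i) ∧ P (c i)⁻¹) : ∃ l : List G, vert c v = l.prod ∧
      l.length = n1 v ∧ ∀ s ∈ l, P s := by
  refine ⟨(List.ofFn fun i => List.replicate (v i).natAbs (if 0 ≤ v i then c i else (c i)⁻¹)).flatten,
    ?_, ?_, ?_⟩
  · rw [vert, List.prod_flatten, List.map_ofFn]
    congr 2
    funext i
    simp only [Function.comp, List.prod_replicate]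
    split_ifs with h
    · conv_lhs => rw [← Int.natAbs_of_nonneg h]
      rw [zpow_natCast]
    · have h1 : v i = -((v i).natAbs : ℤ) := by omega
      conv_lhs => rw [h1]
      rw [zpow_neg, zpow_natCast, inv_pow]
  · rw [List.length_flatten, List.map_ofFn, List.sum_ofFn]
    simp only [Function.comp, List.length_replicate]
    rfl
  · intro s hs
    rw [List.mem_flatten] at hs
    obtain ⟨l, hl, hs⟩ := hs
    rw [List.mem_ofFn] at hl
    obtain ⟨i, rfl⟩ := hl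
    have := List.eq_of_mem_replicate hs
    subst this
    split_ifs
    · exact (hP i).1
    · exact (hP i).2

theorem toAdd_vert {G : Type*} [Group G] {k : ℕ} (f : G →* Multiplicative (Fin k → ℤ))
    (c : Fin k → G) (hc : ∀ i, Multiplicative.toAdd (f (c i)) = Pi.single i 1) (v : Fin k → ℤ) :
    Multiplicative.toAdd (f (vert c v)) = v := by
  rw [vert, map_list_prod, List.map_ofFn, List.prod_ofFn, toAdd_prod]
  simp only [Function.comp, map_zpow, toAdd_zpow, hc]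
  funext j
  rw [Finset.sum_apply, Finset.sum_eq_single j]
  · simp
  · intro i _ hij
    simp [Pi.single_eq_of_ne hij.symm]
  · intro h; exact absurd (Finset.mem_univ j) h

theorem hgt_eq_of_toAdd {g : G1 D} {v : Fin R.k → ℤ} (h : Multiplicative.toAdd (π1 R D g) = v)
    (i : Fin R.k) : hgt R D g i = v i := by
  rw [hgt, h]

/-- verticals with bounded letters -/
theorem exists_vert {S : Set Γ} {C : ℝ} (h : Big D S C) (𝒱 : Subgroup (G1 D))
    (hV : ∀ g : G1 D, ∃ u ∈ NR1 D, ∃ c ∈ 𝒱, g = u * c) :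
    ∃ (t : (Fin R.k → ℤ) → G1 D) (a : ℝ), (∀ v i, hgt R D (t v) i = v i) ∧
      ∀ v, ∃ l : List (G1 D), t v = l.prod ∧ l.length = n1 v ∧
        ∀ s ∈ l, s ∈ 𝒱 ∧ (len D C s : ℝ) ≤ a := by
  have h1 : ∀ i : Fin R.k, ∃ c ∈ 𝒱, Multiplicative.toAdd (π1 R D c) = Pi.single i 1 := by
    intro i
    obtain ⟨γ, hγ⟩ := R.surj (Multiplicative.ofAdd (Pi.single i 1))
    obtain ⟨u, hu, c, hc, hg⟩ := hV (inΓ D γ)
    refine ⟨c, hc, ?_⟩
    have h2 : π1 R D (inΓ D γ) = π1 R D u * π1 R D c := by rw [hg, map_mul]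
    have h3 : π1 R D u = 1 :=
      lift_NR (D := D) R.π (fun n hn => (R.mem_N n).mpr hn) hu
    rw [h3, one_mul, π1, lift_inΓ, hγ] at h2
    rw [π1, ← h2]
    rfl
  choose c hc hπ using h1
  obtain ⟨a, ha⟩ := (Set.finite_range fun i => (len D C (c i) : ℝ)).bddAbove
  refine ⟨vert c, a, fun v i => hgt_eq_of_toAdd R D (toAdd_vert _ c hπ v) i, fun v => ?_⟩
  refine exists_vert_list c v (fun s => s ∈ 𝒱 ∧ (len D C s : ℝ) ≤ a) fun i => ?_
  refine ⟨⟨hc i, ha ⟨i, rfl⟩⟩, 𝒱.inv_mem (hc i), ?_⟩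
  rw [h.len_inv]
  exact ha ⟨i, rfl⟩

end vert

end Crest.Agent.R182.Model
end

-- ▼ part R182/ModelInst2

set_option autoImplicit false
set_option linter.unusedSectionVars false

namespace Crest.Agent.R182.Model

open Polyc ModelWt Crest.GroupTheory Crest.Geometry

section tiny

variable {Γ : Type*} [Group Γ] {N : Subgroup Γ} [N.Normal] {D : EmbData Γ N} {S : Set Γ} {C : ℝ}

theorem Big.sz_le_of_len (h : Big D S C) {g : G1 D} {n : ℝ} (hg : (len D C g : ℝ) ≤ n) :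
    sz (g : (Matrix (Fin D.n) (Fin D.n) ℝ)ˣ) ≤ (1 + 2 * D.n) * Real.exp (Real.log C * n) := by
  refine (h.sz_le_exp g).trans ?_
  refine mul_le_mul_of_nonneg_left ?_ (by positivity)
  exact Real.exp_le_exp.mpr (mul_le_mul_of_nonneg_left hg (Real.log_nonneg h.one_le))

/-- conjugates of exponentials -/
theorem conj_exG (g : G1 D) {X : Matrix (Fin D.n) (Fin D.n) ℝ} (hX : X ∈ lie D) :
    g * exG D X hX * g⁻¹ =
      exG D (cj (g : (Matrix (Fin D.n) (Fin D.n) ℝ)ˣ) X) (cj_mem_lie D g.2 hX) :=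
  Subtype.ext (conj_eU g.2 hX)

theorem exG_pow {X : Matrix (Fin D.n) (Fin D.n) ℝ} (hX : X ∈ lie D) (m : ℕ) :
    exG D ((m : ℝ) • X) ((lie D).smul_mem _ hX) = exG D X hX ^ m :=
  Subtype.ext (exU_nat (lie_pow_zero D hX) m)

theorem exG_lg {u : G1 D} (hu : u ∈ NR1 D) :
    exG D (lg ((u : (Matrix (Fin D.n) (Fin D.n) ℝ)ˣ) : Matrix (Fin D.n) (Fin D.n) ℝ))
      (lg_mem_lie D hu) = u := Subtype.ext (eU_lg hu)

theorem exG_congr {X Y : Matrix (Fin D.n) (Fin D.n) ℝ} (hX : X ∈ lie D) (hY : Y ∈ lie D)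
    (h : X = Y) : exG D X hX = exG D Y hY := by
  subst h; rfl

/-- **(C2')** every element of height zero is a product of elements which stay bounded under
conjugation by the elements of a ball. -/
theorem Big.exists_tiny (h : Big D S C) : ∃ K : ℕ, ∀ (n : ℝ) (u : G1 D), u ∈ NR1 D →
    ∃ l : List (G1 D), u = l.prod ∧ ∀ r ∈ l, r ∈ NR1 D ∧
      ∀ g : G1 D, (len D C g : ℝ) ≤ n → len D C (g⁻¹ * r * g) ≤ K := by
  obtain ⟨K, hK⟩ := h.len_exG_of_le 1
  refine ⟨K, fun n u hu => ?_⟩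
  set X := lg ((u : (Matrix (Fin D.n) (Fin D.n) ℝ)ˣ) : Matrix (Fin D.n) (Fin D.n) ℝ) with hXdef
  have hX : X ∈ lie D := lg_mem_lie D hu
  set B : ℝ := (1 + 2 * D.n) * Real.exp (Real.log C * n) with hB
  have hB0 : 0 ≤ B := by positivity
  obtain ⟨m, hm⟩ := exists_nat_ge (max 1 (B * B * nrm X))
  have hm1 : (1 : ℝ) ≤ m := (le_max_left _ _).trans hm
  have hm0 : (m : ℝ) ≠ 0 := by positivity
  have hY : (m : ℝ)⁻¹ • X ∈ lie D := (lie D).smul_mem _ hX
  refine ⟨List.replicate m (exG D ((m : ℝ)⁻¹ • X) hY), ?_, ?_⟩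
  · rw [List.prod_replicate, ← exG_pow]
    conv_lhs => rw [← exG_lg hu]
    refine exG_congr _ _ ?_
    rw [smul_smul, mul_inv_cancel₀ hm0, one_smul]
  · intro r hr
    have := List.eq_of_mem_replicate hr
    subst this
    refine ⟨exG_mem _ _, fun g hg => ?_⟩
    have e : g⁻¹ * exG D ((m : ℝ)⁻¹ • X) hY * g = g⁻¹ * exG D ((m : ℝ)⁻¹ • X) hY * (g⁻¹)⁻¹ := by
      rw [inv_inv]
    rw [e, conj_exG]
    refine hK _ _ ?_
    rw [map_smul, nrm_smul, abs_of_nonneg (by positivity)]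
    have h1 := nrm_cj_le ((g⁻¹ : G1 D) : (Matrix (Fin D.n) (Fin D.n) ℝ)ˣ) X
    have h2 : sz ((g⁻¹ : G1 D) : (Matrix (Fin D.n) (Fin D.n) ℝ)ˣ) ≤ B := by
      have : ((g⁻¹ : G1 D) : (Matrix (Fin D.n) (Fin D.n) ℝ)ˣ) =
        (g : (Matrix (Fin D.n) (Fin D.n) ℝ)ˣ)⁻¹ := rfl
      rw [this, sz_inv]
      exact h.sz_le_of_len hg
    have h3 := one_le_sz ((g⁻¹ : G1 D) : (Matrix (Fin D.n) (Fin D.n) ℝ)ˣ)
    have h4 := nrm_nonneg X
    have h5 : nrm (cj ((g⁻¹ : G1 D) : (Matrix (Fin D.n) (Fin D.n) ℝ)ˣ) X) ≤ m := by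
      refine h1.trans (le_trans ?_ ((le_max_right _ _).trans hm))
      refine mul_le_mul_of_nonneg_right ?_ h4
      exact mul_le_mul h2 h2 (by linarith) hB0
    rw [inv_mul_le_iff₀ (by positivity), mul_one]
    exact h5

end tiny

/-! ### solvability -/

section solv

variable {Γ : Type*} [Group Γ] {N : Subgroup Γ} [hN : N.Normal] (D : EmbData Γ N)

/-- `N_ℝ` is nilpotent -/
theorem isNilpotent_NR1 : Group.IsNilpotent (NR1 D) := by
  have hsub : ∀ j, IsSub D (lcs D j) := fun j => isSub_lcs j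
  let H : ℕ → Subgroup (NR1 D) := fun j =>
    ((expG (hsub j)).comap ((G1 D).subtype.comp (NR1 D).subtype))
  have hH : ∀ j (g : NR1 D), g ∈ H j ↔
      ((g : G1 D) : (Matrix (Fin D.n) (Fin D.n) ℝ)ˣ) ∈ D.NR ∧
      lg (((g : G1 D) : (Matrix (Fin D.n) (Fin D.n) ℝ)ˣ) : Matrix (Fin D.n) (Fin D.n) ℝ) ∈
        lcs D j := fun j g => Iff.rfl
  obtain ⟨K, hK⟩ := exists_lcs_eq_bot D
  rw [Subgroup.nilpotent_iff_finite_descending_central_series]
  refine ⟨K, H, ⟨?_, ?_⟩, ?_⟩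
  · rw [eq_top_iff]
    rintro g -
    exact (hH 0 g).2 ⟨g.2, lg_mem_lie D g.2⟩
  · intro x j hx g
    change x * g * x⁻¹ * g⁻¹ ∈ H (j + 1)
    rw [hH] at hx ⊢
    obtain ⟨hxN, hxF⟩ := hx
    set X := lg (((x : G1 D) : (Matrix (Fin D.n) (Fin D.n) ℝ)ˣ) :
      Matrix (Fin D.n) (Fin D.n) ℝ) with hXdef
    have hXl : X ∈ lie D := lg_mem_lie D hxN
    have hgX : cj ((g : G1 D) : (Matrix (Fin D.n) (Fin D.n) ℝ)ˣ) X - X ∈ lcs D (j + 1) :=
      cj_sub_mem_lcs g.2 hxF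
    have hgX' : cj ((g : G1 D) : (Matrix (Fin D.n) (Fin D.n) ℝ)ˣ) X ∈ lcs D j :=
      cj_mem_lcs D (g : G1 D).2 j hxF
    have hgXl := lcs_le_lie D j hgX'
    have e : (((x * g * x⁻¹ * g⁻¹ : NR1 D) : G1 D) : (Matrix (Fin D.n) (Fin D.n) ℝ)ˣ) =
        ModelWt.eU X hXl * ModelWt.eU (-cj ((g : G1 D) : (Matrix (Fin D.n) (Fin D.n) ℝ)ˣ) X)
          ((lie D).neg_mem hgXl) := by
      rw [eU_neg hgXl, ← conj_eU (g : G1 D).2 hXl]
      have hx' : ModelWt.eU X hXl = ((x : G1 D) : (Matrix (Fin D.n) (Fin D.n) ℝ)ˣ) := eU_lg hxN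
      rw [hx']
      simp only [Subgroup.coe_mul, InvMemClass.coe_inv]
      group
    refine ⟨?_, ?_⟩
    · rw [e]
      exact D.NR.mul_mem (eU_mem _) (eU_mem _)
    · rw [e, Units.val_mul, coe_eU, coe_eU]
      have hbr : ∀ A ∈ lcs D j, ∀ B ∈ lcs D j, A * B - B * A ∈ lcs D (j + 1) := fun A hA B hB =>
        bracket_mem_lcs D (lcs_le_lie D j hA) hB
      have h1 := (hsub j).lg_mul (lcs_succ_le D j) hbr hxF ((lcs D j).neg_mem hgX')
      have h2 : lg (ex X * ex (-cj ((g : G1 D) : (Matrix (Fin D.n) (Fin D.n) ℝ)ˣ) X)) =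
          (lg (ex X * ex (-cj ((g : G1 D) : (Matrix (Fin D.n) (Fin D.n) ℝ)ˣ) X)) -
            (X + -cj ((g : G1 D) : (Matrix (Fin D.n) (Fin D.n) ℝ)ˣ) X)) -
            (cj ((g : G1 D) : (Matrix (Fin D.n) (Fin D.n) ℝ)ˣ) X - X) := by abel
      rw [h2]
      exact (lcs D (j + 1)).sub_mem h1 hgX
  · rw [eq_bot_iff]
    intro g hg
    rw [hH, hK, Submodule.mem_bot] at hg
    have h1 : ((g : G1 D) : (Matrix (Fin D.n) (Fin D.n) ℝ)ˣ) = 1 := by
      rw [← eU_lg hg.1]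
      apply Units.ext
      rw [coe_eU, hg.2, ex_zero, Units.val_one]
    rw [Subgroup.mem_bot]
    exact Subtype.ext (Subtype.ext h1)

/-- `G1` is solvable as soon as `G1/N_ℝ` is abelian -/
theorem isSolvable_G1 {A : Type*} [CommGroup A] (f : G1 D →* A) (hf : ∀ g, f g = 1 ↔ g ∈ NR1 D) :
    Group.IsSolvable (G1 D) := by
  have h1 : Group.IsNilpotent (NR1 D) := isNilpotent_NR1 D
  have h2 : Group.IsSolvable (NR1 D) := inferInstance
  refine Group.isSolvable_of_ker_le_range (NR1 D).subtype f ?_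
  intro g hg
  rw [MonoidHom.mem_ker] at hg
  exact ⟨⟨g, (hf g).1 hg⟩, rfl⟩

end solv

/-! ### crossed homomorphisms for the nonzero roots -/

section crossed

variable {Γ : Type*} [Group Γ] (R : RootData Γ) {D : EmbData Γ R.N} {S : Set Γ} {C : ℝ}

/-- number of nonzero roots -/
noncomputable def m1 : ℕ := by
  classical
  exact Fintype.card {j : Fin R.m // R.Λ j ≠ 0}

/-- enumeration of the nonzero roots -/
noncomputable def e1 : Fin (m1 R) ≃ {j : Fin R.m // R.Λ j ≠ 0} := by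
  classical
  exact (Fintype.equivFin _).symm

/-- the nonzero roots -/
noncomputable def Λ1 (j : Fin (m1 R)) : (Fin R.k → ℝ) →ₗ[ℝ] ℝ := R.Λ (e1 R j)

theorem Λ1_ne (j : Fin (m1 R)) : Λ1 R j ≠ 0 := (e1 R j).2

theorem exists_Λ1 {i : Fin R.m} (hi : R.Λ i ≠ 0) : ∃ j, Λ1 R j = R.Λ i :=
  ⟨(e1 R).symm ⟨i, hi⟩, by rw [Λ1, Equiv.apply_symm_apply]⟩

variable {R}

/-- **(H)** -/
theorem Big.exists_crossed1 (h : Big D S C) : ∃ δ : Fin (m1 R) → G1 D → ℂ,
    (∀ j, ∃ c B, Bnd.Crossed (fun g => (len D C g : ℝ)) (fun g => Λ1 R j (hgt R D g))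
      (fun g => ((χ1 R D (e1 R j) g : ℂˣ) : ℂ)) (δ j) c B) ∧
    (∀ j, ∃ n, hgt R D n = 0 ∧ δ j n ≠ 0) ∧
    (∀ j X (hX : X ∈ lie D), δ j (exG D X hX) = Lm D (R.ℓ (e1 R j)) X) := by
  choose δ c B h1 h2 h3 using fun j : Fin (m1 R) => h.exists_crossed (e1 R j) (e1 R j).2
  refine ⟨δ, fun j => ⟨c j, B j, h1 j⟩, h2, fun j X hX => ?_⟩
  rw [h3 j _ (exG_mem X hX), coe_exG, Lm_ex (R.ℓ_mul _) hX]

end crossed

end Crest.Agent.R182.Model
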