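/-
R182, module NILBOX (helper89): `lg (ex X * ex Y)` is a Lie polynomial (BCH without formulas).
-/
import Mathlib
import Crest.Agent.R182.NbStar
import Crest.Agent.R182.ModelBCH

set_option autoImplicit false
set_option linter.unusedSectionVars false

namespace Crest.Agent.R182.Nb

open Finset Model Polyc

/-- coefficients of a polynomial curve with values in a subspace -/
theorem coeff_mem {M : Type*} [AddCommGroup M] [Module ℝ M] {P : Submodule ℝ M} {J : ℕ}
    {z : ℕ → M} (h : ∀ t : ℝ, ∑ j ∈ range J, t ^ j • z j ∈ P) {j : ℕ} (hj : j < J) : z j ∈ P := by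
  by_contra hcon
  obtain ⟨ℓ, hℓ1, hℓ2⟩ := Submodule.exists_le_ker_of_notMem hcon
  apply hℓ1
  set p : Polynomial ℝ := ∑ j ∈ range J, Polynomial.C (ℓ (z j)) * Polynomial.X ^ j with hp
  have hp0 : p = 0 := by
    refine Polynomial.funext fun t => ?_
    rw [hp, Polynomial.eval_finsetSum, Polynomial.eval_zero]
    have h1 : ℓ (∑ j ∈ range J, t ^ j • z j) = 0 := hℓ2 (h t)
    rw [map_sum] at h1
    rw [← h1]
    refine Finset.sum_congr rfl fun i _ => ?_
    rw [map_smul, Polynomial.eval_mul, Polynomial.eval_C, Polynomial.eval_pow, Polynomial.eval_X,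
      smul_eq_mul, mul_comm]
  have h2 : p.coeff j = ℓ (z j) := by
    rw [hp, Polynomial.finsetSum_coeff, Finset.sum_eq_single j]
    · simp
    · intro b _ hb
      rw [Polynomial.coeff_C_mul, Polynomial.coeff_X_pow, if_neg (Ne.symm hb), mul_zero]
    · intro h'; exact absurd (Finset.mem_range.mpr hj) h'
  rw [← h2, hp0, Polynomial.coeff_zero]

section UP

variable {A : Type*} [Ring A] [Algebra ℝ A]

/-- polynomial curves in an algebra -/
def UP (A : Type*) [Ring A] [Algebra ℝ A] : Submodule ℝ (ℝ → A) :=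
  Submodule.span ℝ {f | ∃ (j : ℕ) (a : A), f = fun t => t ^ j • a}

theorem UP.mono (j : ℕ) (a : A) : (fun t : ℝ => t ^ j • a) ∈ UP A :=
  Submodule.subset_span ⟨j, a, rfl⟩

theorem UP.const (a : A) : (fun _ : ℝ => a) ∈ UP A := by
  have := UP.mono 0 a
  simpa using this

theorem UP.mul {f g : ℝ → A} (hf : f ∈ UP A) (hg : g ∈ UP A) : f * g ∈ UP A := by
  induction hf using Submodule.span_induction with
  | mem f hf =>
    obtain ⟨i, a, rfl⟩ := hf
    induction hg using Submodule.span_induction with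
    | mem g hg =>
      obtain ⟨j, b, rfl⟩ := hg
      have : ((fun t : ℝ => t ^ i • a) * fun t : ℝ => t ^ j • b) = fun t : ℝ => t ^ (i + j) • (a * b) := by
        funext t
        rw [Pi.mul_apply, smul_mul_smul_comm, pow_add]
      rw [this]; exact UP.mono _ _
    | zero => rw [mul_zero]; exact Submodule.zero_mem _
    | add g g' _ _ h h' => rw [mul_add]; exact Submodule.add_mem _ h h'
    | smul r g _ h => rw [mul_smul_comm]; exact Submodule.smul_mem _ _ h
  | zero => rw [zero_mul]; exact Submodule.zero_mem _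
  | add f f' _ _ h h' => rw [add_mul]; exact Submodule.add_mem _ h h'
  | smul r f _ h => rw [smul_mul_assoc]; exact Submodule.smul_mem _ _ h

theorem UP.one : (1 : ℝ → A) ∈ UP A := UP.const 1

theorem UP.pow {f : ℝ → A} (hf : f ∈ UP A) (k : ℕ) : f ^ k ∈ UP A := by
  induction k with
  | zero => rw [pow_zero]; exact UP.one
  | succ k ih => rw [pow_succ]; exact UP.mul ih hf

theorem UP.exists_coeff {f : ℝ → A} (hf : f ∈ UP A) :
    ∃ J : ℕ, ∃ z : ℕ → A, ∀ t, f t = ∑ j ∈ range J, t ^ j • z j := by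
  have h : ∃ z : ℕ →₀ A, ∀ t : ℝ, f t = z.sum fun j a => t ^ j • a := by
    induction hf using Submodule.span_induction with
    | mem f hf =>
      obtain ⟨j, a, rfl⟩ := hf
      exact ⟨Finsupp.single j a, fun t => by rw [Finsupp.sum_single_index (by simp)]⟩
    | zero => exact ⟨0, fun t => by simp⟩
    | add f g _ _ hf hg =>
      obtain ⟨z, hz⟩ := hf
      obtain ⟨w, hw⟩ := hg
      refine ⟨z + w, fun t => ?_⟩
      rw [Finsupp.sum_add_index' (by simp) (by intros; rw [smul_add]), ← hz, ← hw]; rfl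
    | smul r f _ hf =>
      obtain ⟨z, hz⟩ := hf
      refine ⟨r • z, fun t => ?_⟩
      rw [Finsupp.sum_smul_index' (by simp), Pi.smul_apply, hz, Finsupp.smul_sum]
      refine Finset.sum_congr rfl fun j _ => ?_
      exact smul_comm _ _ _
  obtain ⟨z, hz⟩ := h
  refine ⟨z.support.sup id + 1, z, fun t => ?_⟩
  rw [hz, Finsupp.sum]
  refine Finset.sum_subset (fun j hj => ?_) (fun j _ hj => ?_)
  · rw [Finset.mem_range]
    exact Nat.lt_succ_of_le (Finset.le_sup (f := id) hj)
  · rw [Finsupp.notMem_support_iff.mp hj, smul_zero]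

end UP

section bch

attribute [local instance 100] LieRing.ofAssociativeRing

variable {Γ : Type*} [Group Γ] {N : Subgroup Γ} {D : EmbData Γ N}

/-- iterated commutator -/
def adm {A : Type*} [Ring A] (Z : A) : ℕ → A → A
  | 0, W => W
  | k + 1, W => Z * adm Z k W - adm Z k W * Z

theorem adm_mem_lcs {Z W : Matrix (Fin D.n) (Fin D.n) ℝ} (hZ : Z ∈ lie D) (hW : W ∈ lie D)
    (k : ℕ) : adm Z k W ∈ lcs D k := by
  induction k with
  | zero => exact hW
  | succ k ih => exact bracket_mem_lcs D hZ ih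

/-- coefficients of `(1 - e^{-x})/x` -/
noncomputable def lc' (k : ℕ) : ℝ := (-1) ^ k / (k + 1).factorial

/-- the logarithmic derivative as a series -/
theorem ld_series {K : ℕ} (hK : lcs D K = ⊥) {f : ℝ → Matrix (Fin D.n) (Fin D.n) ℝ}
    {W : Matrix (Fin D.n) (Fin D.n) ℝ} {s : ℝ}
    (hf : PCM f) (hfl : ∀ s, f s ∈ lie D) (hW : HDM f W s) (u : ℝ) :
    ld u (f s) W = ∑ k ∈ range K, (lc' k * u ^ (k + 1)) • adm (f s) k W := by
  have hnil : ∀ s, f s ^ D.n = 0 := fun s => lie_pow_zero D (hfl s)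
  have hWl : W ∈ lie D := deriv_mem' hf hfl hW
  have hn : D.n ≤ 1 → W = 0 := by
    intro hn
    have h1 := lie_pow_zero D hWl
    have h2 := pow_eq_zero_of_le hn h1
    simpa using h2
  have hld := hdm_ld hW hn hnil
  have hadK : adm (f s) K W = 0 := by
    have := adm_mem_lcs (hfl s) hWl K
    rwa [hK, Submodule.mem_bot] at this
  set S : ℝ → Matrix (Fin D.n) (Fin D.n) ℝ :=
    fun u => ∑ k ∈ range K, (lc' k * u ^ (k + 1)) • adm (f s) k W with hS
  set S' : ℝ → Matrix (Fin D.n) (Fin D.n) ℝ :=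
    fun u => ∑ k ∈ range K, ((-1) ^ k / k.factorial * u ^ k) • adm (f s) k W with hS'
  have hSd : ∀ u, HDM S (S' u) u := by
    intro u
    refine HDM.sum _ fun k _ => ?_
    have h3 := HDM.smul ((hasDerivAt_pow (k + 1) u).const_mul (lc' k))
      (HDM.const (adm (f s) k W) u)
    rw [smul_zero, add_zero] at h3
    refine h3.congr_deriv ?_
    congr 1
    rw [lc', Nat.factorial_succ, Nat.add_sub_cancel]
    push_cast
    have : ((k : ℝ) + 1) ≠ 0 := by positivity
    have : ((k.factorial : ℝ)) ≠ 0 := by positivity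
    field_simp
  -- the equation for `S`
  have hSeq : ∀ u, S' u = W + (S u * f s - f s * S u) := by
    intro u
    rcases Nat.eq_zero_or_pos K with h0 | hpos
    · subst h0
      have hW0 : W = 0 := by simpa [adm] using hadK
      simp [hS, hS', hW0]
    · obtain ⟨K', rfl⟩ : ∃ K', K = K' + 1 := ⟨K - 1, by omega⟩
      have h1 : S u * f s - f s * S u = -∑ k ∈ range (K' + 1), (lc' k * u ^ (k + 1)) •
          adm (f s) (k + 1) W := by
        rw [hS]
        simp only
        rw [Finset.sum_mul, Finset.mul_sum, ← Finset.sum_sub_distrib, ← Finset.sum_neg_distrib]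
        refine Finset.sum_congr rfl fun k _ => ?_
        rw [adm, smul_sub, smul_mul_assoc, mul_smul_comm]; abel
      rw [h1, hS']
      simp only
      rw [Finset.sum_range_succ', Finset.sum_range_succ (fun k => (lc' k * u ^ (k + 1)) •
          adm (f s) (k + 1) W), hadK, smul_zero, add_zero]
      have h2 : ∑ k ∈ range K', ((-1) ^ (k + 1) / ((k + 1).factorial : ℝ) * u ^ (k + 1)) •
          adm (f s) (k + 1) W = -∑ k ∈ range K', (lc' k * u ^ (k + 1)) • adm (f s) (k + 1) W := by
        rw [← Finset.sum_neg_distrib]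
        refine Finset.sum_congr rfl fun k _ => ?_
        rw [← neg_smul]
        congr 1
        rw [lc', pow_succ (-1 : ℝ)]; ring
      rw [h2]
      simp [adm]
      abel
  -- the difference vanishes
  have hE : ∀ u, HDM (fun u => ld u (f s) W - S u)
      ((ld u (f s) W - S u) * f s - f s * (ld u (f s) W - S u)) u := by
    intro u
    refine ((hld u).sub (hSd u)).congr_deriv ?_
    rw [hSeq]
    noncomm_ring
  have hE0 : ld 0 (f s) W - S 0 = 0 := by
    rw [ld_zero, hS]
    simp
  have hlie : ∀ u, ld u (f s) W ∈ lie D := fun u =>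
    (isSub_lie D).ld_mem hf hfl hW (hfl s) hWl u
  have hSl : ∀ u, S u ∈ lie D := fun u => Submodule.sum_mem _ fun k _ =>
    Submodule.smul_mem _ _ (lcs_le_lie D k (adm_mem_lcs (hfl s) hWl k))
  have key : ∀ k, ∀ u, ld u (f s) W - S u ∈ lcs D k := by
    intro k
    induction k with
    | zero => exact fun u => (lie D).sub_mem (hlie u) (hSl u)
    | succ k ih =>
      refine mem_of_deriv_mem hE ?_ ?_
      · rw [hE0]; exact Submodule.zero_mem _
      · intro u
        exact bracket_mem_lcs' D (hfl s) (ih u)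
  have h1 := key K u
  rw [hK, Submodule.mem_bot, sub_eq_zero] at h1
  exact h1

theorem UP.lg' {A : Type*} [Ring A] [Algebra ℝ A] {n : ℕ} {f : ℝ → A} (hf : f ∈ UP A) :
    (fun t => ∑ k ∈ range n, lc k • (f t - 1) ^ k) ∈ UP A := by
  have : (fun t => ∑ k ∈ range n, lc k • (f t - 1) ^ k) = ∑ k ∈ range n, lc k • (f - 1) ^ k := by
    funext t; simp
  rw [this]
  exact Submodule.sum_mem _ fun k _ => Submodule.smul_mem _ _
    (UP.pow (Submodule.sub_mem _ hf UP.one) k)

/-- the functions of two variables in `𝔫` -/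
abbrev FF (D : EmbData Γ N) : Type _ := (Bool → lieA D) → Matrix (Fin D.n) (Fin D.n) ℝ

/-- first variable -/
def fX (D : EmbData Γ N) : FF D := fun v => (v false : Matrix (Fin D.n) (Fin D.n) ℝ)
/-- second variable -/
def fY (D : EmbData Γ N) : FF D := fun v => (v true : Matrix (Fin D.n) (Fin D.n) ℝ)

/-- the curve `lg (ex X * ex (t Y))` -/
noncomputable def zc (D : EmbData Γ N) (t : ℝ) : FF D := fun v =>
  lg (ex (fX D v) * ex (t • fY D v))

theorem zc_UP (D : EmbData Γ N) : zc D ∈ UP (FF D) := by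
  have h1 : (fun t : ℝ => (fun v => ex (fX D v) * ex (t • fY D v) : FF D)) ∈ UP (FF D) := by
    have e : (fun t : ℝ => (fun v => ex (fX D v) * ex (t • fY D v) : FF D)) =
        (fun _ : ℝ => (fun v => ex (fX D v) : FF D)) *
          ∑ k ∈ range D.n, ((k.factorial : ℝ)⁻¹) • fun t : ℝ => t ^ k • (fY D) ^ k := by
      funext t v
      rw [Pi.mul_apply, Pi.mul_apply, Finset.sum_apply, Finset.sum_apply]
      congr 1
      rw [Model.ex]
      refine Finset.sum_congr rfl fun k _ => ?_
      rw [smul_pow]; rfl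
    rw [e]
    exact UP.mul (UP.const _) (Submodule.sum_mem _ fun k _ => Submodule.smul_mem _ _ (UP.mono _ _))
  have h2 := UP.lg' (n := D.n) h1
  have e2 : zc D = fun t => ∑ k ∈ range D.n, lc k •
      ((fun v => ex (fX D v) * ex (t • fY D v) : FF D) - 1) ^ k := by
    funext t v
    rw [Finset.sum_apply, zc, lg]
    rfl
  rw [e2]; exact h2

/-- Lie polynomials as matrix functions -/
noncomputable def LPm (D : EmbData Γ N) : Submodule ℝ (FF D) :=
  (LP Bool (lieA D)).map ((lieA D).toSubmodule.subtype.compLeft (Bool → lieA D))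

theorem mem_LPm {f : FF D} : f ∈ LPm D ↔ ∃ p ∈ LP Bool (lieA D), ∀ v, f v = (p v : Matrix _ _ ℝ) := by
  constructor
  · rintro ⟨p, hp, rfl⟩
    exact ⟨p, hp, fun v => rfl⟩
  · rintro ⟨p, hp, h⟩
    exact ⟨p, hp, by funext v; exact (h v).symm⟩

/-- functions with values in the `k`-th term of the descending central series -/
def Qm (D : EmbData Γ N) (k : ℕ) : Submodule ℝ (FF D) where
  carrier := {f | ∀ v, f v ∈ lcs D k}
  add_mem' hf hg := fun v => Submodule.add_mem _ (hf v) (hg v)
  zero_mem' := fun _ => Submodule.zero_mem _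
  smul_mem' r _ hf := fun v => Submodule.smul_mem _ r (hf v)

theorem LPm_val {f : FF D} (hf : f ∈ LPm D) (v) : f v ∈ lie D := by
  obtain ⟨p, _, h⟩ := mem_LPm.mp hf
  rw [h]; exact (p v).2

theorem sup_br {k : ℕ} {f g : FF D} (hf : f ∈ LPm D ⊔ Qm D k) (hg : g ∈ LPm D ⊔ Qm D k) :
    f * g - g * f ∈ LPm D ⊔ Qm D (k + 1) := by
  obtain ⟨a, ha, b, hb, rfl⟩ := Submodule.mem_sup.mp hf
  obtain ⟨a', ha', b', hb', rfl⟩ := Submodule.mem_sup.mp hg
  have e : (a + b) * (a' + b') - (a' + b') * (a + b) = (a * a' - a' * a) +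
      ((b * (a' + b') - (a' + b') * b) + (a * b' - b' * a)) := by noncomm_ring
  rw [e]
  refine Submodule.add_mem_sup ?_ (Submodule.add_mem _ ?_ ?_)
  · obtain ⟨p, hp, h⟩ := mem_LPm.mp ha
    obtain ⟨q, hq, h'⟩ := mem_LPm.mp ha'
    refine mem_LPm.mpr ⟨fun v => ⁅p v, q v⁆, LP.lie hp hq, fun v => ?_⟩
    rw [LieSubalgebra.coe_bracket, Ring.lie_def, ← h, ← h']; rfl
  · intro v
    exact bracket_mem_lcs' D ((lie D).add_mem (LPm_val ha' v) (lcs_le_lie D k (hb' v))) (hb v)
  · intro v
    exact bracket_mem_lcs D (LPm_val ha v) (hb' v)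

theorem sup_mono {k : ℕ} : LPm D ⊔ Qm D (k + 1) ≤ LPm D ⊔ Qm D k :=
  sup_le_sup_left (fun _ hf v => lcs_succ_le D k (hf v)) _

theorem adm_mem_sup {k : ℕ} {f g : FF D} (hf : f ∈ LPm D ⊔ Qm D k) (hg : g ∈ LPm D ⊔ Qm D k)
    (i : ℕ) : adm f (i + 1) g ∈ LPm D ⊔ Qm D (k + 1) := by
  induction i with
  | zero => exact sup_br hf hg
  | succ i ih => exact sup_br hf (sup_mono ih)

theorem adm_apply (f g : FF D) (i : ℕ) (v) : adm f i g v = adm (f v) i (g v) := by
  induction i with
  | zero => rfl
  | succ i ih =>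
    change (f * adm f i g - adm f i g * f) v = _
    rw [Pi.sub_apply, Pi.mul_apply, Pi.mul_apply, ih]; rfl

set_option maxHeartbeats 1600000 in
/-- **BCH**: the product in exponential coordinates is a Lie polynomial. -/
theorem exists_lp (D : EmbData Γ N) : ∃ p ∈ LP Bool (lieA D), ∀ v : Bool → lieA D,
    lg (ex (v false : Matrix (Fin D.n) (Fin D.n) ℝ) * ex (v true : Matrix (Fin D.n) (Fin D.n) ℝ))
      = (p v : Matrix (Fin D.n) (Fin D.n) ℝ) := by
  obtain ⟨K, hK⟩ := exists_lcs_eq_bot D
  obtain ⟨J, z, hz⟩ := UP.exists_coeff (zc_UP D)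
  -- the curve for fixed arguments
  have hcurve : ∀ v : Bool → lieA D, PCM (fun t => zc D t v) := fun v =>
    isPolyM_lg (IsPolyM.mul (IsPolyM.const _)
      (isPolyM_ex (IsPolyM.smul (IsPoly.coord 0) (IsPolyM.const _))))
  have hXl : ∀ v : Bool → lieA D, fX D v ∈ lie D := fun v => (v false).2
  have hYl : ∀ v : Bool → lieA D, fY D v ∈ lie D := fun v => (v true).2
  have hXn : ∀ v : Bool → lieA D, fX D v ^ D.n = 0 := fun v => lie_pow_zero D (hXl v)
  have hYn : ∀ v : Bool → lieA D, fY D v ^ D.n = 0 := fun v => lie_pow_zero D (hYl v)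
  have hmem : ∀ (v : Bool → lieA D) (t : ℝ), exU (fX D v) (hXn v) *
      exU (t • fY D v) (smul_pow_zero (hYn v) t) ∈ D.NR := fun v t =>
    D.NR.mul_mem (exU_mem_of_lie D (hXl v)) (exU_mem_of_lie D ((lie D).smul_mem t (hYl v)))
  have hZl : ∀ v t, zc D t v ∈ lie D := fun v t => lg_mem_lie D (hmem v t)
  have hZn : ∀ v t, zc D t v ^ D.n = 0 := fun v t => lie_pow_zero D (hZl v t)
  have hZe : ∀ v t, ex (zc D t v) = ex (fX D v) * ex (t • fY D v) := fun v t =>
    ex_lg (D.unip_NR (hmem v t))
  -- derivative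
  set z' : ℝ → FF D := fun t => ∑ j ∈ range J, (j * t ^ (j - 1)) • z j with hz'
  have hderiv : ∀ v t, HDM (fun t => zc D t v) (z' t v) t := by
    intro v t
    have h1 : HDM (fun t => ∑ j ∈ range J, t ^ j • z j v)
        (∑ j ∈ range J, (((j : ℝ) * t ^ (j - 1)) • z j v + t ^ j • 0)) t :=
      HDM.sum _ fun j _ => HDM.smul (hasDerivAt_pow j t) (HDM.const (z j v) t)
    refine (h1.congr fun t => ?_).congr_deriv ?_
    · rw [hz, Finset.sum_apply]; rfl
    · rw [hz']
      simp only
      rw [Finset.sum_apply]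
      refine Finset.sum_congr rfl fun j _ => ?_
      rw [smul_zero, add_zero]; rfl
  have hld : ∀ v t, ld 1 (zc D t v) (z' t v) = fY D v := fun v t =>
    Model.ld_one_eq (f := fun t => zc D t v) (hZn v t) (hYn v) (hderiv v t) (fun x => by
      rw [hZe, hZe, ex_add_smul (hYn v), mul_assoc])
  have hser : ∀ t, fY D = ∑ k ∈ range K, lc' k • adm (zc D t) k (z' t) := by
    intro t
    funext v
    rw [Finset.sum_apply, ← hld v t, ld_series hK (hcurve v) (hZl v) (hderiv v t)]
    refine Finset.sum_congr rfl fun k _ => ?_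
    rw [one_pow, mul_one, Pi.smul_apply, adm_apply]
  have hlc0 : lc' 0 = 1 := by simp [lc']
  -- induction on the depth
  have hz0 : z 0 ∈ LPm D ∨ J = 0 := by
    rcases Nat.eq_zero_or_pos J with h | h
    · exact Or.inr h
    · left
      have h1 : zc D 0 = z 0 := by
        rw [hz, Finset.sum_eq_single 0]
        · simp
        · intro j _ hj; rw [zero_pow hj, zero_smul]
        · intro h'; exact absurd (Finset.mem_range.mpr h) h'
      have h2 : zc D 0 = fX D := by
        funext v
        change lg (ex (fX D v) * ex ((0 : ℝ) • fY D v)) = fX D v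
        rw [zero_smul, ex_zero, mul_one, lg_ex (hXn v)]
      rw [← h1, h2]
      exact mem_LPm.mpr ⟨_, LP.proj false, fun v => rfl⟩
  have hYm : fY D ∈ LPm D := mem_LPm.mpr ⟨_, LP.proj true, fun v => rfl⟩
  have key : ∀ m, ∀ j < J, z j ∈ LPm D ⊔ Qm D m := by
    intro m
    induction m with
    | zero =>
      intro j hj
      refine Submodule.mem_sup_right ?_
      refine coeff_mem (P := Qm D 0) (J := J) (z := z) (fun t => ?_) hj
      rw [← hz]
      exact fun v => hZl v t
    | succ m ih =>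
      have hzt : ∀ t, zc D t ∈ LPm D ⊔ Qm D m := fun t => by
        rw [hz]
        exact Submodule.sum_mem _ fun j hj => Submodule.smul_mem _ _ (ih j (Finset.mem_range.mp hj))
      have hzt' : ∀ t, z' t ∈ LPm D ⊔ Qm D m := fun t =>
        Submodule.sum_mem _ fun j hj => Submodule.smul_mem _ _ (ih j (Finset.mem_range.mp hj))
      have hnew : ∀ t, z' t ∈ LPm D ⊔ Qm D (m + 1) := by
        intro t
        rcases Nat.eq_zero_or_pos K with h0 | hpos
        · -- degenerate case
          have hbot : ∀ k, lcs D k = ⊥ := by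
            intro k
            induction k with
            | zero => rw [h0] at hK; exact hK
            | succ k ihk => exact eq_bot_iff.mpr ((lcs_succ_le D k).trans ihk.le)
          have : z' t = 0 := by
            funext v
            have h1 : z' t v ∈ lie D := deriv_mem' (hcurve v) (hZl v) (hderiv v t)
            have h2 : z' t v ∈ lcs D 0 := h1
            rw [hbot 0, Submodule.mem_bot] at h2
            exact h2
          rw [this]; exact Submodule.zero_mem _
        · obtain ⟨K', rfl⟩ : ∃ K', K = K' + 1 := ⟨K - 1, by omega⟩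
          have h1 := hser t
          rw [Finset.sum_range_succ', hlc0, one_smul] at h1
          have h2 : z' t = fY D - ∑ k ∈ range K', lc' (k + 1) • adm (zc D t) (k + 1) (z' t) := by
            rw [h1]
            simp [adm]
          rw [h2]
          refine Submodule.sub_mem _ (Submodule.mem_sup_left hYm) ?_
          exact Submodule.sum_mem _ fun k _ => Submodule.smul_mem _ _
            (adm_mem_sup (hzt t) (hzt' t) k)
      intro j hj
      rcases Nat.eq_zero_or_pos j with h0 | hpos
      · subst h0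
        rcases hz0 with h | h
        · exact Submodule.mem_sup_left h
        · omega
      · obtain ⟨i, rfl⟩ : ∃ i, j = i + 1 := ⟨j - 1, by omega⟩
        obtain ⟨J', rfl⟩ : ∃ J', J = J' + 1 := ⟨J - 1, by omega⟩
        have h1 : ((i + 1 : ℕ) : ℝ) • z (i + 1) ∈ LPm D ⊔ Qm D (m + 1) := by
          refine coeff_mem (P := LPm D ⊔ Qm D (m + 1)) (J := J')
            (z := fun i => ((i + 1 : ℕ) : ℝ) • z (i + 1)) (fun t => ?_) (by omega)
          have h2 : z' t = ∑ j ∈ range J', t ^ j • (((j + 1 : ℕ) : ℝ) • z (j + 1)) := by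
            rw [hz']
            simp only
            rw [Finset.sum_range_succ']
            simp only [Nat.cast_zero, zero_mul, zero_smul, add_zero]
            refine Finset.sum_congr rfl fun j _ => ?_
            rw [smul_smul, Nat.add_sub_cancel, mul_comm]
          rw [← h2]; exact hnew t
        have h3 : z (i + 1) = ((i + 1 : ℕ) : ℝ)⁻¹ • (((i + 1 : ℕ) : ℝ) • z (i + 1)) := by
          rw [smul_smul, inv_mul_cancel₀ (by positivity), one_smul]
        rw [h3]
        exact Submodule.smul_mem _ _ h1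
  have hQ : Qm D K = ⊥ := by
    rw [eq_bot_iff]
    intro f hf
    rw [Submodule.mem_bot]
    funext v
    have := hf v
    rwa [hK, Submodule.mem_bot] at this
  have hfin : zc D 1 ∈ LPm D := by
    rw [hz]
    refine Submodule.sum_mem _ fun j hj => Submodule.smul_mem _ _ ?_
    have := key K j (Finset.mem_range.mp hj)
    rwa [hQ, sup_bot_eq] at this
  obtain ⟨p, hp, h⟩ := mem_LPm.mp hfin
  refine ⟨p, hp, fun v => ?_⟩
  rw [← h v]
  change _ = lg (ex (fX D v) * ex ((1 : ℝ) • fY D v))
  rw [one_smul]; rfl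

end bch

end Crest.Agent.R182.Nb
private theorem rz_983d41956e : type_of% @_root_.Crest.Agent.R182.Nb.adm.eq_def := @_root_.Crest.Agent.R182.Nb.adm.eq_def -- L115
private theorem rz_127caa7fda : type_of% @_root_.Crest.Agent.R182.Nb.adm.eq_1 := @_root_.Crest.Agent.R182.Nb.adm.eq_1 -- L115
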