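/-
R182, module NILBOX (helper89): the group law of `N_ℝ` in exponential coordinates.
-/
import Mathlib
import Crest.Agent.R182.NbBch

set_option autoImplicit false
set_option linter.unusedSectionVars false

namespace Crest.Agent.R182.Nb

open Finset Model Polyc

section

attribute [local instance 100] LieRing.ofAssociativeRing

variable {Γ : Type*} [Group Γ] {N : Subgroup Γ} (D : EmbData Γ N)


theorem ex_lg_mul {X Y : Matrix (Fin D.n) (Fin D.n) ℝ} (hX : X ∈ lie D) (hY : Y ∈ lie D) :
    ex (lg (ex X * ex Y)) = ex X * ex Y := by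
  have h1 : exU X (lie_pow_zero D hX) * exU Y (lie_pow_zero D hY) ∈ D.NR :=
    D.NR.mul_mem (exU_mem_of_lie D hX) (exU_mem_of_lie D hY)
  have h2 := ex_lg (D.unip_NR h1)
  rwa [Units.val_mul] at h2





theorem mon_mem_lcs (κ : List (lieA D)) (hκ : κ ≠ []) :
    ((mon id κ : lieA D) : Matrix (Fin D.n) (Fin D.n) ℝ) ∈ lcs D (κ.length - 1) := by
  induction κ with
  | nil => exact absurd rfl hκ
  | cons x κ ih =>
    by_cases h : κ = []
    · subst h; exact x.2
    · rw [mon_cons id x h, LieSubalgebra.coe_bracket, Ring.lie_def]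
      have h1 : (x :: κ).length - 1 = (κ.length - 1) + 1 := by
        have : κ.length ≠ 0 := by simpa using h
        simp only [List.length_cons]; omega
      rw [h1]
      exact bracket_mem_lcs D x.2 (ih h)

theorem exists_nilC : ∃ c, 1 ≤ c ∧ NilC c (lieA D) := by
  obtain ⟨K, hK⟩ := exists_lcs_eq_bot D
  have hbot : ∀ m, lcs D (K + m) = ⊥ := by
    intro m
    induction m with
    | zero => exact hK
    | succ m ih => exact eq_bot_iff.mpr ((lcs_succ_le D (K + m)).trans ih.le)
  refine ⟨K + 1, by omega, fun κ hκ => ?_⟩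
  have hne : κ ≠ [] := by rintro rfl; simp at hκ
  have h1 := mon_mem_lcs D κ hne
  obtain ⟨m, hm⟩ : ∃ m, κ.length - 1 = K + m := ⟨κ.length - 1 - K, by omega⟩
  rw [hm, hbot, Submodule.mem_bot] at h1
  exact Subtype.ext h1

end

end Crest.Agent.R182.Nb
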