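import Mathlib
import Crest.Agent.R182.ModelWt2
import Crest.Agent.R182.ModelDist1
import Crest.Agent.R182.NbModel

-- ▼ part R182/ModelWt3
section

set_option autoImplicit false
set_option linter.unusedSectionVars false

namespace Crest.Agent.R182.ModelWt

open Module LinMod Polyc Model

section lattice

variable {E : Type*} [NormedAddCommGroup E] [NormedSpace ℝ E] [FiniteDimensional ℝ E]

/-- an endomorphism preserving a lattice is given by an integral matrix -/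
theorem exists_int_matrix (L : Submodule ℤ E) [DiscreteTopology L] [IsZLattice ℝ L]
    {ι : Type*} [Fintype ι] [DecidableEq ι] (b : Basis ι ℤ L)
    (f : E →ₗ[ℝ] E) (hf : ∀ x ∈ L, f x ∈ L) :
    ∃ M : Matrix ι ι ℤ, LinearMap.toMatrix (b.ofZLatticeBasis ℝ L) (b.ofZLatticeBasis ℝ L) f =
      M.map (Int.castRingHom ℝ) := by
  refine ⟨Matrix.of fun i j => b.repr ⟨f (b j), hf _ (b j).2⟩ i, ?_⟩
  ext i j
  rw [LinearMap.toMatrix_apply, Basis.ofZLatticeBasis_apply]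
  have h := b.ofZLatticeBasis_repr_apply ℝ L ⟨f (b j), hf _ (b j).2⟩ i
  exact h

/-- integral basis of a discrete spanning subgroup -/
theorem exists_int_basis (L : Submodule ℤ E) {ε : ℝ} (hε : 0 < ε)
    (hL : ∀ x ∈ L, ‖x‖ < ε → x = 0) (hspan : Submodule.span ℝ (L : Set E) = ⊤) :
    ∃ (d : ℕ) (B : Basis (Fin d) ℝ E), ∀ f : E →ₗ[ℝ] E, (∀ x ∈ L, f x ∈ L) →
      ∃ M : Matrix (Fin d) (Fin d) ℤ,
        LinearMap.toMatrix B B f = M.map (Int.castRingHom ℝ) := by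
  have hd : DiscreteTopology L := by
    refine discreteTopology_of_isOpen_singleton_zero ?_
    rw [Metric.isOpen_singleton_iff]
    refine ⟨ε, hε, fun y hy => ?_⟩
    rw [dist_zero_right] at hy
    exact Subtype.ext (hL y y.2 hy)
  have hz : IsZLattice ℝ L := ⟨hspan⟩
  have : Module.Finite ℤ L := ZLattice.module_finite ℝ L
  have : Module.Free ℤ L := ZLattice.module_free ℝ L
  exact ⟨_, (Module.finBasis ℤ L).ofZLatticeBasis ℝ L,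
    fun f hf => exists_int_matrix L (Module.finBasis ℤ L) f hf⟩

theorem abs_det_eq_one (L : Submodule ℤ E) {ε : ℝ} (hε : 0 < ε)
    (hL : ∀ x ∈ L, ‖x‖ < ε → x = 0) (hspan : Submodule.span ℝ (L : Set E) = ⊤)
    (f : E ≃ₗ[ℝ] E) (hf : ∀ x ∈ L, f x ∈ L) (hf' : ∀ x ∈ L, f.symm x ∈ L) :
    |LinearMap.det (f : E →ₗ[ℝ] E)| = 1 := by
  classical
  obtain ⟨d, B, hB⟩ := exists_int_basis L hε hL hspan
  obtain ⟨M, hM⟩ := hB (f : E →ₗ[ℝ] E) hf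
  obtain ⟨M', hM'⟩ := hB (f.symm : E →ₗ[ℝ] E) hf'
  have h1 : LinearMap.det (f : E →ₗ[ℝ] E) = ((M.det : ℤ) : ℝ) := by
    rw [← LinearMap.det_toMatrix B, hM]
    exact (RingHom.map_det (Int.castRingHom ℝ) M).symm
  have h2 : LinearMap.det (f.symm : E →ₗ[ℝ] E) = ((M'.det : ℤ) : ℝ) := by
    rw [← LinearMap.det_toMatrix B, hM']
    exact (RingHom.map_det (Int.castRingHom ℝ) M').symm
  have h3 : LinearMap.det (f : E →ₗ[ℝ] E) * LinearMap.det (f.symm : E →ₗ[ℝ] E) = 1 := by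
    rw [← LinearMap.det_comp]
    have : (f : E →ₗ[ℝ] E) ∘ₗ (f.symm : E →ₗ[ℝ] E) = LinearMap.id := by ext x; simp
    rw [this, LinearMap.det_id]
  rw [h1, h2] at h3
  have h4 : M.det * M'.det = 1 := by exact_mod_cast h3
  have h5 : IsUnit M.det := IsUnit.of_mul_eq_one _ h4
  rw [h1, ← Int.cast_abs, Int.isUnit_iff_abs_eq.1 h5, Int.cast_one]

end lattice

section logs

attribute [local instance] Matrix.linftyOpNormedRing Matrix.linftyOpNormedAlgebra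

variable {Γ : Type*} [Group Γ] {N : Subgroup Γ} [hN : N.Normal] (D : EmbData Γ N)

theorem ρu_mem_NR' (ν : N) : D.ρu ν ∈ D.NR := (D.ρu_mem_NR_iff _).2 ν.2

/-- logarithms of the elements of `N` -/
noncomputable def lgN (ν : N) : lie D :=
  ⟨lg (D.ρu ν : Matrix (Fin D.n) (Fin D.n) ℝ), lg_mem_lie D (ρu_mem_NR' D ν)⟩

/-- the lattice spanned by the logarithms of `N` -/
noncomputable def Lg : Submodule ℤ (lie D) := Submodule.span ℤ (Set.range (lgN D))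

/-- multiples of the logarithms are integral -/
theorem exists_int_lg (ν : N) : ∃ M : Matrix (Fin D.n) (Fin D.n) ℤ,
    ((D.n.factorial : ℕ) : ℝ) • (lgN D ν : Matrix (Fin D.n) (Fin D.n) ℝ) =
      EmbData.toR D.n M := by
  have hc : ∀ k ∈ Finset.range D.n, ∃ z : ℤ, ((D.n.factorial : ℕ) : ℝ) * lc k = (z : ℝ) := by
    intro k hk
    rcases Nat.eq_zero_or_pos k with h | h
    · subst h; exact ⟨0, by simp [lc]⟩
    · obtain ⟨q, hq⟩ : k ∣ D.n.factorial :=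
        Nat.dvd_factorial h (Finset.mem_range.1 hk).le
      refine ⟨(-1) ^ (k + 1) * q, ?_⟩
      rw [lc, if_neg (by omega), hq]
      have : (k : ℝ) ≠ 0 := by exact_mod_cast h.ne'
      push_cast
      field_simp
  choose! z hz using hc
  refine ⟨∑ k ∈ Finset.range D.n, z k • (D.ρ ν - 1) ^ k, ?_⟩
  change ((D.n.factorial : ℕ) : ℝ) • lg (D.ρu ν : Matrix (Fin D.n) (Fin D.n) ℝ) = _
  rw [lg, Finset.smul_sum, map_sum]
  refine Finset.sum_congr rfl fun k hk => ?_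
  rw [smul_smul, hz k hk, map_zsmul, map_pow, map_sub, map_one, D.coe_ρu,
    Int.cast_smul_eq_zsmul]

theorem exists_int_of_mem {X : lie D} (hX : X ∈ Lg D) : ∃ M : Matrix (Fin D.n) (Fin D.n) ℤ,
    ((D.n.factorial : ℕ) : ℝ) • (X : Matrix (Fin D.n) (Fin D.n) ℝ) = EmbData.toR D.n M := by
  induction hX using Submodule.span_induction with
  | mem x hx => obtain ⟨ν, rfl⟩ := hx; exact exists_int_lg D ν
  | zero => exact ⟨0, by rw [Submodule.coe_zero, smul_zero, map_zero]⟩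
  | add x y _ _ hx hy =>
    obtain ⟨M, hM⟩ := hx
    obtain ⟨M', hM'⟩ := hy
    exact ⟨M + M', by rw [Submodule.coe_add, smul_add, hM, hM', map_add]⟩
  | smul a x _ hx =>
    obtain ⟨M, hM⟩ := hx
    refine ⟨a • M, ?_⟩
    rw [map_zsmul, ← hM, Submodule.coe_smul_of_tower, smul_comm]

theorem exists_eps_Lg : ∃ ε : ℝ, 0 < ε ∧ ∀ x ∈ Lg D, ‖x‖ < ε → x = 0 := by
  obtain ⟨B, hB0, hB⟩ := exists_nrm_le (n := D.n)
  have hpos : (0 : ℝ) < ((D.n.factorial : ℕ) : ℝ) * (B + 1) := by positivity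
  refine ⟨1 / (((D.n.factorial : ℕ) : ℝ) * (B + 1)), by positivity, fun y hyL hy => ?_⟩
  obtain ⟨M, hM⟩ := exists_int_of_mem D hyL
  have hy' : ‖(y : Matrix (Fin D.n) (Fin D.n) ℝ)‖ <
      1 / (((D.n.factorial : ℕ) : ℝ) * (B + 1)) := hy
  have hM0 : M = 0 := by
    ext i j
    have h1 : |((M i j : ℤ) : ℝ)| < 1 := by
      have h2 : ((M i j : ℤ) : ℝ) = ((D.n.factorial : ℕ) : ℝ) *
          (y : Matrix (Fin D.n) (Fin D.n) ℝ) i j := by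
        have := congrFun (congrFun hM i) j
        exact this.symm
      rw [h2, abs_mul, Nat.abs_cast]
      have h3 := (abs_le_nrm (y : Matrix (Fin D.n) (Fin D.n) ℝ) i j).trans (hB _)
      rw [lt_div_iff₀ hpos] at hy'
      have h4 : (0 : ℝ) < ((D.n.factorial : ℕ) : ℝ) := by positivity
      have h5 := norm_nonneg (y : Matrix (Fin D.n) (Fin D.n) ℝ)
      calc ((D.n.factorial : ℕ) : ℝ) * |(y : Matrix (Fin D.n) (Fin D.n) ℝ) i j| ≤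
          ((D.n.factorial : ℕ) : ℝ) * (B * ‖(y : Matrix (Fin D.n) (Fin D.n) ℝ)‖) :=
            mul_le_mul_of_nonneg_left h3 h4.le
        _ ≤ ‖(y : Matrix (Fin D.n) (Fin D.n) ℝ)‖ *
            (((D.n.factorial : ℕ) : ℝ) * (B + 1)) := by
            have : 0 ≤ ((D.n.factorial : ℕ) : ℝ) *
              ‖(y : Matrix (Fin D.n) (Fin D.n) ℝ)‖ := by positivity
            nlinarith
        _ < 1 := hy'
    have h6 : |M i j| < 1 := by exact_mod_cast h1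
    rw [Int.abs_lt_one_iff] at h6
    exact h6
  rw [hM0, map_zero] at hM
  have h7 : ((D.n.factorial : ℕ) : ℝ) ≠ 0 := by positivity
  have h8 := (smul_eq_zero.1 hM).resolve_left h7
  exact Subtype.ext h8

theorem mem_span_lgN {X : Matrix (Fin D.n) (Fin D.n) ℝ} (hX : X ∈ lie D) :
    X ∈ Submodule.span ℝ (Set.range fun ν : N => (lgN D ν : Matrix (Fin D.n) (Fin D.n) ℝ)) := by
  by_contra hcon
  obtain ⟨ℓ, hℓ1, hℓ2⟩ := Submodule.exists_le_ker_of_notMem hcon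
  apply hℓ1
  obtain ⟨x, hx⟩ := eU_mem hX
  have h1 : lg (D.Eu x : Matrix (Fin D.n) (Fin D.n) ℝ) = X := by
    rw [hx]; exact lg_eU hX
  have h2 : IsPoly (fun x => ℓ (lg (D.Eu x : Matrix (Fin D.n) (Fin D.n) ℝ))) :=
    (isPolyM_lg D.isPolyU_Eu.1).linear ℓ
  have h3 := h2.eq_of_int (Polyc.IsPoly.const 0) (fun z => ?_) x
  · rw [h1] at h3; exact h3
  · rw [D.Eu_int]
    exact hℓ2 (Submodule.subset_span ⟨⟨_, D.prodE_mem z⟩, rfl⟩)

theorem span_Lg : Submodule.span ℝ (Lg D : Set (lie D)) = ⊤ := by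
  rw [eq_top_iff]
  rintro X -
  have h1 := mem_span_lgN D X.2
  have h2 : Submodule.span ℝ (Set.range fun ν : N =>
      (lgN D ν : Matrix (Fin D.n) (Fin D.n) ℝ)) =
      (Submodule.span ℝ (Set.range (lgN D))).map (lie D).subtype := by
    rw [Submodule.map_span, ← Set.range_comp]; rfl
  rw [h2] at h1
  obtain ⟨Y, hY, hYX⟩ := h1
  have h3 : Y = X := Subtype.ext hYX
  rw [← h3]
  exact Submodule.span_mono (Submodule.subset_span) hY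

theorem adE_mem_Lg (γ : Γ) {X : lie D} (hX : X ∈ Lg D) : adE D (inΓ D γ) X ∈ Lg D := by
  induction hX using Submodule.span_induction with
  | mem x hx =>
    obtain ⟨ν, rfl⟩ := hx
    refine Submodule.subset_span ⟨⟨γ * ν * γ⁻¹, hN.conj_mem _ ν.2 γ⟩, ?_⟩
    apply Subtype.ext
    rw [coe_adE, coe_inΓ]
    change lg (D.ρu (γ * ν * γ⁻¹) : Matrix (Fin D.n) (Fin D.n) ℝ) =
      cj (D.ρu γ) (lg (D.ρu ν : Matrix (Fin D.n) (Fin D.n) ℝ))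
    have h1 := conj_eU (ρu_mem D γ) (lg_mem_lie D (ρu_mem_NR' D ν))
    rw [eU_lg (ρu_mem_NR' D ν), ← map_mul, ← map_inv, ← map_mul] at h1
    rw [h1, lg_eU]
  | zero => rw [map_zero]; exact Submodule.zero_mem _
  | add x y _ _ hx hy => rw [map_add]; exact Submodule.add_mem _ hx hy
  | smul a x _ hx => rw [map_zsmul]; exact Submodule.smul_mem _ _ hx

/-- **`|det Ad(γ)| = 1`** -/
theorem abs_det_adE (γ : Γ) :
    |LinearMap.det (adE D (inΓ D γ) : lie D →ₗ[ℝ] lie D)| = 1 := by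
  obtain ⟨ε, hε, h⟩ := exists_eps_Lg D
  refine abs_det_eq_one (Lg D) hε h (span_Lg D) (adE D (inΓ D γ))
    (fun x hx => adE_mem_Lg D γ hx) (fun x hx => ?_)
  have h1 : (adE D (inΓ D γ)).symm x = adE D (inΓ D γ⁻¹) x := by
    rw [LinearEquiv.symm_apply_eq, ← LinearEquiv.mul_apply, ← map_mul, ← map_mul, mul_inv_cancel,
      map_one, map_one]; rfl
  rw [h1]
  exact adE_mem_Lg D γ⁻¹ hx


end logs

section cartan

attribute [local instance] Matrix.linftyOpNormedRing Matrix.linftyOpNormedAlgebra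

variable {Γ : Type*} [Group Γ] {N : Subgroup Γ} [hN : N.Normal]
  {D : EmbData Γ N} {k : ℕ} {π₁ : G1 D →* Multiplicative (Fin k → ℤ)}

namespace Cartan

variable (𝒞 : Cartan D π₁)

theorem sum_M_eq_zero (hs : ∀ v : Fin k → ℤ, ∃ γ : Γ, Multiplicative.toAdd (π₁ (inΓ D γ)) = v) :
    ∑ i, 𝒞.W.M i = 0 := by
  apply LinearMap.pi_ext'
  intro j
  ext
  obtain ⟨γ, hγ⟩ := hs (Pi.single j 1)
  have h1 := 𝒞.W.sum_M (inΓ D γ)
  rw [abs_det_adE, Real.log_one] at h1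
  have h2 : hv π₁ (inΓ D γ) = Pi.single j 1 := by
    funext i
    rw [hv, hγ]
    by_cases h : i = j
    · subst h; simp
    · simp [Pi.single_eq_of_ne h]
  rw [h2] at h1
  simpa using h1

/-- **Sum of the weights**: `∑ dim(𝔫_μ) μ = 0`. -/
theorem sum_wts_eq_zero
    (hs : ∀ v : Fin k → ℤ, ∃ γ : Γ, Multiplicative.toAdd (π₁ (inΓ D γ)) = v) :
    ∑ μ ∈ 𝒞.wts, (finrank ℝ (𝒞.nw μ)) • μ = 0 := by
  rw [𝒞.sum_wts, 𝒞.sum_M_eq_zero hs]

/-! #### every weight is a sum of generating weights -/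

open Classical in
/-- the generating weights: those with `𝔫_μ ⊄ [𝔫, 𝔫]` -/
noncomputable def gwts : Finset ((Fin k → ℝ) →ₗ[ℝ] ℝ) :=
  𝒞.wts.filter fun μ => ¬ 𝒞.nw μ ≤ lcs D 1

theorem mem_gwts {μ : (Fin k → ℝ) →ₗ[ℝ] ℝ} :
    μ ∈ 𝒞.gwts ↔ μ ∈ 𝒞.wts ∧ ¬ 𝒞.nw μ ≤ lcs D 1 := by
  classical
  simp [gwts]




end Cartan

end cartan

end Crest.Agent.R182.ModelWt
end

-- ▼ part R182/ModelIde

set_option autoImplicit false
set_option linter.unusedSectionVars false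

namespace Crest.Agent.R182.ModelWt

open Module LinMod Polyc Model

section cartan

attribute [local instance] Matrix.linftyOpNormedRing Matrix.linftyOpNormedAlgebra
attribute [local instance 100] LieRing.ofAssociativeRing

variable {Γ : Type*} [Group Γ] {N : Subgroup Γ} [hN : N.Normal]
  {D : EmbData Γ N} {k : ℕ} {π₁ : G1 D →* Multiplicative (Fin k → ℤ)}

/-- An ideal of `𝔫` is invariant under conjugation by elements of `N_ℝ`. -/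
theorem cj_NR_mem {P : Submodule ℝ (Matrix (Fin D.n) (Fin D.n) ℝ)} (hPle : P ≤ lie D)
    (hP : ∀ X ∈ lie D, ∀ Z ∈ P, X * Z - Z * X ∈ P)
    {u : (Matrix (Fin D.n) (Fin D.n) ℝ)ˣ} (hu : u ∈ D.NR)
    {Z : Matrix (Fin D.n) (Fin D.n) ℝ} (hZ : Z ∈ P) : cj u Z ∈ P := by
  set X := lg (u : Matrix (Fin D.n) (Fin D.n) ℝ) with hX
  have hXl : X ∈ lie D := lg_mem_lie D hu
  have hXn := lie_pow_zero D hXl
  have key : ∀ i, ∀ s : ℝ, ex (s • X) * Z * ex (s • (-X)) ∈ P ⊔ lcs D i := by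
    intro i
    induction i with
    | zero =>
      intro s
      refine Submodule.mem_sup_right ?_
      have h1 := cj_mem_lie D (NR_le D (exU_mem_of_lie D ((lie D).smul_mem s hXl))) (hPle hZ)
      have e : ex (s • X) * Z * ex (s • (-X)) =
          cj (exU (s • X) (lie_pow_zero D ((lie D).smul_mem s hXl))) Z := by
        rw [smul_neg]; rfl
      rw [e]
      exact h1
    | succ i ih =>
      refine mem_of_deriv_mem (ModelDist.hdm_conj hXn Z) ?_ ?_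
      · rw [zero_smul, zero_smul, ex_zero, one_mul, mul_one]
        exact Submodule.mem_sup_left hZ
      · intro s
        obtain ⟨a, ha, b, hb, hab⟩ := Submodule.mem_sup.1 (ih s)
        rw [← hab]
        have e : X * (a + b) - (a + b) * X = (X * a - a * X) + (X * b - b * X) := by
          noncomm_ring
        rw [e]
        exact Submodule.add_mem_sup (hP X hXl a ha) (bracket_mem_lcs D hXl hb)
  obtain ⟨K, hK⟩ := exists_lcs_eq_bot D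
  have h1 := key K 1
  rw [hK, sup_bot_eq, one_smul, one_smul] at h1
  have e : cj u Z = ex X * Z * ex (-X) := by
    have h2 : exU X hXn = u := exU_lg D hu
    calc cj u Z = cj (exU X hXn) Z := by rw [h2]
      _ = _ := rfl
  rw [e]; exact h1

namespace Cartan

variable (𝒞 : Cartan D π₁)

theorem wtsD : ModelDist.Wts D 𝒞.nw where
  le := 𝒞.nw_le
  br _ _ _ hX _ hY := 𝒞.bracket_mem_nw hX hY
  span X hX := by
    obtain ⟨f, hf, rfl⟩ := 𝒞.exists_decomp hX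
    exact Submodule.sum_mem _ fun μ _ => Submodule.mem_iSup_of_mem μ (hf μ)

/-- the filtration of `𝔢`: `eN 0 = 𝔢`, `eN 1 = [𝔢, 𝔢]` -/
noncomputable abbrev eN (j : ℕ) : Submodule ℝ (Matrix (Fin D.n) (Fin D.n) ℝ) :=
  ModelDist.eN 𝒞.nw j

theorem eN_le (j : ℕ) : 𝒞.eN j ≤ lie D := 𝒞.wtsD.eN_le j

theorem eN_anti {i j : ℕ} (h : i ≤ j) : 𝒞.eN j ≤ 𝒞.eN i := ModelDist.eN_anti h

theorem nw_le_eN {μ : (Fin k → ℝ) →ₗ[ℝ] ℝ} (hμ : μ ≠ 0) : 𝒞.nw μ ≤ 𝒞.eN 0 := fun _ hX =>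
  ModelDist.T_mem_eN (j := 0) ⟨μ, hμ, hX⟩

theorem br_eN {i j : ℕ} {X Z : Matrix (Fin D.n) (Fin D.n) ℝ} (hX : X ∈ 𝒞.eN i)
    (hZ : Z ∈ 𝒞.eN j) : X * Z - Z * X ∈ 𝒞.eN (i + j + 1) := ModelDist.br_eN hX hZ

theorem br_lie {X : Matrix (Fin D.n) (Fin D.n) ℝ} (hX : X ∈ lie D) {j : ℕ}
    {Z : Matrix (Fin D.n) (Fin D.n) ℝ} (hZ : Z ∈ 𝒞.eN j) : X * Z - Z * X ∈ 𝒞.eN j :=
  𝒞.wtsD.br_lie hX hZ

theorem eN_one_eq : 𝒞.eN 1 = Submodule.span ℝ {Z | ∃ X ∈ 𝒞.eN 0, ∃ Y ∈ 𝒞.eN 0,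
    Z = X * Y - Y * X} := by
  apply le_antisymm
  · refine Submodule.span_le.2 ?_
    rintro Z ⟨r, hr, hZ⟩
    obtain ⟨r, rfl⟩ : ∃ s, r = s + 1 := ⟨r - 1, by omega⟩
    obtain ⟨X, hX, Y, hY, rfl⟩ := hZ
    exact Submodule.subset_span ⟨X, ModelDist.T_mem_eN (j := 0) hX, Y,
      𝒞.eN_anti (Nat.zero_le r) (ModelDist.T_mem_eN hY), rfl⟩
  · refine Submodule.span_le.2 ?_
    rintro Z ⟨X, hX, Y, hY, rfl⟩
    exact 𝒞.br_eN (i := 0) (j := 0) hX hY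

theorem cj_mem_T {g : G1 D} (hg : g ∈ 𝒞.C) (j : ℕ) :
    ∀ {Z : Matrix (Fin D.n) (Fin D.n) ℝ}, Z ∈ ModelDist.T 𝒞.nw j →
    cj (g : (Matrix (Fin D.n) (Fin D.n) ℝ)ˣ) Z ∈ ModelDist.T 𝒞.nw j := by
  induction j with
  | zero =>
    rintro Z ⟨μ, hμ, hX⟩
    exact ⟨μ, hμ, 𝒞.cj_mem_nw hg hX⟩
  | succ j ih =>
    rintro Z ⟨X, ⟨μ, hμ, hX⟩, Y, hY, rfl⟩
    exact ⟨_, ⟨μ, hμ, 𝒞.cj_mem_nw hg hX⟩, _, ih hY, cj_bracket _ _ _⟩

/-- **`Ad(G1)`-invariance** -/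
theorem cj_mem_eN {g : (Matrix (Fin D.n) (Fin D.n) ℝ)ˣ} (hg : g ∈ G1 D) {j : ℕ}
    {Z : Matrix (Fin D.n) (Fin D.n) ℝ} (hZ : Z ∈ 𝒞.eN j) : cj g Z ∈ 𝒞.eN j := by
  obtain ⟨u, hu, c, hc, huc⟩ := 𝒞.exists_mul ⟨g, hg⟩
  have h1 : g = (u : (Matrix (Fin D.n) (Fin D.n) ℝ)ˣ) * c := congrArg Subtype.val huc
  rw [h1, cj_mul]
  refine cj_NR_mem (𝒞.eN_le j) (fun X hX Z hZ => 𝒞.br_lie hX hZ) hu ?_
  have h2 : 𝒞.eN j ≤ (𝒞.eN j).comap (cj (c : (Matrix (Fin D.n) (Fin D.n) ℝ)ˣ)).toLinearMap := by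
    refine Submodule.span_le.2 ?_
    rintro Z ⟨r, hr, hZ⟩
    exact Submodule.subset_span ⟨r, hr, 𝒞.cj_mem_T hc r hZ⟩
  exact h2 hZ

theorem cmp_mem_eN (μ : (Fin k → ℝ) →ₗ[ℝ] ℝ) (j : ℕ) {X : Matrix (Fin D.n) (Fin D.n) ℝ}
    (hX : X ∈ 𝒞.eN j) : 𝒞.cmp μ X ∈ 𝒞.eN j :=
  𝒞.cmp_mem_of_invariant (𝒞.eN_le j) (fun _ hX => 𝒞.cj_mem_eN 𝒞.tm_mem hX)
    (fun _ hX => 𝒞.cj_mem_eN ((G1 D).inv_mem 𝒞.tm_mem) hX) μ hX

/-- `𝔢_0 ⊆ [𝔢, 𝔢]` -/
theorem nw_zero_inf_le : 𝒞.nw 0 ⊓ 𝒞.eN 0 ≤ 𝒞.eN 1 := by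
  rintro X ⟨hX0, hXe⟩
  -- the zero component of an element of `𝔢` is in `eN 1`
  have h1 : 𝒞.eN 0 ≤ (𝒞.eN 1).comap (𝒞.cmp 0) := by
    refine Submodule.span_le.2 ?_
    rintro Z ⟨r, hr, hZ⟩
    change 𝒞.cmp 0 Z ∈ 𝒞.eN 1
    rcases Nat.eq_zero_or_pos r with h | h
    · subst h
      obtain ⟨μ, hμ, hZ⟩ := hZ
      rw [𝒞.cmp_of_mem_ne hμ hZ]
      exact Submodule.zero_mem _
    · exact 𝒞.cmp_mem_eN 0 1 (𝒞.eN_anti h (ModelDist.T_mem_eN hZ))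
  have h2 := h1 hXe
  rw [Submodule.mem_comap, 𝒞.cmp_of_mem hX0] at h2
  exact h2

theorem bracket_eq_sum {X Y : Matrix (Fin D.n) (Fin D.n) ℝ} (hX : X ∈ lie D) (hY : Y ∈ lie D) :
    X * Y - Y * X = ∑ ν ∈ 𝒞.wts, ∑ ρ ∈ 𝒞.wts,
      (𝒞.cmp ν X * 𝒞.cmp ρ Y - 𝒞.cmp ρ Y * 𝒞.cmp ν X) := by
  have h1 : X * Y - Y * X = ∑ ν ∈ 𝒞.wts, (𝒞.cmp ν X * Y - Y * 𝒞.cmp ν X) := by
    rw [Finset.sum_sub_distrib, ← Finset.sum_mul, ← Finset.mul_sum, 𝒞.sum_cmp hX]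
  rw [h1]
  refine Finset.sum_congr rfl fun ν _ => ?_
  rw [Finset.sum_sub_distrib, ← Finset.sum_mul, ← Finset.mul_sum, 𝒞.sum_cmp hY]

theorem cmp_bracket_aux {μ ν ρ : (Fin k → ℝ) →ₗ[ℝ] ℝ} {P : Submodule ℝ (Matrix (Fin D.n)
    (Fin D.n) ℝ)} (ih : 𝒞.nw μ ≤ P ⊔ 𝒞.eN 1) {P' : Submodule ℝ (Matrix (Fin D.n)
    (Fin D.n) ℝ)} (hPP' : ∀ X ∈ lie D, ∀ Y ∈ P, X * Y - Y * X ∈ P')
    {X Y : Matrix (Fin D.n) (Fin D.n) ℝ} (hX : X ∈ 𝒞.nw ν) (hY : Y ∈ 𝒞.nw ρ)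
    (hs : ν + ρ = μ) : X * Y - Y * X ∈ P' ⊔ 𝒞.eN 1 := by
  have hX' := 𝒞.nw_le ν hX
  have hY' := 𝒞.nw_le ρ hY
  by_cases hν0 : ν = 0
  · have hρ : ρ = μ := by rw [← hs, hν0, zero_add]
    rw [hρ] at hY
    obtain ⟨a, ha, b, hb, hab⟩ := Submodule.mem_sup.1 (ih hY)
    have e : X * Y - Y * X = (X * a - a * X) + (X * b - b * X) := by
      rw [← hab]; noncomm_ring
    rw [e]
    exact Submodule.add_mem_sup (hPP' X hX' a ha) (𝒞.br_lie hX' hb)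
  by_cases hρ0 : ρ = 0
  · have hν : ν = μ := by rw [← hs, hρ0, add_zero]
    rw [hν] at hX
    obtain ⟨a, ha, b, hb, hab⟩ := Submodule.mem_sup.1 (ih hX)
    have e : X * Y - Y * X = -(Y * a - a * Y) + -(Y * b - b * Y) := by
      rw [← hab]; noncomm_ring
    rw [e]
    exact Submodule.add_mem_sup (Submodule.neg_mem _ (hPP' Y hY' a ha))
      (Submodule.neg_mem _ (𝒞.br_lie hY' hb))
  exact Submodule.mem_sup_right
    (𝒞.br_eN (i := 0) (j := 0) (𝒞.nw_le_eN hν0 hX) (𝒞.nw_le_eN hρ0 hY))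

/-- the generating weights of `𝔢` are the nonzero generating weights of `𝔫` -/
theorem nw_le_eN_one_of {μ : (Fin k → ℝ) →ₗ[ℝ] ℝ} (h : 𝒞.nw μ ≤ lcs D 1) :
    𝒞.nw μ ≤ 𝒞.eN 1 := by
  have key : ∀ i, 𝒞.nw μ ≤ lcs D i ⊔ 𝒞.eN 1 := by
    intro i
    induction i with
    | zero => exact (𝒞.nw_le μ).trans le_sup_left
    | succ i ih =>
      have h1 : lcs D 1 ≤ (lcs D (i + 1) ⊔ 𝒞.eN 1).comap (𝒞.cmp μ) := by
        refine Submodule.span_le.2 ?_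
        rintro Z ⟨X, hX, Y, hY, rfl⟩
        have hY' : Y ∈ lie D := hY
        change 𝒞.cmp μ (X * Y - Y * X) ∈ lcs D (i + 1) ⊔ 𝒞.eN 1
        rw [𝒞.bracket_eq_sum hX hY', map_sum]
        refine Submodule.sum_mem _ fun ν _ => ?_
        rw [map_sum]
        refine Submodule.sum_mem _ fun ρ _ => ?_
        have hν := 𝒞.cmp_mem ν hX
        have hρ := 𝒞.cmp_mem ρ hY'
        have hνρ := 𝒞.bracket_mem_nw hν hρ
        by_cases hs : ν + ρ = μ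
        swap
        · rw [𝒞.cmp_of_mem_ne hs hνρ]; exact Submodule.zero_mem _
        rw [hs] at hνρ
        rw [𝒞.cmp_of_mem hνρ]
        exact 𝒞.cmp_bracket_aux ih (fun X hX Y hY => bracket_mem_lcs D hX hY) hν hρ hs
      intro X hX
      have h2 := h1 (h hX)
      rw [Submodule.mem_comap, 𝒞.cmp_of_mem hX] at h2
      exact h2
  obtain ⟨K, hK⟩ := exists_lcs_eq_bot D
  have := key K
  rwa [hK, bot_sup_eq] at this

/-! #### `𝔢` as a Lie algebra -/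

/-- `𝔢` as a Lie subalgebra -/
noncomputable def eA : LieSubalgebra ℝ (Matrix (Fin D.n) (Fin D.n) ℝ) :=
  { 𝒞.eN 0 with
    lie_mem' := fun {x y} hx hy => by
      rw [Ring.lie_def]
      exact 𝒞.eN_anti (Nat.zero_le _) (𝒞.br_eN (i := 0) (j := 0) hx hy) }

theorem mem_eA {X : Matrix (Fin D.n) (Fin D.n) ℝ} : X ∈ 𝒞.eA ↔ X ∈ 𝒞.eN 0 := Iff.rfl

theorem eA_mem_lie (x : 𝒞.eA) : (x : Matrix (Fin D.n) (Fin D.n) ℝ) ∈ lie D := 𝒞.eN_le 0 x.2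

theorem coe_bracket (x y : 𝒞.eA) : ((⁅x, y⁆ : 𝒞.eA) : Matrix (Fin D.n) (Fin D.n) ℝ) =
    (x : Matrix (Fin D.n) (Fin D.n) ℝ) * y - y * x := rfl

/-- inclusion `𝔢 → 𝔫` -/
noncomputable def inA (x : 𝒞.eA) : lieA D := ⟨x, 𝒞.eA_mem_lie x⟩

theorem isSub_eN (j : ℕ) : IsSub D (𝒞.eN j) where
  le := 𝒞.eN_le j
  br _ hX _ hY := 𝒞.br_lie (𝒞.eN_le j hX) hY

theorem coe_mon {σ : Type*} (v : σ → 𝒞.eA) (κ : List σ) :
    ((Nb.mon v κ : 𝒞.eA) : Matrix (Fin D.n) (Fin D.n) ℝ) =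
      ((Nb.mon (fun i => 𝒞.inA (v i)) κ : lieA D) : Matrix (Fin D.n) (Fin D.n) ℝ) := by
  induction κ with
  | nil => rfl
  | cons i κ ih =>
    by_cases h : κ = []
    · subst h; rfl
    · rw [Nb.mon_cons v i h, Nb.mon_cons _ i h, LieSubalgebra.coe_bracket,
        LieSubalgebra.coe_bracket, ih]
      rfl

theorem exists_nilCE : ∃ c, 1 ≤ c ∧ Nb.NilC c 𝒞.eA := by
  obtain ⟨c, hc, h⟩ := Nb.exists_nilC D
  refine ⟨c, hc, fun κ hκ => ?_⟩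
  apply Subtype.ext
  rw [coe_mon, Nb.mon_map, h (κ.map fun i => 𝒞.inA (id i)) (by simpa using hκ)]
  rfl

theorem exists_lp_eA {σ : Type*} {p : (σ → lieA D) → lieA D} (hp : p ∈ Nb.LP σ (lieA D)) :
    ∃ q ∈ Nb.LP σ 𝒞.eA, ∀ v : σ → 𝒞.eA, ((q v : 𝒞.eA) : Matrix (Fin D.n) (Fin D.n) ℝ) =
      (p (fun i => 𝒞.inA (v i)) : lieA D) := by
  induction hp using Submodule.span_induction with
  | mem f hf =>
    obtain ⟨κ, rfl⟩ := hf
    exact ⟨_, Nb.LP.of_mon κ, fun v => 𝒞.coe_mon v κ⟩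
  | zero => exact ⟨0, Submodule.zero_mem _, fun v => rfl⟩
  | add f g _ _ hf hg =>
    obtain ⟨q, hq, h1⟩ := hf
    obtain ⟨q', hq', h2⟩ := hg
    refine ⟨q + q', Submodule.add_mem _ hq hq', fun v => ?_⟩
    rw [Pi.add_apply, Pi.add_apply, AddMemClass.coe_add, AddMemClass.coe_add, h1, h2]
  | smul r f _ hf =>
    obtain ⟨q, hq, h1⟩ := hf
    refine ⟨r • q, Submodule.smul_mem _ r hq, fun v => ?_⟩
    rw [Pi.smul_apply, Pi.smul_apply, SetLike.val_smul, SetLike.val_smul, h1]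

/-- the group law in exponential coordinates -/
noncomputable def opE (x y : 𝒞.eA) : 𝒞.eA :=
  ⟨lg (ex (x : Matrix (Fin D.n) (Fin D.n) ℝ) * ex (y : Matrix (Fin D.n) (Fin D.n) ℝ)),
    (𝒞.isSub_eN 0).lg_mul_mem x.2 y.2⟩

theorem ex_opE (x y : 𝒞.eA) : ex (𝒞.opE x y : Matrix (Fin D.n) (Fin D.n) ℝ) =
    ex (x : Matrix (Fin D.n) (Fin D.n) ℝ) * ex (y : Matrix (Fin D.n) (Fin D.n) ℝ) :=
  Nb.ex_lg_mul D (𝒞.eA_mem_lie x) (𝒞.eA_mem_lie y)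

theorem ex_injE {x y : 𝒞.eA} (h : ex (x : Matrix (Fin D.n) (Fin D.n) ℝ) =
    ex (y : Matrix (Fin D.n) (Fin D.n) ℝ)) : x = y := by
  apply Subtype.ext
  rw [← lg_ex (lie_pow_zero D (𝒞.eA_mem_lie x)), ← lg_ex (lie_pow_zero D (𝒞.eA_mem_lie y)), h]

/-- **the group law of `E`** -/
noncomputable def starE : Nb.Star 𝒞.eA where
  op := 𝒞.opE
  lp := by
    obtain ⟨p, hp, h⟩ := Nb.exists_lp D
    obtain ⟨q, hq, h1⟩ := 𝒞.exists_lp_eA hp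
    have : (fun v : Bool → 𝒞.eA => 𝒞.opE (v false) (v true)) = q := by
      funext v
      apply Subtype.ext
      rw [h1, ← h]
      rfl
    rw [this]; exact hq
  op_zero x := 𝒞.ex_injE (by rw [ex_opE, ZeroMemClass.coe_zero, ex_zero, mul_one])
  zero_op x := 𝒞.ex_injE (by rw [ex_opE, ZeroMemClass.coe_zero, ex_zero, one_mul])
  assoc x y z := 𝒞.ex_injE (by simp only [ex_opE, mul_assoc])
  op_neg x := 𝒞.ex_injE (by
    rw [ex_opE, ZeroMemClass.coe_zero, ex_zero, NegMemClass.coe_neg]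
    exact ex_mul_ex_neg (lie_pow_zero D (𝒞.eA_mem_lie x)))

/-- the exponential map -/
noncomputable def exE (x : 𝒞.eA) : G1 D :=
  ⟨eU (x : Matrix (Fin D.n) (Fin D.n) ℝ) (𝒞.eA_mem_lie x), NR_le D (eU_mem _)⟩

theorem coe_exE (x : 𝒞.eA) : (𝒞.exE x : (Matrix (Fin D.n) (Fin D.n) ℝ)ˣ) =
    eU (x : Matrix (Fin D.n) (Fin D.n) ℝ) (𝒞.eA_mem_lie x) := rfl

theorem exE_mem (x : 𝒞.eA) : 𝒞.exE x ∈ NR1 D := eU_mem (𝒞.eA_mem_lie x)

theorem exE_op (x y : 𝒞.eA) : 𝒞.exE (𝒞.starE.op x y) = 𝒞.exE x * 𝒞.exE y := by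
  apply Subtype.ext
  apply Units.ext
  exact 𝒞.ex_opE x y

theorem exE_injective : Function.Injective 𝒞.exE := by
  intro x y h
  apply 𝒞.ex_injE
  exact congrArg (fun g : G1 D => ((g : (Matrix (Fin D.n) (Fin D.n) ℝ)ˣ) :
    Matrix (Fin D.n) (Fin D.n) ℝ)) h

theorem hv_exE (x : 𝒞.eA) : hv π₁ (𝒞.exE x) = 0 := by
  have h1 : π₁ (𝒞.exE x) = 1 := (𝒞.ker _).2 (𝒞.exE_mem x)
  funext i
  rw [hv, h1]
  simp

/-- the adjoint action of `G1` on `𝔢` -/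
noncomputable def AdE : G1 D →* (𝒞.eA ≃ₗ[ℝ] 𝒞.eA) where
  toFun g :=
    { toFun := fun X => ⟨cj (g : (Matrix (Fin D.n) (Fin D.n) ℝ)ˣ) X, 𝒞.cj_mem_eN g.2 X.2⟩
      invFun := fun X => ⟨cj (g : (Matrix (Fin D.n) (Fin D.n) ℝ)ˣ)⁻¹ X,
        𝒞.cj_mem_eN ((G1 D).inv_mem g.2) X.2⟩
      map_add' := fun X Y => Subtype.ext (map_add _ _ _)
      map_smul' := fun c X => Subtype.ext (map_smul _ _ _)
      left_inv := fun X => Subtype.ext (cj_inv_cj _ _)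
      right_inv := fun X => Subtype.ext (cj_cj_inv _ _) }
  map_one' := by
    apply LinearEquiv.ext
    intro X
    exact Subtype.ext (cj_one _)
  map_mul' g h := by
    apply LinearEquiv.ext
    intro X
    exact Subtype.ext (cj_mul _ _ _)

theorem coe_AdE (g : G1 D) (x : 𝒞.eA) : ((𝒞.AdE g x : 𝒞.eA) : Matrix (Fin D.n) (Fin D.n) ℝ) =
    cj (g : (Matrix (Fin D.n) (Fin D.n) ℝ)ˣ) x := rfl

theorem AdE_lie (g : G1 D) (x y : 𝒞.eA) : 𝒞.AdE g ⁅x, y⁆ = ⁅𝒞.AdE g x, 𝒞.AdE g y⁆ :=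
  Subtype.ext (cj_bracket _ _ _)

theorem conj_exE (g : G1 D) (x : 𝒞.eA) : g * 𝒞.exE x * g⁻¹ = 𝒞.exE (𝒞.AdE g x) :=
  Subtype.ext (conj_eU g.2 (𝒞.eA_mem_lie x))

end Cartan

end cartan

end Crest.Agent.R182.ModelWt
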