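import Mathlib
import Crest.Agent.R182.ModelIde
import Crest.Agent.R182.ModelWt2
import Crest.Agent.R182.ModelRoots

-- ▼ part R182/ModelBas
section

set_option autoImplicit false
set_option linter.unusedSectionVars false

namespace Crest.Agent.R182.ModelWt

open Module LinMod Polyc Model

section cartan

attribute [local instance] Matrix.linftyOpNormedRing Matrix.linftyOpNormedAlgebra
attribute [local instance 100] LieRing.ofAssociativeRing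

variable {Γ : Type*} [Group Γ] {N : Subgroup Γ} [hN : N.Normal]
  {D : EmbData Γ N} {k : ℕ} {π₁ : G1 D →* Multiplicative (Fin k → ℤ)}

/-- Basis of `𝔢` adapted to the weight spaces and to `[𝔢, 𝔢]`. -/
structure AdBas (𝒞 : Cartan D π₁) where
  r : ℕ
  bas : Basis (Fin r) ℝ 𝒞.eA
  wt : Fin r → ((Fin k → ℝ) →ₗ[ℝ] ℝ)
  gen : Finset (Fin r)
  mem : ∀ i, ((bas i : 𝒞.eA) : Matrix (Fin D.n) (Fin D.n) ℝ) ∈ 𝒞.nw (wt i)
  mem_one : ∀ i ∉ gen, ((bas i : 𝒞.eA) : Matrix (Fin D.n) (Fin D.n) ℝ) ∈ 𝒞.eN 1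
  repr_one : ∀ X : 𝒞.eA, (X : Matrix (Fin D.n) (Fin D.n) ℝ) ∈ 𝒞.eN 1 →
    ∀ i ∈ gen, bas.repr X i = 0
  repr_nw : ∀ μ, ∀ X : 𝒞.eA, (X : Matrix (Fin D.n) (Fin D.n) ℝ) ∈ 𝒞.nw μ →
    ∀ i, bas.repr X i ≠ 0 → wt i = μ
  sum_wt : ∑ i, wt i = ∑ μ ∈ 𝒞.wts, (finrank ℝ (𝒞.nw μ)) • μ

namespace Cartan

variable (𝒞 : Cartan D π₁)

/-- the coercion as a linear map -/
noncomputable def ξ : 𝒞.eA →ₗ[ℝ] Matrix (Fin D.n) (Fin D.n) ℝ where
  toFun x := x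
  map_add' _ _ := rfl
  map_smul' _ _ := rfl

theorem ξ_apply (x : 𝒞.eA) : 𝒞.ξ x = (x : Matrix (Fin D.n) (Fin D.n) ℝ) := rfl

/-- weight spaces of `𝔢` -/
noncomputable def ew (μ : (Fin k → ℝ) →ₗ[ℝ] ℝ) : Submodule ℝ (Matrix (Fin D.n) (Fin D.n) ℝ) :=
  𝒞.nw μ ⊓ 𝒞.eN 0

theorem ew_eq {μ : (Fin k → ℝ) →ₗ[ℝ] ℝ} (hμ : μ ≠ 0) : 𝒞.ew μ = 𝒞.nw μ :=
  inf_eq_left.2 (𝒞.nw_le_eN hμ)

theorem exists_compl (μ : (Fin k → ℝ) →ₗ[ℝ] ℝ) :
    ∃ G : Submodule ℝ (Matrix (Fin D.n) (Fin D.n) ℝ), G ≤ 𝒞.ew μ ∧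
      (∀ X ∈ 𝒞.ew μ, ∃ a ∈ G, ∃ b ∈ 𝒞.ew μ ⊓ 𝒞.eN 1, X = a + b) ∧
      finrank ℝ G + finrank ℝ (𝒞.ew μ ⊓ 𝒞.eN 1 : Submodule ℝ (Matrix (Fin D.n) (Fin D.n) ℝ)) =
        finrank ℝ (𝒞.ew μ) ∧ G ⊓ 𝒞.eN 1 = ⊥ := by
  obtain ⟨Q, hQ⟩ := Submodule.exists_isCompl ((𝒞.eN 1).comap (𝒞.ew μ).subtype)
  refine ⟨Q.map (𝒞.ew μ).subtype, Submodule.map_subtype_le _ _, ?_, ?_, ?_⟩
  · intro X hX
    obtain ⟨b, hb, a, ha, hab⟩ := Submodule.mem_sup.1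
      (show (⟨X, hX⟩ : 𝒞.ew μ) ∈ (𝒞.eN 1).comap (𝒞.ew μ).subtype ⊔ Q by
        rw [hQ.sup_eq_top]; trivial)
    refine ⟨a, ⟨a, ha, rfl⟩, b, ⟨b.2, hb⟩, ?_⟩
    have := congrArg Subtype.val hab
    rw [add_comm]
    exact this.symm
  · have h1 := Submodule.finrank_add_eq_of_isCompl hQ
    rw [Submodule.finrank_map_subtype_eq, ← h1, add_comm]
    congr 1
    have e : (𝒞.ew μ ⊓ 𝒞.eN 1 : Submodule ℝ (Matrix (Fin D.n) (Fin D.n) ℝ)) =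
        ((𝒞.eN 1).comap (𝒞.ew μ).subtype).map (𝒞.ew μ).subtype := by
      rw [Submodule.map_comap_subtype]
    rw [e, Submodule.finrank_map_subtype_eq]
  · rw [eq_bot_iff]
    rintro X ⟨⟨Y, hY, rfl⟩, hX⟩
    have h1 : Y ∈ (𝒞.eN 1).comap (𝒞.ew μ).subtype ⊓ Q := ⟨hX, hY⟩
    rw [hQ.inf_eq_bot, Submodule.mem_bot] at h1
    rw [h1, map_zero]
    exact Submodule.zero_mem _

theorem cmp_mem_ew (μ : (Fin k → ℝ) →ₗ[ℝ] ℝ) {X : Matrix (Fin D.n) (Fin D.n) ℝ}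
    (hX : X ∈ 𝒞.eN 0) : 𝒞.cmp μ X ∈ 𝒞.ew μ :=
  ⟨𝒞.cmp_mem μ (𝒞.eN_le 0 hX), 𝒞.cmp_mem_eN μ 0 hX⟩

/-- Existence of an adapted basis. -/
theorem exists_adBas : Nonempty (AdBas 𝒞) := by
  classical
  choose G hG1 hG2 hG3 hG4 using 𝒞.exists_compl
  let H : ((Fin k → ℝ) →ₗ[ℝ] ℝ) → Submodule ℝ (Matrix (Fin D.n) (Fin D.n) ℝ) :=
    fun μ => 𝒞.ew μ ⊓ 𝒞.eN 1
  let I := Σ μ : {μ // μ ∈ 𝒞.wts}, (Fin (finrank ℝ (G μ)) ⊕ Fin (finrank ℝ (H μ)))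
  let w : I → Matrix (Fin D.n) (Fin D.n) ℝ := fun p => match p with
    | ⟨μ, Sum.inl a⟩ => (finBasis ℝ (G μ) a : Matrix (Fin D.n) (Fin D.n) ℝ)
    | ⟨μ, Sum.inr b⟩ => (finBasis ℝ (H μ) b : Matrix (Fin D.n) (Fin D.n) ℝ)
  have hw : ∀ p : I, w p ∈ 𝒞.ew p.1 := by
    rintro ⟨μ, a | b⟩
    · exact hG1 μ (Submodule.coe_mem _)
    · exact (Submodule.coe_mem (finBasis ℝ (H μ) b)).1
  let v : I → 𝒞.eA := fun p => ⟨w p, (hw p).2⟩
  have hspanG : ∀ (μ : {μ // μ ∈ 𝒞.wts}), ∀ X ∈ G μ, ∀ P : Submodule ℝ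
      (Matrix (Fin D.n) (Fin D.n) ℝ), (∀ a, w ⟨μ, Sum.inl a⟩ ∈ P) → X ∈ P := by
    intro μ X hX P hP
    have h1 := congrArg Subtype.val ((finBasis ℝ (G μ)).sum_repr ⟨X, hX⟩)
    rw [Submodule.coe_sum] at h1
    rw [← show _ = X from h1]
    exact Submodule.sum_mem _ fun a _ => P.smul_mem _ (hP a)
  have hspanH : ∀ (μ : {μ // μ ∈ 𝒞.wts}), ∀ X ∈ H μ, ∀ P : Submodule ℝ
      (Matrix (Fin D.n) (Fin D.n) ℝ), (∀ b, w ⟨μ, Sum.inr b⟩ ∈ P) → X ∈ P := by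
    intro μ X hX P hP
    have h1 := congrArg Subtype.val ((finBasis ℝ (H μ)).sum_repr ⟨X, hX⟩)
    rw [Submodule.coe_sum] at h1
    rw [← show _ = X from h1]
    exact Submodule.sum_mem _ fun a _ => P.smul_mem _ (hP a)
  -- linear independence
  have hli : LinearIndependent ℝ v := by
    rw [Fintype.linearIndependent_iff]
    intro g hg
    have hg' : ∑ p, g p • w p = 0 := by
      have := congrArg 𝒞.ξ hg
      rw [map_sum, map_zero] at this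
      rw [← this]
      exact Finset.sum_congr rfl fun p _ => by rw [map_smul]; rfl
    -- components
    let A : {μ // μ ∈ 𝒞.wts} → Matrix (Fin D.n) (Fin D.n) ℝ := fun μ =>
      ∑ a, g ⟨μ, Sum.inl a⟩ • w ⟨μ, Sum.inl a⟩
    let B : {μ // μ ∈ 𝒞.wts} → Matrix (Fin D.n) (Fin D.n) ℝ := fun μ =>
      ∑ b, g ⟨μ, Sum.inr b⟩ • w ⟨μ, Sum.inr b⟩
    have hA : ∀ μ : {μ // μ ∈ 𝒞.wts}, A μ ∈ G μ := fun μ =>
      Submodule.sum_mem _ fun a _ => Submodule.smul_mem _ _ (Submodule.coe_mem _)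
    have hB : ∀ μ : {μ // μ ∈ 𝒞.wts}, B μ ∈ H μ := fun μ =>
      Submodule.sum_mem _ fun a _ => Submodule.smul_mem _ _ (Submodule.coe_mem _)
    have hsum : ∑ μ : {μ // μ ∈ 𝒞.wts}, (A μ + B μ) = 0 := by
      rw [← hg', Fintype.sum_sigma]
      refine Finset.sum_congr rfl fun μ _ => ?_
      rw [Fintype.sum_sum_type]
    have hAB : ∀ μ : {μ // μ ∈ 𝒞.wts}, A μ + B μ = 0 := by
      intro μ
      have h1 := congrArg (𝒞.cmp μ) hsum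
      rw [map_sum, map_zero, Finset.sum_eq_single μ] at h1
      · rwa [𝒞.cmp_of_mem (Submodule.add_mem _ (hG1 μ (hA μ)).1 (hB μ).1.1)] at h1
      · intro ν _ hne
        exact 𝒞.cmp_of_mem_ne (fun h => hne (Subtype.ext h))
          (Submodule.add_mem _ (hG1 ν (hA ν)).1 (hB ν).1.1)
      · intro h; exact absurd (Finset.mem_univ _) h
    have hA0 : ∀ μ : {μ // μ ∈ 𝒞.wts}, A μ = 0 := by
      intro μ
      have h1 : A μ ∈ G μ ⊓ 𝒞.eN 1 := by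
        refine ⟨hA μ, ?_⟩
        rw [eq_neg_of_add_eq_zero_left (hAB μ)]
        exact Submodule.neg_mem _ (hB μ).2
      rwa [hG4, Submodule.mem_bot] at h1
    have hB0 : ∀ μ : {μ // μ ∈ 𝒞.wts}, B μ = 0 := fun μ => by
      have := hAB μ
      rwa [hA0, zero_add] at this
    rintro ⟨μ, a | b⟩
    · have h1 : ∑ a, g ⟨μ, Sum.inl a⟩ • finBasis ℝ (G μ) a = 0 := by
        apply Subtype.ext
        rw [Submodule.coe_sum]
        exact hA0 μ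
      exact Fintype.linearIndependent_iff.1 (finBasis ℝ (G μ)).linearIndependent _ h1 a
    · have h1 : ∑ b, g ⟨μ, Sum.inr b⟩ • finBasis ℝ (H μ) b = 0 := by
        apply Subtype.ext
        rw [Submodule.coe_sum]
        exact hB0 μ
      exact Fintype.linearIndependent_iff.1 (finBasis ℝ (H μ)).linearIndependent _ h1 b
  have hspan : ⊤ ≤ Submodule.span ℝ (Set.range v) := by
    rintro X -
    have h1 : (X : Matrix (Fin D.n) (Fin D.n) ℝ) ∈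
        (Submodule.span ℝ (Set.range v)).map 𝒞.ξ := by
      have hv : ∀ p, w p ∈ (Submodule.span ℝ (Set.range v)).map 𝒞.ξ := fun p =>
        ⟨v p, Submodule.subset_span ⟨p, rfl⟩, rfl⟩
      rw [← 𝒞.sum_cmp (𝒞.eA_mem_lie X)]
      refine Submodule.sum_mem _ fun μ hμ => ?_
      obtain ⟨a, ha, b, hb, hab⟩ := hG2 μ _ (𝒞.cmp_mem_ew μ X.2)
      rw [hab]
      exact Submodule.add_mem _ (hspanG ⟨μ, hμ⟩ a ha _ fun a => hv ⟨⟨μ, hμ⟩, Sum.inl a⟩)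
        (hspanH ⟨μ, hμ⟩ b hb _ fun b => hv ⟨⟨μ, hμ⟩, Sum.inr b⟩)
    obtain ⟨Y, hY, hYX⟩ := h1
    have h3 : Y = X := Subtype.ext hYX
    rw [← h3]; exact hY
  let B : Basis I ℝ 𝒞.eA := Basis.mk hli hspan
  have hB : ∀ p, B p = v p := fun p => by rw [Basis.mk_apply]
  let e : I ≃ Fin (Fintype.card I) := Fintype.equivFin I
  have hbe : ∀ i, (B.reindex e) i = v (e.symm i) := fun i => by
    rw [Basis.reindex_apply, hB]
  have hrep : ∀ X i, (B.reindex e).repr X i = B.repr X (e.symm i) := fun X i => by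
    rw [Basis.repr_reindex_apply]
  have hker : ∀ q p : I, p ≠ q → w p ∈ (LinearMap.ker (B.coord q)).map 𝒞.ξ := by
    intro q p hp
    refine ⟨v p, ?_, rfl⟩
    change v p ∈ LinearMap.ker (B.coord q)
    rw [LinearMap.mem_ker, Basis.coord_apply, ← hB, B.repr_self,
      Finsupp.single_eq_of_ne hp.symm]
  have hker' : ∀ (q : I) (X : 𝒞.eA), (X : Matrix (Fin D.n) (Fin D.n) ℝ) ∈
      (LinearMap.ker (B.coord q)).map 𝒞.ξ → B.repr X q = 0 := by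
    intro q X hX
    obtain ⟨Y, hY, hYX⟩ := hX
    have h3 : Y = X := Subtype.ext hYX
    rw [← h3]
    exact hY
  refine ⟨{
    r := Fintype.card I
    bas := B.reindex e
    wt := fun i => (e.symm i).1
    gen := Finset.univ.filter fun i => ∃ a, (e.symm i).2 = Sum.inl a
    mem := fun i => by rw [hbe]; exact (hw _).1
    mem_one := ?_
    repr_one := ?_
    repr_nw := ?_
    sum_wt := ?_ }⟩
  · intro i hi
    rw [hbe]
    change w (e.symm i) ∈ 𝒞.eN 1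
    have h1 : ¬ ∃ a, (e.symm i).2 = Sum.inl a := fun h =>
      hi (Finset.mem_filter.2 ⟨Finset.mem_univ _, h⟩)
    generalize e.symm i = p at h1
    obtain ⟨μ, a | b⟩ := p
    · exact absurd ⟨a, rfl⟩ h1
    · exact (Submodule.coe_mem (finBasis ℝ (H μ) b)).2
  · intro X hX i hi
    obtain ⟨-, a₀, ha₀⟩ := Finset.mem_filter.1 hi
    rw [hrep]
    refine hker' _ _ ?_
    rw [← 𝒞.sum_cmp (𝒞.eA_mem_lie X)]
    refine Submodule.sum_mem _ fun μ hμ => ?_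
    refine hspanH ⟨μ, hμ⟩ _ ⟨𝒞.cmp_mem_ew μ X.2, 𝒞.cmp_mem_eN μ 1 hX⟩ _ fun b =>
      hker _ ⟨⟨μ, hμ⟩, Sum.inr b⟩ ?_
    intro h
    have h5 : (fun p : I => ∃ a, p.2 = Sum.inl a) ⟨⟨μ, hμ⟩, Sum.inr b⟩ := by
      rw [h]; exact ⟨a₀, ha₀⟩
    obtain ⟨a, ha⟩ := h5
    cases ha
  · intro μ X hX i hi
    by_contra hne
    apply hi
    rw [hrep]
    by_cases hμ : μ ∈ 𝒞.wts
    swap
    · rw [𝒞.nw_of_notMem hμ, Submodule.mem_bot] at hX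
      have : X = 0 := Subtype.ext hX
      rw [this, map_zero]; rfl
    refine hker' _ _ ?_
    obtain ⟨a, ha, b, hb, hab⟩ := hG2 μ _ ⟨hX, X.2⟩
    rw [hab]
    refine Submodule.add_mem _ (hspanG ⟨μ, hμ⟩ a ha _ fun a =>
      hker _ ⟨⟨μ, hμ⟩, Sum.inl a⟩ ?_) (hspanH ⟨μ, hμ⟩ b hb _ fun b =>
      hker _ ⟨⟨μ, hμ⟩, Sum.inr b⟩ ?_)
    · intro h
      exact hne (by rw [← h])
    · intro h
      exact hne (by rw [← h])
  · rw [← e.sum_comp]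
    simp only [Equiv.symm_apply_apply]
    rw [Fintype.sum_sigma, ← Finset.sum_coe_sort 𝒞.wts (fun μ => (finrank ℝ (𝒞.nw μ)) • μ)]
    refine Finset.sum_congr rfl fun μ _ => ?_
    change ∑ _y : (Fin (finrank ℝ (G μ)) ⊕ Fin (finrank ℝ (H μ))),
      (μ : (Fin k → ℝ) →ₗ[ℝ] ℝ) = _
    rw [Finset.sum_const, Finset.card_univ, Fintype.card_sum, Fintype.card_fin, Fintype.card_fin]
    by_cases hμ : (μ : (Fin k → ℝ) →ₗ[ℝ] ℝ) = 0
    · rw [hμ, smul_zero, smul_zero]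
    · congr 1
      rw [← 𝒞.ew_eq hμ]
      exact hG3 μ

end Cartan

namespace AdBas

variable {𝒞 : Cartan D π₁} (𝒷 : AdBas 𝒞)

theorem lie_wt (i j l : Fin 𝒷.r) (h : 𝒷.bas.repr ⁅𝒷.bas i, 𝒷.bas j⁆ l ≠ 0) :
    𝒷.wt l = 𝒷.wt i + 𝒷.wt j := by
  refine 𝒷.repr_nw _ _ ?_ l h
  rw [Cartan.coe_bracket]
  exact 𝒞.bracket_mem_nw (𝒷.mem i) (𝒷.mem j)

theorem lie_gen (x y : 𝒞.eA) (i : Fin 𝒷.r) (hi : i ∈ 𝒷.gen) : 𝒷.bas.repr ⁅x, y⁆ i = 0 := by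
  refine 𝒷.repr_one _ ?_ i hi
  rw [Cartan.coe_bracket]
  exact 𝒞.br_eN (i := 0) (j := 0) x.2 y.2

theorem mem_span_of_mem_one {x : 𝒞.eA} (h : (x : Matrix (Fin D.n) (Fin D.n) ℝ) ∈ 𝒞.eN 1) :
    x ∈ Submodule.span ℝ {z | ∃ x y : 𝒞.eA, z = ⁅x, y⁆} := by
  have h1 : 𝒞.eN 1 ≤ (Submodule.span ℝ {z | ∃ x y : 𝒞.eA, z = ⁅x, y⁆}).map 𝒞.ξ := by
    rw [𝒞.eN_one_eq]
    refine Submodule.span_le.2 ?_
    rintro Z ⟨X, hX, Y, hY, rfl⟩
    exact ⟨⁅(⟨X, hX⟩ : 𝒞.eA), (⟨Y, hY⟩ : 𝒞.eA)⁆, Submodule.subset_span ⟨_, _, rfl⟩, rfl⟩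
  obtain ⟨y, hy, hyx⟩ := h1 h
  have h3 : y = x := Subtype.ext hyx
  rw [← h3]; exact hy

theorem gen_span (i : Fin 𝒷.r) (hi : i ∉ 𝒷.gen) :
    𝒷.bas i ∈ Submodule.span ℝ {z | ∃ x y : 𝒞.eA, z = ⁅x, y⁆} :=
  mem_span_of_mem_one (𝒷.mem_one i hi)

theorem notMem_one {i : Fin 𝒷.r} (hi : i ∈ 𝒷.gen) :
    ((𝒷.bas i : 𝒞.eA) : Matrix (Fin D.n) (Fin D.n) ℝ) ∉ 𝒞.eN 1 := by
  intro h
  have h1 := 𝒷.repr_one _ h i hi
  rw [𝒷.bas.repr_self, Finsupp.single_eq_same] at h1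
  exact one_ne_zero h1

theorem wt_gen_ne (i : Fin 𝒷.r) (hi : i ∈ 𝒷.gen) : 𝒷.wt i ≠ 0 := by
  intro h
  refine 𝒷.notMem_one hi (𝒞.nw_zero_inf_le ⟨?_, (𝒷.bas i).2⟩)
  rw [← h]
  exact 𝒷.mem i

theorem bas_ne_zero (i : Fin 𝒷.r) : ((𝒷.bas i : 𝒞.eA) : Matrix (Fin D.n) (Fin D.n) ℝ) ≠ 0 :=
  fun h => 𝒷.bas.ne_zero i (Subtype.ext h)

theorem wt_mem (i : Fin 𝒷.r) : 𝒷.wt i ∈ 𝒞.wts := by
  by_contra h
  have h1 := 𝒷.mem i
  rw [𝒞.nw_of_notMem h, Submodule.mem_bot] at h1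
  exact 𝒷.bas_ne_zero i h1

theorem wt_mem_gwts (i : Fin 𝒷.r) (hi : i ∈ 𝒷.gen) : 𝒷.wt i ∈ 𝒞.gwts :=
  𝒞.mem_gwts.2 ⟨𝒷.wt_mem i, fun h => 𝒷.notMem_one hi (𝒞.nw_le_eN_one_of h (𝒷.mem i))⟩

theorem tr (hs : ∀ v : Fin k → ℤ, ∃ γ : Γ, Multiplicative.toAdd (π₁ (inΓ D γ)) = v) :
    ∑ i, 𝒷.wt i = 0 := by
  rw [𝒷.sum_wt, 𝒞.sum_wts_eq_zero hs]


/-- nonzero weights with `𝔫_μ ⊄ [𝔢, 𝔢]` are generating weights -/
theorem exists_gen_of {μ : (Fin k → ℝ) →ₗ[ℝ] ℝ} (h0 : μ ≠ 0) (h : ¬ 𝒞.nw μ ≤ 𝒞.eN 1) :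
    ∃ i ∈ 𝒷.gen, 𝒷.wt i = μ := by
  obtain ⟨X, hX, hX1⟩ := Set.not_subset.1 h
  let x : 𝒞.eA := ⟨X, 𝒞.nw_le_eN h0 hX⟩
  by_contra hcon
  push Not at hcon
  apply hX1
  have h2 : (x : Matrix (Fin D.n) (Fin D.n) ℝ) =
      ∑ i, 𝒷.bas.repr x i • ((𝒷.bas i : 𝒞.eA) : Matrix (Fin D.n) (Fin D.n) ℝ) := by
    have := congrArg 𝒞.ξ (𝒷.bas.sum_repr x)
    rw [map_sum] at this
    rw [← Cartan.ξ_apply, ← this]
    exact Finset.sum_congr rfl fun i _ => by rw [map_smul]; rfl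
  change (x : Matrix (Fin D.n) (Fin D.n) ℝ) ∈ 𝒞.eN 1
  rw [h2]
  refine Submodule.sum_mem _ fun i _ => ?_
  by_cases hi : i ∈ 𝒷.gen
  · have h3 : 𝒷.bas.repr x i = 0 := by
      by_contra hne
      exact hcon i hi (𝒷.repr_nw μ x hX i hne)
    rw [h3, zero_smul]
    exact Submodule.zero_mem _
  · exact Submodule.smul_mem _ _ (𝒷.mem_one i hi)

theorem exists_gen_of_gwts {μ : (Fin k → ℝ) →ₗ[ℝ] ℝ} (h0 : μ ≠ 0) (h : μ ∈ 𝒞.gwts) :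
    ∃ i ∈ 𝒷.gen, 𝒷.wt i = μ := by
  refine 𝒷.exists_gen_of h0 fun hle => (𝒞.mem_gwts.1 h).2 (hle.trans ?_)
  exact 𝒞.wtsD.eN_le_lcs 1

/-- `C` preserves the weight spaces -/
theorem Ad_C (g : G1 D) (hg : g ∈ 𝒞.C) (i j : Fin 𝒷.r)
    (h : 𝒷.bas.repr (𝒞.AdE g (𝒷.bas j)) i ≠ 0) : 𝒷.wt i = 𝒷.wt j := by
  refine 𝒷.repr_nw _ _ ?_ i h
  rw [Cartan.coe_AdE]
  exact 𝒞.cj_mem_nw hg (𝒷.mem j)

/-- comparison of the norms -/
theorem exists_repr_le : ∃ B : ℝ, 0 ≤ B ∧ ∀ (x : 𝒞.eA) (i : Fin 𝒷.r),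
    |𝒷.bas.repr x i| ≤ B * nrm (x : Matrix (Fin D.n) (Fin D.n) ℝ) := by
  -- extend the coordinates to all matrices
  have h1 : ∀ i : Fin 𝒷.r, ∃ f : Matrix (Fin D.n) (Fin D.n) ℝ →ₗ[ℝ] ℝ,
      ∀ x : 𝒞.eA, f x = 𝒷.bas.repr x i := by
    intro i
    obtain ⟨g, hg⟩ := LinearMap.exists_leftInverse_of_injective 𝒞.ξ (by
      rw [LinearMap.ker_eq_bot]
      intro x y h
      exact Subtype.ext h)
    refine ⟨(𝒷.bas.coord i) ∘ₗ g, fun x => ?_⟩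
    have h2 : g (𝒞.ξ x) = x := by
      have := LinearMap.congr_fun hg x
      exact this
    rw [LinearMap.comp_apply, ← Cartan.ξ_apply, h2]
    rfl
  choose f hf using h1
  have h2 : ∀ i, ∃ B : ℝ, 0 ≤ B ∧ ∀ X, |f i X| ≤ B * nrm X := by
    intro i
    obtain ⟨B₁, hB₁, h3⟩ := exists_bound_of_real_linear (f i)
    obtain ⟨B₂, hB₂, h4⟩ := exists_norm_le_nrm (n := D.n)
    refine ⟨B₁ * B₂, by positivity, fun X => ?_⟩
    calc |f i X| = ‖f i X‖ := rfl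
      _ ≤ B₁ * ‖X‖ := h3 X
      _ ≤ B₁ * (B₂ * nrm X) := mul_le_mul_of_nonneg_left (h4 X) hB₁
      _ = _ := by ring
  choose B hB0 hB using h2
  refine ⟨∑ i, B i, Finset.sum_nonneg fun i _ => hB0 i, fun x i => ?_⟩
  rw [← hf i x]
  refine (hB i _).trans (mul_le_mul_of_nonneg_right ?_ (nrm_nonneg _))
  exact Finset.single_le_sum (fun i _ => hB0 i) (Finset.mem_univ i)


end AdBas

end cartan

end Crest.Agent.R182.ModelWt
end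

-- ▼ part R182/ModelGr
section

set_option autoImplicit false
set_option linter.unusedSectionVars false

namespace Crest.Agent.R182.ModelWt

open Module LinMod Polyc Model

universe v w

section lin

/-- **Growth with uniform exponent**: the exponent does not depend on the bounded set `S`. -/
theorem lin_growth {V : Type v} [NormedAddCommGroup V] [NormedSpace ℂ V] [FiniteDimensional ℂ V]
    {G : Type w} [Group G] (N : Subgroup G) [N.Normal]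
    (hab : ∀ g h : G, g * h * g⁻¹ * h⁻¹ ∈ N) (ρ : Representation ℂ G V)
    (hρ : ∀ n ∈ N, ∃ d : ℕ, (ρ n - 1) ^ d = 0) (ω : G → ℝ) (hω : ∀ g h, ω (g * h) = ω g + ω h)
    (hspec : ∀ g, ∀ z ∈ (LinearMap.charpoly (ρ g)).roots, ‖z‖ ≤ Real.exp (ω g)) :
    ∃ D : ℕ, ∀ (S : Set G) (A : ℝ), (∀ s ∈ S, |ω s| ≤ A) → (∀ s ∈ S, ∀ v, ‖ρ s v‖ ≤ A * ‖v‖) →
      ∃ C : ℝ, 0 ≤ C ∧ ∀ l : List G, (∀ s ∈ l, s ∈ S) → ∀ v,
        ‖ρ l.prod v‖ ≤ C * (1 + l.length : ℝ) ^ D * Real.exp (ω l.prod) * ‖v‖ := by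
  classical
  obtain ⟨n, b, χ, htri, hdiag, hchar⟩ : ∃ (n : ℕ) (b : Basis (Fin n) ℂ V)
      (χ : Fin n → G →* ℂˣ), (∀ g : G, (LinearMap.toMatrix b b (ρ g)).IsUpperTriangular) ∧
      (∀ (g : G) i, LinearMap.toMatrix b b (ρ g) i i = χ i g) ∧
      (∀ g : G, LinearMap.charpoly (ρ g) =
          ∏ i, (Polynomial.X - Polynomial.C ((χ i g : ℂˣ) : ℂ))) := by
    obtain ⟨b, χ, -, htri, hdiag, hchar, -⟩ := LinUni.exists_triangular N hab ρ hρ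
    exact ⟨_, b, χ, htri, hdiag, hchar⟩
  -- the norm of `χ`
  have hχ : ∀ g i, ‖(χ i g : ℂ)‖ ≤ Real.exp (ω g) := by
    intro g i
    refine hspec g _ ?_
    rw [hchar g, Polynomial.roots_prod _ _
      (Finset.prod_ne_zero_iff.2 fun i _ => Polynomial.X_sub_C_ne_zero _)]
    rw [Multiset.mem_bind]
    exact ⟨i, Finset.mem_univ i, by rw [Polynomial.roots_X_sub_C]; exact Multiset.mem_singleton_self _⟩
  -- constants
  have hcoord : ∃ c : ℝ, 0 ≤ c ∧ ∀ i v, ‖b.repr v i‖ ≤ c * ‖v‖ := by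
    let φ : V →L[ℂ] (Fin n → ℂ) := LinearMap.toContinuousLinearMap b.equivFun.toLinearMap
    refine ⟨‖φ‖, norm_nonneg _, fun i v => ?_⟩
    have h1 : ‖φ v i‖ ≤ ‖φ v‖ := norm_le_pi_norm _ i
    exact h1.trans (φ.le_opNorm v)
  obtain ⟨c, hc0, hc⟩ := hcoord
  set B : ℝ := ∑ i, ‖b i‖ with hB
  have hB0 : 0 ≤ B := Finset.sum_nonneg fun i _ => norm_nonneg _
  have hBi : ∀ i, ‖b i‖ ≤ B := fun i =>
    Finset.single_le_sum (f := fun i => ‖b i‖) (fun _ _ => norm_nonneg _) (Finset.mem_univ i)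
  -- scaled matrices
  have hw1 : ω 1 = 0 := by
    have := hω 1 1
    rw [mul_one] at this
    linarith
  let M : G →* Matrix (Fin n) (Fin n) ℂ :=
    { toFun := fun g => (Real.exp (-ω g) : ℂ) • LinearMap.toMatrix b b (ρ g)
      map_one' := by
        rw [hw1, neg_zero, Real.exp_zero, map_one, LinearMap.toMatrix_one]
        simp
      map_mul' := fun g h => by
        rw [hω, neg_add, Real.exp_add, map_mul, LinearMap.toMatrix_mul, Matrix.smul_mul,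
          Matrix.mul_smul, smul_smul]
        push_cast
        rfl }
  have hM : ∀ g i j, ‖M g i j‖ = Real.exp (-ω g) * ‖LinearMap.toMatrix b b (ρ g) i j‖ := by
    intro g i j
    show ‖((Real.exp (-ω g) : ℂ) • LinearMap.toMatrix b b (ρ g)) i j‖ = _
    rw [Matrix.smul_apply, smul_eq_mul, norm_mul, Complex.norm_real, Real.norm_eq_abs,
      abs_of_pos (Real.exp_pos _)]
  refine ⟨n, fun S A hA hS => ?_⟩
  set A' : ℝ := Real.exp A * (c * (|A| * B)) with hA'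
  have hA'0 : 0 ≤ A' := by positivity
  have hentry : ∀ g ∈ S, (M g).IsUpperTriangular ∧ (∀ i, ‖M g i i‖ ≤ 1) ∧
      ∀ i j, ‖M g i j‖ ≤ A' := by
    intro g hg
    refine ⟨?_, ?_, ?_⟩
    · intro i j hij
      show ((Real.exp (-ω g) : ℂ) • LinearMap.toMatrix b b (ρ g)) i j = 0
      rw [Matrix.smul_apply, htri g hij, smul_zero]
    · intro i
      rw [hM, hdiag]
      calc Real.exp (-ω g) * ‖(χ i g : ℂ)‖ ≤ Real.exp (-ω g) * Real.exp (ω g) :=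
            mul_le_mul_of_nonneg_left (hχ g i) (Real.exp_pos _).le
        _ = 1 := by rw [← Real.exp_add]; simp
    · intro i j
      rw [hM, LinearMap.toMatrix_apply]
      refine mul_le_mul (Real.exp_le_exp.2 ((neg_le_abs _).trans (hA g hg))) ?_
        (norm_nonneg _) (Real.exp_pos _).le
      refine (hc i _).trans (mul_le_mul_of_nonneg_left ?_ hc0)
      refine (hS g hg _).trans ?_
      exact mul_le_mul (le_abs_self A) (hBi j) (norm_nonneg _) (abs_nonneg _)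
  refine ⟨n * (n * (c * (Real.exp (n * A') * B))), by positivity, fun l hl v => ?_⟩
  have h1 : M l.prod = (l.map M).prod := map_list_prod M l
  have h2 : ∀ i j, ‖LinearMap.toMatrix b b (ρ l.prod) i j‖ ≤
      Real.exp (ω l.prod) * (Real.exp (n * A') * (1 + l.length : ℝ) ^ n) := by
    intro i j
    have h3 := LinUni.tri_prod_bound hA'0 (l.map M) (by
      intro M' hM'
      rw [List.mem_map] at hM'
      obtain ⟨g, hg, rfl⟩ := hM'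
      exact hentry g (hl g hg)) i j
    rw [← h1, hM, List.length_map] at h3
    have h4 : ‖LinearMap.toMatrix b b (ρ l.prod) i j‖ = Real.exp (ω l.prod) *
        (Real.exp (-ω l.prod) * ‖LinearMap.toMatrix b b (ρ l.prod) i j‖) := by
      rw [← mul_assoc, ← Real.exp_add]; simp
    rw [h4]
    exact mul_le_mul_of_nonneg_left h3 (Real.exp_pos _).le
  set Q : ℝ := Real.exp (ω l.prod) * (Real.exp (n * A') * (1 + l.length : ℝ) ^ n) with hQ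
  have hQ0 : 0 ≤ Q := by positivity
  have h3 : ρ l.prod v = ∑ i, (∑ j, LinearMap.toMatrix b b (ρ l.prod) i j * b.repr v j) • b i := by
    conv_lhs => rw [← b.sum_repr (ρ l.prod v)]
    refine Finset.sum_congr rfl fun i _ => ?_
    congr 1
    have := LinearMap.toMatrix_mulVec_repr b b (ρ l.prod) v
    rw [← this]; rfl
  rw [h3]
  calc ‖∑ i, (∑ j, LinearMap.toMatrix b b (ρ l.prod) i j * b.repr v j) • b i‖
      ≤ ∑ i, ‖(∑ j, LinearMap.toMatrix b b (ρ l.prod) i j * b.repr v j) • b i‖ :=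
        norm_sum_le _ _
    _ ≤ ∑ _i : Fin n, (n * (Q * (c * ‖v‖))) * B := by
        refine Finset.sum_le_sum fun i _ => ?_
        rw [norm_smul]
        refine mul_le_mul ?_ (hBi i) (norm_nonneg _) (by positivity)
        calc ‖∑ j, LinearMap.toMatrix b b (ρ l.prod) i j * b.repr v j‖
            ≤ ∑ j, ‖LinearMap.toMatrix b b (ρ l.prod) i j * b.repr v j‖ := norm_sum_le _ _
          _ ≤ ∑ _j : Fin n, Q * (c * ‖v‖) := by
              refine Finset.sum_le_sum fun j _ => ?_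
              rw [norm_mul]
              exact mul_le_mul (h2 i j) (hc j v) (norm_nonneg _) hQ0
          _ = n * (Q * (c * ‖v‖)) := by
              rw [Finset.sum_const, Finset.card_univ, Fintype.card_fin, nsmul_eq_mul]
    _ = n * (n * (c * (Real.exp (n * A') * B))) * (1 + l.length : ℝ) ^ n *
          Real.exp (ω l.prod) * ‖v‖ := by
        rw [Finset.sum_const, Finset.card_univ, Fintype.card_fin, nsmul_eq_mul, hQ]
        ring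

end lin

section wt

variable {G : Type*} [Group G] {V : Type*} [NormedAddCommGroup V] [NormedSpace ℝ V]
  [FiniteDimensional ℝ V] {ρ : G →* (V ≃ₗ[ℝ] V)} {k : ℕ} {π : G →* Multiplicative (Fin k → ℤ)}

/-- Uniform growth of products of elements of bounded subsets of a group preserving a growth
space, with a uniform exponent. -/
theorem wt_growth (W : WtData ρ π) {t : G} {s : ℝ} {μ : (Fin k → ℝ) →ₗ[ℝ] ℝ}
    (hμ : ∀ i, W.M i (hv π t) = s → W.M i = μ)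
    (hunip : ∀ g, π g = 1 → ∃ d : ℕ, ((ρ g : V →ₗ[ℝ] V) - 1) ^ d = 0)
    (C : Subgroup G) (hC : ∀ g ∈ C, ∀ v ∈ growSpace (ρ t) s, ρ g v ∈ growSpace (ρ t) s) :
    ∃ D : ℕ, ∀ (S : Set G), (∀ g ∈ S, g ∈ C) → ∀ (A : ℝ), (∀ g ∈ S, |μ (hv π g)| ≤ A) →
    (∀ g ∈ S, ∀ v, ‖ρ g v‖ ≤ A * ‖v‖) →
    ∃ K : ℝ, 0 ≤ K ∧ ∀ l : List G, (∀ g ∈ l, g ∈ S) → ∀ v ∈ growSpace (ρ t) s,
      ‖ρ l.prod v‖ ≤ K * (1 + l.length : ℝ) ^ D * Real.exp (μ (hv π l.prod)) * ‖v‖ := by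
  classical
  let P : Submodule ℂ (Fin (finrank ℝ V) → ℂ) := growSpace (cplx (ρ t)) s
  have hP : ∀ g ∈ C, ∀ w ∈ P, cRep ρ g w ∈ P := fun g hg w hw =>
    cRep_mem_growSpace (hC g hg) hw
  let σ : Representation ℂ C P :=
    { toFun := fun g => (cRep ρ (g : G)).restrict (hP g g.2)
      map_one' := by
        ext x
        simp [LinearMap.restrict_apply]
      map_mul' := fun g h => by
        ext x
        simp [LinearMap.restrict_apply] }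
  have hσ : ∀ (g : C) (x : P), ((σ g x : P) : Fin (finrank ℝ V) → ℂ) = cRep ρ (g : G) x :=
    fun g x => rfl
  let N : Subgroup C := (π.comp C.subtype).ker
  have hNmem : ∀ g : C, g ∈ N ↔ π (g : G) = 1 := fun g => Iff.rfl
  obtain ⟨B₀, hB₀, hcb⟩ := exists_cplx_bound V
  obtain ⟨D, h⟩ := lin_growth N (by
    intro g h
    rw [hNmem]
    change π ((g : G) * h * (g : G)⁻¹ * (h : G)⁻¹) = 1
    rw [map_mul, map_mul, map_mul, map_inv, map_inv, mul_comm (π (g : G)) (π (h : G))]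
    group) σ (by
    intro n hn
    obtain ⟨d, hd⟩ := hunip (n : G) ((hNmem n).1 hn)
    refine ⟨d, ?_⟩
    have h1 := cRep_unip ρ hd
    have h2 : ∀ (d : ℕ) (x : P), ((((σ n - 1) ^ d) x : P) : Fin (finrank ℝ V) → ℂ) =
        ((cRep ρ (n : G) - 1) ^ d) x := by
      intro d
      induction d with
      | zero => intro x; rfl
      | succ d ih =>
        intro x
        rw [pow_succ, pow_succ, Module.End.mul_apply, Module.End.mul_apply, ih]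
        rfl
    ext x : 1
    apply Subtype.ext
    rw [h2, h1]; rfl) (fun g => μ (hv π (g : G))) (by
    intro g h
    rw [Subgroup.coe_mul, hv_mul, map_add]) (by
    intro g z hz
    have hz' : (LinearMap.charpoly (σ g)).IsRoot z := Polynomial.isRoot_of_mem_roots hz
    rw [← End.hasEigenvalue_iff_isRoot_charpoly] at hz'
    obtain ⟨w, hw⟩ := hz'.exists_hasEigenvector
    have hw0 : (w : Fin (finrank ℝ V) → ℂ) ≠ 0 := by
      intro h; exact hw.2 (Subtype.ext h)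
    have hw1 : cRep ρ (g : G) w = z • (w : Fin (finrank ℝ V) → ℂ) := by
      rw [← hσ, hw.apply_eq_smul]; rfl
    obtain ⟨i, hi, hi2⟩ := W.exists_of_eigen hw0 w.2 hw1
    rw [hi, ← hμ i hi2, ← W.log_χ, Real.exp_log (norm_pos_iff.2 (Units.ne_zero _))])
  refine ⟨D, fun S hS A hA hA' => ?_⟩
  obtain ⟨K, hK0, hK⟩ := h ({g : C | (g : G) ∈ S}) (max A (B₀ * |A|)) (by
    intro g hg
    exact (hA g hg).trans (le_max_left _ _)) (by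
    intro g hg x
    refine le_trans ?_ (mul_le_mul_of_nonneg_right (le_max_right _ _) (norm_nonneg _))
    change ‖cRep ρ (g : G) x‖ ≤ _
    rw [cRep_apply]
    exact hcb _ A (hA' g hg) _)
  obtain ⟨B₁, h1, hB₁⟩ := exists_bound_of_real_linear (coordC V)
  obtain ⟨B₂, h2, hB₂⟩ := exists_bound_of_real_linear (reC V)
  refine ⟨B₂ * (K * B₁), by positivity, fun l hl v hv' => ?_⟩
  let l' : List C := l.attach.map fun x => ⟨x.1, hS _ (hl x.1 x.2)⟩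
  have hl'1 : l'.map C.subtype = l := by
    rw [List.map_map]
    have : (C.subtype ∘ fun x : {x // x ∈ l} => (⟨x.1, hS _ (hl x.1 x.2)⟩ : C)) = Subtype.val := by
      funext x; rfl
    rw [this, List.attach_map_subtype_val]
  have hl'2 : ((l'.prod : C) : G) = l.prod := by
    have := map_list_prod C.subtype l'
    rw [hl'1] at this
    exact this
  have hl'3 : l'.length = l.length := by simp [l']
  have h3 := hK l' (by
    intro g hg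
    obtain ⟨x, -, rfl⟩ := List.mem_map.1 hg
    exact hl x.1 x.2) ⟨coordC V v, coordC_mem_growSpace hv'⟩
  rw [hl'3] at h3
  have h4 : ‖cRep ρ l.prod (coordC V v)‖ ≤
      K * (1 + l.length : ℝ) ^ D * Real.exp (μ (hv π l.prod)) * ‖coordC V v‖ := by
    have := h3
    simp only [hl'2] at this
    rw [← hl'2]
    rw [← hl'2] at this
    exact this
  have hE : 0 ≤ K * (1 + l.length : ℝ) ^ D * Real.exp (μ (hv π l.prod)) := by positivity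
  calc ‖ρ l.prod v‖ = ‖reC V (coordC V (ρ l.prod v))‖ := by rw [reC_coordC]
    _ ≤ B₂ * ‖coordC V (ρ l.prod v)‖ := hB₂ _
    _ = B₂ * ‖cRep ρ l.prod (coordC V v)‖ := by rw [cRep_coordC]
    _ ≤ B₂ * (K * (1 + l.length : ℝ) ^ D * Real.exp (μ (hv π l.prod)) * (B₁ * ‖v‖)) := by
        refine mul_le_mul_of_nonneg_left (h4.trans ?_) h2
        exact mul_le_mul_of_nonneg_left (hB₁ v) hE
    _ = _ := by ring

end wt

section cartan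

attribute [local instance] Matrix.linftyOpNormedRing Matrix.linftyOpNormedAlgebra

variable {Γ : Type*} [Group Γ] {N : Subgroup Γ} [hN : N.Normal]
  {D : EmbData Γ N} {k : ℕ} {π₁ : G1 D →* Multiplicative (Fin k → ℤ)}

namespace Cartan

variable (𝒞 : Cartan D π₁)

/-- **Growth on the weight spaces**: products of elements of bounded subsets of `C`, with a uniform
exponent. -/
theorem growth_unif : ∃ E : ℕ, ∀ (S : Set (G1 D)), (∀ g ∈ S, g ∈ 𝒞.C) → ∀ (A : ℝ),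
    (∀ g ∈ S, sz (g : (Matrix (Fin D.n) (Fin D.n) ℝ)ˣ) ≤ A) →
    (∀ g ∈ S, ∀ i, |hv π₁ g i| ≤ A) →
    ∃ K : ℝ, 0 ≤ K ∧ ∀ μ, ∀ l : List (G1 D), (∀ g ∈ l, g ∈ S) → ∀ X ∈ 𝒞.nw μ,
      nrm (cj (l.prod : (Matrix (Fin D.n) (Fin D.n) ℝ)ˣ) X) ≤
        K * (1 + l.length : ℝ) ^ E * Real.exp (μ (hv π₁ l.prod)) * nrm X := by
  classical
  obtain ⟨B₁, hB₁, h1⟩ := exists_nrm_le (n := D.n)
  obtain ⟨B₂, hB₂, h2⟩ := exists_norm_le_nrm (n := D.n)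
  -- one weight
  have key : ∀ μ, ∃ E : ℕ, ∀ (S : Set (G1 D)), (∀ g ∈ S, g ∈ 𝒞.C) → ∀ (A : ℝ),
      (∀ g ∈ S, sz (g : (Matrix (Fin D.n) (Fin D.n) ℝ)ˣ) ≤ A) →
      (∀ g ∈ S, ∀ i, |hv π₁ g i| ≤ A) → ∃ K : ℝ, 0 ≤ K ∧ ∀ l : List (G1 D), (∀ g ∈ l, g ∈ S) →
      ∀ X ∈ 𝒞.nw μ, nrm (cj (l.prod : (Matrix (Fin D.n) (Fin D.n) ℝ)ˣ) X) ≤
        K * (1 + l.length : ℝ) ^ E * Real.exp (μ (hv π₁ l.prod)) * nrm X := by
    intro μ
    by_cases hμ : μ ∈ 𝒞.wts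
    swap
    · refine ⟨0, fun S hS A hA hA' => ⟨0, le_rfl, fun l _ X hX => ?_⟩⟩
      rw [𝒞.nw_of_notMem hμ, Submodule.mem_bot] at hX
      rw [hX, map_zero, nrm_zero, mul_zero]
    obtain ⟨i, hi⟩ := 𝒞.mem_wts.1 hμ
    have hC : ∀ g ∈ 𝒞.C, ∀ v ∈ growSpace (adE D 𝒞.t) (μ (hv π₁ 𝒞.t)),
        adE D g v ∈ growSpace (adE D 𝒞.t) (μ (hv π₁ 𝒞.t)) := by
      intro g hg v hv
      rw [← coe_mem_gm_iff]
      exact (InC.cj_mem hg ⟨v.2, (coe_mem_gm_iff D 𝒞.t _ v).2 hv⟩).2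
    obtain ⟨b, hb0, hb⟩ : ∃ b : ℝ, 0 ≤ b ∧ ∀ v : Fin k → ℝ, |μ v| ≤ b * ‖v‖ :=
      exists_bound_of_real_linear μ
    obtain ⟨E, h'⟩ := wt_growth 𝒞.W (t := 𝒞.t) (s := μ (hv π₁ 𝒞.t)) (μ := μ)
      (fun j hj => by rw [← hi]; exact 𝒞.gen.1 j i (by rw [hj, hi]))
      (fun g hg => 𝒞.unip hg) 𝒞.C hC
    refine ⟨E, fun S hS A hA hA' => ?_⟩
    obtain ⟨K, hK, h⟩ := h' S hS (max (b * |A|) (B₂ * (|A| * |A|) * B₁)) (by
        intro g hg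
        refine (hb _).trans (le_trans ?_ (le_max_left _ _))
        refine mul_le_mul_of_nonneg_left ?_ hb0
        rw [pi_norm_le_iff_of_nonneg (abs_nonneg A)]
        intro j
        exact (hA' g hg j).trans (le_abs_self A)) (by
        intro g hg v
        refine le_trans ?_ (mul_le_mul_of_nonneg_right (le_max_right _ _) (norm_nonneg _))
        change ‖cj (g : (Matrix (Fin D.n) (Fin D.n) ℝ)ˣ) (v : Matrix (Fin D.n) (Fin D.n) ℝ)‖ ≤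
          B₂ * (|A| * |A|) * B₁ * ‖(v : Matrix (Fin D.n) (Fin D.n) ℝ)‖
        have h3 := one_le_sz (g : (Matrix (Fin D.n) (Fin D.n) ℝ)ˣ)
        have h4 := (hA g hg).trans (le_abs_self A)
        calc _ ≤ B₂ * nrm (cj (g : (Matrix (Fin D.n) (Fin D.n) ℝ)ˣ) v) := h2 _
          _ ≤ B₂ * (|A| * |A| * (B₁ * ‖(v : Matrix (Fin D.n) (Fin D.n) ℝ)‖)) := by
              refine mul_le_mul_of_nonneg_left ((nrm_cj_le _ _).trans ?_) hB₂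
              refine mul_le_mul (mul_le_mul h4 h4 (by linarith) (abs_nonneg A)) (h1 _)
                (nrm_nonneg _) (by positivity)
          _ = _ := by ring)
    refine ⟨B₁ * (K * B₂), by positivity, fun l hl X hX => ?_⟩
    rw [𝒞.nw_of_mem hμ] at hX
    have h5 := h l hl ⟨X, hX.1⟩ (𝒞.mem_growSpace_of_mem_gs hX)
    have h6 : ‖cj (l.prod : (Matrix (Fin D.n) (Fin D.n) ℝ)ˣ) X‖ ≤
        K * (1 + l.length : ℝ) ^ E * Real.exp (μ (hv π₁ l.prod)) * ‖X‖ := h5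
    calc nrm (cj (l.prod : (Matrix (Fin D.n) (Fin D.n) ℝ)ˣ) X) ≤
          B₁ * ‖cj (l.prod : (Matrix (Fin D.n) (Fin D.n) ℝ)ˣ) X‖ := h1 _
      _ ≤ B₁ * (K * (1 + l.length : ℝ) ^ E * Real.exp (μ (hv π₁ l.prod)) * (B₂ * nrm X)) := by
          refine mul_le_mul_of_nonneg_left (h6.trans ?_) hB₁
          exact mul_le_mul_of_nonneg_left (h2 X) (by positivity)
      _ = _ := by ring
  choose E h' using key
  refine ⟨𝒞.wts.sup E, fun S hS A hA hA' => ?_⟩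
  choose K hK h using fun μ => h' μ S hS A hA hA'
  refine ⟨∑ μ ∈ 𝒞.wts, K μ, Finset.sum_nonneg fun μ _ => hK μ,
    fun μ l hl X hX => ?_⟩
  by_cases hμ : μ ∈ 𝒞.wts
  · refine (h μ l hl X hX).trans ?_
    have h3 : (1 + l.length : ℝ) ^ E μ ≤ (1 + l.length : ℝ) ^ (𝒞.wts.sup E) :=
      pow_le_pow_right₀ (by
        have : (0 : ℝ) ≤ l.length := Nat.cast_nonneg _
        linarith) (Finset.le_sup hμ)
    have h4 : K μ ≤ ∑ μ ∈ 𝒞.wts, K μ := Finset.single_le_sum (fun μ _ => hK μ) hμ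
    have h5 := nrm_nonneg X
    have h6 := hK μ
    have h7 := h6.trans h4
    gcongr
  · rw [𝒞.nw_of_notMem hμ, Submodule.mem_bot] at hX
    rw [hX, map_zero, nrm_zero, mul_zero]

end Cartan

end cartan

end Crest.Agent.R182.ModelWt
end

-- ▼ part R182/ModelBas2

set_option autoImplicit false
set_option linter.unusedSectionVars false

namespace Crest.Agent.R182.ModelWt

open Module LinMod Polyc Model

section general

attribute [local instance] Matrix.linftyOpNormedRing Matrix.linftyOpNormedAlgebra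

variable {Γ : Type*} [Group Γ] {N : Subgroup Γ} [hN : N.Normal]
  {D : EmbData Γ N} {k : ℕ} {π₁ : G1 D →* Multiplicative (Fin k → ℤ)}

/-- two linear forms which agree on the integer vectors are equal -/
theorem form_ext {k : ℕ} {μ ν : (Fin k → ℝ) →ₗ[ℝ] ℝ}
    (h : ∀ v : Fin k → ℤ, μ (fun i => (v i : ℝ)) = ν (fun i => (v i : ℝ))) : μ = ν := by
  apply LinearMap.pi_ext'
  intro j
  apply LinearMap.ext_ring
  have h3 : (fun j' => ((Pi.single j 1 : Fin k → ℤ) j' : ℝ)) =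
      (Pi.single j (1 : ℝ) : Fin k → ℝ) := by
    funext j'
    by_cases hj : j' = j
    · subst hj; simp
    · simp [Pi.single_eq_of_ne hj]
  have h4 := h (Pi.single j 1)
  rw [h3] at h4
  exact h4

namespace Cartan

variable (𝒞 : Cartan D π₁)

/-- heights of elements of `C` -/
theorem exists_C_height (hs : ∀ v : Fin k → ℤ, ∃ γ : Γ, Multiplicative.toAdd (π₁ (inΓ D γ)) = v)
    (v : Fin k → ℤ) : ∃ c ∈ 𝒞.C, Multiplicative.toAdd (π₁ c) = v := by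
  obtain ⟨γ, hγ⟩ := hs v
  obtain ⟨u, hu, c, hc, h⟩ := 𝒞.exists_mul (inΓ D γ)
  refine ⟨c, hc, ?_⟩
  rw [← hγ, h, map_mul, (𝒞.ker u).2 hu, one_mul]

/-- the growth rate of an eigenfunctional which is nonzero on `𝔫_μ` -/
theorem log_norm_eq {c : G1 D} (hc : c ∈ 𝒞.C) {μ : (Fin k → ℝ) →ₗ[ℝ] ℝ}
    (F : Matrix (Fin D.n) (Fin D.n) ℝ →ₗ[ℝ] ℂ) {z : ℂ} (hz : z ≠ 0)
    (hF : ∀ X ∈ lie D, F (cj (c : (Matrix (Fin D.n) (Fin D.n) ℝ)ˣ) X) = z * F X)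
    {X : Matrix (Fin D.n) (Fin D.n) ℝ} (hX : X ∈ 𝒞.nw μ) (hFX : F X ≠ 0) :
    Real.log ‖z‖ = μ (hv π₁ c) := by
  obtain ⟨A, hA, hFn⟩ := Model.exists_norm_le F
  obtain ⟨K, E, hK, h⟩ := 𝒞.growth_zpow hc
  have hz0 : 0 < ‖z‖ := norm_pos_iff.2 hz
  have hXl := 𝒞.nw_le μ hX
  -- powers
  have hinv : ∀ X ∈ lie D, F (cj (c : (Matrix (Fin D.n) (Fin D.n) ℝ)ˣ)⁻¹ X) = z⁻¹ * F X := by
    intro X hX
    have h1 := hF _ (cj_mem_lie D ((G1 D).inv_mem c.2) hX)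
    rw [cj_cj_inv] at h1
    rw [h1, inv_mul_cancel_left₀ hz]
  have hpow : ∀ j : ℕ, F (cj ((c ^ (j : ℤ) : G1 D) : (Matrix (Fin D.n) (Fin D.n) ℝ)ˣ) X) =
      z ^ j * F X := by
    intro j
    induction j with
    | zero => rw [Nat.cast_zero, zpow_zero, Subgroup.coe_one, cj_one, pow_zero, one_mul]
    | succ j ih =>
      have e : (c ^ ((j + 1 : ℕ) : ℤ) : G1 D) = c * c ^ (j : ℤ) := by
        push_cast
        rw [zpow_add, zpow_one, zpow_natCast, ← pow_succ, ← pow_succ']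
      rw [e, Subgroup.coe_mul, cj_mul, hF _ (cj_mem_lie D (Subtype.coe_prop _) hXl), ih, pow_succ]
      ring
  have hpow' : ∀ j : ℕ, F (cj ((c ^ (-(j : ℤ)) : G1 D) : (Matrix (Fin D.n) (Fin D.n) ℝ)ˣ) X) =
      z⁻¹ ^ j * F X := by
    intro j
    induction j with
    | zero => rw [Nat.cast_zero, neg_zero, zpow_zero, Subgroup.coe_one, cj_one, pow_zero, one_mul]
    | succ j ih =>
      have e : (c ^ (-((j + 1 : ℕ) : ℤ)) : G1 D) = c⁻¹ * c ^ (-(j : ℤ)) := by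
        push_cast
        rw [neg_add, add_comm, zpow_add, zpow_neg_one]
      rw [e, Subgroup.coe_mul, Subgroup.coe_inv, cj_mul,
        hinv _ (cj_mem_lie D (Subtype.coe_prop _) hXl), ih, pow_succ]
      ring
  have hFX0 : 0 < ‖F X‖ := norm_pos_iff.2 hFX
  have hb : ∀ j : ℤ, ‖F (cj ((c ^ j : G1 D) : (Matrix (Fin D.n) (Fin D.n) ℝ)ˣ) X)‖ ≤
      (A * K * nrm X) * (1 + |(j : ℝ)|) ^ E * Real.exp (j * μ (hv π₁ c)) := by
    intro j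
    refine (hFn _).trans ?_
    calc A * nrm (cj ((c ^ j : G1 D) : (Matrix (Fin D.n) (Fin D.n) ℝ)ˣ) X) ≤
        A * (K * (1 + |(j : ℝ)|) ^ E * Real.exp (j * μ (hv π₁ c)) * nrm X) :=
          mul_le_mul_of_nonneg_left (h μ j X hX) hA
      _ = _ := by ring
  apply le_antisymm
  · have h1 := exp_growth_le (a := Real.log ‖z‖ - μ (hv π₁ c)) (x := ‖F X‖)
      (C := A * K * nrm X) (D := E) hFX0 (by have := nrm_nonneg X; positivity) (by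
        intro j
        have h2 := hb j
        rw [hpow, norm_mul, norm_pow, Int.cast_natCast, Nat.abs_cast] at h2
        have h3 : Real.exp ((Real.log ‖z‖ - μ (hv π₁ c)) * j) =
            ‖z‖ ^ j * Real.exp (-(j * μ (hv π₁ c))) := by
          rw [← Real.exp_log hz0, ← Real.exp_nat_mul, ← Real.exp_add, Real.log_exp]
          congr 1
          ring
        rw [h3]
        calc ‖z‖ ^ j * Real.exp (-(j * μ (hv π₁ c))) * ‖F X‖ =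
            (‖z‖ ^ j * ‖F X‖) * Real.exp (-(j * μ (hv π₁ c))) := by ring
          _ ≤ ((A * K * nrm X) * (1 + (j : ℝ)) ^ E * Real.exp (j * μ (hv π₁ c))) *
              Real.exp (-(j * μ (hv π₁ c))) :=
              mul_le_mul_of_nonneg_right h2 (Real.exp_pos _).le
          _ = (A * K * nrm X) * (1 + (j : ℝ)) ^ E := by
              rw [mul_assoc _ (Real.exp _), ← Real.exp_add, add_neg_cancel, Real.exp_zero,
                mul_one])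
    linarith
  · have h1 := exp_growth_le (a := μ (hv π₁ c) - Real.log ‖z‖) (x := ‖F X‖)
      (C := A * K * nrm X) (D := E) hFX0 (by have := nrm_nonneg X; positivity) (by
        intro j
        have h2 := hb (-(j : ℤ))
        rw [hpow', norm_mul, norm_pow, norm_inv, Int.cast_neg, abs_neg, Int.cast_natCast,
          Nat.abs_cast] at h2
        have h3 : Real.exp ((μ (hv π₁ c) - Real.log ‖z‖) * j) =
            ‖z‖⁻¹ ^ j * Real.exp (j * μ (hv π₁ c)) := by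
          rw [← Real.exp_log hz0, ← Real.exp_neg, ← Real.exp_nat_mul, ← Real.exp_add,
            Real.log_exp]
          congr 1
          ring
        rw [h3]
        calc ‖z‖⁻¹ ^ j * Real.exp (j * μ (hv π₁ c)) * ‖F X‖ =
            (‖z‖⁻¹ ^ j * ‖F X‖) * Real.exp (j * μ (hv π₁ c)) := by ring
          _ ≤ ((A * K * nrm X) * (1 + (j : ℝ)) ^ E * Real.exp (-j * μ (hv π₁ c))) *
              Real.exp (j * μ (hv π₁ c)) :=
              mul_le_mul_of_nonneg_right h2 (Real.exp_pos _).le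
          _ = (A * K * nrm X) * (1 + (j : ℝ)) ^ E := by
              rw [mul_assoc _ (Real.exp _), ← Real.exp_add]
              have : -(j : ℝ) * μ (hv π₁ c) + j * μ (hv π₁ c) = 0 := by ring
              rw [this, Real.exp_zero, mul_one])
    linarith

end Cartan

namespace AdBas

variable {𝒞 : Cartan D π₁} (𝒷 : AdBas 𝒞)

theorem list_prod_mem_C (l : List (G1 D)) (hl : ∀ s ∈ l, s ∈ 𝒞.C) : l.prod ∈ 𝒞.C :=
  𝒞.C.list_prod_mem hl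

/-- general form of `Ad_C_le` -/
theorem Ad_C_le_sz : ∃ d : ℕ, ∀ (S : Set (G1 D)), (∀ g ∈ S, g ∈ 𝒞.C) → ∀ A₀ : ℝ,
    (∀ g ∈ S, sz (g : (Matrix (Fin D.n) (Fin D.n) ℝ)ˣ) ≤ A₀) →
    (∀ g ∈ S, ∀ i, |hv π₁ g i| ≤ A₀) → ∃ A : ℝ, 0 ≤ A ∧ ∀ l : List (G1 D),
    (∀ s ∈ l, s ∈ S) → ∀ i j, |𝒷.bas.repr (𝒞.AdE l.prod (𝒷.bas j)) i| ≤
      A * (1 + l.length) ^ d * Real.exp (𝒷.wt i (hv π₁ l.prod)) := by
  obtain ⟨E, hE⟩ := 𝒞.growth_unif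
  obtain ⟨B, hB0, hB⟩ := 𝒷.exists_repr_le
  refine ⟨E, fun S hS A₀ h1 h2 => ?_⟩
  obtain ⟨K, hK, h⟩ := hE S hS A₀ h1 h2
  refine ⟨B * (K * ∑ j, nrm ((𝒷.bas j : 𝒞.eA) : Matrix (Fin D.n) (Fin D.n) ℝ)),
    mul_nonneg hB0 (mul_nonneg hK (Finset.sum_nonneg fun j _ => nrm_nonneg _)),
    fun l hl i j => ?_⟩
  by_cases hij : 𝒷.wt i = 𝒷.wt j
  · rw [hij]
    refine (hB _ _).trans ?_
    rw [Cartan.coe_AdE]
    have h3 := h (𝒷.wt j) l hl _ (𝒷.mem j)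
    have h4 : nrm ((𝒷.bas j : 𝒞.eA) : Matrix (Fin D.n) (Fin D.n) ℝ) ≤
        ∑ j, nrm ((𝒷.bas j : 𝒞.eA) : Matrix (Fin D.n) (Fin D.n) ℝ) :=
      Finset.single_le_sum (f := fun j => nrm ((𝒷.bas j : 𝒞.eA) : Matrix (Fin D.n) (Fin D.n) ℝ))
        (fun j _ => nrm_nonneg _) (Finset.mem_univ j)
    calc B * nrm (cj (l.prod : (Matrix (Fin D.n) (Fin D.n) ℝ)ˣ) (𝒷.bas j : 𝒞.eA)) ≤
        B * (K * (1 + l.length : ℝ) ^ E * Real.exp (𝒷.wt j (hv π₁ l.prod)) *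
          ∑ j, nrm ((𝒷.bas j : 𝒞.eA) : Matrix (Fin D.n) (Fin D.n) ℝ)) := by
          refine mul_le_mul_of_nonneg_left (h3.trans ?_) hB0
          exact mul_le_mul_of_nonneg_left h4 (by positivity)
      _ = _ := by ring
  · have h0 : 𝒷.bas.repr (𝒞.AdE l.prod (𝒷.bas j)) i = 0 := by
      by_contra hne
      exact hij (𝒷.Ad_C l.prod (list_prod_mem_C l fun s hs => hS s (hl s hs)) i j hne)
    rw [h0, abs_zero]
    have : 0 ≤ ∑ j, nrm ((𝒷.bas j : 𝒞.eA) : Matrix (Fin D.n) (Fin D.n) ℝ) :=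
      Finset.sum_nonneg fun j _ => nrm_nonneg _
    positivity

/-- crude bound of the adjoint action -/
theorem Ad_le_sz : ∃ A : ℝ, 0 ≤ A ∧ ∀ (g : G1 D) i j, |𝒷.bas.repr (𝒞.AdE g (𝒷.bas j)) i| ≤
    A * (sz (g : (Matrix (Fin D.n) (Fin D.n) ℝ)ˣ)) ^ 2 := by
  obtain ⟨B, hB0, hB⟩ := 𝒷.exists_repr_le
  refine ⟨B * ∑ j, nrm ((𝒷.bas j : 𝒞.eA) : Matrix (Fin D.n) (Fin D.n) ℝ),
    mul_nonneg hB0 (Finset.sum_nonneg fun j _ => nrm_nonneg _), fun g i j => ?_⟩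
  refine (hB _ _).trans ?_
  rw [Cartan.coe_AdE, mul_assoc]
  refine mul_le_mul_of_nonneg_left ?_ hB0
  have h4 : nrm ((𝒷.bas j : 𝒞.eA) : Matrix (Fin D.n) (Fin D.n) ℝ) ≤
      ∑ j, nrm ((𝒷.bas j : 𝒞.eA) : Matrix (Fin D.n) (Fin D.n) ℝ) :=
    Finset.single_le_sum (f := fun j => nrm ((𝒷.bas j : 𝒞.eA) : Matrix (Fin D.n) (Fin D.n) ℝ))
      (fun j _ => nrm_nonneg _) (Finset.mem_univ j)
  refine (nrm_cj_le _ _).trans ?_
  have h5 := one_le_sz (g : (Matrix (Fin D.n) (Fin D.n) ℝ)ˣ)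
  calc _ ≤ sz (g : (Matrix (Fin D.n) (Fin D.n) ℝ)ˣ) * sz (g : (Matrix (Fin D.n) (Fin D.n) ℝ)ˣ) *
        ∑ j, nrm ((𝒷.bas j : 𝒞.eA) : Matrix (Fin D.n) (Fin D.n) ℝ) :=
        mul_le_mul_of_nonneg_left h4 (by nlinarith)
    _ = _ := by ring

/-! #### the determinant -/

theorem det_aux {g : G1 D} {A : ℝ} {d : ℕ} (hA : 0 ≤ A) (h : ∀ m : ℕ,
    |LinearMap.det ((𝒞.AdE (g ^ m) : 𝒞.eA ≃ₗ[ℝ] 𝒞.eA) : 𝒞.eA →ₗ[ℝ] 𝒞.eA)| ≤
      A * (1 + (m : ℝ)) ^ d) :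
    |LinearMap.det ((𝒞.AdE g : 𝒞.eA ≃ₗ[ℝ] 𝒞.eA) : 𝒞.eA →ₗ[ℝ] 𝒞.eA)| ≤ 1 := by
  set x := |LinearMap.det ((𝒞.AdE g : 𝒞.eA ≃ₗ[ℝ] 𝒞.eA) : 𝒞.eA →ₗ[ℝ] 𝒞.eA)| with hx
  have hx0 : 0 < x := by
    rw [hx, abs_pos]
    exact ((𝒞.AdE g).isUnit_det'.ne_zero)
  have hpow : ∀ m : ℕ, |LinearMap.det ((𝒞.AdE (g ^ m) : 𝒞.eA ≃ₗ[ℝ] 𝒞.eA) :
      𝒞.eA →ₗ[ℝ] 𝒞.eA)| = x ^ m := by
    intro m
    rw [hx, ← abs_pow]
    congr 1
    induction m with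
    | zero =>
      rw [pow_zero, pow_zero, map_one]
      exact LinearMap.det_id
    | succ m ih =>
      rw [pow_succ, pow_succ, map_mul, ← ih, ← LinearMap.det_comp]
      rfl
  have h1 := exp_growth_le (a := Real.log x) (x := 1) (C := A) (D := d) one_pos hA (by
    intro j
    have h2 := h j
    rw [hpow] at h2
    rw [mul_one]
    have h3 : Real.exp (Real.log x * j) = x ^ j := by
      rw [mul_comm, Real.exp_nat_mul, Real.exp_log hx0]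
    rw [h3]; exact h2)
  have h2 := Real.log_nonpos_iff hx0.le
  exact h2.1 h1

theorem det_le_of_repr {g : G1 D} {f : Fin 𝒷.r → ℝ} {q : ℝ} (hq : 0 ≤ q)
    (h0 : ∀ i j, 𝒷.bas.repr (𝒞.AdE g (𝒷.bas j)) i ≠ 0 →
      |𝒷.bas.repr (𝒞.AdE g (𝒷.bas j)) i| ≤ q * Real.exp (f i)) (hf : ∑ i, f i = 0) :
    |LinearMap.det ((𝒞.AdE g : 𝒞.eA ≃ₗ[ℝ] 𝒞.eA) : 𝒞.eA →ₗ[ℝ] 𝒞.eA)| ≤
      (𝒷.r.factorial : ℝ) * q ^ 𝒷.r := by
  classical
  rw [← LinearMap.det_toMatrix 𝒷.bas, Matrix.det_apply]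
  refine (Finset.abs_sum_le_sum_abs _ _).trans ?_
  have h1 : ∀ σ : Equiv.Perm (Fin 𝒷.r), |Equiv.Perm.sign σ •
      ∏ i, (LinearMap.toMatrix 𝒷.bas 𝒷.bas ((𝒞.AdE g : 𝒞.eA ≃ₗ[ℝ] 𝒞.eA) :
        𝒞.eA →ₗ[ℝ] 𝒞.eA)) (σ i) i| ≤ q ^ 𝒷.r := by
    intro σ
    have h2 : |Equiv.Perm.sign σ •
      ∏ i, (LinearMap.toMatrix 𝒷.bas 𝒷.bas ((𝒞.AdE g : 𝒞.eA ≃ₗ[ℝ] 𝒞.eA) :
        𝒞.eA →ₗ[ℝ] 𝒞.eA)) (σ i) i| = ∏ i, |𝒷.bas.repr (𝒞.AdE g (𝒷.bas i)) (σ i)| := by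
      rw [← Finset.abs_prod]
      rcases Int.units_eq_one_or (Equiv.Perm.sign σ) with h | h
      · rw [h, one_smul]
        simp only [LinearMap.toMatrix_apply]
        rfl
      · rw [h, Units.neg_smul, one_smul, abs_neg]
        simp only [LinearMap.toMatrix_apply]
        rfl
    rw [h2]
    calc ∏ i, |𝒷.bas.repr (𝒞.AdE g (𝒷.bas i)) (σ i)| ≤ ∏ i, (q * Real.exp (f (σ i))) := by
          refine Finset.prod_le_prod (fun i _ => abs_nonneg _) fun i _ => ?_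
          by_cases hne : 𝒷.bas.repr (𝒞.AdE g (𝒷.bas i)) (σ i) = 0
          · rw [hne, abs_zero]; positivity
          · exact h0 _ _ hne
      _ = q ^ 𝒷.r := by
          rw [Finset.prod_mul_distrib, Finset.prod_const, Finset.card_univ, Fintype.card_fin,
            ← Real.exp_sum, Equiv.sum_comp σ f, hf, Real.exp_zero, mul_one]
  refine (Finset.sum_le_sum fun σ _ => h1 σ).trans ?_
  rw [Finset.sum_const, Finset.card_univ, Fintype.card_perm, Fintype.card_fin, nsmul_eq_mul]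

include 𝒷 in
theorem det_C_le (hs : ∀ v : Fin k → ℤ, ∃ γ : Γ, Multiplicative.toAdd (π₁ (inΓ D γ)) = v)
    {c : G1 D} (hc : c ∈ 𝒞.C) :
    |LinearMap.det ((𝒞.AdE c : 𝒞.eA ≃ₗ[ℝ] 𝒞.eA) : 𝒞.eA →ₗ[ℝ] 𝒞.eA)| ≤ 1 := by
  obtain ⟨d, hd⟩ := 𝒷.Ad_C_le_sz
  obtain ⟨A, hA, h⟩ := hd {c} (by rintro g rfl; exact hc)
    (max (sz (c : (Matrix (Fin D.n) (Fin D.n) ℝ)ˣ)) (‖hv π₁ c‖))
    (by rintro g rfl; exact le_max_left _ _)
    (by rintro g rfl; exact fun i => (norm_le_pi_norm (hv π₁ g) i).trans (le_max_right _ _))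
  refine det_aux (𝒞 := 𝒞) (A := (𝒷.r.factorial : ℝ) * A ^ 𝒷.r) (d := d * 𝒷.r) (by positivity)
    fun m => ?_
  have h1 : c ^ m = (List.replicate m c).prod := by rw [List.prod_replicate]
  have h2 := 𝒷.det_le_of_repr (g := c ^ m) (f := fun i => 𝒷.wt i (hv π₁ (c ^ m)))
    (q := A * (1 + (m : ℝ)) ^ d) (by positivity) (by
      intro i j _
      have h3 := h (List.replicate m c) (fun s hs => List.eq_of_mem_replicate hs) i j
      rw [List.length_replicate, ← h1] at h3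
      exact h3) (by
      rw [← LinearMap.sum_apply, 𝒷.tr hs, LinearMap.zero_apply])
  refine h2.trans_eq ?_
  rw [mul_pow, ← pow_mul, mul_assoc]

include 𝒷 in
theorem det_NR_le {u : G1 D} (hu : u ∈ NR1 D) :
    |LinearMap.det ((𝒞.AdE u : 𝒞.eA ≃ₗ[ℝ] 𝒞.eA) : 𝒞.eA →ₗ[ℝ] 𝒞.eA)| ≤ 1 := by
  obtain ⟨A, hA, h⟩ := 𝒷.Ad_le_sz
  set X := lg ((u : (Matrix (Fin D.n) (Fin D.n) ℝ)ˣ) : Matrix (Fin D.n) (Fin D.n) ℝ) with hX
  have hXl : X ∈ lie D := lg_mem_lie D hu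
  set b : ℝ := 1 + 2 * (D.n * ((D.n + 1) * (1 + nrm X) ^ D.n)) with hb
  have hb1 : 0 ≤ b := by
    have := nrm_nonneg X
    positivity
  -- sizes of the powers
  have hsz : ∀ m : ℕ, sz ((u ^ m : G1 D) : (Matrix (Fin D.n) (Fin D.n) ℝ)ˣ) ≤
      b * (1 + (m : ℝ)) ^ D.n := by
    intro m
    have h1 : ((u ^ m : G1 D) : (Matrix (Fin D.n) (Fin D.n) ℝ)ˣ) =
        exU ((m : ℝ) • X) (lie_pow_zero D ((lie D).smul_mem _ hXl)) := by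
      rw [Subgroup.coe_pow]
      induction m with
      | zero =>
        rw [pow_zero]
        apply Units.ext
        change (1 : Matrix (Fin D.n) (Fin D.n) ℝ) = ex (((0 : ℕ) : ℝ) • X)
        rw [Nat.cast_zero, zero_smul, ex_zero]
      | succ m ih =>
        rw [pow_succ, ih]
        apply Units.ext
        change ex ((m : ℝ) • X) * ((u : (Matrix (Fin D.n) (Fin D.n) ℝ)ˣ) :
          Matrix (Fin D.n) (Fin D.n) ℝ) = ex (((m + 1 : ℕ) : ℝ) • X)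
        have h2 : ((u : (Matrix (Fin D.n) (Fin D.n) ℝ)ˣ) : Matrix (Fin D.n) (Fin D.n) ℝ) =
            ex ((1 : ℝ) • X) := by
          rw [one_smul]
          exact (ex_lg (D.unip_NR hu)).symm
        rw [h2, ← ex_add_smul (lie_pow_zero D hXl)]
        push_cast
        rfl
    rw [h1]
    refine (sz_exU_le _).trans ?_
    have h3 : nrm ((m : ℝ) • X) = m * nrm X := by rw [nrm_smul, Nat.abs_cast]
    rw [h3]
    have h4 := nrm_nonneg X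
    have h5 : (0 : ℝ) ≤ m := Nat.cast_nonneg _
    have h6 : (1 + m * nrm X) ^ D.n ≤ (1 + nrm X) ^ D.n * (1 + (m : ℝ)) ^ D.n := by
      rw [← mul_pow]
      refine pow_le_pow_left₀ (by positivity) ?_ _
      nlinarith
    have h7 : (1 : ℝ) ≤ (1 + (m : ℝ)) ^ D.n := one_le_pow₀ (by linarith)
    calc 1 + 2 * (D.n * ((D.n + 1) * (1 + m * nrm X) ^ D.n)) ≤
        1 * (1 + (m : ℝ)) ^ D.n + 2 * (D.n * ((D.n + 1) * ((1 + nrm X) ^ D.n *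
          (1 + (m : ℝ)) ^ D.n))) := by
          refine add_le_add (by linarith) ?_
          gcongr
      _ = b * (1 + (m : ℝ)) ^ D.n := by rw [hb]; ring
  refine det_aux (𝒞 := 𝒞) (A := (𝒷.r.factorial : ℝ) * (A * b ^ 2) ^ 𝒷.r)
    (d := D.n * 2 * 𝒷.r) (by positivity) fun m => ?_
  have h2 := 𝒷.det_le_of_repr (g := u ^ m) (f := fun i => 0)
    (q := A * (b * (1 + (m : ℝ)) ^ D.n) ^ 2) (by positivity) (by
      intro i j _
      rw [Real.exp_zero, mul_one]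
      refine (h _ i j).trans ?_
      refine mul_le_mul_of_nonneg_left ?_ hA
      exact pow_le_pow_left₀ (by linarith [one_le_sz ((u ^ m : G1 D) :
        (Matrix (Fin D.n) (Fin D.n) ℝ)ˣ)]) (hsz m) 2) (by simp)
  refine h2.trans_eq ?_
  rw [mul_pow b, ← pow_mul, ← mul_assoc A, mul_pow (A * b ^ 2), ← pow_mul, ← mul_assoc]

include 𝒷 in
/-- **unimodularity**: `|det Ad(g)|𝔢| = 1` for all `g ∈ G1` -/
theorem abs_det_AdE (hs : ∀ v : Fin k → ℤ, ∃ γ : Γ, Multiplicative.toAdd (π₁ (inΓ D γ)) = v)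
    (g : G1 D) : |LinearMap.det ((𝒞.AdE g : 𝒞.eA ≃ₗ[ℝ] 𝒞.eA) : 𝒞.eA →ₗ[ℝ] 𝒞.eA)| = 1 := by
  have hmul : ∀ a b : G1 D,
      |LinearMap.det ((𝒞.AdE (a * b) : 𝒞.eA ≃ₗ[ℝ] 𝒞.eA) : 𝒞.eA →ₗ[ℝ] 𝒞.eA)| =
      |LinearMap.det ((𝒞.AdE a : 𝒞.eA ≃ₗ[ℝ] 𝒞.eA) : 𝒞.eA →ₗ[ℝ] 𝒞.eA)| *
      |LinearMap.det ((𝒞.AdE b : 𝒞.eA ≃ₗ[ℝ] 𝒞.eA) : 𝒞.eA →ₗ[ℝ] 𝒞.eA)| := by
    intro a b
    rw [map_mul, ← abs_mul, ← LinearMap.det_comp]
    rfl
  have hone : |LinearMap.det ((𝒞.AdE (1 : G1 D) : 𝒞.eA ≃ₗ[ℝ] 𝒞.eA) : 𝒞.eA →ₗ[ℝ] 𝒞.eA)| = 1 := by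
    rw [map_one]
    have : LinearMap.det (((1 : 𝒞.eA ≃ₗ[ℝ] 𝒞.eA)) : 𝒞.eA →ₗ[ℝ] 𝒞.eA) = 1 := LinearMap.det_id
    rw [this, abs_one]
  have key : ∀ S : Subgroup (G1 D), (∀ g ∈ S,
      |LinearMap.det ((𝒞.AdE g : 𝒞.eA ≃ₗ[ℝ] 𝒞.eA) : 𝒞.eA →ₗ[ℝ] 𝒞.eA)| ≤ 1) → ∀ g ∈ S,
      |LinearMap.det ((𝒞.AdE g : 𝒞.eA ≃ₗ[ℝ] 𝒞.eA) : 𝒞.eA →ₗ[ℝ] 𝒞.eA)| = 1 := by
    intro S hS g hg
    have h1 := hS g hg
    have h2 := hS g⁻¹ (S.inv_mem hg)
    have h3 := hmul g g⁻¹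
    rw [mul_inv_cancel, hone] at h3
    have h4 := abs_nonneg (LinearMap.det ((𝒞.AdE g : 𝒞.eA ≃ₗ[ℝ] 𝒞.eA) : 𝒞.eA →ₗ[ℝ] 𝒞.eA))
    nlinarith
  obtain ⟨u, hu, c, hc, h⟩ := 𝒞.exists_mul g
  rw [h, hmul, key (NR1 D) (fun g hg => 𝒷.det_NR_le hg) u hu,
    key 𝒞.C (fun g hg => 𝒷.det_C_le hs hg) c hc, mul_one]

end AdBas

end general

section roots

attribute [local instance] Matrix.linftyOpNormedRing Matrix.linftyOpNormedAlgebra

variable {Γ : Type*} [Group Γ] {R : RootData Γ} {D : EmbData Γ R.N}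

theorem hs_π1 (R : RootData Γ) (D : EmbData Γ R.N) (v : Fin R.k → ℤ) :
    ∃ γ : Γ, Multiplicative.toAdd (π1 R D (inΓ D γ)) = v := by
  obtain ⟨γ, hγ⟩ := R.surj (Multiplicative.ofAdd v)
  refine ⟨γ, ?_⟩
  rw [π1, lift_inΓ, hγ]
  rfl

theorem ker_π1 (R : RootData Γ) (D : EmbData Γ R.N) (g : G1 D) : π1 R D g = 1 ↔ g ∈ NR1 D :=
  lift_eq_one_iff (D := D) R.π (fun n => (R.mem_N n).symm) g


/-- the eigenfunctional `ℓ_j` on matrices -/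
noncomputable def Lj (R : RootData Γ) (D : EmbData Γ R.N) (j : Fin R.m) :
    Matrix (Fin D.n) (Fin D.n) ℝ →ₗ[ℝ] ℂ := Lm D (R.ℓ j)

theorem Lj_Ad (j : Fin R.m) (g : G1 D) {X : Matrix (Fin D.n) (Fin D.n) ℝ} (hX : X ∈ lie D) :
    Lj R D j (cj (g : (Matrix (Fin D.n) (Fin D.n) ℝ)ˣ) X) =
      ((χ1 R D j g : ℂˣ) : ℂ) * Lj R D j X :=
  Lm_Ad (R.ℓ_mul j) (R.χ_N j) (fun γ n => R.ℓ_conj j γ n) g hX

theorem Lj_lcs (j : Fin R.m) {X : Matrix (Fin D.n) (Fin D.n) ℝ} (hX : X ∈ lcs D 1) :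
    Lj R D j X = 0 := by
  have h1 : lcs D 1 ≤ LinearMap.ker (Lj R D j) := by
    refine Submodule.span_le.2 ?_
    rintro _ ⟨X, hX, Y, hY, rfl⟩
    exact Lm_bracket (R.ℓ_mul j) hX hY
  exact h1 hX

theorem exists_Lj_ne (j : Fin R.m) : ∃ X ∈ lie D, Lj R D j X ≠ 0 := by
  obtain ⟨n, hn⟩ := R.ℓ_ne j
  have hmem : D.ρu n ∈ D.NR := (D.ρu_mem_NR_iff _).mpr n.2
  refine ⟨lg (D.ρu n : Matrix (Fin D.n) (Fin D.n) ℝ), lg_mem_lie D hmem, ?_⟩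
  have h1 : Lj R D j (lg (D.ρu n : Matrix (Fin D.n) (Fin D.n) ℝ)) = R.ℓ j n := by
    change Lm D (R.ℓ j) _ = _
    rw [Lm_lg (R.ℓ_mul j) hmem, Lm_ρu (D := D) (R.ℓ_mul j) n]
  rw [h1]; exact hn

namespace Cartan

variable (𝒞 : Cartan D (π1 R D))

/-- an eigenfunctional which is nonzero on `𝔫_μ` has root `μ` -/
theorem eq_of_Lj_ne {j : Fin R.m} {μ : (Fin R.k → ℝ) →ₗ[ℝ] ℝ}
    {X : Matrix (Fin D.n) (Fin D.n) ℝ} (hX : X ∈ 𝒞.nw μ) (h : Lj R D j X ≠ 0) :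
    μ = R.Λ j := by
  apply form_ext
  intro v
  obtain ⟨c, hc, hcv⟩ := 𝒞.exists_C_height (hs_π1 R D) v
  have h1 := 𝒞.log_norm_eq hc (Lj R D j) (z := ((χ1 R D j c : ℂˣ) : ℂ)) (Units.ne_zero _)
    (fun X hX => Lj_Ad j c hX) hX h
  rw [log_χ1] at h1
  have h2 : hv (π1 R D) c = fun i => (v i : ℝ) := by
    funext i
    rw [hv, hcv]
  have h3 : hgt R D c = fun i => (v i : ℝ) := h2
  rw [h2, h3] at h1
  exact h1.symm

/-- `Λ_j` is a weight with `𝔫_{Λ_j} ⊄ [𝔫,𝔫]` -/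
theorem Λ_mem_gwts (j : Fin R.m) : R.Λ j ∈ 𝒞.gwts ∧
    ∃ X ∈ 𝒞.nw (R.Λ j), Lj R D j X ≠ 0 := by
  obtain ⟨X, hX, hXj⟩ := exists_Lj_ne (D := D) j
  obtain ⟨μ, hμ, hne⟩ : ∃ μ ∈ 𝒞.wts, Lj R D j (𝒞.cmp μ X) ≠ 0 := by
    by_contra hcon
    push Not at hcon
    apply hXj
    rw [← 𝒞.sum_cmp hX, map_sum]
    exact Finset.sum_eq_zero hcon
  have h1 := 𝒞.cmp_mem μ hX
  have h2 := 𝒞.eq_of_Lj_ne h1 hne
  rw [h2] at h1 hμ hne
  exact ⟨𝒞.mem_gwts.2 ⟨hμ, fun hle => hne (Lj_lcs j (hle h1))⟩, _, h1, hne⟩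

/-- every weight of `𝔫/[𝔫,𝔫]` is a root -/
theorem exists_Λ_of_gwts (ht : ∃ γ : Γ, 𝒞.t = inΓ D γ) {μ : (Fin R.k → ℝ) →ₗ[ℝ] ℝ}
    (hμ : μ ∈ 𝒞.gwts) : ∃ j, R.Λ j = μ := by
  classical
  obtain ⟨γ, hγ⟩ := ht
  have hγm : D.ρu γ = 𝒞.tm := by
    have := congrArg (fun g : G1 D => (g : (Matrix (Fin D.n) (Fin D.n) ℝ)ˣ)) hγ
    exact this.symm
  obtain ⟨hμw, hμl⟩ := 𝒞.mem_gwts.1 hμ
  -- the invariant subspace of `𝔫`
  let U : Submodule ℝ (lie D) :=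
    { carrier := {X | 𝒞.cmp μ X ∈ lcs D 1}
      add_mem' := fun {a b} ha hb => by
        change 𝒞.cmp μ ((a : Matrix (Fin D.n) (Fin D.n) ℝ) + b) ∈ lcs D 1
        rw [map_add]; exact Submodule.add_mem _ ha hb
      zero_mem' := by
        change 𝒞.cmp μ (0 : Matrix (Fin D.n) (Fin D.n) ℝ) ∈ lcs D 1
        rw [map_zero]; exact Submodule.zero_mem _
      smul_mem' := fun c a ha => by
        change 𝒞.cmp μ (c • (a : Matrix (Fin D.n) (Fin D.n) ℝ)) ∈ lcs D 1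
        rw [map_smul]; exact Submodule.smul_mem _ _ ha }
  have hcomm : ∀ X ∈ lie D, 𝒞.cmp μ (cj 𝒞.tm X) = cj 𝒞.tm (𝒞.cmp μ X) := by
    intro X hX
    have h1 : cj 𝒞.tm X = ∑ ν ∈ 𝒞.wts, cj 𝒞.tm (𝒞.cmp ν X) := by
      conv_lhs => rw [← 𝒞.sum_cmp hX]
      rw [map_sum]
    have h2 : ∀ ν, cj 𝒞.tm (𝒞.cmp ν X) ∈ 𝒞.nw ν := fun ν =>
      𝒞.cj_mem_nw 𝒞.t_mem_C (𝒞.cmp_mem ν hX)
    rw [h1, map_sum, Finset.sum_eq_single μ]
    · rw [𝒞.cmp_of_mem (h2 μ)]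
    · intro ν _ hne
      exact 𝒞.cmp_of_mem_ne hne (h2 ν)
    · intro h; exact absurd hμw h
  have hUT : U ≤ U.comap (Tk D γ 0) := by
    intro X hX
    change 𝒞.cmp μ (cj (D.ρu γ) (X : Matrix (Fin D.n) (Fin D.n) ℝ)) ∈ lcs D 1
    rw [hγm, hcomm _ X.2]
    exact cj_mem_lcs D 𝒞.tm_mem 1 hX
  have hU1 : U ≠ ⊤ := by
    intro h
    apply hμl
    intro X hX
    have h1 : (⟨X, 𝒞.nw_le μ hX⟩ : lie D) ∈ U := by rw [h]; trivial
    have h2 : 𝒞.cmp μ X ∈ lcs D 1 := h1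
    rwa [𝒞.cmp_of_mem hX] at h2
  let T : (lie D ⧸ U) →ₗ[ℝ] (lie D ⧸ U) := U.mapQ U (Tk D γ 0) hUT
  have hnt : Nontrivial (lie D ⧸ U) := Submodule.Quotient.nontrivial_iff.2 hU1
  obtain ⟨z, hz⟩ : ∃ z : ℂ, (T.charpoly.map (algebraMap ℝ ℂ)).IsRoot z := by
    apply IsAlgClosed.exists_root
    rw [Polynomial.degree_map]
    have : 0 < finrank ℝ (lie D ⧸ U) := finrank_pos
    intro h
    have h1 : T.charpoly.natDegree = 0 := Polynomial.natDegree_eq_of_degree_eq_some h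
    rw [LinearMap.charpoly_natDegree] at h1
    omega
  obtain ⟨φ₀, hφ₀, hφT⟩ := exists_functional T hz
  let φ : lie D →ₗ[ℝ] ℂ := φ₀ ∘ₗ U.mkQ
  have hφne : φ ≠ 0 := by
    intro h
    apply hφ₀
    apply LinearMap.ext
    intro y
    obtain ⟨X, rfl⟩ := U.mkQ_surjective y
    exact LinearMap.congr_fun h X
  have hφU : ∀ X ∈ U, φ X = 0 := by
    intro X hX
    change φ₀ (U.mkQ X) = 0
    rw [(Submodule.Quotient.mk_eq_zero U).2 hX |> fun h => show U.mkQ X = 0 from h, map_zero]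
  have hφz : ∀ X : lie D, φ (Tk D γ 0 X) = z * φ X := by
    intro X
    exact hφT (U.mkQ X)
  obtain ⟨j, hj⟩ := eig_zero γ φ hφne (by
    intro X hX
    refine hφU X ?_
    exact 𝒞.cmp_mem_lcs μ 1 hX) z hφz
  refine ⟨j, ?_⟩
  -- `φ ≠ 0` on `𝔫_μ`
  obtain ⟨F, hF⟩ := LinearMap.exists_extend φ
  have hF' : ∀ X (hX : X ∈ lie D), F X = φ ⟨X, hX⟩ := fun X hX => by
    have := LinearMap.congr_fun hF ⟨X, hX⟩
    exact this
  obtain ⟨X, hX⟩ : ∃ X, φ X ≠ 0 := by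
    by_contra hcon
    push Not at hcon
    exact hφne (LinearMap.ext hcon)
  have hXμ : F (𝒞.cmp μ X) ≠ 0 := by
    have h1 : X - ⟨𝒞.cmp μ X, 𝒞.cmp_mem_lie μ X.2⟩ ∈ U := by
      change 𝒞.cmp μ ((X : Matrix (Fin D.n) (Fin D.n) ℝ) - 𝒞.cmp μ X) ∈ lcs D 1
      rw [map_sub, 𝒞.cmp_of_mem (𝒞.cmp_mem μ X.2), sub_self]
      exact Submodule.zero_mem _
    have h2 := hφU _ h1
    rw [map_sub, sub_eq_zero] at h2
    rw [hF' _ (𝒞.cmp_mem_lie μ X.2), ← h2]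
    exact hX
  have hz0 : z ≠ 0 := by rw [hj]; exact Units.ne_zero _
  have h1 := 𝒞.log_norm_eq 𝒞.t_mem_C F hz0 (by
    intro X hX
    rw [hF' X hX, ← hφz ⟨X, hX⟩, hF' _ (cj_mem_lie D 𝒞.t.2 hX)]
    congr 1
    apply Subtype.ext
    change cj 𝒞.tm X = cj (D.ρu γ) X
    rw [hγm]) (𝒞.cmp_mem μ X.2) hXμ
  -- compare the values at `t`
  have h2 : Real.log ‖z‖ = R.Λ j (hv (π1 R D) 𝒞.t) := by
    have h3 := log_χ1 R D j (inΓ D γ)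
    rw [χ1, lift_inΓ, ← hj] at h3
    rw [h3, hγ]
    rfl
  obtain ⟨i₁, hi₁⟩ := 𝒞.mem_wts.1 (𝒞.mem_gwts.1 (𝒞.Λ_mem_gwts j).1).1
  obtain ⟨i₂, hi₂⟩ := 𝒞.mem_wts.1 hμw
  rw [← hi₁, ← hi₂]
  apply 𝒞.gen.1 i₁ i₂
  rw [hi₁, hi₂, ← h2, h1]

end Cartan

namespace AdBas

variable {𝒞 : Cartan D (π1 R D)} (𝒷 : AdBas 𝒞)

/-- the eigenfunctionals on `𝔢` -/
noncomputable def lδ (_𝒷 : AdBas 𝒞) (j : Fin R.m) : 𝒞.eA →ₗ[ℝ] ℂ := Lj R D j ∘ₗ 𝒞.ξ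


theorem lδ_supp (j : Fin R.m) (i : Fin 𝒷.r) (h : 𝒷.lδ j (𝒷.bas i) ≠ 0) :
    i ∈ 𝒷.gen ∧ 𝒷.wt i = R.Λ j := by
  refine ⟨?_, 𝒞.eq_of_Lj_ne (𝒷.mem i) h⟩
  by_contra hi
  exact h (Lj_lcs j (𝒞.wtsD.eN_le_lcs 1 (𝒷.mem_one i hi)))

theorem lδ_ne (j : Fin R.m) (hj : R.Λ j ≠ 0) : ∃ i, 𝒷.lδ j (𝒷.bas i) ≠ 0 := by
  obtain ⟨-, X, hX, hXj⟩ := 𝒞.Λ_mem_gwts j
  by_contra hcon
  push Not at hcon
  apply hXj
  have h1 : 𝒷.lδ j = 0 := 𝒷.bas.ext fun i => by rw [hcon i]; rfl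
  exact LinearMap.congr_fun h1 ⟨X, 𝒞.nw_le_eN hj hX⟩

/-- every generating weight of `𝔢` is a root -/
theorem Λ_surj (ht : ∃ γ : Γ, 𝒞.t = inΓ D γ) (i : Fin 𝒷.r) (hi : i ∈ 𝒷.gen) :
    ∃ j, R.Λ j = 𝒷.wt i := 𝒞.exists_Λ_of_gwts ht (𝒷.wt_mem_gwts i hi)

/-- every nonzero root is a generating weight of `𝔢` -/
theorem exists_gen_Λ (j : Fin R.m) (hj : R.Λ j ≠ 0) : ∃ i ∈ 𝒷.gen, 𝒷.wt i = R.Λ j :=
  𝒷.exists_gen_of_gwts hj (𝒞.Λ_mem_gwts j).1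

theorem sep (v : Fin R.k → ℝ) (h : ∀ i ∈ 𝒷.gen, 𝒷.wt i v = 0) : v = 0 := by
  refine R.Λ_inj v fun j => ?_
  by_cases hj : R.Λ j = 0
  · rw [hj, LinearMap.zero_apply]
  · obtain ⟨i, hi, hij⟩ := 𝒷.exists_gen_Λ j hj
    rw [← hij]; exact h i hi

end AdBas

end roots

end Crest.Agent.R182.ModelWt
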