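import Mathlib
import Crest.Agent.R182.ModelDec
import Crest.Agent.R182.NbModel
import Crest.Agent.R182.BoxGen
import Crest.Agent.R182.ModelIde
import Crest.Agent.R182.ModelHaar
import Crest.Agent.R182.ModelBas2
import Crest.Agent.R182.NbStar

-- ▼ part R182/ModelPg
section

set_option autoImplicit false
set_option linter.unusedSectionVars false

namespace Crest.Agent.R182.ModelWt

open Module LinMod Polyc Model

/-- choice of representatives -/
theorem exists_reps {G α : Type*} (B : Set G) (key : G → α) (K : Finset α)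
    (hK : ∀ g ∈ B, key g ∈ K) : ∃ F : Finset G, F.card ≤ K.card ∧ (∀ f ∈ F, f ∈ B) ∧
      ∀ g ∈ B, ∃ f ∈ F, key f = key g := by
  classical
  let K' : Finset α := K.filter fun κ => ∃ g ∈ B, key g = κ
  have h1 : ∀ κ : K', ∃ g ∈ B, key g = κ := fun κ => (Finset.mem_filter.1 κ.2).2
  choose rep hrep hrepk using h1
  refine ⟨Finset.univ.image rep, ?_, ?_, ?_⟩
  · refine Finset.card_image_le.trans ?_
    rw [Finset.card_univ, Fintype.card_coe]
    exact Finset.card_filter_le _ _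
  · intro f hf
    obtain ⟨κ, -, rfl⟩ := Finset.mem_image.1 hf
    exact hrep κ
  · intro g hg
    have h2 : key g ∈ K' := Finset.mem_filter.2 ⟨hK g hg, g, hg, rfl⟩
    exact ⟨rep ⟨_, h2⟩, Finset.mem_image.2 ⟨_, Finset.mem_univ _, rfl⟩, hrepk _⟩

theorem card_box (k M : ℕ) : (Fintype.piFinset fun _ : Fin k =>
    Finset.Icc (-(M : ℤ)) (M : ℤ)).card = (2 * M + 1) ^ k := by
  rw [Fintype.card_piFinset, Finset.prod_const, Finset.card_univ, Fintype.card_fin]
  congr 1
  rw [Int.card_Icc]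
  omega

section len

variable {Γ : Type*} [Group Γ] {N : Subgroup Γ} [hN : N.Normal] (D : EmbData Γ N)

/-- the coordinates of `ν ∈ N` are bounded by the size -/
theorem exists_coord_le : ∃ c : ℝ, 0 ≤ c ∧ ∀ (ν : Γ) (i : Fin D.r),
    |((D.coord i (D.ρ ν) : ℤ) : ℝ)| ≤ c * sz (D.ρu ν) := by
  have h1 : ∀ i, ∃ B : ℝ, 0 ≤ B ∧ ∀ X, |D.cR i X| ≤ B * nrm X := by
    intro i
    obtain ⟨B, hB, h⟩ := Model.exists_norm_le (Complex.ofRealCLM.toLinearMap ∘ₗ D.cR i)
    refine ⟨B, hB, fun X => ?_⟩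
    have := h X
    simpa using this
  choose B hB0 hB using h1
  refine ⟨∑ i, B i, Finset.sum_nonneg fun i _ => hB0 i, fun ν i => ?_⟩
  have h2 : ((D.coord i (D.ρ ν) : ℤ) : ℝ) = D.cR i (D.ρu ν : Matrix (Fin D.n) (Fin D.n) ℝ) :=
    (D.cR_toR i (D.ρ ν)).symm
  rw [h2]
  have h3 := one_le_sz (D.ρu ν)
  calc |D.cR i (D.ρu ν : Matrix (Fin D.n) (Fin D.n) ℝ)| ≤
        B i * nrm (D.ρu ν : Matrix (Fin D.n) (Fin D.n) ℝ) := hB i _
    _ ≤ (∑ i, B i) * sz (D.ρu ν) :=
        mul_le_mul (Finset.single_le_sum (fun i _ => hB0 i) (Finset.mem_univ i)) (nrm_le_sz _)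
          (nrm_nonneg _) (Finset.sum_nonneg fun i _ => hB0 i)

variable {D}

theorem eq_of_coord {ν ν' : Γ} (hν : ν ∈ N) (hν' : ν' ∈ N)
    (h : ∀ i, D.coord i (D.ρ ν) = D.coord i (D.ρ ν')) : ν = ν' := by
  obtain ⟨e, rfl⟩ := D.surj ν hν
  obtain ⟨e', rfl⟩ := D.surj ν' hν'
  have : e = e' := by
    funext i
    have := h i
    rwa [D.coord_spec, D.coord_spec] at this
  rw [this]

end len

section growth

variable {Γ : Type*} [Group Γ] {R : RootData Γ} {D : EmbData Γ R.N} {S : Set Γ} {C₀ : ℝ}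

/-- **counting**: a family of subsets `B n` of `G1` with linear heights and polynomial `N_ℝ`-part is
covered by polynomially many balls of bounded radius. -/
theorem count (h : Big D S C₀) : ∃ K : ℕ, ∀ (B : ℕ → Set (G1 D)) (A₁ A₂ : ℝ) (E : ℕ),
    (∀ n, ∀ g ∈ B n, ∀ i, |hgt R D g i| ≤ A₁ * (1 + n)) →
    (∀ n, ∀ g ∈ B n, ∀ g' ∈ B n, hgt R D g = hgt R D g' →
      sz ((g⁻¹ * g' : G1 D) : (Matrix (Fin D.n) (Fin D.n) ℝ)ˣ) ≤ A₂ * (1 + n) ^ E) →
    ∃ A : ℕ, ∀ n, ∃ F : Finset (G1 D), F.card ≤ A * (1 + n) ^ A ∧ (∀ f ∈ F, f ∈ B n) ∧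
      ∀ g ∈ B n, ∃ f ∈ F, len D C₀ (f⁻¹ * g) ≤ K := by
  classical
  obtain ⟨K, hK⟩ := h.len_le_of_sz (C₀ * C₀)
  obtain ⟨c, hc, hcoord⟩ := exists_coord_le D
  refine ⟨K, fun B A₁ A₂ E h1 h2 => ?_⟩
  have hC₀ := h.one_le
  set M₁ : ℕ := ⌈|A₁|⌉₊ with hM₁
  set M₂ : ℕ := ⌈c * (C₀ * |A₂|)⌉₊ with hM₂
  refine ⟨(2 * M₁ + 1) ^ R.k * (2 * M₂ + 1) ^ D.r + R.k + E * D.r, fun n => ?_⟩
  -- integral heights
  let v : G1 D → (Fin R.k → ℤ) := fun g => Multiplicative.toAdd (π1 R D g)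
  have hv : ∀ g i, hgt R D g i = (v g i : ℝ) := fun g i => rfl
  -- representatives of the heights
  have hrep : ∀ w : Fin R.k → ℤ, ∃ g : G1 D, (∃ g' ∈ B n, v g' = w) → g ∈ B n ∧ v g = w := by
    intro w
    by_cases hw : ∃ g' ∈ B n, v g' = w
    · obtain ⟨g, hg, hgw⟩ := hw
      exact ⟨g, fun _ => ⟨hg, hgw⟩⟩
    · exact ⟨1, fun h => absurd h hw⟩
  choose rep hrep using hrep
  -- the lattice element
  have hlat : ∀ g : G1 D, ∃ ν : Γ, g ∈ B n → ν ∈ R.N ∧
      sz ((((rep (v g))⁻¹ * g : G1 D) : (Matrix (Fin D.n) (Fin D.n) ℝ)ˣ)⁻¹ * (D.ρu ν)⁻¹) ≤ C₀ := by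
    intro g
    by_cases hg : g ∈ B n
    · have h3 := (hrep (v g) ⟨g, hg, rfl⟩).2
      have h4 : (((rep (v g))⁻¹ * g : G1 D) : (Matrix (Fin D.n) (Fin D.n) ℝ)ˣ)⁻¹ ∈ D.NR := by
        refine D.NR.inv_mem ?_
        have h5 : (rep (v g))⁻¹ * g ∈ NR1 D := by
          rw [← ker_π1 R D, map_mul, map_inv, inv_mul_eq_one]
          exact Multiplicative.toAdd.injective h3
        exact h5
      obtain ⟨ν, hν, hsz⟩ := h.coc _ h4
      exact ⟨ν, fun _ => ⟨hν, hsz⟩⟩
    · exact ⟨1, fun h => absurd h hg⟩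
  choose ν hν using hlat
  -- the key
  let key : G1 D → (Fin R.k → ℤ) × (Fin D.r → ℤ) := fun g =>
    (v g, fun i => D.coord i (D.ρ (ν g)))
  let KK : Finset ((Fin R.k → ℤ) × (Fin D.r → ℤ)) :=
    (Fintype.piFinset fun _ : Fin R.k => Finset.Icc (-((M₁ * (1 + n) : ℕ) : ℤ))
      ((M₁ * (1 + n) : ℕ) : ℤ)) ×ˢ
    (Fintype.piFinset fun _ : Fin D.r => Finset.Icc (-((M₂ * (1 + n) ^ E : ℕ) : ℤ))
      ((M₂ * (1 + n) ^ E : ℕ) : ℤ))
  have hmemIcc : ∀ (x : ℤ) (M : ℕ), |(x : ℝ)| ≤ M → x ∈ Finset.Icc (-(M : ℤ)) (M : ℤ) := by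
    intro x M hx
    rw [Finset.mem_Icc]
    have := abs_le.1 hx
    constructor
    · have h5 : -(M : ℝ) ≤ x := this.1
      exact_mod_cast h5
    · have h5 : (x : ℝ) ≤ M := this.2
      exact_mod_cast h5
  have hkey : ∀ g ∈ B n, key g ∈ KK := by
    intro g hg
    have hn0 : (0 : ℝ) ≤ n := Nat.cast_nonneg n
    refine Finset.mem_product.2 ⟨?_, ?_⟩
    · rw [Fintype.mem_piFinset]
      intro i
      refine hmemIcc _ _ ?_
      have h3 := h1 n g hg i
      rw [hv] at h3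
      refine h3.trans ?_
      push_cast
      refine mul_le_mul_of_nonneg_right ?_ (by positivity)
      exact (le_abs_self _).trans (Nat.le_ceil _)
    · rw [Fintype.mem_piFinset]
      intro i
      refine hmemIcc _ _ ?_
      obtain ⟨hg1, hg2⟩ := hrep (v g) ⟨g, hg, rfl⟩
      obtain ⟨-, h3⟩ := hν g hg
      have h4 := h2 n _ hg1 _ hg (by
        funext i
        rw [hv, hv, hg2])
      have h5 : sz (D.ρu (ν g)) ≤ C₀ * (|A₂| * (1 + n) ^ E) := by
        have e : D.ρu (ν g) =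
            ((((rep (v g))⁻¹ * g : G1 D) : (Matrix (Fin D.n) (Fin D.n) ℝ)ˣ)⁻¹ *
              (D.ρu (ν g))⁻¹)⁻¹ *
            (((rep (v g))⁻¹ * g : G1 D) : (Matrix (Fin D.n) (Fin D.n) ℝ)ˣ)⁻¹ := by
          group
        rw [e]
        refine (sz_mul _ _).trans ?_
        rw [sz_inv, sz_inv]
        refine mul_le_mul h3 (h4.trans ?_) (by
          have := one_le_sz (((rep (v g))⁻¹ * g : G1 D) : (Matrix (Fin D.n) (Fin D.n) ℝ)ˣ)
          linarith) (by linarith)
        exact mul_le_mul_of_nonneg_right (le_abs_self _) (by positivity)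
      refine (hcoord (ν g) i).trans ((mul_le_mul_of_nonneg_left h5 hc).trans ?_)
      push_cast
      calc c * (C₀ * (|A₂| * (1 + n) ^ E)) = (c * (C₀ * |A₂|)) * (1 + n) ^ E := by ring
        _ ≤ M₂ * (1 + (n : ℝ)) ^ E :=
            mul_le_mul_of_nonneg_right (Nat.le_ceil _) (by positivity)
  obtain ⟨F, hFc, hFB, hF⟩ := exists_reps (B n) key KK hkey
  refine ⟨F, hFc.trans ?_, hFB, fun g hg => ?_⟩
  · rw [Finset.card_product, card_box, card_box]
    have hn1 : 1 ≤ 1 + n := by omega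
    have e1 : 2 * (M₁ * (1 + n)) + 1 ≤ (2 * M₁ + 1) * (1 + n) := by nlinarith
    have e2 : 2 * (M₂ * (1 + n) ^ E) + 1 ≤ (2 * M₂ + 1) * (1 + n) ^ E := by
      have : 1 ≤ (1 + n) ^ E := Nat.one_le_pow _ _ hn1
      nlinarith
    calc (2 * (M₁ * (1 + n)) + 1) ^ R.k * (2 * (M₂ * (1 + n) ^ E) + 1) ^ D.r ≤
        ((2 * M₁ + 1) * (1 + n)) ^ R.k * ((2 * M₂ + 1) * (1 + n) ^ E) ^ D.r :=
          Nat.mul_le_mul (Nat.pow_le_pow_left e1 _) (Nat.pow_le_pow_left e2 _)
      _ = ((2 * M₁ + 1) ^ R.k * (2 * M₂ + 1) ^ D.r) * (1 + n) ^ (R.k + E * D.r) := by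
          rw [mul_pow, mul_pow, ← pow_mul, pow_add]; ring
      _ ≤ _ := by
          refine Nat.mul_le_mul (by omega) (Nat.pow_le_pow_right hn1 (by omega))
  · obtain ⟨f, hf, hfg⟩ := hF g hg
    refine ⟨f, hf, hK _ ?_⟩
    have hfB := hFB f hf
    have h3 : v f = v g := congrArg Prod.fst hfg
    have h4 : ν f = ν g := by
      refine eq_of_coord (D := D) (hν f hfB).1 (hν g hg).1 fun i => ?_
      exact congrFun (congrArg Prod.snd hfg) i
    obtain ⟨-, h5⟩ := hν f hfB
    obtain ⟨-, h6⟩ := hν g hg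
    rw [h3, h4] at h5
    have e : ((f⁻¹ * g : G1 D) : (Matrix (Fin D.n) (Fin D.n) ℝ)ˣ) =
        ((((rep (v g))⁻¹ * f : G1 D) : (Matrix (Fin D.n) (Fin D.n) ℝ)ˣ)⁻¹ * (D.ρu (ν g))⁻¹) *
        ((((rep (v g))⁻¹ * g : G1 D) : (Matrix (Fin D.n) (Fin D.n) ℝ)ˣ)⁻¹ *
          (D.ρu (ν g))⁻¹)⁻¹ := by
      simp only [Subgroup.coe_mul, Subgroup.coe_inv]
      group
    rw [e]
    refine (sz_mul _ _).trans ?_
    rw [sz_inv]
    have h7 := one_le_sz ((((rep (v g))⁻¹ * g : G1 D) : (Matrix (Fin D.n) (Fin D.n) ℝ)ˣ)⁻¹ *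
          (D.ρu (ν g))⁻¹)
    exact mul_le_mul h5 h6 (by linarith) (by linarith)

/-- the hypothesis on products of height zero -/
def HGrowth {D : EmbData Γ R.N} (𝒞 : Cartan D (π1 R D)) (C₀ : ℝ) : Prop :=
  ∀ Rr : ℝ, ∃ (A : ℝ) (E : ℕ), 0 ≤ A ∧ ∀ l : List (G1 D),
    (∀ s ∈ l, s ∈ 𝒞.C ∧ (len D C₀ s : ℝ) ≤ Rr) → hgt R D l.prod = 0 →
    sz (l.prod : (Matrix (Fin D.n) (Fin D.n) ℝ)ˣ) ≤ A * (1 + l.length) ^ E

/-- **polynomial growth of `C`** (field `C_growth`; the constant `K` does not depend on `Rr`) -/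
theorem C_growth (h : Big D S C₀) (𝒞 : Cartan D (π1 R D)) (hgr : HGrowth 𝒞 C₀) :
    ∃ K : ℕ, ∀ Rr : ℝ, ∃ A : ℕ, ∀ n : ℕ, ∃ F : Finset (G1 D), F.card ≤ A * (1 + n) ^ A ∧
      ∀ l : List (G1 D), l.length ≤ n → (∀ s ∈ l, s ∈ 𝒞.C ∧ (len D C₀ s : ℝ) ≤ Rr) →
        ∃ f ∈ F, f ∈ 𝒞.C ∧ (len D C₀ (f⁻¹ * l.prod) : ℝ) ≤ K := by
  obtain ⟨K, hK⟩ := count (D := D) (S := S) (C₀ := C₀) (R := R) h
  refine ⟨K, fun Rr => ?_⟩
  obtain ⟨A₂, E, hA₂, hg⟩ := hgr Rr
  obtain ⟨a, ha, hh⟩ := h.hgt_le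
  let B : ℕ → Set (G1 D) := fun n => {g | ∃ l : List (G1 D), l.length ≤ n ∧
    (∀ s ∈ l, s ∈ 𝒞.C ∧ (len D C₀ s : ℝ) ≤ Rr) ∧ l.prod = g}
  have hlen : ∀ l : List (G1 D), (∀ s ∈ l, s ∈ 𝒞.C ∧ (len D C₀ s : ℝ) ≤ Rr) →
      (len D C₀ l.prod : ℝ) ≤ l.length * |Rr| := by
    intro l
    induction l with
    | nil => intro _; rw [List.prod_nil, h.len_one]; simp
    | cons x l ih =>
      intro hl
      rw [List.prod_cons, List.length_cons]
      have h1 : (len D C₀ (x * l.prod) : ℝ) ≤ len D C₀ x + len D C₀ l.prod := by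
        exact_mod_cast h.len_mul x l.prod
      have h2 := ih fun s hs => hl s (by simp [hs])
      have h3 := ((hl x (by simp)).2).trans (le_abs_self Rr)
      push_cast
      linarith
  obtain ⟨A, hA⟩ := hK B (a * |Rr|) (A₂ * 2 ^ E) E (by
    rintro n g ⟨l, hln, hl, rfl⟩ i
    refine (hh _ i).trans ?_
    have h1 := hlen l hl
    have h2 : (l.length : ℝ) ≤ n := by exact_mod_cast hln
    have h3 := abs_nonneg Rr
    calc a * len D C₀ l.prod ≤ a * (l.length * |Rr|) := mul_le_mul_of_nonneg_left h1 ha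
      _ ≤ a * ((1 + n) * |Rr|) := by
          refine mul_le_mul_of_nonneg_left ?_ ha
          exact mul_le_mul_of_nonneg_right (by linarith) h3
      _ = _ := by ring) (by
    rintro n _ ⟨l, hln, hl, rfl⟩ _ ⟨l', hln', hl', rfl⟩ hgg'
    have h1 := hg ((l.map (fun x => x⁻¹)).reverse ++ l') (by
      intro s hs
      rw [List.mem_append, List.mem_reverse, List.mem_map] at hs
      rcases hs with ⟨x, hx, rfl⟩ | hs
      · exact ⟨𝒞.C.inv_mem (hl x hx).1, by rw [h.len_inv]; exact (hl x hx).2⟩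
      · exact hl' s hs) (by
      rw [List.prod_append, ← List.prod_inv_reverse, hgt_mul, hgt_inv, hgg', neg_add_cancel])
    rw [List.prod_append, ← List.prod_inv_reverse] at h1
    refine h1.trans ?_
    rw [List.length_append, List.length_reverse, List.length_map, mul_assoc, ← mul_pow]
    refine mul_le_mul_of_nonneg_left (pow_le_pow_left₀ (by positivity) ?_ _) hA₂
    have e1 : (l.length : ℝ) ≤ n := by exact_mod_cast hln
    have e2 : (l'.length : ℝ) ≤ n := by exact_mod_cast hln'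
    push_cast
    linarith)
  refine ⟨A, fun n => ?_⟩
  obtain ⟨F, hF1, hF2, hF3⟩ := hA n
  refine ⟨F, hF1, fun l hln hl => ?_⟩
  obtain ⟨f, hf, hfl⟩ := hF3 l.prod ⟨l, hln, hl, rfl⟩
  obtain ⟨l', -, hl', rfl⟩ := hF2 f hf
  exact ⟨_, hf, 𝒞.C.list_prod_mem fun s hs => (hl' s hs).1, by exact_mod_cast hfl⟩

end growth

end Crest.Agent.R182.ModelWt
end

-- ▼ part R182/BoxBCH
section

set_option autoImplicit false
set_option linter.unusedSectionVars false

namespace Crest.Agent.R182.Nb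

open Finset Model Polyc

section matrix

variable {n : ℕ}

theorem qsmul_End (q : ℚ) (f : Module.End ℝ (Matrix (Fin n) (Fin n) ℝ))
    (y : Matrix (Fin n) (Fin n) ℝ) : (q • f) y = (q : ℝ) • f y := by
  rw [LinearMap.smul_apply]
  ext i j
  simp [Matrix.smul_apply, Rat.smul_def]

theorem ex_mul_mul_ex_neg {X : Matrix (Fin n) (Fin n) ℝ} (hX : X ^ n = 0)
    (Y : Matrix (Fin n) (Fin n) ℝ) (K : ℕ) (hK : 2 * n ≤ K) :
    ex X * Y * ex (-X) =
      ∑ i ∈ range K, ((i.factorial : ℝ)⁻¹) • (fun Z => X * Z - Z * X)^[i] Y := by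
  set a : Module.End ℝ (Matrix (Fin n) (Fin n) ℝ) := LinearMap.mulLeft ℝ X with ha
  set b : Module.End ℝ (Matrix (Fin n) (Fin n) ℝ) := LinearMap.mulRight ℝ (-X) with hb
  have ha0 : a ^ n = 0 := by
    rw [ha, LinearMap.pow_mulLeft, hX]; ext; simp
  have hb0 : b ^ n = 0 := by
    have : (-X) ^ n = 0 := by rw [neg_pow, hX, mul_zero]
    rw [hb, LinearMap.pow_mulRight, this]; ext; simp
  have hcomm : Commute a b := by
    rw [ha, hb]
    change _ * _ = _ * _
    apply LinearMap.ext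
    intro Z
    simp only [Module.End.mul_apply, LinearMap.mulLeft_apply, LinearMap.mulRight_apply, mul_assoc]
  have h1 := IsNilpotent.exp_add_of_commute hcomm ⟨n, ha0⟩ ⟨n, hb0⟩
  have hab : (a + b) ^ K = 0 := by
    rcases Nat.eq_zero_or_pos n with h | h
    · subst h
      have : Subsingleton (Matrix (Fin 0) (Fin 0) ℝ) := inferInstance
      exact Subsingleton.elim _ _
    · exact Commute.add_pow_eq_zero_of_add_le_succ_of_pow_eq_zero hcomm ha0 hb0 (by omega)
  have h2 : IsNilpotent.exp (a + b) Y = ∑ i ∈ range K, ((i.factorial : ℝ)⁻¹) •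
      (fun Z => X * Z - Z * X)^[i] Y := by
    rw [IsNilpotent.exp_eq_sum hab, LinearMap.sum_apply]
    refine Finset.sum_congr rfl fun i _ => ?_
    rw [qsmul_End, Module.End.pow_apply]
    push_cast
    have : ((a + b : Module.End ℝ (Matrix (Fin n) (Fin n) ℝ)) : Matrix (Fin n) (Fin n) ℝ →
        Matrix (Fin n) (Fin n) ℝ) = fun Z => X * Z - Z * X := by
      funext Z
      rw [LinearMap.add_apply, ha, hb, LinearMap.mulLeft_apply, LinearMap.mulRight_apply, mul_neg,
        sub_eq_add_neg]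
    rw [this]
  have h3 : ∀ Z, IsNilpotent.exp a Z = ex X * Z := by
    intro Z
    rw [IsNilpotent.exp_eq_sum ha0, LinearMap.sum_apply, ex, Finset.sum_mul]
    refine Finset.sum_congr rfl fun i _ => ?_
    rw [qsmul_End, ha, LinearMap.pow_mulLeft, LinearMap.mulLeft_apply, smul_mul_assoc]
    push_cast; rfl
  have h4 : ∀ Z, IsNilpotent.exp b Z = Z * ex (-X) := by
    intro Z
    rw [IsNilpotent.exp_eq_sum hb0, LinearMap.sum_apply, ex, Finset.mul_sum]
    refine Finset.sum_congr rfl fun i _ => ?_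
    rw [qsmul_End, hb, LinearMap.pow_mulRight, LinearMap.mulRight_apply, mul_smul_comm]
    push_cast; rfl
  rw [← h2, h1]
  change _ = IsNilpotent.exp a (IsNilpotent.exp b Y)
  rw [h3, h4, mul_assoc]

end matrix

section

attribute [local instance 100] LieRing.ofAssociativeRing

variable {Γ : Type*} [Group Γ] {N : Subgroup Γ} (D : EmbData Γ N)




end

end Crest.Agent.R182.Nb
end

-- ▼ part R182/BoxBCHE
section

set_option autoImplicit false
set_option linter.unusedSectionVars false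

namespace Crest.Agent.R182.ModelWt

open Module LinMod Polyc Model Finset

section cartan

attribute [local instance 100] LieRing.ofAssociativeRing

variable {Γ : Type*} [Group Γ] {N : Subgroup Γ} [hN : N.Normal]
  {D : EmbData Γ N} {k : ℕ} {π₁ : G1 D →* Multiplicative (Fin k → ℤ)}

namespace Cartan

variable (𝒞 : Cartan D π₁)

theorem coe_iter_lieE (x y : 𝒞.eA) (i : ℕ) :
    (((fun z : 𝒞.eA => ⁅x, z⁆)^[i] y : 𝒞.eA) : Matrix (Fin D.n) (Fin D.n) ℝ) =
      (fun Z => (x : Matrix (Fin D.n) (Fin D.n) ℝ) * Z - Z * x)^[i] (y : Matrix _ _ ℝ) := by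
  induction i with
  | zero => rfl
  | succ i ih =>
    rw [Function.iterate_succ_apply', Function.iterate_succ_apply', ← ih, coe_bracket]

theorem mon_replicateE (x y : 𝒞.eA) (i : ℕ) :
    Nb.mon id (List.replicate i x ++ [y]) = (fun z : 𝒞.eA => ⁅x, z⁆)^[i] y := by
  induction i with
  | zero => rfl
  | succ i ih =>
    rw [List.replicate_succ, List.cons_append, Nb.mon_cons id x (by simp), ih,
      Function.iterate_succ_apply']
    rfl

theorem starE_bch {c : ℕ} (hN : Nb.NilC c 𝒞.eA) : 𝒞.starE.BCH1 c := by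
  intro x y
  have hvan : ∀ i, c ≤ i → (fun z : 𝒞.eA => ⁅x, z⁆)^[i] y = 0 := by
    intro i hi
    rw [← mon_replicateE]
    apply hN
    rw [List.length_append, List.length_replicate, List.length_singleton]
    omega
  apply 𝒞.ex_injE
  have h1 : ex ((𝒞.starE.cj x y : 𝒞.eA) : Matrix (Fin D.n) (Fin D.n) ℝ) =
      ex (x : Matrix (Fin D.n) (Fin D.n) ℝ) * ex (y : Matrix (Fin D.n) (Fin D.n) ℝ) *
        ex (-(x : Matrix (Fin D.n) (Fin D.n) ℝ)) := by
    change ex ((𝒞.opE (𝒞.opE x y) (-x) : 𝒞.eA) : Matrix (Fin D.n) (Fin D.n) ℝ) = _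
    rw [ex_opE, ex_opE, NegMemClass.coe_neg]
  have hx0 := lie_pow_zero D (𝒞.eA_mem_lie x)
  rw [h1, ← ex_conj (ex_mul_ex_neg hx0) (ex_neg_mul_ex hx0)]
  congr 1
  set K := max (2 * D.n) (c + 1) with hK
  rw [Nb.ex_mul_mul_ex_neg hx0 (y : Matrix (Fin D.n) (Fin D.n) ℝ) K (le_max_left _ _)]
  have h2 : ∑ n ∈ range (c + 1), ((n.factorial : ℝ)⁻¹) • (fun z : 𝒞.eA => ⁅x, z⁆)^[n] y =
      ∑ n ∈ range K, ((n.factorial : ℝ)⁻¹) • (fun z : 𝒞.eA => ⁅x, z⁆)^[n] y := by
    refine Finset.sum_subset (Finset.range_mono (le_max_right _ _)) fun i _ hi => ?_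
    rw [Finset.mem_range, not_lt] at hi
    rw [hvan i (by omega), smul_zero]
  rw [h2]
  symm
  change ((𝒞.eA).toSubmodule.subtype _) = _
  rw [map_sum]
  refine Finset.sum_congr rfl fun i _ => ?_
  rw [map_smul]
  congr 1
  exact 𝒞.coe_iter_lieE x y i

end Cartan

end cartan

end Crest.Agent.R182.ModelWt
end

-- ▼ part R182/ModelVol

set_option autoImplicit false
set_option linter.unusedSectionVars false

namespace Crest.Agent.R182.ModelVol

open MvPolynomial MeasureTheory Crest.Agent.R182.Polyc Crest.Agent.R182.ModelCount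
  Crest.Agent.R182.Nb

section abstract

variable {L : Type*} [LieRing L] [LieAlgebra ℝ L] {r : ℕ} (bas : Module.Basis (Fin r) ℝ L)
variable {σ τ : Type*}

/-- an `L`-valued function with polynomial coordinates -/
def PL (f : (σ → ℝ) → L) : Prop := ∀ i, IsPoly (fun x => bas.repr (f x) i)

variable {bas}

theorem PL.lie {f g : (σ → ℝ) → L} (hf : PL bas f) (hg : PL bas g) :
    PL bas (fun x => ⁅f x, g x⁆) := by
  intro l
  have key : ∀ x, bas.repr ⁅f x, g x⁆ l = ∑ i ∈ Finset.univ, ∑ j ∈ Finset.univ,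
      bas.repr (f x) i * bas.repr (g x) j * bas.repr ⁅bas i, bas j⁆ l := by
    intro x
    conv_lhs => rw [← bas.sum_repr (f x), ← bas.sum_repr (g x)]
    rw [sum_lie, map_sum, Finsupp.coe_finsetSum, Finset.sum_apply]
    refine Finset.sum_congr rfl fun i _ => ?_
    rw [lie_sum, map_sum, Finsupp.coe_finsetSum, Finset.sum_apply]
    refine Finset.sum_congr rfl fun j _ => ?_
    rw [smul_lie, lie_smul, smul_smul, map_smul, Finsupp.smul_apply, smul_eq_mul]
  simp only [key]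
  exact Polyc.IsPoly.sum _ fun i _ => Polyc.IsPoly.sum _ fun j _ =>
    ((hf i).mul (hg j)).mul (Polyc.IsPoly.const _)

theorem PL.mon {v : (σ → ℝ) → τ → L} (hv : ∀ s, PL bas (fun x => v x s)) (κ : List τ) :
    PL bas (fun x => Nb.mon (v x) κ) := by
  induction κ with
  | nil =>
    intro i
    simp only [Nb.mon_nil, map_zero, Finsupp.coe_zero, Pi.zero_apply]
    exact Polyc.IsPoly.const 0
  | cons i κ ih =>
    by_cases h : κ = []
    · subst h; simp only [Nb.mon_single]; exact hv i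
    · simp only [Nb.mon_cons _ i h]
      exact (hv i).lie ih

theorem PL.lp {f : (τ → L) → L} (hf : f ∈ LP τ L) {v : (σ → ℝ) → τ → L}
    (hv : ∀ s, PL bas (fun x => v x s)) : PL bas (fun x => f (v x)) := by
  induction hf using Submodule.span_induction with
  | mem f hf =>
    obtain ⟨κ, rfl⟩ := hf
    exact PL.mon hv κ
  | zero =>
    intro i
    simp only [Pi.zero_apply, map_zero, Finsupp.coe_zero]
    exact Polyc.IsPoly.const 0
  | add f g _ _ hf hg =>
    intro i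
    simp only [Pi.add_apply, map_add, Finsupp.add_apply]
    exact (hf i).add (hg i)
  | smul c f _ hf =>
    intro i
    simp only [Pi.smul_apply, map_smul, Finsupp.smul_apply, smul_eq_mul]
    exact (Polyc.IsPoly.const c).mul (hf i)

theorem PL.op (S : Nb.Star L) {f g : (σ → ℝ) → L} (hf : PL bas f) (hg : PL bas g) :
    PL bas (fun x => S.op (f x) (g x)) := by
  have := PL.lp (bas := bas) S.lp (v := fun x b => if b = false then f x else g x) (by
    intro s
    cases s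
    · simpa using hf
    · simpa using hg)
  simpa using this

theorem PL.neg {f : (σ → ℝ) → L} (hf : PL bas f) : PL bas (fun x => - f x) := by
  intro i
  simp only [map_neg, Finsupp.neg_apply]
  exact (hf i).neg

variable (bas)

/-- the coordinate map -/
theorem PL.coord (g : Fin r → σ) : PL bas (fun z : σ → ℝ => bas.equivFun.symm fun i => z (g i)) := by
  intro i
  have : (fun z : σ → ℝ => bas.repr (bas.equivFun.symm fun i => z (g i)) i) =
      fun z => z (g i) := by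
    funext z
    rw [← Module.Basis.equivFun_apply, LinearEquiv.apply_symm_apply]
  rw [this]
  exact Polyc.IsPoly.coord _

theorem op_neg' (S : Nb.Star L) (x : L) : S.op (-x) x = 0 := by
  have := S.op_neg (-x)
  rwa [neg_neg] at this

theorem isPoly_continuous {f : (σ → ℝ) → (Fin r → ℝ)} (hf : ∀ i, IsPoly (fun x => f x i)) :
    Continuous f := continuous_pi fun i => (hf i).continuous

/-- a measurable bijection with measurable inverse whose inverse preserves volumes of images -/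
theorem mp_of_image {f g : (Fin r → ℝ) → (Fin r → ℝ)} (hf : Continuous f)
    (hgf : ∀ x, g (f x) = x) (hfg : ∀ x, f (g x) = x)
    (hvol : ∀ S : Set (Fin r → ℝ), MeasurableSet S → volume (g '' S) = volume S) :
    MeasurePreserving f volume volume := by
  refine ⟨hf.measurable, Measure.ext fun S hS => ?_⟩
  rw [Measure.map_apply hf.measurable hS]
  have : f ⁻¹' S = g '' S := by
    ext x
    constructor
    · intro hx
      exact ⟨f x, hx, hgf x⟩
    · rintro ⟨y, hy, rfl⟩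
      change f (g y) ∈ S
      rw [hfg]; exact hy
  rw [this, hvol S hS]

/-- left translations -/
theorem measurePreserving_left (S : Nb.Star L) (x : L) :
    MeasurePreserving (fun y : Fin r → ℝ => bas.equivFun (S.op x (bas.equivFun.symm y))) := by
  have hF : ∀ i, IsPoly (fun z : Fin r ⊕ Fin r → ℝ =>
      (bas.equivFun (S.op (bas.equivFun.symm fun a => z (Sum.inl a))
        (bas.equivFun.symm fun b => z (Sum.inr b)))) i) :=
    fun i => (PL.coord bas Sum.inl).op S (PL.coord bas Sum.inr) i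
  have hG : ∀ i, IsPoly (fun z : Fin r ⊕ Fin r → ℝ =>
      (bas.equivFun (S.op (-(bas.equivFun.symm fun a => z (Sum.inl a)))
        (bas.equivFun.symm fun b => z (Sum.inr b)))) i) :=
    fun i => ((PL.coord bas Sum.inl).neg).op S (PL.coord bas Sum.inr) i
  have hvol : ∀ (t : Fin r → ℝ) (A : Set (Fin r → ℝ)), MeasurableSet A →
      volume ((fun y : Fin r → ℝ => bas.equivFun (S.op (bas.equivFun.symm t)
        (bas.equivFun.symm y))) '' A) = volume A := by
    intro t A hA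
    refine volume_image_family
      (F := fun t y => bas.equivFun (S.op (bas.equivFun.symm t) (bas.equivFun.symm y)))
      (G := fun t y => bas.equivFun (S.op (-(bas.equivFun.symm t)) (bas.equivFun.symm y)))
      hF hG ?_ (t₀ := 0) ?_ t hA
    · intro t y
      rw [LinearEquiv.symm_apply_apply, ← S.assoc, op_neg', S.zero_op,
        LinearEquiv.apply_symm_apply]
    · intro y
      rw [map_zero, S.zero_op, LinearEquiv.apply_symm_apply]
  refine mp_of_image (g := fun y => bas.equivFun (S.op (-x) (bas.equivFun.symm y))) ?_ ?_ ?_ ?_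
  · refine isPoly_continuous fun i => ?_
    have hc : PL bas (fun _ : Fin r → ℝ => x) := fun i => Polyc.IsPoly.const _
    exact hc.op S (PL.coord bas id) i
  · intro y
    rw [LinearEquiv.symm_apply_apply, ← S.assoc, op_neg', S.zero_op, LinearEquiv.apply_symm_apply]
  · intro y
    rw [LinearEquiv.symm_apply_apply, ← S.assoc, S.op_neg, S.zero_op, LinearEquiv.apply_symm_apply]
  · intro A hA
    have := hvol (bas.equivFun (-x)) A hA
    rwa [LinearEquiv.symm_apply_apply] at this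

/-- right translations -/
theorem measurePreserving_right (S : Nb.Star L) (x : L) :
    MeasurePreserving (fun y : Fin r → ℝ => bas.equivFun (S.op (bas.equivFun.symm y) x)) := by
  have hF : ∀ i, IsPoly (fun z : Fin r ⊕ Fin r → ℝ =>
      (bas.equivFun (S.op (bas.equivFun.symm fun b => z (Sum.inr b))
        (bas.equivFun.symm fun a => z (Sum.inl a)))) i) :=
    fun i => (PL.coord bas Sum.inr).op S (PL.coord bas Sum.inl) i
  have hG : ∀ i, IsPoly (fun z : Fin r ⊕ Fin r → ℝ =>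
      (bas.equivFun (S.op (bas.equivFun.symm fun b => z (Sum.inr b))
        (-(bas.equivFun.symm fun a => z (Sum.inl a))))) i) :=
    fun i => (PL.coord bas Sum.inr).op S ((PL.coord bas Sum.inl).neg) i
  have hvol : ∀ (t : Fin r → ℝ) (A : Set (Fin r → ℝ)), MeasurableSet A →
      volume ((fun y : Fin r → ℝ => bas.equivFun (S.op (bas.equivFun.symm y)
        (bas.equivFun.symm t))) '' A) = volume A := by
    intro t A hA
    refine volume_image_family
      (F := fun t y => bas.equivFun (S.op (bas.equivFun.symm y) (bas.equivFun.symm t)))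
      (G := fun t y => bas.equivFun (S.op (bas.equivFun.symm y) (-(bas.equivFun.symm t))))
      hF hG ?_ (t₀ := 0) ?_ t hA
    · intro t y
      rw [LinearEquiv.symm_apply_apply, S.assoc, S.op_neg, S.op_zero,
        LinearEquiv.apply_symm_apply]
    · intro y
      rw [map_zero, S.op_zero, LinearEquiv.apply_symm_apply]
  refine mp_of_image (g := fun y => bas.equivFun (S.op (bas.equivFun.symm y) (-x))) ?_ ?_ ?_ ?_
  · refine isPoly_continuous fun i => ?_
    have hc : PL bas (fun _ : Fin r → ℝ => x) := fun i => Polyc.IsPoly.const _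
    exact (PL.coord bas id).op S hc i
  · intro y
    rw [LinearEquiv.symm_apply_apply, S.assoc, S.op_neg, S.op_zero, LinearEquiv.apply_symm_apply]
  · intro y
    rw [LinearEquiv.symm_apply_apply, S.assoc, op_neg', S.op_zero, LinearEquiv.apply_symm_apply]
  · intro A hA
    have := hvol (bas.equivFun (-x)) A hA
    rwa [LinearEquiv.symm_apply_apply] at this

/-- linear automorphisms of determinant `±1` -/
theorem measurePreserving_linear (φ : L ≃ₗ[ℝ] L) (hφ : |LinearMap.det (φ : L →ₗ[ℝ] L)| = 1) :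
    MeasurePreserving (fun y : Fin r → ℝ => bas.equivFun (φ (bas.equivFun.symm y))) := by
  set f : (Fin r → ℝ) →ₗ[ℝ] (Fin r → ℝ) :=
    (bas.equivFun : L →ₗ[ℝ] (Fin r → ℝ)) ∘ₗ (φ : L →ₗ[ℝ] L) ∘ₗ
      (bas.equivFun.symm : (Fin r → ℝ) →ₗ[ℝ] L) with hf
  have hdet : LinearMap.det f = LinearMap.det (φ : L →ₗ[ℝ] L) := by
    rw [hf]; exact LinearMap.det_conj _ _
  have hne : LinearMap.det f ≠ 0 := by
    intro h0
    rw [← hdet, h0, abs_zero] at hφ
    exact zero_ne_one hφ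
  have hc : Continuous f := LinearMap.continuous_of_finiteDimensional f
  have hfun : (fun y : Fin r → ℝ => bas.equivFun (φ (bas.equivFun.symm y))) = f := rfl
  rw [hfun]
  refine ⟨hc.measurable, ?_⟩
  rw [Measure.map_linearMap_addHaar_eq_smul_addHaar volume hne, abs_inv, hdet, hφ, inv_one,
    ENNReal.ofReal_one, one_smul]

end abstract

section instance'

open Crest.Agent.R182.ModelWt Crest.Agent.R182.Model

attribute [local instance] Matrix.linftyOpNormedRing Matrix.linftyOpNormedAlgebra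

variable {Γ : Type*} [Group Γ] {N : Subgroup Γ} [hN : N.Normal]
  {D : EmbData Γ N} {k : ℕ} {π₁ : G1 D →* Multiplicative (Fin k → ℤ)} {𝒞 : Cartan D π₁}

theorem vol_left (𝒷 : AdBas 𝒞) (x : 𝒞.eA) : MeasurePreserving
    (fun y : Fin 𝒷.r → ℝ => 𝒷.bas.equivFun (𝒞.starE.op x (𝒷.bas.equivFun.symm y))) :=
  measurePreserving_left 𝒷.bas 𝒞.starE x

theorem vol_right (𝒷 : AdBas 𝒞) (x : 𝒞.eA) : MeasurePreserving
    (fun y : Fin 𝒷.r → ℝ => 𝒷.bas.equivFun (𝒞.starE.op (𝒷.bas.equivFun.symm y) x)) :=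
  measurePreserving_right 𝒷.bas 𝒞.starE x

theorem vol_Ad (𝒷 : AdBas 𝒞)
    (hs : ∀ v : Fin k → ℤ, ∃ γ : Γ, Multiplicative.toAdd (π₁ (inΓ D γ)) = v) (g : G1 D) :
    MeasurePreserving
      (fun y : Fin 𝒷.r → ℝ => 𝒷.bas.equivFun (𝒞.AdE g (𝒷.bas.equivFun.symm y))) :=
  measurePreserving_linear 𝒷.bas (𝒞.AdE g) (AdBas.abs_det_AdE 𝒷 hs g)

end instance'

end Crest.Agent.R182.ModelVol
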