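import Mathlib
import Crest.Agent.R182.ModelDist1
import Crest.Agent.R182.ModelBas2
import Crest.Agent.R182.ModelInst2
import Crest.Agent.R182.ModelDec

-- ▼ part R182/ModelDist2
section

set_option autoImplicit false

namespace Crest.Agent.R182.ModelDist

open Polyc Model

variable {Γ : Type*} [Group Γ] {N : Subgroup Γ} {D : EmbData Γ N} {W : Type*} [AddCommGroup W]
  {V : W → Submodule ℝ (Matrix (Fin D.n) (Fin D.n) ℝ)}

/-! ### products modulo the filtration -/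

/-- `g ∈ N_ℝ` with logarithm `≡ Y` modulo the next filtration step. -/
structure Cong (V : W → Submodule ℝ (Matrix (Fin D.n) (Fin D.n) ℝ)) (j : ℕ)
    (g : (Matrix (Fin D.n) (Fin D.n) ℝ)ˣ) (Y : Matrix (Fin D.n) (Fin D.n) ℝ) : Prop where
  mem : g ∈ D.NR
  lg : lg (g : Matrix (Fin D.n) (Fin D.n) ℝ) - Y ∈ eN V (j + 1)
  Y_mem : Y ∈ eN V j

theorem Cong.lg_mem {j : ℕ} {g : (Matrix (Fin D.n) (Fin D.n) ℝ)ˣ}
    {Y : Matrix (Fin D.n) (Fin D.n) ℝ} (h : Cong V j g Y) :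
    Model.lg (g : Matrix (Fin D.n) (Fin D.n) ℝ) ∈ eN V j := by
  have h1 := Submodule.add_mem _ (eN_anti (Nat.le_succ j) h.lg) h.Y_mem
  rwa [sub_add_cancel] at h1

/-- product of elements of `exp(𝔢_j)` modulo `𝔢_{j+1}` and more precisely modulo `𝔢_i` if the
bracket is there. -/
theorem Wts.lg_mul (hV : Wts D V) {i : ℕ} {X Y : Matrix (Fin D.n) (Fin D.n) ℝ} (hX : X ∈ lie D)
    (hY : Y ∈ lie D) (hXY : X * Y - Y * X ∈ eN V i) :
    lg (ex X * ex Y) - (X + Y) ∈ eN V i :=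
  lg_mul_ideal (hV.eN_le i) hX hY (fun _ hZ => hV.br_lie hX hZ) (fun _ hZ => hV.br_lie hY hZ)
    (fun _ hU _ hZ => hV.br_lie (hV.eN_le i hU) hZ) hXY

theorem lg_one : lg (1 : Matrix (Fin D.n) (Fin D.n) ℝ) = 0 := by
  have h0 := lg_ex (lie_pow_zero D (lie D).zero_mem)
  rwa [ex_zero] at h0

theorem Cong.one (j : ℕ) : Cong V j (1 : (Matrix (Fin D.n) (Fin D.n) ℝ)ˣ) 0 where
  mem := D.NR.one_mem
  lg := by rw [Units.val_one, lg_one, sub_zero]; exact Submodule.zero_mem _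
  Y_mem := Submodule.zero_mem _

theorem Cong.mul (hV : Wts D V) {j : ℕ} {g g' : (Matrix (Fin D.n) (Fin D.n) ℝ)ˣ}
    {Y Y' : Matrix (Fin D.n) (Fin D.n) ℝ} (h : Cong V j g Y) (h' : Cong V j g' Y') :
    Cong V j (g * g') (Y + Y') where
  mem := D.NR.mul_mem h.mem h'.mem
  lg := by
    have h1 := hV.lg_mul (i := j + 1) (lg_mem_lie D h.mem) (lg_mem_lie D h'.mem)
      (eN_anti (by omega) (br_eN h.lg_mem h'.lg_mem))
    rw [ex_lg (D.unip_NR h.mem), ex_lg (D.unip_NR h'.mem), ← Units.val_mul] at h1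
    have e : Model.lg ((g * g' : (Matrix (Fin D.n) (Fin D.n) ℝ)ˣ) :
        Matrix (Fin D.n) (Fin D.n) ℝ) - (Y + Y') =
        (Model.lg ((g * g' : (Matrix (Fin D.n) (Fin D.n) ℝ)ˣ) : Matrix (Fin D.n) (Fin D.n) ℝ) -
          (Model.lg (g : Matrix (Fin D.n) (Fin D.n) ℝ) +
            Model.lg (g' : Matrix (Fin D.n) (Fin D.n) ℝ))) +
        ((Model.lg (g : Matrix (Fin D.n) (Fin D.n) ℝ) - Y) +
          (Model.lg (g' : Matrix (Fin D.n) (Fin D.n) ℝ) - Y')) := by abel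
    rw [e]
    exact Submodule.add_mem _ h1 (Submodule.add_mem _ h.lg h'.lg)
  Y_mem := Submodule.add_mem _ h.Y_mem h'.Y_mem

theorem lg_inv {g : (Matrix (Fin D.n) (Fin D.n) ℝ)ˣ} (hg : g ∈ D.NR) :
    lg ((g⁻¹ : (Matrix (Fin D.n) (Fin D.n) ℝ)ˣ) : Matrix (Fin D.n) (Fin D.n) ℝ) =
      -lg (g : Matrix (Fin D.n) (Fin D.n) ℝ) := by
  have h0 := lg_pow_zero (D.unip_NR hg)
  have h1 : ((g⁻¹ : (Matrix (Fin D.n) (Fin D.n) ℝ)ˣ) : Matrix (Fin D.n) (Fin D.n) ℝ) =
      ex (-lg (g : Matrix (Fin D.n) (Fin D.n) ℝ)) := by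
    have h2 := ex_neg_mul_ex h0
    rw [ex_lg (D.unip_NR hg)] at h2
    calc ((g⁻¹ : (Matrix (Fin D.n) (Fin D.n) ℝ)ˣ) : Matrix (Fin D.n) (Fin D.n) ℝ) =
        (ex (-lg (g : Matrix (Fin D.n) (Fin D.n) ℝ)) * g) *
          ((g⁻¹ : (Matrix (Fin D.n) (Fin D.n) ℝ)ˣ) : Matrix (Fin D.n) (Fin D.n) ℝ) := by
          rw [h2, one_mul]
      _ = _ := by rw [mul_assoc, Units.mul_inv, mul_one]
  rw [h1, lg_ex (by rw [neg_pow, h0, mul_zero])]

theorem Cong.inv {j : ℕ} {g : (Matrix (Fin D.n) (Fin D.n) ℝ)ˣ}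
    {Y : Matrix (Fin D.n) (Fin D.n) ℝ} (h : Cong V j g Y) : Cong V j g⁻¹ (-Y) where
  mem := D.NR.inv_mem h.mem
  lg := by
    rw [lg_inv h.mem]
    have e : -Model.lg (g : Matrix (Fin D.n) (Fin D.n) ℝ) - -Y =
      -(Model.lg (g : Matrix (Fin D.n) (Fin D.n) ℝ) - Y) := by abel
    rw [e]
    exact Submodule.neg_mem _ h.lg
  Y_mem := Submodule.neg_mem _ h.Y_mem

theorem Wts.cong_exU (hV : Wts D V) {j : ℕ} {Y : Matrix (Fin D.n) (Fin D.n) ℝ}
    (hY : Y ∈ eN V j) : Cong V j (exU Y (lie_pow_zero D (hV.eN_le j hY))) Y where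
  mem := exU_mem_of_lie D (hV.eN_le j hY)
  lg := by
    have h0 := lie_pow_zero D (hV.eN_le j hY)
    show lg (ex Y) - Y ∈ _
    rw [lg_ex h0, sub_self]; exact Submodule.zero_mem _
  Y_mem := hY

/-- product of a list modulo the filtration -/
theorem Cong.list (hV : Wts D V) {j : ℕ} (l : List ((Matrix (Fin D.n) (Fin D.n) ℝ)ˣ ×
    Matrix (Fin D.n) (Fin D.n) ℝ)) (h : ∀ p ∈ l, Cong V j p.1 p.2) :
    Cong V j (l.map Prod.fst).prod (l.map Prod.snd).sum := by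
  induction l with
  | nil => simpa using Cong.one j
  | cons p l ih =>
    simp only [List.map_cons, List.prod_cons, List.sum_cons]
    exact (h p (by simp)).mul hV (ih fun q hq => h q (by simp [hq]))

/-- the group commutator `(exp a, exp b)` -/
theorem Wts.cong_comm (hV : Wts D V) {a b : Matrix (Fin D.n) (Fin D.n) ℝ} {j : ℕ}
    (ha : a ∈ eN V 0) (hb : b ∈ eN V j) :
    Cong V (j + 1) (exU a (lie_pow_zero D (hV.eN_le 0 ha)) *
      exU b (lie_pow_zero D (hV.eN_le j hb)) * (exU a (lie_pow_zero D (hV.eN_le 0 ha)))⁻¹ *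
      (exU b (lie_pow_zero D (hV.eN_le j hb)))⁻¹) (a * b - b * a) where
  mem := by
    have h1 := exU_mem_of_lie D (hV.eN_le 0 ha)
    have h2 := exU_mem_of_lie D (hV.eN_le j hb)
    exact D.NR.mul_mem (D.NR.mul_mem (D.NR.mul_mem h1 h2) (D.NR.inv_mem h1)) (D.NR.inv_mem h2)
  lg := by
    have han := lie_pow_zero D (hV.eN_le 0 ha)
    have hbn := lie_pow_zero D (hV.eN_le j hb)
    have hc1 := hV.conj_mem ha hb 1
    have hc2 := hV.conj_sub ha hb 1
    have hc3 := hV.conj_sub₂ ha hb 1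
    rw [one_smul, one_smul] at hc1 hc2
    rw [one_smul, one_smul, one_smul] at hc3
    set b' := ex a * b * ex (-a) with hb'
    have hval : ((exU a han * exU b hbn * (exU a han)⁻¹ * (exU b hbn)⁻¹ :
        (Matrix (Fin D.n) (Fin D.n) ℝ)ˣ) : Matrix (Fin D.n) (Fin D.n) ℝ) = ex b' * ex (-b) := by
      have e1 : ex b' = ex a * ex b * ex (-a) :=
        ex_conj (ex_mul_ex_neg han) (ex_neg_mul_ex han)
      rw [e1]
      rfl
    rw [hval]
    have hnb : -b ∈ eN V j := Submodule.neg_mem _ hb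
    have h1 := hV.lg_mul (i := j + 1 + 1) (X := b') (Y := -b) (hV.eN_le j hc1) (hV.eN_le j hnb)
      (by
        have h2 := br_eN hc2 hnb
        have e : b' * -b - -b * b' = (b' - b) * -b - -b * (b' - b) := by noncomm_ring
        rw [e]
        exact eN_anti (by omega) h2)
    have e : lg (ex b' * ex (-b)) - (a * b - b * a) =
        (lg (ex b' * ex (-b)) - (b' + -b)) + (b' - b - (a * b - b * a)) := by abel
    rw [e]
    exact Submodule.add_mem _ h1 hc3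
  Y_mem := by
    have := br_eN ha hb
    rwa [Nat.zero_add] at this

/-! ### polynomial growth of polynomial functions -/

theorem poly_bound {σ : Type*} [Fintype σ] {f : (σ → ℝ) → ℝ} (hf : IsPoly f) :
    ∃ (C : ℝ) (d : ℕ), 0 ≤ C ∧ ∀ s, |f s| ≤ C * (2 + ‖s‖) ^ d := by
  obtain ⟨p, hp⟩ := hf
  refine ⟨∑ m ∈ p.support, |p.coeff m|, p.totalDegree, Finset.sum_nonneg fun _ _ => abs_nonneg _,
    fun s => ?_⟩
  rw [hp, MvPolynomial.eval_eq']
  refine (Finset.abs_sum_le_sum_abs _ _).trans ?_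
  rw [Finset.sum_mul]
  refine Finset.sum_le_sum fun m hm => ?_
  rw [abs_mul]
  refine mul_le_mul_of_nonneg_left ?_ (abs_nonneg _)
  rw [Finset.abs_prod]
  have h1 : (1 : ℝ) ≤ 2 + ‖s‖ := by have := norm_nonneg s; linarith
  calc ∏ i, |s i ^ m i| ≤ ∏ i, (2 + ‖s‖) ^ m i := by
        refine Finset.prod_le_prod (fun _ _ => abs_nonneg _) fun i _ => ?_
        rw [abs_pow]
        refine pow_le_pow_left₀ (abs_nonneg _) ?_ _
        have := norm_le_pi_norm s i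
        rw [Real.norm_eq_abs] at this
        linarith
    _ = (2 + ‖s‖) ^ (∑ i, m i) := by rw [Finset.prod_pow_eq_pow_sum]
    _ ≤ (2 + ‖s‖) ^ p.totalDegree := by
        refine pow_le_pow_right₀ h1 ?_
        have := MvPolynomial.le_totalDegree hm
        rwa [Finsupp.sum_fintype _ _ (fun _ => rfl)] at this

theorem log_poly_bound {σ : Type*} [Fintype σ] {f : (σ → ℝ) → ℝ} (hf : IsPoly f) :
    ∃ C : ℝ, 0 ≤ C ∧ ∀ s, Real.log (2 + |f s|) ≤ C * Real.log (2 + ‖s‖) := by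
  obtain ⟨C, d, hC, h⟩ := poly_bound hf
  have hlog2 : 0 < Real.log 2 := Real.log_pos (by norm_num)
  refine ⟨Real.log (2 + C) / Real.log 2 + d, by
    have : 0 ≤ Real.log (2 + C) := Real.log_nonneg (by linarith)
    positivity, fun s => ?_⟩
  have hs : (1 : ℝ) ≤ 2 + ‖s‖ := by have := norm_nonneg s; linarith
  have hpow : (1 : ℝ) ≤ (2 + ‖s‖) ^ d := one_le_pow₀ hs
  have h1 : 2 + |f s| ≤ (2 + C) * (2 + ‖s‖) ^ d := by
    have := h s
    nlinarith
  have h2 : Real.log (2 + |f s|) ≤ Real.log (2 + C) + d * Real.log (2 + ‖s‖) := by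
    rw [← Real.log_pow, ← Real.log_mul (by positivity) (by positivity)]
    exact Real.log_le_log (by positivity) h1
  have h3 : Real.log 2 ≤ Real.log (2 + ‖s‖) :=
    Real.log_le_log (by norm_num) (by have := norm_nonneg s; linarith)
  have h4 : 0 ≤ Real.log (2 + C) := Real.log_nonneg (by linarith)
  have h5 : Real.log (2 + C) ≤ Real.log (2 + C) / Real.log 2 * Real.log (2 + ‖s‖) := by
    rw [div_mul_eq_mul_div, le_div_iff₀ hlog2]
    exact mul_le_mul_of_nonneg_left h3 h4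
  linarith

/-! ### logarithmic length -/

section Len

variable [hN : N.Normal] {S : Set Γ} {C₀ : ℝ}

/-- `g` belongs to `G1` and has length at most `B`. -/
def LL (D : EmbData Γ N) (C₀ : ℝ) (g : (Matrix (Fin D.n) (Fin D.n) ℝ)ˣ) (B : ℝ) : Prop :=
  ∃ h : g ∈ G1 D, (len D C₀ ⟨g, h⟩ : ℝ) ≤ B

omit [AddCommGroup W] in
theorem LL.mono {g : (Matrix (Fin D.n) (Fin D.n) ℝ)ˣ} {B B' : ℝ} (h : LL D C₀ g B)
    (hB : B ≤ B') : LL D C₀ g B' := ⟨h.1, h.2.trans hB⟩

theorem LL.mul (hS : Big D S C₀) {g g' : (Matrix (Fin D.n) (Fin D.n) ℝ)ˣ} {B B' : ℝ}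
    (h : LL D C₀ g B) (h' : LL D C₀ g' B') : LL D C₀ (g * g') (B + B') := by
  refine ⟨(G1 D).mul_mem h.1 h'.1, ?_⟩
  have h1 := hS.isLen.mul ⟨g, h.1⟩ ⟨g', h'.1⟩
  exact h1.trans (add_le_add h.2 h'.2)

theorem LL.inv (hS : Big D S C₀) {g : (Matrix (Fin D.n) (Fin D.n) ℝ)ˣ} {B : ℝ}
    (h : LL D C₀ g B) : LL D C₀ g⁻¹ B := by
  refine ⟨(G1 D).inv_mem h.1, ?_⟩
  have h1 := hS.isLen.inv ⟨g, h.1⟩
  exact h1.le.trans h.2

theorem LL.one (hS : Big D S C₀) : LL D C₀ 1 0 :=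
  ⟨(G1 D).one_mem, hS.isLen.one.le⟩

theorem LL.list (hS : Big D S C₀) (l : List ((Matrix (Fin D.n) (Fin D.n) ℝ)ˣ)) {B : ℝ}
    (h : ∀ g ∈ l, LL D C₀ g B) : LL D C₀ l.prod (l.length * B) := by
  induction l with
  | nil => simpa using LL.one hS
  | cons g l ih =>
    rw [List.prod_cons, List.length_cons]
    refine ((h g (by simp)).mul hS (ih fun g' hg' => h g' (by simp [hg']))).mono ?_
    push_cast
    linarith

/-- polynomial maps into `exp 𝔢_j` have logarithmic length. -/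
theorem loglen (hS : Big D S C₀) (hV : Wts D V)
    (hlog : ∀ X ∈ T0 V, ∃ C : ℝ, 0 ≤ C ∧ ∀ (p : ℝ) (h : (p • X) ^ D.n = 0),
      LL D C₀ (exU (p • X) h) (C * Real.log (2 + |p|)))
    {σ : Type*} [Fintype σ] (d : ℕ) : ∀ j, eN V (j + d) = ⊥ →
    ∀ F : (σ → ℝ) → Matrix (Fin D.n) (Fin D.n) ℝ, IsPolyM F → ∀ hF : (∀ s, F s ∈ eN V j),
      ∃ C : ℝ, 0 ≤ C ∧ ∀ s, LL D C₀ (exU (F s) (lie_pow_zero D (hV.eN_le j (hF s))))
        (C * Real.log (2 + ‖s‖)) := by
  classical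
  induction d with
  | zero =>
    intro j hj F _ hF
    refine ⟨0, le_rfl, fun s => ?_⟩
    have h1 : F s = 0 := by
      have := hF s
      rw [show j = j + 0 by rfl, hj] at this
      simpa using this
    have h2 : exU (F s) (lie_pow_zero D (hV.eN_le j (hF s))) = 1 := by
      apply Units.ext
      show ex (F s) = 1
      rw [h1, ex_zero]
    rw [h2, zero_mul]
    exact LL.one hS
  | succ d ih =>
    intro j hj F hFp hF
    -- a finite spanning subset of `T V j`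
    obtain ⟨t, htT, htspan⟩ : ∃ t : Finset (Matrix (Fin D.n) (Fin D.n) ℝ), (t : Set _) ⊆ T V j ∧
        Submodule.span ℝ (T V j) = Submodule.span ℝ (t : Set _) := by
      have hfg : (Submodule.span ℝ (T V j)).FG := IsNoetherian.noetherian _
      obtain ⟨t, ht1, ht2⟩ := Submodule.fg_span_iff_fg_span_finset_subset (T V j) |>.mp hfg
      exact ⟨t, ht1, ht2⟩
    -- the families
    have hfam : ∀ B ∈ T V j, ∃ g : ℝ → (Matrix (Fin D.n) (Fin D.n) ℝ)ˣ,
        (∀ p, Cong V j (g p) (p • B)) ∧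
        (∀ f : (σ → ℝ) → ℝ, IsPoly f → IsPolyU (fun s => g (f s))) ∧
        ∃ C : ℝ, 0 ≤ C ∧ ∀ p, LL D C₀ (g p) (C * Real.log (2 + |p|)) := by
      have hone : ∀ B ∈ T0 V, B ∈ T V j → ∃ g : ℝ → (Matrix (Fin D.n) (Fin D.n) ℝ)ˣ,
          (∀ p, Cong V j (g p) (p • B)) ∧
          (∀ f : (σ → ℝ) → ℝ, IsPoly f → IsPolyU (fun s => g (f s))) ∧
          ∃ C : ℝ, 0 ≤ C ∧ ∀ p, LL D C₀ (g p) (C * Real.log (2 + |p|)) := by
        intro B hB0 hBj
        have hBe : ∀ p : ℝ, p • B ∈ eN V j := fun p => Submodule.smul_mem _ _ (T_mem_eN hBj)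
        obtain ⟨C, hC, hCl⟩ := hlog B hB0
        refine ⟨fun p => exU (p • B) (lie_pow_zero D (hV.eN_le j (hBe p))),
          fun p => hV.cong_exU (hBe p), fun f hf => ?_, C, hC, fun p => hCl p _⟩
        exact isPolyU_exU D (IsPolyM.smul hf (IsPolyM.const B)) _
      intro B hB
      cases j with
      | zero => exact hone B hB hB
      | succ j =>
        obtain ⟨x, hx, w, hw, rfl⟩ := hB
        by_cases hB0 : x * w - w * x ∈ T0 V
        · exact hone _ hB0 ⟨x, hx, w, hw, rfl⟩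
        -- then `w` has nonzero weight
        have hw0 : w ∈ T0 V := by
          obtain ⟨μ, hμ, hxμ⟩ := hx
          obtain ⟨ν, hwν⟩ := hV.T_hom hw
          have hsum : μ + ν = 0 := by
            by_contra hne
            exact hB0 ⟨μ + ν, hne, hV.br μ ν x hxμ w hwν⟩
          refine ⟨ν, fun hν => ?_, hwν⟩
          rw [hν, add_zero] at hsum
          exact hμ hsum
        have hxe : ∀ p : ℝ, p • x ∈ eN V 0 := fun p =>
          Submodule.smul_mem _ _ (T_mem_eN (j := 0) hx)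
        have hwe : w ∈ eN V j := T_mem_eN hw
        obtain ⟨C, hC, hCl⟩ := hlog x hx
        obtain ⟨C', hC', hCl'⟩ := hlog w hw0
        have hlw : LL D C₀ (exU w (lie_pow_zero D (hV.eN_le j hwe)))
            (C' * Real.log (2 + 1)) := by
          have h1 := hCl' 1 (by rw [one_smul]; exact lie_pow_zero D (hV.eN_le j hwe))
          rw [abs_one] at h1
          have h2 : exU ((1:ℝ) • w) (by rw [one_smul]; exact lie_pow_zero D (hV.eN_le j hwe)) =
              exU w (lie_pow_zero D (hV.eN_le j hwe)) := exU_congr _ _ (one_smul _ _)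
          rwa [h2] at h1
        refine ⟨fun p => exU (p • x) (lie_pow_zero D (hV.eN_le 0 (hxe p))) *
          exU w (lie_pow_zero D (hV.eN_le j hwe)) *
          (exU (p • x) (lie_pow_zero D (hV.eN_le 0 (hxe p))))⁻¹ *
          (exU w (lie_pow_zero D (hV.eN_le j hwe)))⁻¹, fun p => ?_, fun f hf => ?_, ?_⟩
        · have h1 := hV.cong_comm (hxe p) hwe
          have e : p • x * w - w * p • x = p • (x * w - w * x) := by
            rw [smul_mul_assoc, mul_smul_comm, smul_sub]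
          rwa [e] at h1
        · have h1 : IsPolyU (fun s => exU (f s • x) (lie_pow_zero D (hV.eN_le 0 (hxe (f s))))) :=
            isPolyU_exU D (IsPolyM.smul hf (IsPolyM.const x)) _
          exact ((h1.mul (IsPolyU.const _)).mul h1.inv).mul (IsPolyU.const _)
        · have hlog2 : 0 < Real.log 2 := Real.log_pos (by norm_num)
          refine ⟨2 * C + 2 * (C' * Real.log (2 + 1)) / Real.log 2, by
            have : 0 ≤ Real.log (2 + 1 : ℝ) := Real.log_nonneg (by norm_num)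
            positivity, fun p => ?_⟩
          have h1 := hCl p (lie_pow_zero D (hV.eN_le 0 (hxe p)))
          refine ((((h1.mul hS hlw).mul hS (h1.inv hS)).mul hS (hlw.inv hS))).mono ?_
          have h3 : Real.log 2 ≤ Real.log (2 + |p|) :=
            Real.log_le_log (by norm_num) (by have := abs_nonneg p; linarith)
          have h4 : 0 ≤ C' * Real.log (2 + 1) :=
            mul_nonneg hC' (Real.log_nonneg (by norm_num))
          have h5 : 2 * (C' * Real.log (2 + 1)) ≤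
              2 * (C' * Real.log (2 + 1)) / Real.log 2 * Real.log (2 + |p|) := by
            rw [div_mul_eq_mul_div, le_div_iff₀ hlog2]
            exact mul_le_mul_of_nonneg_left h3 (by linarith)
          linarith
    -- linear coefficients
    obtain ⟨c, hc⟩ : ∃ c : Matrix (Fin D.n) (Fin D.n) ℝ →ₗ[ℝ] (t → ℝ),
        ∀ X ∈ eN V j, X - ∑ B : t, c X B • (B : Matrix (Fin D.n) (Fin D.n) ℝ) ∈ eN V (j + 1) := by
      let L : (t → ℝ) →ₗ[ℝ] (Matrix (Fin D.n) (Fin D.n) ℝ ⧸ eN V (j + 1)) :=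
        (eN V (j + 1)).mkQ ∘ₗ (Fintype.linearCombination ℝ
          (fun B : t => (B : Matrix (Fin D.n) (Fin D.n) ℝ)))
      obtain ⟨s, hs⟩ := L.rangeRestrict.exists_rightInverse_of_surjective
        (LinearMap.range_rangeRestrict L)
      obtain ⟨g, hg⟩ := LinearMap.exists_extend s
      refine ⟨g ∘ₗ (eN V (j + 1)).mkQ, fun X hX => ?_⟩
      have hrange : (eN V (j + 1)).mkQ X ∈ L.range := by
        have h1 : eN V j ≤ (L.range).comap (eN V (j + 1)).mkQ := by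
          refine Submodule.span_le.mpr ?_
          rintro Z ⟨r, hr, hZ⟩
          rcases Nat.eq_or_lt_of_le hr with h | h
          · subst h
            have h2 : Z ∈ Submodule.span ℝ (t : Set (Matrix (Fin D.n) (Fin D.n) ℝ)) := by
              rw [← htspan]; exact Submodule.subset_span hZ
            have h3 : Submodule.span ℝ (t : Set (Matrix (Fin D.n) (Fin D.n) ℝ)) ≤
                (L.range).comap (eN V (j + 1)).mkQ := by
              refine Submodule.span_le.mpr ?_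
              intro B hB
              refine ⟨Pi.single ⟨B, hB⟩ 1, ?_⟩
              simp [L, Fintype.linearCombination_apply_single]
            exact h3 h2
          · have h2 : Z ∈ eN V (j + 1) := Submodule.subset_span ⟨r, h, hZ⟩
            show (eN V (j + 1)).mkQ Z ∈ L.range
            have h3 : (eN V (j + 1)).mkQ Z = 0 := by simpa using h2
            rw [h3]
            exact Submodule.zero_mem _
        exact h1 hX
      have h2 : L (g ((eN V (j + 1)).mkQ X)) = (eN V (j + 1)).mkQ X := by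
        have h3 : g ((eN V (j + 1)).mkQ X) = s ⟨_, hrange⟩ := by
          have := LinearMap.congr_fun hg ⟨_, hrange⟩
          simpa using this
        rw [h3]
        have h4 := LinearMap.congr_fun hs ⟨_, hrange⟩
        have h5 := congrArg Subtype.val h4
        simpa using h5
      have h3 : (eN V (j + 1)).mkQ (X - ∑ B : t, (g ∘ₗ (eN V (j + 1)).mkQ) X B •
          (B : Matrix (Fin D.n) (Fin D.n) ℝ)) = 0 := by
        rw [map_sub, sub_eq_zero]
        rw [← h2]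
        simp [L, Fintype.linearCombination_apply]
      rw [Submodule.mkQ_apply] at h3
      exact (Submodule.Quotient.mk_eq_zero _).mp h3
    choose! g hgC hgP K hK0 hgL using hfam
    -- the coefficients are polynomial
    have hcp : ∀ B : t, IsPoly (fun s => c (F s) B) := fun B =>
      hFp.linear ((LinearMap.proj B) ∘ₗ c)
    choose K' hK'0 hK' using fun B : t => log_poly_bound (hcp B)
    -- the product
    let l : List t := Finset.univ.toList
    let P : (σ → ℝ) → (Matrix (Fin D.n) (Fin D.n) ℝ)ˣ := fun s =>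
      (l.map fun B : t => g B (c (F s) B)).prod
    have hPC : ∀ s, Cong V j (P s) (∑ B : t, c (F s) B • (B : Matrix (Fin D.n) (Fin D.n) ℝ)) := by
      intro s
      have h1 := Cong.list hV (j := j) (l.map fun B : t => (g B (c (F s) B),
        c (F s) B • (B : Matrix (Fin D.n) (Fin D.n) ℝ))) (by
          intro p hp
          obtain ⟨B, -, rfl⟩ := List.mem_map.mp hp
          exact hgC B (htT B.2) _)
      rw [List.map_map, List.map_map] at h1
      have e : ((l.map (Prod.snd ∘ fun B : t => (g B (c (F s) B),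
          c (F s) B • (B : Matrix (Fin D.n) (Fin D.n) ℝ)))).sum) =
          ∑ B : t, c (F s) B • (B : Matrix (Fin D.n) (Fin D.n) ℝ) := by
        rw [Finset.sum_eq_multiset_sum, ← Finset.coe_toList, Multiset.map_coe, Multiset.sum_coe]
        rfl
      rw [e] at h1
      exact h1
    have hPP : IsPolyU P := by
      have h1 := IsPolyU.listProd (σ := σ) (l.map fun B : t => fun s => g B (c (F s) B)) (by
        intro f hf
        obtain ⟨B, -, rfl⟩ := List.mem_map.mp hf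
        exact hgP B (htT B.2) _ (hcp B))
      have e : (fun x => ((l.map fun B : t => fun s => g B (c (F s) B)).map
          (fun f => f x)).prod) = P := by
        funext s
        rw [List.map_map]
        rfl
      rwa [e] at h1
    have hPL : ∃ C : ℝ, 0 ≤ C ∧ ∀ s, LL D C₀ (P s) (C * Real.log (2 + ‖s‖)) := by
      refine ⟨l.length * ∑ B : t, K B * K' B, mul_nonneg (Nat.cast_nonneg _)
        (Finset.sum_nonneg fun B _ => mul_nonneg (hK0 B (htT B.2)) (hK'0 B)), fun s => ?_⟩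
      have hlogs : 0 ≤ Real.log (2 + ‖s‖) :=
        Real.log_nonneg (by have := norm_nonneg s; linarith)
      have h1 := LL.list (C₀ := C₀) hS (l.map fun B : t => g B (c (F s) B))
        (B := (∑ B : t, K B * K' B) * Real.log (2 + ‖s‖)) (by
          intro u hu
          obtain ⟨B, -, rfl⟩ := List.mem_map.mp hu
          refine (hgL B (htT B.2) _).mono ?_
          calc K B * Real.log (2 + |c (F s) B|) ≤ K B * (K' B * Real.log (2 + ‖s‖)) :=
                mul_le_mul_of_nonneg_left (hK' B s) (hK0 B (htT B.2))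
            _ = (K B * K' B) * Real.log (2 + ‖s‖) := by ring
            _ ≤ _ := mul_le_mul_of_nonneg_right (Finset.single_le_sum
                (f := fun B : t => K B * K' B)
                (fun B _ => mul_nonneg (hK0 B (htT B.2)) (hK'0 B)) (Finset.mem_univ B)) hlogs)
      rw [List.length_map, ← mul_assoc] at h1
      exact h1
    -- the remainder
    have huC : ∀ s, Cong V j ((P s)⁻¹ * exU (F s) (lie_pow_zero D (hV.eN_le j (hF s))))
        (-(∑ B : t, c (F s) B • (B : Matrix (Fin D.n) (Fin D.n) ℝ)) + F s) := fun s =>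
      (hPC s).inv.mul hV (hV.cong_exU (hF s))
    have hulg : ∀ s, lg (((P s)⁻¹ * exU (F s) (lie_pow_zero D (hV.eN_le j (hF s))) :
        (Matrix (Fin D.n) (Fin D.n) ℝ)ˣ) : Matrix (Fin D.n) (Fin D.n) ℝ) ∈ eN V (j + 1) := by
      intro s
      have h1 := (huC s).lg
      have h2 := hc (F s) (hF s)
      have h3 := Submodule.add_mem _ h1 h2
      have e : ∀ a b f : Matrix (Fin D.n) (Fin D.n) ℝ, a - (-b + f) + (f - b) = a := by
        intro a b f; abel
      rwa [e] at h3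
    have huP : IsPolyU (fun s => (P s)⁻¹ *
        exU (F s) (lie_pow_zero D (hV.eN_le j (hF s)))) :=
      hPP.inv.mul (isPolyU_exU D hFp _)
    obtain ⟨C', hC', hCl'⟩ := ih (j + 1) (by rwa [show j + 1 + d = j + (d + 1) by ring])
      (fun s => lg (((P s)⁻¹ * exU (F s) (lie_pow_zero D (hV.eN_le j (hF s))) :
        (Matrix (Fin D.n) (Fin D.n) ℝ)ˣ) : Matrix (Fin D.n) (Fin D.n) ℝ))
      (isPolyM_lg huP.1) hulg
    obtain ⟨C, hC, hCl⟩ := hPL
    refine ⟨C + C', by positivity, fun s => ?_⟩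
    have h1 := (hCl s).mul hS (hCl' s)
    have h2 : exU (lg (((P s)⁻¹ * exU (F s) (lie_pow_zero D (hV.eN_le j (hF s))) :
        (Matrix (Fin D.n) (Fin D.n) ℝ)ˣ) : Matrix (Fin D.n) (Fin D.n) ℝ))
        (lie_pow_zero D (hV.eN_le (j + 1) (hulg s))) =
        (P s)⁻¹ * exU (F s) (lie_pow_zero D (hV.eN_le j (hF s))) :=
      exU_lg D (huC s).mem
    rw [h2, mul_inv_cancel_left] at h1
    refine h1.mono ?_
    linarith

end Len

end Crest.Agent.R182.ModelDist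
end

-- ▼ part R182/ModelX1
section

set_option autoImplicit false
set_option linter.unusedSectionVars false

namespace Crest.Agent.R182.ModelX

open Module LinMod Polyc Model ModelWt ModelDist

variable {Γ : Type*} [Group Γ] {N : Subgroup Γ} [hN : N.Normal]
  {D : EmbData Γ N} {k : ℕ} {π₁ : G1 D →* Multiplicative (Fin k → ℤ)} {S : Set Γ} {C₀ : ℝ}

/-- polynomials against exponentials -/
theorem exists_poly_exp (d : ℕ) {c : ℝ} (hc : 0 < c) :
    ∃ B : ℝ, 0 ≤ B ∧ ∀ m : ℕ, (1 + (m : ℝ)) ^ d * Real.exp (-(m * c)) ≤ B := by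
  refine ⟨d.factorial / c ^ d * Real.exp c, by positivity, fun m => ?_⟩
  have h1 := Real.pow_div_factorial_le_exp (c * (1 + m)) (by positivity) d
  rw [div_le_iff₀ (by positivity), mul_pow] at h1
  have h2 : (1 + (m : ℝ)) ^ d ≤ d.factorial / c ^ d * Real.exp (c * (1 + m)) := by
    rw [div_mul_eq_mul_div, le_div_iff₀ (by positivity)]
    linarith
  calc (1 + (m : ℝ)) ^ d * Real.exp (-(m * c))
      ≤ d.factorial / c ^ d * Real.exp (c * (1 + m)) * Real.exp (-(m * c)) :=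
        mul_le_mul_of_nonneg_right h2 (Real.exp_pos _).le
    _ = d.factorial / c ^ d * Real.exp c := by
        rw [mul_assoc, ← Real.exp_add]
        congr 2
        ring

/-- an integer vector on which a nonzero functional is positive -/
theorem exists_pos_int {μ : (Fin k → ℝ) →ₗ[ℝ] ℝ} (hμ : μ ≠ 0) :
    ∃ v : Fin k → ℤ, 0 < μ (fun i => (v i : ℝ)) := by
  by_contra hneg
  push Not at hneg
  apply hμ
  apply form_ext
  intro v
  rw [LinearMap.zero_apply]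
  refine le_antisymm (hneg v) ?_
  have h1 := hneg (-v)
  have h2 : (fun i => (((-v) i : ℤ) : ℝ)) = -(fun i => (v i : ℝ)) := by
    funext i; simp
  rw [h2, map_neg] at h1
  linarith

/-- one-parameter groups in the nonzero weight spaces are exponentially distorted -/
theorem base_log (hS : Big D S C₀) (𝒞 : Cartan D π₁)
    (hs : ∀ v : Fin k → ℤ, ∃ γ : Γ, Multiplicative.toAdd (π₁ (inΓ D γ)) = v) :
    ∀ X ∈ T0 𝒞.nw, ∃ C : ℝ, 0 ≤ C ∧ ∀ (p : ℝ) (h : (p • X) ^ D.n = 0),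
      LL D C₀ (exU (p • X) h) (C * Real.log (2 + |p|)) := by
  rintro X ⟨μ, hμ, hX⟩
  obtain ⟨v, hv0⟩ := exists_pos_int hμ
  obtain ⟨c, hc, hcv⟩ := 𝒞.exists_C_height hs v
  have hhv : hv π₁ c = fun i => (v i : ℝ) := by
    funext i; rw [hv, hcv]
  set lam : ℝ := μ (hv π₁ c) with hlam
  have hlam0 : 0 < lam := by rw [hlam, hhv]; exact hv0
  obtain ⟨K, E, hK, hgr⟩ := 𝒞.growth_zpow hc
  obtain ⟨B, hB0, hB⟩ := exists_poly_exp E (c := lam / 2) (by positivity)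
  obtain ⟨K', hK'⟩ := hS.len_exG_of_le (K * B * nrm X)
  have hlog2 : 0 < Real.log 2 := Real.log_pos (by norm_num)
  set lc : ℝ := (len D C₀ c : ℝ) with hlc
  have hlc0 : 0 ≤ lc := Nat.cast_nonneg _
  refine ⟨(2 / lam) * (2 * lc) + (2 * lc + K') / Real.log 2, by positivity, fun p hp => ?_⟩
  have hXl := 𝒞.nw_le μ hX
  have hpX : p • X ∈ 𝒞.nw μ := (𝒞.nw μ).smul_mem p hX
  have hpXl : p • X ∈ lie D := 𝒞.nw_le μ hpX
  set s : ℝ := Real.log (2 + |p|) with hs'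
  have hs2 : Real.log 2 ≤ s := Real.log_le_log (by norm_num) (by have := abs_nonneg p; linarith)
  have hs0 : 0 ≤ s := hlog2.le.trans hs2
  set m : ℕ := ⌈2 / lam * s⌉₊ with hm
  have hm1 : 2 / lam * s ≤ m := Nat.le_ceil _
  have hm2 : (m : ℝ) ≤ 2 / lam * s + 1 := (Nat.ceil_lt_add_one (by positivity)).le
  have hms : s ≤ m * (lam / 2) := by
    rw [div_mul_eq_mul_div, div_le_iff₀ hlam0] at hm1
    linarith
  have hp1 : |p| ≤ Real.exp (m * (lam / 2)) := by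
    have h1 : |p| ≤ Real.exp s := by
      rw [hs', Real.exp_log (by positivity)]
      linarith
    exact h1.trans (Real.exp_le_exp.2 hms)
  -- the conjugate
  set g : G1 D := c ^ (-(m : ℤ)) with hg
  set Y := cj (g : (Matrix (Fin D.n) (Fin D.n) ℝ)ˣ) (p • X) with hY
  have hYl : Y ∈ lie D := cj_mem_lie D g.2 hpXl
  have hYn : nrm Y ≤ K * B * nrm X := by
    have h1 := hgr μ (-(m : ℤ)) (p • X) hpX
    rw [Int.cast_neg, abs_neg, Int.cast_natCast, Nat.abs_cast, nrm_smul] at h1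
    refine h1.trans ?_
    have h0 := nrm_nonneg X
    calc K * (1 + (m : ℝ)) ^ E * Real.exp (-(m : ℝ) * μ (hv π₁ c)) * (|p| * nrm X)
        ≤ K * (1 + (m : ℝ)) ^ E * Real.exp (-(m : ℝ) * μ (hv π₁ c)) *
          (Real.exp (m * (lam / 2)) * nrm X) := by gcongr
      _ = K * ((1 + (m : ℝ)) ^ E * (Real.exp (-(m : ℝ) * lam) * Real.exp (m * (lam / 2)))) *
          nrm X := by ring
      _ = K * ((1 + (m : ℝ)) ^ E * Real.exp (-(m * (lam / 2)))) * nrm X := by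
          rw [← Real.exp_add]
          congr 4
          ring
      _ ≤ K * B * nrm X := by
          have := hB m
          gcongr
  have hlenY := hK' Y hYl hYn
  have hconj : g * exG D (p • X) hpXl * g⁻¹ = exG D Y hYl := conj_exG g hpXl
  have hex : exG D (p • X) hpXl = g⁻¹ * exG D Y hYl * g := by
    rw [← hconj]; group
  have hlen : (len D C₀ (exG D (p • X) hpXl) : ℝ) ≤ m * lc + K' + m * lc := by
    rw [hex]
    have e1 : len D C₀ (g⁻¹ * exG D Y hYl * g) ≤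
        len D C₀ g⁻¹ + len D C₀ (exG D Y hYl) + len D C₀ g :=
      (hS.len_mul _ _).trans (Nat.add_le_add_right (hS.len_mul _ _) _)
    have e2 : len D C₀ g⁻¹ ≤ m * len D C₀ c := by
      have : g⁻¹ = c ^ m := by rw [hg, zpow_neg, inv_inv, zpow_natCast]
      rw [this]; exact hS.len_pow c m
    have e3 : len D C₀ g ≤ m * len D C₀ c := by
      rw [← hS.len_inv]; exact e2
    have e4 : len D C₀ (g⁻¹ * exG D Y hYl * g) ≤ m * len D C₀ c + K' + m * len D C₀ c := by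
      omega
    have e5 : (len D C₀ (g⁻¹ * exG D Y hYl * g) : ℝ) ≤
        m * (len D C₀ c : ℝ) + K' + m * (len D C₀ c : ℝ) := by exact_mod_cast e4
    exact e5
  refine ⟨(exG D (p • X) hpXl).2, ?_⟩
  have hgoal : (⟨exU (p • X) hp, (exG D (p • X) hpXl).2⟩ : G1 D) = exG D (p • X) hpXl := rfl
  rw [hgoal]
  refine hlen.trans ?_
  have h5 : (2 * lc + K') ≤ (2 * lc + K') / Real.log 2 * s := by
    rw [div_mul_eq_mul_div, le_div_iff₀ hlog2]
    exact mul_le_mul_of_nonneg_left hs2 (by positivity)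
  have h6 : (m : ℝ) * lc ≤ (2 / lam * s + 1) * lc := mul_le_mul_of_nonneg_right hm2 hlc0
  nlinarith

/-- **DIST**: the exponential of `𝔢` is exponentially distorted. -/
theorem len_exE_le (hS : Big D S C₀) {𝒞 : Cartan D π₁} (𝒷 : AdBas 𝒞)
    (hs : ∀ v : Fin k → ℤ, ∃ γ : Γ, Multiplicative.toAdd (π₁ (inΓ D γ)) = v) :
    ∃ a : ℝ, 0 ≤ a ∧ ∀ x : 𝒞.eA, (len D C₀ (𝒞.exE x) : ℝ) ≤
      a * Real.log (2 + ‖𝒷.bas.equivFun x‖) := by
  obtain ⟨d, hd⟩ := 𝒞.wtsD.exists_bot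
  let F : (Fin 𝒷.r → ℝ) → Matrix (Fin D.n) (Fin D.n) ℝ := fun s =>
    ∑ i, s i • ((𝒷.bas i : 𝒞.eA) : Matrix (Fin D.n) (Fin D.n) ℝ)
  have hFp : IsPolyM F := IsPolyM.sum _ fun i _ => IsPolyM.smul (IsPoly.coord i) (IsPolyM.const _)
  have hF : ∀ s, F s ∈ ModelDist.eN 𝒞.nw 0 := fun s =>
    Submodule.sum_mem _ fun i _ => Submodule.smul_mem _ _ (𝒷.bas i).2
  obtain ⟨a, ha, h⟩ := loglen hS 𝒞.wtsD (base_log hS 𝒞 hs) d 0 (by rwa [zero_add]) F hFp hF
  refine ⟨a, ha, fun x => ?_⟩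
  obtain ⟨h1, h2⟩ := h (𝒷.bas.equivFun x)
  have hx : F (𝒷.bas.equivFun x) = (x : Matrix (Fin D.n) (Fin D.n) ℝ) := by
    have h3 := congrArg 𝒞.ξ (𝒷.bas.sum_equivFun x)
    rw [map_sum, Cartan.ξ_apply] at h3
    rw [← h3]
    exact Finset.sum_congr rfl fun i _ => by rw [map_smul]; rfl
  refine le_trans (le_of_eq ?_) h2
  congr 2
  apply Subtype.ext
  apply Units.ext
  show ex (x : Matrix (Fin D.n) (Fin D.n) ℝ) = ex (F (𝒷.bas.equivFun x))
  rw [hx]


end Crest.Agent.R182.ModelX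
end

-- ▼ part R182/ModelX2
section

set_option autoImplicit false
set_option linter.unusedSectionVars false

namespace Crest.Agent.R182.ModelX

open Module LinMod Polyc Model ModelWt ModelDist

section lm

attribute [local instance] Matrix.linftyOpNormedRing Matrix.linftyOpNormedAlgebra

variable {n : ℕ}

/-- left multiplication -/
noncomputable def lmE (g : (Matrix (Fin n) (Fin n) ℝ)ˣ) :
    Matrix (Fin n) (Fin n) ℝ ≃ₗ[ℝ] Matrix (Fin n) (Fin n) ℝ where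
  toFun X := (g : Matrix (Fin n) (Fin n) ℝ) * X
  invFun X := ((g⁻¹ : (Matrix (Fin n) (Fin n) ℝ)ˣ) : Matrix (Fin n) (Fin n) ℝ) * X
  map_add' X Y := mul_add _ _ _
  map_smul' c X := by rw [mul_smul_comm]; rfl
  left_inv X := by
    show ((g⁻¹ : (Matrix (Fin n) (Fin n) ℝ)ˣ) : Matrix (Fin n) (Fin n) ℝ) *
      ((g : Matrix (Fin n) (Fin n) ℝ) * X) = X
    rw [← mul_assoc, Units.inv_mul, one_mul]
  right_inv X := by
    show (g : Matrix (Fin n) (Fin n) ℝ) *
      (((g⁻¹ : (Matrix (Fin n) (Fin n) ℝ)ˣ) : Matrix (Fin n) (Fin n) ℝ) * X) = X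
    rw [← mul_assoc, Units.mul_inv, one_mul]

theorem lmE_apply (g : (Matrix (Fin n) (Fin n) ℝ)ˣ) (X : Matrix (Fin n) (Fin n) ℝ) :
    lmE g X = (g : Matrix (Fin n) (Fin n) ℝ) * X := rfl

/-- left multiplication as a homomorphism -/
noncomputable def lmH : (Matrix (Fin n) (Fin n) ℝ)ˣ →*
    (Matrix (Fin n) (Fin n) ℝ ≃ₗ[ℝ] Matrix (Fin n) (Fin n) ℝ) where
  toFun := lmE
  map_one' := by
    apply LinearEquiv.ext
    intro X
    rw [lmE_apply, Units.val_one, one_mul]; rfl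
  map_mul' g h := by
    apply LinearEquiv.ext
    intro X
    rw [lmE_apply, Units.val_mul, mul_assoc]; rfl

theorem lmH_apply (g : (Matrix (Fin n) (Fin n) ℝ)ˣ) (X : Matrix (Fin n) (Fin n) ℝ) :
    lmH g X = (g : Matrix (Fin n) (Fin n) ℝ) * X := rfl

theorem lm_unip {g : (Matrix (Fin n) (Fin n) ℝ)ˣ} {d : ℕ}
    (h : ((g : Matrix (Fin n) (Fin n) ℝ) - 1) ^ d = 0) :
    ((lmH g : Matrix (Fin n) (Fin n) ℝ →ₗ[ℝ] Matrix (Fin n) (Fin n) ℝ) - 1) ^ d = 0 := by
  have key : ∀ (j : ℕ) (X : Matrix (Fin n) (Fin n) ℝ),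
      (((lmH g : Matrix (Fin n) (Fin n) ℝ →ₗ[ℝ] Matrix (Fin n) (Fin n) ℝ) - 1) ^ j) X =
      ((g : Matrix (Fin n) (Fin n) ℝ) - 1) ^ j * X := by
    intro j
    induction j with
    | zero => intro X; rw [pow_zero, pow_zero, one_mul]; rfl
    | succ j ih =>
      intro X
      rw [pow_succ, Module.End.mul_apply, ih, pow_succ, mul_assoc]
      congr 1
      rw [LinearMap.sub_apply, sub_mul, one_mul]
      rfl
  ext1 X
  rw [key, h, zero_mul]; rfl

theorem lm_norm (g : (Matrix (Fin n) (Fin n) ℝ)ˣ) {B A : ℝ} (hB0 : 0 ≤ B)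
    (hB : ∀ X : Matrix (Fin n) (Fin n) ℝ, ‖X‖ ≤ B * nrm X) (hg : sz g ≤ A)
    (X : Matrix (Fin n) (Fin n) ℝ) : ‖lmH g X‖ ≤ B * A * ‖X‖ := by
  rw [lmH_apply]
  refine (norm_mul_le _ _).trans (mul_le_mul_of_nonneg_right ?_ (norm_nonneg _))
  exact (hB _).trans (mul_le_mul_of_nonneg_left ((nrm_le_sz g).trans hg) hB0)

end lm

section main

attribute [local instance] Matrix.linftyOpNormedRing Matrix.linftyOpNormedAlgebra

variable {Γ : Type*} [Group Γ] {N : Subgroup Γ} [hN : N.Normal]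
  {D : EmbData Γ N} {k : ℕ} {π₁ : G1 D →* Multiplicative (Fin k → ℤ)} {S : Set Γ} {C₀ : ℝ}

/-- the representation of `G1` by left multiplication -/
noncomputable def lmR (D : EmbData Γ N) : G1 D →*
    (Matrix (Fin D.n) (Fin D.n) ℝ ≃ₗ[ℝ] Matrix (Fin D.n) (Fin D.n) ℝ) :=
  lmH.comp (G1 D).subtype

theorem lmR_apply (g : G1 D) (X : Matrix (Fin D.n) (Fin D.n) ℝ) :
    lmR D g X = ((g : (Matrix (Fin D.n) (Fin D.n) ℝ)ˣ) : Matrix (Fin D.n) (Fin D.n) ℝ) * X := rfl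

theorem lmR_unip {g : G1 D} (hg : g ∈ NR1 D) :
    ∃ d : ℕ, ((lmR D g : Matrix (Fin D.n) (Fin D.n) ℝ →ₗ[ℝ] Matrix (Fin D.n) (Fin D.n) ℝ) - 1) ^ d
      = 0 := ⟨D.n, lm_unip (D.unip_NR hg)⟩


/-- Elements of `𝔫_0` have polynomial growth under `Ad` of every element of `C`. -/
theorem nw_zero_le_gm (𝒞 : Cartan D π₁) {t' : G1 D} (ht' : t' ∈ 𝒞.C) :
    𝒞.nw 0 ≤ gm (t' : (Matrix (Fin D.n) (Fin D.n) ℝ)ˣ) 0 := by
  intro X hX
  obtain ⟨K, E, hK, h⟩ := 𝒞.growth_zpow ht'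
  obtain ⟨B₂, hB₂, h2⟩ := exists_norm_le_nrm (n := D.n)
  refine mem_growSpace.2 ⟨B₂ * (K * nrm X), E, fun j => ?_⟩
  have h3 := h 0 j X hX
  rw [LinearMap.zero_apply, mul_zero, Real.exp_zero, mul_one] at h3
  rw [← cj_zpow, zero_mul, Real.exp_zero, mul_one]
  refine (h2 _).trans ?_
  calc B₂ * nrm (cj ((t' : (Matrix (Fin D.n) (Fin D.n) ℝ)ˣ) ^ j) X) ≤
        B₂ * (K * (1 + |(j : ℝ)|) ^ E * nrm X) := mul_le_mul_of_nonneg_left h3 hB₂
    _ = _ := by ring

/-- elements of `C ∩ N_ℝ` preserve the growth spaces of `lm t'` -/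
theorem lm_mem_of_E0 (𝒞 : Cartan D π₁) {t' u : G1 D} (ht' : t' ∈ 𝒞.C) (hu : u ∈ 𝒞.C)
    (huN : u ∈ NR1 D) {s : ℝ} {Y : Matrix (Fin D.n) (Fin D.n) ℝ}
    (hY : Y ∈ growSpace (lmR D t') s) : lmR D u Y ∈ growSpace (lmR D t') s := by
  have h1 := (𝒞.mem_C_NR_iff u).1 ⟨hu, huN⟩
  have h2 : lg ((u : (Matrix (Fin D.n) (Fin D.n) ℝ)ˣ) : Matrix (Fin D.n) (Fin D.n) ℝ) ∈ 𝒞.nw 0 := by
    rw [𝒞.nw_zero]; exact (mem_E0.1 h1).2
  have h3 := ex_mem_gm (nw_zero_le_gm 𝒞 ht' h2)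
  have h5 : ex (lg ((u : (Matrix (Fin D.n) (Fin D.n) ℝ)ˣ) : Matrix (Fin D.n) (Fin D.n) ℝ)) =
    ((u : (Matrix (Fin D.n) (Fin D.n) ℝ)ˣ) : Matrix (Fin D.n) (Fin D.n) ℝ) :=
    ex_lg (D.unip_NR huN)
  rw [h5] at h3
  have h4 := bilin_mem_growSpace (T := cj (t' : (Matrix (Fin D.n) (Fin D.n) ℝ)ˣ))
    (T' := lmR D t') (T'' := lmR D t') (fun X Y => X * Y) 1
    (fun X Y => by rw [one_mul]; exact norm_mul_le X Y) (fun X Y => by
      rw [lmR_apply, lmR_apply, cj_apply]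
      calc _ = ((t' : (Matrix (Fin D.n) (Fin D.n) ℝ)ˣ) : Matrix (Fin D.n) (Fin D.n) ℝ) * X * 1 * Y := by
            rw [mul_one, mul_assoc]
        _ = _ := by
            rw [← Units.inv_mul (t' : (Matrix (Fin D.n) (Fin D.n) ℝ)ˣ)]
            simp only [mul_assoc]) h3 hY
  rwa [zero_add] at h4

/-- **Growth of products of bounded elements of `C`.** -/
theorem C_growth (𝒞 : Cartan D π₁)
    (hs : ∀ v : Fin k → ℤ, ∃ γ : Γ, Multiplicative.toAdd (π₁ (inΓ D γ)) = v) (A : ℝ) :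
    ∃ (K : ℝ) (E : ℕ) (c : ℝ), 0 ≤ K ∧ 0 ≤ c ∧ ∀ l : List (G1 D),
    (∀ s ∈ l, s ∈ 𝒞.C ∧ sz (s : (Matrix (Fin D.n) (Fin D.n) ℝ)ˣ) ≤ A ∧ ∀ i, |hv π₁ s i| ≤ A) →
      nrm ((l.prod : G1 D) : (Matrix (Fin D.n) (Fin D.n) ℝ)ˣ).val ≤
        K * (1 + l.length : ℝ) ^ E * Real.exp (c * ‖hv π₁ l.prod‖) := by
  classical
  obtain ⟨B₁, hB₁, h1⟩ := exists_nrm_le (n := D.n)
  obtain ⟨B₂, hB₂, h2⟩ := exists_norm_le_nrm (n := D.n)
  have hsurj : Function.Surjective π₁ := by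
    intro v
    obtain ⟨γ, hγ⟩ := hs (Multiplicative.toAdd v)
    exact ⟨inΓ D γ, by rw [← ofAdd_toAdd (π₁ (inΓ D γ)), hγ, ofAdd_toAdd]⟩
  have hunip : ∀ g, π₁ g = 1 → ∃ d : ℕ,
      ((lmR D g : Matrix (Fin D.n) (Fin D.n) ℝ →ₗ[ℝ] Matrix (Fin D.n) (Fin D.n) ℝ) - 1) ^ d = 0 :=
    fun g hg => lmR_unip ((𝒞.ker g).1 hg)
  obtain ⟨W⟩ := exists_wtData (lmR D) π₁ hsurj hunip
  obtain ⟨v, hgen⟩ := W.exists_generic
  obtain ⟨t', ht', htv⟩ := 𝒞.exists_C_height hs v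
  have hhv : hv π₁ t' = fun j => ((v j : ℤ) : ℝ) := by
    funext i; rw [hv, htv]
  rw [← hhv] at hgen
  -- `C` preserves the growth spaces
  have hC : ∀ (s : ℝ), ∀ g ∈ 𝒞.C, ∀ Y ∈ growSpace (lmR D t') s,
      lmR D g Y ∈ growSpace (lmR D t') s := by
    intro s g hg Y hY
    set u : G1 D := g * t' * g⁻¹ * t'⁻¹ with hu
    have huC : u ∈ 𝒞.C := 𝒞.C.mul_mem (𝒞.C.mul_mem (𝒞.C.mul_mem hg ht') (𝒞.C.inv_mem hg))
      (𝒞.C.inv_mem ht')
    have huN : u ∈ NR1 D := by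
      rw [← 𝒞.ker, hu, map_mul, map_mul, map_mul, map_inv, map_inv, mul_comm (π₁ g) (π₁ t')]
      group
    set c : G1 D := g * t' * g⁻¹ with hc
    have hcu : c = u * t' := by rw [hu, hc]; group
    have hhc : hv π₁ c = hv π₁ t' := by rw [hc]; exact hv_conj π₁ g t'
    have heq : growSpace (lmR D c) s = growSpace (lmR D t') s := by
      symm
      refine Submodule.eq_of_le_of_finrank_eq ?_ ?_
      · by_cases hsr : s ∈ rates (lmR D t')
        · obtain ⟨i, hi⟩ := (W.mem_rates t' s).1 hsr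
          intro Z hZ
          have e1 : ∀ Z ∈ growSpace (lmR D t') s, lmR D c Z ∈ growSpace (lmR D t') s := by
            intro Z hZ
            rw [hcu, map_mul]
            exact lm_mem_of_E0 𝒞 ht' huC huN (growSpace_map _ _ hZ)
          have e2 : ∀ Z ∈ growSpace (lmR D t') s, lmR D c⁻¹ Z ∈ growSpace (lmR D t') s := by
            intro Z hZ
            have e3 : c⁻¹ = t'⁻¹ * u⁻¹ := by rw [hcu, mul_inv_rev]
            rw [e3, map_mul]
            have e4 := lm_mem_of_E0 𝒞 ht' (𝒞.C.inv_mem huC) ((NR1 D).inv_mem huN) hZ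
            have e5 := growSpace_map_symm (lmR D t') s e4
            have e6 : (lmR D t'⁻¹ * lmR D u⁻¹) Z = (lmR D t').symm (lmR D u⁻¹ Z) := by
              rw [map_inv]; rfl
            rw [e6]; exact e5
          have h3 := W.mem_growSpace (t := t') (s := s) (μ := W.M i)
            (fun j hj => hgen.1 j i (by rw [hj, hi])) hunip e1 e2 hZ
          rwa [hhc, hi] at h3
        · rw [growSpace_eq_bot hsr]; exact bot_le
      · rw [W.finrank_growSpace, W.finrank_growSpace, hhc]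
    rw [← heq]
    refine map_mem_growSpace (T := lmR D t') (T' := lmR D c)
      ((lmR D g : Matrix (Fin D.n) (Fin D.n) ℝ →ₗ[ℝ] Matrix (Fin D.n) (Fin D.n) ℝ)) ?_ hY
    intro Z
    show lmR D c (lmR D g Z) = lmR D g (lmR D t' Z)
    have e7 : c * g = g * t' := by rw [hc]; group
    have e8 := congrArg (fun x => lmR D x Z) e7
    simp only [map_mul] at e8
    exact e8
  -- growth on each growth space
  have key : ∀ s : ℝ, ∃ (K : ℝ) (E : ℕ) (c : ℝ), 0 ≤ K ∧ 0 ≤ c ∧ ∀ l : List (G1 D),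
      (∀ g ∈ l, g ∈ 𝒞.C ∧ sz (g : (Matrix (Fin D.n) (Fin D.n) ℝ)ˣ) ≤ A ∧
        ∀ i, |hv π₁ g i| ≤ A) → ∀ Y ∈ growSpace (lmR D t') s,
      ‖lmR D l.prod Y‖ ≤ K * (1 + l.length : ℝ) ^ E * Real.exp (c * ‖hv π₁ l.prod‖) * ‖Y‖ := by
    intro s
    by_cases hsr : s ∈ rates (lmR D t')
    swap
    · refine ⟨0, 0, 0, le_rfl, le_rfl, fun l _ Y hY => ?_⟩
      rw [growSpace_eq_bot hsr, Submodule.mem_bot] at hY
      rw [hY, map_zero, norm_zero]; simp
    obtain ⟨i, hi⟩ := (W.mem_rates t' s).1 hsr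
    obtain ⟨b, hb0, hb⟩ : ∃ b : ℝ, 0 ≤ b ∧ ∀ v : Fin k → ℝ, |W.M i v| ≤ b * ‖v‖ :=
      exists_bound_of_real_linear (W.M i)
    obtain ⟨K, E, hK, h⟩ := W.growth (t := t') (s := s) (μ := W.M i)
      (fun j hj => hgen.1 j i (by rw [hj, hi])) hunip 𝒞.C (hC s)
      {g : G1 D | g ∈ 𝒞.C ∧ sz (g : (Matrix (Fin D.n) (Fin D.n) ℝ)ˣ) ≤ A ∧
        ∀ i, |hv π₁ g i| ≤ A} (fun g hg => hg.1) (A := max (b * |A|) (B₂ * A)) (by
        rintro g ⟨-, -, hg⟩
        refine (hb _).trans (le_trans ?_ (le_max_left _ _))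
        refine mul_le_mul_of_nonneg_left ?_ hb0
        rw [pi_norm_le_iff_of_nonneg (abs_nonneg A)]
        intro j
        exact (hg j).trans (le_abs_self A)) (by
        rintro g ⟨-, hg, -⟩ Y
        exact (lm_norm _ hB₂ h2 hg Y).trans
          (mul_le_mul_of_nonneg_right (le_max_right _ _) (norm_nonneg _)))
    refine ⟨K, E, b, hK, hb0, fun l hl Y hY => (h l hl Y hY).trans ?_⟩
    have h3 : W.M i (hv π₁ l.prod) ≤ b * ‖hv π₁ l.prod‖ := (le_abs_self _).trans (hb _)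
    gcongr
  choose K E c hK hc h using key
  set R := rates (lmR D t') with hR
  refine ⟨B₁ * (∑ s ∈ R, K s * ‖pr (lmR D t') s (1 : Matrix (Fin D.n) (Fin D.n) ℝ)‖),
    R.sup E, ∑ s ∈ R, c s, mul_nonneg hB₁ (Finset.sum_nonneg fun s _ =>
      mul_nonneg (hK s) (norm_nonneg _)), Finset.sum_nonneg fun s _ => hc s, fun l hl => ?_⟩
  have h3 : ((l.prod : G1 D) : (Matrix (Fin D.n) (Fin D.n) ℝ)ˣ).val =
      ∑ s ∈ R, lmR D l.prod (pr (lmR D t') s (1 : Matrix (Fin D.n) (Fin D.n) ℝ)) := by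
    rw [← map_sum, sum_pr, lmR_apply, mul_one]
  have hlen : (1 : ℝ) ≤ 1 + l.length := by
    have : (0 : ℝ) ≤ l.length := Nat.cast_nonneg _
    linarith
  have h4 : ‖((l.prod : G1 D) : (Matrix (Fin D.n) (Fin D.n) ℝ)ˣ).val‖ ≤
      (∑ s ∈ R, K s * ‖pr (lmR D t') s (1 : Matrix (Fin D.n) (Fin D.n) ℝ)‖) *
        ((1 + l.length : ℝ) ^ (R.sup E) * Real.exp ((∑ s ∈ R, c s) * ‖hv π₁ l.prod‖)) := by
    rw [h3, Finset.sum_mul]
    refine (norm_sum_le _ _).trans (Finset.sum_le_sum fun s hs => ?_)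
    refine (h s l hl _ (pr_mem _ _ _)).trans ?_
    have e1 : (1 + l.length : ℝ) ^ E s ≤ (1 + l.length : ℝ) ^ (R.sup E) :=
      pow_le_pow_right₀ hlen (Finset.le_sup hs)
    have e2 : c s ≤ ∑ s ∈ R, c s := Finset.single_le_sum (f := c) (fun s _ => hc s) hs
    have e3 := hK s
    calc K s * (1 + l.length : ℝ) ^ E s * Real.exp (c s * ‖hv π₁ l.prod‖) *
          ‖pr (lmR D t') s (1 : Matrix (Fin D.n) (Fin D.n) ℝ)‖ ≤
          K s * (1 + l.length : ℝ) ^ (R.sup E) * Real.exp ((∑ s ∈ R, c s) * ‖hv π₁ l.prod‖) *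
          ‖pr (lmR D t') s (1 : Matrix (Fin D.n) (Fin D.n) ℝ)‖ := by gcongr
      _ = _ := by ring
  calc nrm ((l.prod : G1 D) : (Matrix (Fin D.n) (Fin D.n) ℝ)ˣ).val ≤
        B₁ * ‖((l.prod : G1 D) : (Matrix (Fin D.n) (Fin D.n) ℝ)ˣ).val‖ := h1 _
    _ ≤ B₁ * ((∑ s ∈ R, K s * ‖pr (lmR D t') s (1 : Matrix (Fin D.n) (Fin D.n) ℝ)‖) *
        ((1 + l.length : ℝ) ^ (R.sup E) * Real.exp ((∑ s ∈ R, c s) * ‖hv π₁ l.prod‖))) :=
        mul_le_mul_of_nonneg_left h4 hB₁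
    _ = _ := by ring

end main

end Crest.Agent.R182.ModelX
end

-- ▼ part R182/ModelX3
section

set_option autoImplicit false
set_option linter.unusedSectionVars false

namespace Crest.Agent.R182.ModelX

open Module LinMod Polyc Model ModelWt ModelDist

section main

attribute [local instance] Matrix.linftyOpNormedRing Matrix.linftyOpNormedAlgebra

variable {Γ : Type*} [Group Γ] {N : Subgroup Γ} [hN : N.Normal] {D : EmbData Γ N} {k : ℕ}
  {π₁ : G1 D →* Multiplicative (Fin k → ℤ)}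

theorem coe_prod_inv_list (l : List (G1 D)) :
    (l.prod)⁻¹ = ((l.map fun s => s⁻¹).reverse).prod := List.prod_inv_reverse l

/-- **Growth of the size of products of bounded elements of `C`.** -/
theorem sz_growth (𝒞 : Cartan D π₁)
    (hs : ∀ v : Fin k → ℤ, ∃ γ : Γ, Multiplicative.toAdd (π₁ (inΓ D γ)) = v) (A : ℝ) :
    ∃ (K : ℝ) (E : ℕ) (c : ℝ), 0 ≤ K ∧ 0 ≤ c ∧ ∀ l : List (G1 D),
    (∀ s ∈ l, s ∈ 𝒞.C ∧ sz (s : (Matrix (Fin D.n) (Fin D.n) ℝ)ˣ) ≤ A ∧ ∀ i, |hv π₁ s i| ≤ A) →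
      sz ((l.prod : G1 D) : (Matrix (Fin D.n) (Fin D.n) ℝ)ˣ) ≤
        K * (1 + l.length : ℝ) ^ E * Real.exp (c * ‖hv π₁ l.prod‖) := by
  obtain ⟨K, E, c, hK, hc, h⟩ := C_growth 𝒞 hs A
  refine ⟨1 + 2 * K, E, c, by linarith, hc, fun l hl => ?_⟩
  have h1 := h l hl
  have h2 := h ((l.map fun s => s⁻¹).reverse) (by
    intro s hs'
    rw [List.mem_reverse, List.mem_map] at hs'
    obtain ⟨x, hx, rfl⟩ := hs'
    obtain ⟨a1, a2, a3⟩ := hl x hx
    refine ⟨𝒞.C.inv_mem a1, ?_, fun i => ?_⟩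
    · rw [Subgroup.coe_inv, sz_inv]; exact a2
    · rw [hv_inv, Pi.neg_apply, abs_neg]; exact a3 i)
  rw [← coe_prod_inv_list, hv_inv, norm_neg, List.length_reverse, List.length_map] at h2
  set y : ℝ := (1 + l.length : ℝ) ^ E * Real.exp (c * ‖hv π₁ l.prod‖) with hy
  have hlen : (1 : ℝ) ≤ 1 + l.length := by
    have : (0 : ℝ) ≤ l.length := Nat.cast_nonneg _
    linarith
  have hy1 : 1 ≤ y := by
    have e1 : (1 : ℝ) ≤ (1 + l.length : ℝ) ^ E := one_le_pow₀ hlen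
    have e2 : (1 : ℝ) ≤ Real.exp (c * ‖hv π₁ l.prod‖) := Real.one_le_exp (by positivity)
    calc (1 : ℝ) = 1 * 1 := by ring
      _ ≤ y := mul_le_mul e1 e2 zero_le_one (by positivity)
  have h3 : nrm ((l.prod : G1 D) : (Matrix (Fin D.n) (Fin D.n) ℝ)ˣ).val ≤ K * y := by
    rw [hy, ← mul_assoc]; exact h1
  have h4 : nrm (((l.prod : G1 D) : (Matrix (Fin D.n) (Fin D.n) ℝ)ˣ)⁻¹).val ≤ K * y := by
    rw [hy, ← mul_assoc]; rw [Subgroup.coe_inv] at h2; exact h2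
  have h5 : sz ((l.prod : G1 D) : (Matrix (Fin D.n) (Fin D.n) ℝ)ˣ) ≤ 1 + K * y + K * y := by
    unfold sz
    exact add_le_add (add_le_add le_rfl h3) h4
  calc _ ≤ 1 + K * y + K * y := h5
    _ ≤ (1 + 2 * K) * y := by nlinarith
    _ = _ := by rw [hy]; ring


end main

section real

variable {Γ : Type*} [Group Γ] {R : RootData Γ} {D : EmbData Γ R.N} {S : Set Γ} {C₀ : ℝ}

/-- growth of the size of products of elements of `C` of bounded length -/
theorem sz_growth_len (h : Big D S C₀) (𝒞 : Cartan D (π1 R D)) (Rr : ℝ) :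
    ∃ (K : ℝ) (E : ℕ) (c : ℝ), 0 ≤ K ∧ 0 ≤ c ∧ ∀ l : List (G1 D),
    (∀ s ∈ l, s ∈ 𝒞.C ∧ (len D C₀ s : ℝ) ≤ Rr) →
      sz ((l.prod : G1 D) : (Matrix (Fin D.n) (Fin D.n) ℝ)ˣ) ≤
        K * (1 + l.length : ℝ) ^ E * Real.exp (c * ‖hgt R D l.prod‖) := by
  obtain ⟨A, -, hA⟩ := Big_bound h Rr
  obtain ⟨K, E, c, hK, hc, h1⟩ := sz_growth 𝒞 (hs_π1 R D) A
  exact ⟨K, E, c, hK, hc, fun l hl => h1 l fun s hs =>
    ⟨(hl s hs).1, (hA s (hl s hs).2).1, (hA s (hl s hs).2).2⟩⟩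

/-- **products of height zero have polynomial size** (`HGrowth` of ModelPg) -/
theorem hgr (h : Big D S C₀) (𝒞 : Cartan D (π1 R D)) :
    ∀ Rr : ℝ, ∃ (A : ℝ) (E : ℕ), 0 ≤ A ∧ ∀ l : List (G1 D),
    (∀ s ∈ l, s ∈ 𝒞.C ∧ (len D C₀ s : ℝ) ≤ Rr) → hgt R D l.prod = 0 →
    sz (l.prod : (Matrix (Fin D.n) (Fin D.n) ℝ)ˣ) ≤ A * (1 + l.length) ^ E := by
  intro Rr
  obtain ⟨K, E, c, hK, hc, h1⟩ := sz_growth_len h 𝒞 Rr
  refine ⟨K, E, hK, fun l hl h0 => ?_⟩
  have h2 := h1 l hl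
  rwa [h0, norm_zero, mul_zero, Real.exp_zero, mul_one] at h2

end real

end Crest.Agent.R182.ModelX
end

-- ▼ part R182/ModelX4

set_option autoImplicit false
set_option linter.unusedSectionVars false

namespace Crest.Agent.R182.ModelX

open Module LinMod Polyc Model ModelWt ModelDist

section real

variable {Γ : Type*} [Group Γ] {R : RootData Γ} {D : EmbData Γ R.N} {S : Set Γ} {C₀ : ℝ}

/-- **`E ∩ C` is polynomially distorted in `C`** (helper329's `CDist`). -/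
theorem cdist (h : Big D S C₀) {𝒞 : Cartan D (π1 R D)} (𝒷 : AdBas 𝒞) :
    ∀ Rr : ℝ, ∃ A : ℕ, ∀ l : List (G1 D),
    (∀ s ∈ l, s ∈ 𝒞.C ∧ (len D C₀ s : ℝ) ≤ Rr) → ∀ x : 𝒞.eA, 𝒞.exE x = l.prod →
      ‖𝒷.bas.equivFun x‖ ≤ A * (1 + l.length) ^ A := by
  intro Rr
  obtain ⟨A, E, hA, h1⟩ := hgr h 𝒞 Rr
  obtain ⟨B, hB0, hB⟩ := 𝒷.exists_repr_le
  set A' : ℝ := B * (D.n * ((D.n + 1) * (1 + D.n + A) ^ D.n)) with hA'
  have hA'0 : 0 ≤ A' := by positivity
  refine ⟨max ⌈A'⌉₊ (E * D.n), fun l hl x hx => ?_⟩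
  set y : ℝ := (1 + l.length : ℝ) with hy
  have hy1 : 1 ≤ y := by
    have : (0 : ℝ) ≤ l.length := Nat.cast_nonneg _
    rw [hy]; linarith
  have h2 := h1 l hl (by
    rw [← hx]
    exact 𝒞.hv_exE x)
  have h3 := nrm_lg_le_sz h2
  have hlg : lg ((l.prod : G1 D) : (Matrix (Fin D.n) (Fin D.n) ℝ)ˣ).val = x := by
    rw [← hx, Cartan.coe_exE, lg_eU]
  rw [hlg] at h3
  have h4 : ‖𝒷.bas.equivFun x‖ ≤ B * nrm (x : Matrix (Fin D.n) (Fin D.n) ℝ) := by
    rw [pi_norm_le_iff_of_nonneg (mul_nonneg hB0 (nrm_nonneg _))]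
    exact fun i => hB x i
  have h5 : (1 + D.n + A * y ^ E) ^ D.n ≤ (1 + D.n + A) ^ D.n * y ^ (E * D.n) := by
    rw [pow_mul, ← mul_pow]
    refine pow_le_pow_left₀ (by positivity) ?_ _
    have e1 : (1 : ℝ) ≤ y ^ E := one_le_pow₀ hy1
    have e2 : (0 : ℝ) ≤ D.n := Nat.cast_nonneg _
    nlinarith
  calc ‖𝒷.bas.equivFun x‖ ≤ B * nrm (x : Matrix (Fin D.n) (Fin D.n) ℝ) := h4
    _ ≤ B * (D.n * ((D.n + 1) * ((1 + D.n + A) ^ D.n * y ^ (E * D.n)))) := by
        refine mul_le_mul_of_nonneg_left (h3.trans ?_) hB0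
        gcongr
    _ = A' * y ^ (E * D.n) := by rw [hA']; ring
    _ ≤ ((max ⌈A'⌉₊ (E * D.n) : ℕ) : ℝ) * y ^ (max ⌈A'⌉₊ (E * D.n)) := by
        have e1 : A' ≤ ((max ⌈A'⌉₊ (E * D.n) : ℕ) : ℝ) :=
          (Nat.le_ceil A').trans (by exact_mod_cast le_max_left _ _)
        have e2 : y ^ (E * D.n) ≤ y ^ (max ⌈A'⌉₊ (E * D.n)) :=
          pow_le_pow_right₀ hy1 (le_max_right _ _)
        exact mul_le_mul e1 e2 (by positivity) (by positivity)

end real

end Crest.Agent.R182.ModelX
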