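import Mathlib
import Crest.Agent.R182.ModelX4
import Crest.Agent.R182.ModelInst2
import Crest.Agent.R182.BndZL2
import Crest.Agent.R182.ModelSub1
import Crest.Agent.R182.SlowUL
import Crest.Agent.R182.SubJC
import Crest.Agent.R182.PolycKron
import Crest.Agent.R182.PolycEmbDefs
import Crest.Agent.R182.PolycRoot
import Crest.Agent.R182.Core
import Crest.Agent.R182.ModelVol_Mg
import Crest.Agent.R182.Asm3
import Crest.Agent.R182.BndExt

-- ▼ part R182/ModelX5
section

set_option autoImplicit false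
set_option linter.unusedSectionVars false

namespace Crest.Agent.R182.ModelX

open Module LinMod Polyc Model ModelWt ModelDist

section real

variable {Γ : Type*} [Group Γ] {R : RootData Γ} {D : EmbData Γ R.N} {S : Set Γ} {C₀ : ℝ}

/-- **elements of height zero of `C` are finely subdivided** -/
theorem fine (h : Big D S C₀) (𝒞 : Cartan D (π1 R D)) {b v : G1 D} (hb : b ∈ 𝒞.C) (hv : v ∈ 𝒞.C)
    (hv0 : hgt R D v = 0) : Bnd.Fine (fun g : G1 D => (len D C₀ g : ℝ)) b v := by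
  have hvN : v ∈ NR1 D := (hgt_eq_zero_iff R D v).1 hv0
  have h1 := (𝒞.mem_C_NR_iff v).1 ⟨hv, hvN⟩
  set X : Matrix (Fin D.n) (Fin D.n) ℝ :=
    lg ((v : (Matrix (Fin D.n) (Fin D.n) ℝ)ˣ) : Matrix (Fin D.n) (Fin D.n) ℝ) with hXdef
  have hX0 : X ∈ 𝒞.nw 0 := by
    rw [𝒞.nw_zero]; exact (mem_E0.1 h1).2
  have hX : X ∈ lie D := lg_mem_lie D hvN
  have hvX : exG D X hX = v := exG_lg hvN
  obtain ⟨K, E, hK, hgr⟩ := 𝒞.growth_zpow hb
  obtain ⟨L, hL⟩ := h.len_exG_of_le (max (nrm X) (K * nrm X))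
  have hn0 := nrm_nonneg X
  refine ⟨max 1 L, E, fun k => ?_⟩
  set q : ℕ := (1 + k) ^ E with hq
  have hq1 : 1 ≤ q := Nat.one_le_pow _ _ (by omega)
  have hqR : (1 : ℝ) ≤ q := by exact_mod_cast hq1
  have hq0 : (q : ℝ) ≠ 0 := by positivity
  have hqR' : (q : ℝ) = (1 + (k : ℝ)) ^ E := by rw [hq]; push_cast; ring
  have hY : (q : ℝ)⁻¹ • X ∈ lie D := (lie D).smul_mem _ hX
  set w : G1 D := exG D ((q : ℝ)⁻¹ • X) hY with hw
  have hpow : ∀ i : ℕ, w ^ i = exG D (((i : ℝ) * (q : ℝ)⁻¹) • X) ((lie D).smul_mem _ hX) := by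
    intro i
    rw [hw, ← exG_pow hY i]
    exact exG_congr _ _ (by rw [smul_smul])
  refine ⟨List.replicate q w, ?_, ?_, ?_, ?_⟩
  · rw [List.prod_replicate, hpow, ← hvX]
    exact exG_congr _ _ (by rw [mul_inv_cancel₀ hq0, one_smul])
  · rw [List.length_replicate, hqR']
    have e1 : (0 : ℝ) ≤ (1 + (k : ℝ)) ^ E := by positivity
    calc (1 + (k : ℝ)) ^ E = 1 * (1 + (k : ℝ)) ^ E := by ring
      _ ≤ max 1 (L : ℝ) * (1 + (k : ℝ)) ^ E := mul_le_mul_of_nonneg_right (le_max_left _ _) e1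
  · intro i
    rw [List.take_replicate, List.prod_replicate, hpow]
    refine le_trans ?_ (le_max_right _ _)
    have e1 := hL ((((min i q : ℕ) : ℝ) * (q : ℝ)⁻¹) • X) ((lie D).smul_mem _ hX) (by
      refine le_trans ?_ (le_max_left _ _)
      rw [nrm_smul, abs_of_nonneg (by positivity)]
      have e2 : ((min i q : ℕ) : ℝ) * (q : ℝ)⁻¹ ≤ 1 := by
        rw [← div_eq_mul_inv, div_le_one (by positivity)]
        exact_mod_cast min_le_right _ _
      calc _ ≤ 1 * nrm X := mul_le_mul_of_nonneg_right e2 hn0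
        _ = nrm X := one_mul _)
    exact Nat.cast_le.2 e1
  · intro y hy
    rw [List.eq_of_mem_replicate hy]
    refine le_trans ?_ (le_max_right _ _)
    have e3 : (b ^ k)⁻¹ * w * b ^ k = (b ^ k)⁻¹ * w * ((b ^ k)⁻¹)⁻¹ := by rw [inv_inv]
    rw [e3, hw, conj_exG]
    have e4 : (((b ^ k)⁻¹ : G1 D) : (Matrix (Fin D.n) (Fin D.n) ℝ)ˣ) =
        ((b ^ (-(k : ℤ)) : G1 D) : (Matrix (Fin D.n) (Fin D.n) ℝ)ˣ) := by
      rw [zpow_neg, zpow_natCast]
    have e5 : cj (((b ^ k)⁻¹ : G1 D) : (Matrix (Fin D.n) (Fin D.n) ℝ)ˣ) ((q : ℝ)⁻¹ • X) =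
        (q : ℝ)⁻¹ • cj ((b ^ (-(k : ℤ)) : G1 D) : (Matrix (Fin D.n) (Fin D.n) ℝ)ˣ) X := by
      rw [map_smul, e4]
    have e6 := hgr 0 (-(k : ℤ)) X hX0
    rw [LinearMap.zero_apply, mul_zero, Real.exp_zero, mul_one] at e6
    have e7 : |((-(k : ℤ) : ℤ) : ℝ)| = k := by push_cast; rw [abs_neg, Nat.abs_cast]
    rw [e7, ← hqR'] at e6
    have e8 := hL _ (cj_mem_lie D ((b ^ k)⁻¹ : G1 D).2 hY) (by
      refine le_trans ?_ (le_max_right _ _)
      rw [e5, nrm_smul, abs_of_nonneg (by positivity)]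
      calc (q : ℝ)⁻¹ * _ ≤ (q : ℝ)⁻¹ * (K * q * nrm X) :=
            mul_le_mul_of_nonneg_left e6 (by positivity)
        _ = K * nrm X := by field_simp)
    exact Nat.cast_le.2 e8

end real

end Crest.Agent.R182.ModelX
end

-- ▼ part R182/ModelSub2
section

set_option autoImplicit false
set_option linter.unusedSectionVars false

namespace Crest.Agent.R182.ModelSub

open Crest.Agent.R182.FinPath Crest.Agent.R182.Polyc Crest.Agent.R182.Model
  Crest.Agent.R182.ModelWt Crest.Agent.R182.ModelCt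

section word

attribute [local instance] Matrix.linftyOpNormedRing Matrix.linftyOpNormedAlgebra

variable {Γ : Type*} [Group Γ] {R : RootData Γ} {D : EmbData Γ R.N}

/-- conjugates of exponentials by arbitrary matrices -/
theorem coe_exG_cj (g : (Matrix (Fin D.n) (Fin D.n) ℝ)ˣ) {Y : Matrix (Fin D.n) (Fin D.n) ℝ}
    (hY : Y ∈ lie D) (h : cj g Y ∈ lie D) :
    ((exG D (cj g Y) h : G1 D) : (Matrix (Fin D.n) (Fin D.n) ℝ)ˣ) =
      g * ((exG D Y hY : G1 D) : (Matrix (Fin D.n) (Fin D.n) ℝ)ˣ) * g⁻¹ := by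
  apply Units.ext
  rw [Units.val_mul, Units.val_mul]
  change ex (cj g Y) = _
  rw [← cj_ex, cj_apply]
  rfl


theorem step_pos {G : Type*} [Group G] {s u b : G} (hb : b = s * u) (hsu : Commute s u)
    (i m : ℤ) (P : G) :
    b * (s ^ (i - 1) * P * s ^ (-(i - 1)) * s ^ m) = s ^ i * (u * P) * s ^ (-i) * s ^ (1 + m) := by
  have h1 : b * s ^ (i - 1) = s ^ i * u := by
    rw [hb, mul_assoc, ((hsu.zpow_left (i - 1)).eq).symm, ← mul_assoc, ← zpow_one_add]
    congr 2; ring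
  have h2 : s ^ (-(i - 1)) * s ^ m = s ^ (-i) * s ^ (1 + m) := by
    rw [← zpow_add, ← zpow_add]; congr 1; ring
  calc b * (s ^ (i - 1) * P * s ^ (-(i - 1)) * s ^ m) =
      (b * s ^ (i - 1)) * P * (s ^ (-(i - 1)) * s ^ m) := by simp only [mul_assoc]
    _ = s ^ i * u * P * (s ^ (-i) * s ^ (1 + m)) := by rw [h1, h2]
    _ = _ := by simp only [mul_assoc]

theorem step_neg {G : Type*} [Group G] {s u b : G} (hb : b = s * u) (hsu : Commute s u)
    (i m : ℤ) (P : G) :
    b⁻¹ * (s ^ (i + 1) * P * s ^ (-(i + 1)) * s ^ m) =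
      s ^ i * (u⁻¹ * P) * s ^ (-i) * s ^ (-1 + m) := by
  have h1 : b⁻¹ * s ^ (i + 1) = s ^ i * u⁻¹ := by
    have h3 : s ^ (i + 1) = b * (s ^ i * u⁻¹) := by
      have h4 : u * s ^ i = s ^ i * u := ((hsu.zpow_left i).eq).symm
      rw [hb, mul_assoc, ← mul_assoc u, h4, mul_inv_cancel_right, ← zpow_one_add, add_comm]
    rw [h3, inv_mul_cancel_left]
  have h2 : s ^ (-(i + 1)) * s ^ m = s ^ (-i) * s ^ (-1 + m) := by
    rw [← zpow_add, ← zpow_add]; congr 1; ring
  calc b⁻¹ * (s ^ (i + 1) * P * s ^ (-(i + 1)) * s ^ m) =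
      (b⁻¹ * s ^ (i + 1)) * P * (s ^ (-(i + 1)) * s ^ m) := by simp only [mul_assoc]
    _ = s ^ i * u⁻¹ * P * (s ^ (-i) * s ^ (-1 + m)) := by rw [h1, h2]
    _ = _ := by simp only [mul_assoc]

/-- the word transformation -/
theorem exists_word {b : G1 D} {s u : (Matrix (Fin D.n) (Fin D.n) ℝ)ˣ}
    (hb : (b : (Matrix (Fin D.n) (Fin D.n) ℝ)ˣ) = s * u) (hsu : Commute s u)
    {Y : Matrix (Fin D.n) (Fin D.n) ℝ} (hY : Y ∈ lie D) (hYs : ∀ i : ℤ, cj (s ^ i) Y ∈ lie D)
    {gd : G1 D → Prop} (hb1 : gd b) (hb2 : gd b⁻¹)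
    (hY1 : ∀ i : ℤ, gd (exG D _ (hYs i))) (hY2 : ∀ i : ℤ, gd (exG D _ (hYs i))⁻¹)
    {U : Subgroup (Matrix (Fin D.n) (Fin D.n) ℝ)ˣ} {x y : U × Multiplicative ℤ}
    (hx1 : (x.1 : (Matrix (Fin D.n) (Fin D.n) ℝ)ˣ) = (exG D Y hY : G1 D)) (hx2 : x.2 = 1)
    (hy1 : (y.1 : (Matrix (Fin D.n) (Fin D.n) ℝ)ˣ) = u) (hy2 : y.2 = Multiplicative.ofAdd 1)
    (l : List (U × Multiplicative ℤ)) (hl : ∀ z ∈ l, z = x ∨ z = x⁻¹ ∨ z = y ∨ z = y⁻¹) :
    ∀ i : ℤ, ∃ l' : List (G1 D), l'.length = l.length ∧ (∀ g ∈ l', gd g) ∧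
      ((l'.prod : G1 D) : (Matrix (Fin D.n) (Fin D.n) ℝ)ˣ) =
        s ^ i * (l.prod.1 : (Matrix (Fin D.n) (Fin D.n) ℝ)ˣ) * s ^ (-i) *
          s ^ (Multiplicative.toAdd l.prod.2) := by
  induction l with
  | nil =>
    intro i
    refine ⟨[], rfl, by simp, ?_⟩
    simp
  | cons z l ih =>
    intro i
    have ih' := ih fun w hw => hl w (List.mem_cons_of_mem _ hw)
    have key : ∀ (w : U × Multiplicative ℤ) (i : ℤ), ((w * l.prod).1 :
        (Matrix (Fin D.n) (Fin D.n) ℝ)ˣ) = (w.1 : (Matrix (Fin D.n) (Fin D.n) ℝ)ˣ) *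
        (l.prod.1 : (Matrix (Fin D.n) (Fin D.n) ℝ)ˣ) := fun w i => rfl
    have key2 : ∀ w : U × Multiplicative ℤ, Multiplicative.toAdd (w * l.prod).2 =
        Multiplicative.toAdd w.2 + Multiplicative.toAdd l.prod.2 := fun w => rfl
    rw [List.prod_cons, key z i, key2, List.length_cons]
    rcases hl z List.mem_cons_self with rfl | rfl | rfl | rfl
    · obtain ⟨l', h1, h2, h3⟩ := ih' i
      refine ⟨exG D _ (hYs i) :: l', by rw [List.length_cons, h1], ?_, ?_⟩
      · intro g hg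
        rcases List.mem_cons.1 hg with rfl | hg
        · exact hY1 i
        · exact h2 g hg
      · rw [List.prod_cons, Subgroup.coe_mul, h3, coe_exG_cj _ hY, hx1, hx2, toAdd_one,
          zero_add]
        simp only [zpow_neg, mul_assoc, inv_mul_cancel_left]
    · obtain ⟨l', h1, h2, h3⟩ := ih' i
      refine ⟨(exG D _ (hYs i))⁻¹ :: l', by rw [List.length_cons, h1], ?_, ?_⟩
      · intro g hg
        rcases List.mem_cons.1 hg with rfl | hg
        · exact hY2 i
        · exact h2 g hg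
      · have e1 : ((x⁻¹).1 : (Matrix (Fin D.n) (Fin D.n) ℝ)ˣ) =
            ((exG D Y hY : G1 D) : (Matrix (Fin D.n) (Fin D.n) ℝ)ˣ)⁻¹ := by
          rw [← hx1]; rfl
        have e2 : Multiplicative.toAdd (x⁻¹).2 = 0 := by
          change Multiplicative.toAdd (x.2)⁻¹ = 0
          rw [hx2]; rfl
        rw [List.prod_cons, Subgroup.coe_mul, h3, Subgroup.coe_inv, coe_exG_cj _ hY, e1, e2,
          zero_add]
        simp only [zpow_neg, mul_assoc, mul_inv_rev, inv_inv, inv_mul_cancel_left]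
    · obtain ⟨l', h1, h2, h3⟩ := ih' (i - 1)
      refine ⟨b :: l', by rw [List.length_cons, h1], ?_, ?_⟩
      · intro g hg
        rcases List.mem_cons.1 hg with rfl | hg
        · exact hb1
        · exact h2 g hg
      · rw [List.prod_cons, Subgroup.coe_mul, h3, step_pos hb hsu, hy1, hy2, toAdd_ofAdd]
    · obtain ⟨l', h1, h2, h3⟩ := ih' (i + 1)
      refine ⟨b⁻¹ :: l', by rw [List.length_cons, h1], ?_, ?_⟩
      · intro g hg
        rcases List.mem_cons.1 hg with rfl | hg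
        · exact hb2
        · exact h2 g hg
      · have e1 : ((y⁻¹).1 : (Matrix (Fin D.n) (Fin D.n) ℝ)ˣ) = u⁻¹ := by
          rw [← hy1]; rfl
        have e2 : Multiplicative.toAdd (y⁻¹).2 = -1 := by
          change Multiplicative.toAdd (y.2)⁻¹ = -1
          rw [hy2]; rfl
        rw [List.prod_cons, Subgroup.coe_mul, h3, Subgroup.coe_inv, step_neg hb hsu, e1, e2]

end word

end Crest.Agent.R182.ModelSub
end

-- ▼ part R182/ModelSub3
section

set_option autoImplicit false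
set_option linter.unusedSectionVars false

namespace Crest.Agent.R182.ModelSub

open Crest.Agent.R182.FinPath Crest.Agent.R182.Polyc Crest.Agent.R182.Model
  Crest.Agent.R182.ModelWt Crest.Agent.R182.ModelCt

section main

attribute [local instance] Matrix.linftyOpNormedRing Matrix.linftyOpNormedAlgebra

variable {Γ : Type*} [Group Γ] {R : RootData Γ} {D : EmbData Γ R.N} {S : Set Γ} {C₀ : ℝ}

/-- the input from linear algebra: `b = s u` with `s` power-bounded on `𝔫_0` and `u`, `exp 𝔫_0` in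
a nilpotent group. -/
def JN (𝒞 : Cartan D (π1 R D)) (b : G1 D) : Prop :=
  ∃ s u : (Matrix (Fin D.n) (Fin D.n) ℝ)ˣ,
    (b : (Matrix (Fin D.n) (Fin D.n) ℝ)ˣ) = s * u ∧ Commute s u ∧
    (∀ X ∈ 𝒞.nw 0, cj s X ∈ 𝒞.nw 0 ∧ cj s⁻¹ X ∈ 𝒞.nw 0) ∧
    (∃ A : ℝ, ∀ X ∈ 𝒞.nw 0, ∀ j : ℤ, nrm (cj (s ^ j) X) ≤ A * nrm X) ∧
    ∃ U : Subgroup (Matrix (Fin D.n) (Fin D.n) ℝ)ˣ, u ∈ U ∧
      (∀ X (hX : X ∈ 𝒞.nw 0),
        ((exG D X (𝒞.nw_le 0 hX) : G1 D) : (Matrix (Fin D.n) (Fin D.n) ℝ)ˣ) ∈ U) ∧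
      Group.IsNilpotent U

theorem cj_zpow_mem {n : ℕ} {s : (Matrix (Fin n) (Fin n) ℝ)ˣ}
    {W : Submodule ℝ (Matrix (Fin n) (Fin n) ℝ)}
    (h : ∀ X ∈ W, cj s X ∈ W ∧ cj s⁻¹ X ∈ W) (j : ℤ) {X : Matrix (Fin n) (Fin n) ℝ}
    (hX : X ∈ W) : cj (s ^ j) X ∈ W := by
  induction j using Int.induction_on with
  | zero => rw [zpow_zero, cj_one]; exact hX
  | succ i ih =>
    rw [add_comm, zpow_one_add, cj_mul]
    exact (h _ ih).1
  | pred i ih =>
    have : s ^ (-(i : ℤ) - 1) = s⁻¹ * s ^ (-(i : ℤ)) := by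
      rw [sub_eq_add_neg, add_comm, zpow_add, zpow_neg_one]
    rw [this, cj_mul]
    exact (h _ ih).2

/-- the exponential part -/
theorem exp_part (h : Big D S C₀) {𝒞 : Cartan D (π1 R D)} {b : G1 D} (hb : b ∈ 𝒞.C)
    (hJ : JN 𝒞 b) (B : ℝ) : ∃ R' : ℝ, ∀ δ : ℝ, 0 < δ → ∃ N₀ : ℕ, ∀ N : ℕ, N₀ ≤ N →
    ∀ j : ℕ, j ≤ N → ∀ (X : Matrix (Fin D.n) (Fin D.n) ℝ) (hX : X ∈ 𝒞.nw 0), nrm X ≤ B →
      ∃ l : List (G1 D), b ^ j * exG D X (𝒞.nw_le 0 hX) * (b ^ j)⁻¹ = l.prod ∧
        (l.length : ℝ) ≤ δ * N ∧ ∀ g ∈ l, g ∈ 𝒞.C ∧ (len D C₀ g : ℝ) ≤ R' := by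
  obtain ⟨s, u, hbs, hsu, hW, ⟨A, hA⟩, U, huU, hexU, hU⟩ := hJ
  obtain ⟨c, hc⟩ := Subgroup.nilpotent_iff_lowerCentralSeries.mp
    (inferInstance : Group.IsNilpotent (U × Multiplicative ℤ))
  obtain ⟨K, hK⟩ := h.len_exG_of_le (|A| * |B|)
  refine ⟨max (len D C₀ b) K, fun δ hδ => ?_⟩
  obtain ⟨N₀, hN₀⟩ := Slow.exists_UL.{0} c hδ
  refine ⟨N₀, fun N hN j hj X hX hXB => ?_⟩
  let x : U × Multiplicative ℤ := (⟨_, hexU X hX⟩, 1)
  let y : U × Multiplicative ℤ := (⟨u, huU⟩, Multiplicative.ofAdd 1)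
  obtain ⟨l, hl1, hl2, hl3⟩ := hN₀ (U × Multiplicative ℤ) hc x y N hN j hj
  have hXs : ∀ i : ℤ, cj (s ^ i) X ∈ 𝒞.nw 0 := fun i => cj_zpow_mem hW i hX
  have hlen : ∀ i : ℤ, (len D C₀ (exG D _ (𝒞.nw_le 0 (hXs i))) : ℝ) ≤ K := by
    intro i
    have h1 : nrm (cj (s ^ i) X) ≤ |A| * |B| := by
      refine (hA X hX i).trans ?_
      have h2 := nrm_nonneg X
      calc A * nrm X ≤ |A| * nrm X := mul_le_mul_of_nonneg_right (le_abs_self _) h2
        _ ≤ |A| * |B| := mul_le_mul_of_nonneg_left (hXB.trans (le_abs_self _)) (abs_nonneg _)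
    exact_mod_cast hK _ _ h1
  obtain ⟨l', h1, h2, h3⟩ := exists_word (gd := fun g => g ∈ 𝒞.C ∧ (len D C₀ g : ℝ) ≤
      max (len D C₀ b : ℝ) K) hbs hsu (𝒞.nw_le 0 hX) (fun i => 𝒞.nw_le 0 (hXs i))
    ⟨hb, le_max_left _ _⟩ ⟨𝒞.C.inv_mem hb, by rw [h.len_inv]; exact le_max_left _ _⟩
    (fun i => ⟨exG_mem_C 𝒞 (hXs i), (hlen i).trans (le_max_right _ _)⟩)
    (fun i => ⟨𝒞.C.inv_mem (exG_mem_C 𝒞 (hXs i)),
      by rw [h.len_inv]; exact (hlen i).trans (le_max_right _ _)⟩)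
    (x := x) (y := y) rfl rfl rfl rfl l hl2 j
  refine ⟨l', ?_, by rw [h1]; exact hl1, h2⟩
  apply Subtype.ext
  rw [h3, hl3]
  have e1 : ((y ^ j * x * (y ^ j)⁻¹).1 : (Matrix (Fin D.n) (Fin D.n) ℝ)ˣ) =
      u ^ j * ((exG D X (𝒞.nw_le 0 hX) : G1 D) : (Matrix (Fin D.n) (Fin D.n) ℝ)ˣ) *
        (u ^ j)⁻¹ := rfl
  have e2 : Multiplicative.toAdd (y ^ j * x * (y ^ j)⁻¹).2 = 0 := by
    have : (y ^ j * x * (y ^ j)⁻¹).2 = y.2 ^ j * x.2 * (y.2 ^ j)⁻¹ := rfl
    rw [this, mul_comm (y.2 ^ j) x.2, mul_inv_cancel_right]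
    rfl
  have e3 : ((b ^ j : G1 D) : (Matrix (Fin D.n) (Fin D.n) ℝ)ˣ) = s ^ j * u ^ j := by
    rw [Subgroup.coe_pow, hbs, hsu.mul_pow]
  rw [e1, e2, zpow_zero, mul_one]
  rw [Subgroup.coe_mul, Subgroup.coe_mul, Subgroup.coe_inv, e3, mul_inv_rev, zpow_neg,
    zpow_natCast]
  simp only [mul_assoc]

/-- the nilpotent part -/
theorem nil_part {𝒞 : Cartan D (π1 R D)} (hχ : ∀ j, 𝒞.W.χ j 𝒞.t = 1 → 𝒞.W.χ j = 1) :
    ∀ δ : ℝ, 0 < δ → ∃ N₀ : ℕ, ∀ N : ℕ, N₀ ≤ N →
    ∀ j : ℕ, j ≤ N → ∀ b ∈ Cf D 𝒞.t, ∀ x ∈ Cf D 𝒞.t,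
      ∃ l : List (G1 D), b ^ j * x * (b ^ j)⁻¹ = l.prod ∧ (l.length : ℝ) ≤ δ * N ∧
        ∀ g ∈ l, g = x ∨ g = x⁻¹ ∨ g = b ∨ g = b⁻¹ := by
  intro δ hδ
  obtain ⟨c, hc⟩ := Subgroup.nilpotent_iff_lowerCentralSeries.mp (isNilpotent_Cf 𝒞 hχ)
  obtain ⟨N₀, hN₀⟩ := Slow.exists_UL.{0} c hδ
  refine ⟨N₀, fun N hN j hj b hb x hx => ?_⟩
  obtain ⟨l, hl1, hl2, hl3⟩ := hN₀ (Cf D 𝒞.t) hc ⟨x, hx⟩ ⟨b, hb⟩ N hN j hj
  refine ⟨l.map (Cf D 𝒞.t).subtype, ?_, by rw [List.length_map]; exact hl1, ?_⟩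
  · have h1 := congrArg (Cf D 𝒞.t).subtype hl3
    rw [map_list_prod] at h1
    rw [h1]
    rfl
  · intro g hg
    obtain ⟨z, hz, rfl⟩ := List.mem_map.1 hg
    rcases hl2 z hz with rfl | rfl | rfl | rfl
    · exact Or.inl rfl
    · exact Or.inr (Or.inl rfl)
    · exact Or.inr (Or.inr (Or.inl rfl))
    · exact Or.inr (Or.inr (Or.inr rfl))

/-- **sub_conj** -/
theorem sub_conj_of (h : Big D S C₀) {𝒞 : Cartan D (π1 R D)}
    (hχ : ∀ j, 𝒞.W.χ j 𝒞.t = 1 → 𝒞.W.χ j = 1) (hJ : ∀ b ∈ 𝒞.C, JN 𝒞 b) :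
    ∃ R₀ : ℝ, ∀ b ∈ Cf D 𝒞.t, ∀ Rr δ : ℝ, 0 < δ → ∃ N₀ : ℕ, ∀ N : ℕ, N₀ ≤ N →
      ∀ j : ℕ, j ≤ N → ∀ y ∈ 𝒞.C, (len D C₀ y : ℝ) ≤ Rr →
        ∃ l : List (G1 D), b ^ j * y * (b ^ j)⁻¹ = l.prod ∧ (l.length : ℝ) ≤ δ * N ∧
          ∀ s ∈ l, s ∈ 𝒞.C ∧ (len D C₀ s : ℝ) ≤ R₀ := by
  obtain ⟨t, a, ht, htl⟩ := exists_vert R D h (Cf D 𝒞.t) (exists_mul_Cf (abQ (D := D)) 𝒞.t)
  obtain ⟨R₀, hR₀⟩ := exists_gen_C h 𝒞 ht htl
  refine ⟨R₀, fun b hb Rr δ hδ => ?_⟩
  obtain ⟨B, n₁, hB, hdec⟩ := exists_dec0 h 𝒞 ht htl Rr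
  obtain ⟨R', hR'⟩ := exp_part h (Cf_le 𝒞 hb) (hJ b (Cf_le 𝒞 hb)) B
  -- length of the letters
  have htC : ∀ v, t v ∈ Cf D 𝒞.t := by
    intro v
    obtain ⟨l, h1, -, h2⟩ := htl v
    rw [h1]
    exact (Cf D 𝒞.t).list_prod_mem fun s hs => (h2 s hs).1
  have htlen : ∀ v, n1 v ≤ n₁ → (len D C₀ (t v) : ℝ) ≤ n₁ * |a| := by
    intro v hv
    obtain ⟨l, h1, h2, h3⟩ := htl v
    rw [h1]
    refine (len_list_le h l (a := |a|) fun s hs => (h3 s hs).2.trans (le_abs_self _)).trans ?_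
    refine mul_le_mul_of_nonneg_right ?_ (abs_nonneg _)
    rw [h2]; exact_mod_cast hv
  obtain ⟨q, hq⟩ := hR₀ (max R' (max (n₁ * |a|) (len D C₀ b)))
  set δ' : ℝ := δ / (2 * (q + 1)) with hδ'
  have hδ'0 : 0 < δ' := by positivity
  obtain ⟨N₁, hN₁⟩ := hR' δ' hδ'0
  obtain ⟨N₂, hN₂⟩ := nil_part hχ δ' hδ'0
  refine ⟨max N₁ N₂, fun N hN j hj y hy hyl => ?_⟩
  obtain ⟨X, hX, v, h1, h2, h3⟩ := hdec y hy hyl
  obtain ⟨l₁, h4, h5, h6⟩ := hN₁ N ((le_max_left _ _).trans hN) j hj X hX h2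
  obtain ⟨l₂, h7, h8, h9⟩ := hN₂ N ((le_max_right _ _).trans hN) j hj b hb (t v) (htC v)
  obtain ⟨l, h10, h11, h12⟩ := exists_flatten (P := fun g => g ∈ 𝒞.C ∧ (len D C₀ g : ℝ) ≤
      max R' (max (n₁ * |a|) (len D C₀ b))) hq (l₁ ++ l₂) (by
    intro g hg
    rcases List.mem_append.1 hg with hg | hg
    · exact ⟨(h6 g hg).1, (h6 g hg).2.trans (le_max_left _ _)⟩
    · have e1 : (len D C₀ (t v) : ℝ) ≤ max R' (max (n₁ * |a|) (len D C₀ b)) :=
        (htlen v h3).trans ((le_max_left _ _).trans (le_max_right _ _))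
      have e2 : (len D C₀ b : ℝ) ≤ max R' (max (n₁ * |a|) (len D C₀ b)) :=
        (le_max_right _ _).trans (le_max_right _ _)
      rcases h9 g hg with rfl | rfl | rfl | rfl
      · exact ⟨Cf_le 𝒞 (htC v), e1⟩
      · exact ⟨𝒞.C.inv_mem (Cf_le 𝒞 (htC v)), by rw [h.len_inv]; exact e1⟩
      · exact ⟨Cf_le 𝒞 hb, e2⟩
      · exact ⟨𝒞.C.inv_mem (Cf_le 𝒞 hb), by rw [h.len_inv]; exact e2⟩)
  refine ⟨l, ?_, ?_, h12⟩
  · rw [← h10, List.prod_append, ← h4, ← h7, h1]
    group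
  · have h13 : (l.length : ℝ) ≤ q * (l₁.length + l₂.length) := by
      have : (l.length : ℝ) ≤ ((q * (l₁ ++ l₂).length : ℕ) : ℝ) := by exact_mod_cast h11
      rw [List.length_append] at this
      push_cast at this
      exact this
    have h14 : (0 : ℝ) ≤ q := Nat.cast_nonneg _
    have h15 : (0 : ℝ) ≤ N := Nat.cast_nonneg _
    calc (l.length : ℝ) ≤ q * (δ' * N + δ' * N) :=
          h13.trans (mul_le_mul_of_nonneg_left (add_le_add h5 h8) h14)
      _ = (q / (q + 1)) * (δ * N) := by rw [hδ']; field_simp; ring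
      _ ≤ 1 * (δ * N) := by
          refine mul_le_mul_of_nonneg_right ?_ (by positivity)
          rw [div_le_one (by positivity)]; linarith
      _ = δ * N := one_mul _

end main

end Crest.Agent.R182.ModelSub
end

-- ▼ part R182/ModelSub4
section

set_option autoImplicit false
set_option linter.unusedSectionVars false

namespace Crest.Agent.R182.ModelSub

open Crest.Agent.R182.FinPath Crest.Agent.R182.Polyc Crest.Agent.R182.Model
  Crest.Agent.R182.ModelWt Crest.Agent.R182.ModelCt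

theorem ex_sub_one_mem {n : ℕ} {W : Submodule ℝ (Matrix (Fin n) (Fin n) ℝ)}
    {X : Matrix (Fin n) (Fin n) ℝ} (hX : X ∈ W) :
    ex X - 1 ∈ NonUnitalAlgebra.adjoin ℝ (W : Set (Matrix (Fin n) (Fin n) ℝ)) := by
  set 𝒜 := NonUnitalAlgebra.adjoin ℝ (W : Set (Matrix (Fin n) (Fin n) ℝ)) with h𝒜
  have hX' : X ∈ 𝒜 := NonUnitalAlgebra.subset_adjoin ℝ hX
  rcases Nat.eq_zero_or_pos n with h0 | h0
  · subst h0
    have : ex X - 1 = 0 := by
      ext i; exact i.elim0
    rw [this]; exact zero_mem _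
  · obtain ⟨m, rfl⟩ := Nat.exists_eq_succ_of_ne_zero h0.ne'
    have h1 : ∀ k : ℕ, X ^ (k + 1) ∈ 𝒜 := by
      intro k
      induction k with
      | zero => rw [zero_add, pow_one]; exact hX'
      | succ k ih => rw [pow_succ]; exact mul_mem ih hX'
    have h2 : ex X - 1 = ∑ k ∈ Finset.range m, (((k + 1).factorial : ℝ)⁻¹) • X ^ (k + 1) := by
      rw [ex, Finset.sum_range_succ']
      simp
    rw [h2]
    exact sum_mem fun k _ => SMulMemClass.smul_mem _ (h1 k)

/-- the statement of (N) -/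
def ExistsNil : Prop := ∀ (n : ℕ) (W : Submodule ℝ (Matrix (Fin n) (Fin n) ℝ)),
  (∀ X ∈ W, ∀ Y ∈ W, X * Y - Y * X ∈ W) → (∀ X ∈ W, IsNilpotent X) →
  ∀ u : (Matrix (Fin n) (Fin n) ℝ)ˣ, IsNilpotent ((u : Matrix (Fin n) (Fin n) ℝ) - 1) →
  (∀ X ∈ W, (u : Matrix (Fin n) (Fin n) ℝ) * X *
    ((u⁻¹ : (Matrix (Fin n) (Fin n) ℝ)ˣ) : Matrix (Fin n) (Fin n) ℝ) ∈ W) →
  (∀ X ∈ W, ((u⁻¹ : (Matrix (Fin n) (Fin n) ℝ)ˣ) : Matrix (Fin n) (Fin n) ℝ) * X *
    (u : Matrix (Fin n) (Fin n) ℝ) ∈ W) →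
  ∃ (U : Subgroup (Matrix (Fin n) (Fin n) ℝ)ˣ) (c : ℕ), u ∈ U ∧
    (∀ y : (Matrix (Fin n) (Fin n) ℝ)ˣ, (y : Matrix (Fin n) (Fin n) ℝ) - 1 ∈
      NonUnitalAlgebra.adjoin ℝ (W : Set (Matrix (Fin n) (Fin n) ℝ)) → y ∈ U) ∧
    U.lowerCentralSeries c = ⊥

section main

attribute [local instance] Matrix.linftyOpNormedRing Matrix.linftyOpNormedAlgebra

variable {Γ : Type*} [Group Γ] {R : RootData Γ} {D : EmbData Γ R.N}

theorem jn (hN : ExistsNil) (𝒞 : Cartan D (π1 R D)) {b : G1 D} (hb : b ∈ 𝒞.C) : JN 𝒞 b := by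
  obtain ⟨K, E, hK, hg⟩ := 𝒞.growth_zpow hb
  obtain ⟨s, u, h1, h2, h3, h4, A, h5⟩ := Sub.exists_jordan
    (b : (Matrix (Fin D.n) (Fin D.n) ℝ)ˣ) (𝒞.nw 0) (fun X hX => 𝒞.cj_mem_nw hb hX)
    ⟨K, E, fun X hX j i k => by
      have h := hg 0 j X hX
      rw [LinearMap.zero_apply, mul_zero, Real.exp_zero, mul_one, Subgroup.coe_zpow] at h
      exact (abs_le_nrm _ i k).trans h⟩
  have hlie : ∀ X ∈ 𝒞.nw 0, ∀ Y ∈ 𝒞.nw 0, X * Y - Y * X ∈ 𝒞.nw 0 := by
    intro X hX Y hY
    have h := 𝒞.bracket_mem_nw hX hY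
    rwa [add_zero] at h
  obtain ⟨U, c, h6, h7, h8⟩ := hN D.n (𝒞.nw 0) hlie
    (fun X hX => ⟨D.n, lie_pow_zero D (𝒞.nw_le 0 hX)⟩) u h3
    (fun X hX => (h4 X hX).2.2.1) (fun X hX => (h4 X hX).2.2.2)
  refine ⟨s, u, h1, h2, fun X hX => ⟨(h4 X hX).1, ?_⟩, ⟨(D.n : ℝ) * (D.n * A), ?_⟩, U, h6,
    fun X hX => h7 _ ?_, ?_⟩
  · rw [cj_apply, inv_inv]
    exact (h4 X hX).2.1
  · intro X hX j
    have := nrm_le (M := cj (s ^ j) X) (C := A * nrm X) fun i k => h5 X hX j i k
    refine this.trans (le_of_eq ?_)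
    ring
  · rw [coe_exG]
    exact ex_sub_one_mem hX
  · exact (Subgroup.isNilpotent_iff_lowerCentralSeries U).2 ⟨c, h8⟩

end main

end Crest.Agent.R182.ModelSub
end

-- ▼ part R182/SubNil
section

set_option autoImplicit false
set_option linter.unusedSectionVars false

namespace Crest.Agent.R182.Sub

open Module.End

attribute [local instance 100] LieRing.ofAssociativeRing

section Nil

variable {K : Type*} [Field K] {A : Type*} [Ring A] [Algebra K A]

/-- the Lie algebra of left multiplications -/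
def LL (W : Submodule K A) (hbr : ∀ X ∈ W, ∀ Y ∈ W, X * Y - Y * X ∈ W) :
    LieSubalgebra K (Module.End K A) where
  __ := W.map (Algebra.lmul K A).toLinearMap
  lie_mem' := by
    rintro _ _ ⟨X, hX, rfl⟩ ⟨Y, hY, rfl⟩
    refine ⟨X * Y - Y * X, hbr X hX Y hY, ?_⟩
    ext z
    simp [Ring.lie_def, mul_assoc]

/-- Engel's theorem in associative form -/
theorem engel [FiniteDimensional K A] (W : Submodule K A)
    (hbr : ∀ X ∈ W, ∀ Y ∈ W, X * Y - Y * X ∈ W)
    (hnil : ∀ X ∈ W, IsNilpotent X) : ∃ m : ℕ, W ^ m = ⊥ := by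
  have h1 : LieModule.IsNilpotent (LL W hbr) A := by
    rw [LieModule.isNilpotent_iff_forall' (R := K)]
    rintro ⟨_, X, hX, rfl⟩
    obtain ⟨k, hk⟩ := hnil X hX
    refine ⟨k, ?_⟩
    have e : LieModule.toEnd K (LL W hbr) A ⟨_, X, hX, rfl⟩ = LinearMap.mulLeft K X := by
      ext z; rfl
    rw [e, LinearMap.pow_mulLeft, hk]
    ext z; simp
  obtain ⟨m, hm⟩ := (LieModule.isNilpotent_iff K (LL W hbr) A).1 h1
  have key : ∀ j : ℕ, ∀ x ∈ W ^ j, ∀ y : A,
      x * y ∈ (LieModule.lowerCentralSeries K (LL W hbr) A j : Submodule K A) := by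
    intro j
    induction j with
    | zero => intro x _ y; simp
    | succ j ih =>
      intro x hx y
      rw [pow_succ'] at hx
      induction hx using Submodule.mul_induction_on' with
      | mem_mul_mem a ha b hb =>
        rw [mul_assoc]
        have h2 : (⁅(⟨LinearMap.mulLeft K a, a, ha, rfl⟩ : LL W hbr), b * y⁆ : A) ∈
            LieModule.lowerCentralSeries K (LL W hbr) A (j + 1) := by
          rw [LieModule.lowerCentralSeries_succ]
          exact LieSubmodule.lie_mem_lie (LieSubmodule.mem_top _) (ih b hb y)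
        exact h2
      | add a _ b _ ha hb =>
        rw [add_mul]
        exact Submodule.add_mem _ ha hb
  refine ⟨m, ?_⟩
  rw [eq_bot_iff]
  intro x hx
  have := key m x hx 1
  rw [hm, mul_one] at this
  simpa using this

/-- the associative span of a unipotent Lie algebra and `u - 1` is nilpotent. -/
theorem nil_sup [FiniteDimensional K A] (W : Submodule K A)
    (hbr : ∀ X ∈ W, ∀ Y ∈ W, X * Y - Y * X ∈ W)
    (hnil : ∀ X ∈ W, IsNilpotent X) (u : Aˣ) (hu : IsNilpotent ((u : A) - 1))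
    (h1 : ∀ X ∈ W, (u : A) * X * ((u⁻¹ : Aˣ) : A) ∈ W) :
    ∃ N : ℕ, (W ⊔ Submodule.span K {(u : A) - 1}) ^ N = ⊥ := by
  obtain ⟨m, hm⟩ := engel W hbr hnil
  obtain ⟨q, hq⟩ := hu
  set v : Submodule K A := Submodule.span K {(u : A) - 1} with hv
  set J : Submodule K A := W ⊔ v with hJ
  have hvq : v ^ q = ⊥ := by
    rw [hv, Submodule.span_pow, Set.singleton_pow, hq]
    simp
  -- `v W ≤ W v + W`
  have hvW : v * W ≤ W * v ⊔ W := by
    rw [Submodule.mul_le]
    intro a ha X hX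
    rw [hv, Submodule.mem_span_singleton] at ha
    obtain ⟨c, rfl⟩ := ha
    have e : c • ((u : A) - 1) * X = (c • ((u : A) * X * ((u⁻¹ : Aˣ) : A))) * ((u : A) - 1) +
        c • ((u : A) * X * ((u⁻¹ : Aˣ) : A) - X) := by
      rw [mul_sub, mul_one, smul_mul_assoc, smul_mul_assoc, mul_assoc ((u : A) * X), Units.inv_mul,
        mul_one, sub_mul, one_mul, smul_sub, smul_sub]
      abel
    rw [e]
    refine Submodule.add_mem_sup (Submodule.mul_mem_mul (W.smul_mem _ (h1 X hX))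
      (Submodule.mem_span_singleton_self _)) (W.smul_mem _ (W.sub_mem (h1 X hX) hX))
  -- the decreasing sequence `J ^ i * ⊤`
  let P : ℕ → Submodule K A := fun i => J ^ i * ⊤
  have hPs : ∀ i, P (i + 1) = J * P i := fun i => by
    simp only [P]; rw [pow_succ', mul_assoc]
  have hPanti : ∀ i, P (i + 1) ≤ P i := by
    intro i
    induction i with
    | zero => simp only [P, pow_zero, one_mul]; exact le_top
    | succ i ih =>
      have := mul_le_mul' (le_refl J) ih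
      rwa [← hPs, ← hPs] at this
  obtain ⟨i, hi⟩ := IsArtinian.monotone_stabilizes
    (⟨fun i => OrderDual.toDual (P i), monotone_nat_of_le_succ fun i => hPanti i⟩ :
      ℕ →o (Submodule K A)ᵒᵈ)
  have hi1 : P (i + 1) = P i := (hi (i + 1) (Nat.le_succ i)).symm
  obtain ⟨L, hJL, hL⟩ : ∃ L : Submodule K A, J * L = L ∧ L = P i := ⟨P i, by rw [← hPs, hi1], rfl⟩
  have hWL : W * L ≤ L := by
    conv_rhs => rw [← hJL]
    exact mul_le_mul' le_sup_left le_rfl
  have hvL : v * L ≤ L := by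
    conv_rhs => rw [← hJL]
    exact mul_le_mul' le_sup_right le_rfl
  have hL1 : L ≤ W * L ⊔ v * L := by
    conv_lhs => rw [← hJL]
    rw [hJ, Submodule.sup_mul]
  have key : ∀ k : ℕ, L ≤ W * L ⊔ v ^ k * L := by
    intro k
    induction k with
    | zero => rw [pow_zero, one_mul]; exact le_sup_right
    | succ k ih =>
      refine hL1.trans (sup_le le_sup_left ?_)
      calc v * L ≤ v * (W * L ⊔ v ^ k * L) := mul_le_mul' le_rfl ih
        _ = v * W * L ⊔ v ^ (k + 1) * L := by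
          rw [Submodule.mul_sup, ← mul_assoc v W L, ← mul_assoc v (v ^ k) L, pow_succ']
        _ ≤ W * L ⊔ v ^ (k + 1) * L := by
          refine sup_le_sup_right ?_ _
          calc v * W * L ≤ (W * v ⊔ W) * L := mul_le_mul' hvW le_rfl
            _ = W * (v * L) ⊔ W * L := by rw [Submodule.sup_mul, mul_assoc]
            _ ≤ W * L := sup_le (mul_le_mul' le_rfl hvL) le_rfl
  have hLW : L ≤ W * L := by
    have := key q
    rwa [hvq, Submodule.bot_mul, sup_bot_eq] at this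
  have hLWk : ∀ k : ℕ, L ≤ W ^ k * L := by
    intro k
    induction k with
    | zero => rw [pow_zero, one_mul]
    | succ k ih =>
      calc L ≤ W ^ k * L := ih
        _ ≤ W ^ k * (W * L) := mul_le_mul' le_rfl hLW
        _ = W ^ (k + 1) * L := by rw [← mul_assoc (W ^ k) W L, pow_succ]
  have hL0 : L = ⊥ := by
    have := hLWk m
    rwa [hm, Submodule.bot_mul, le_bot_iff] at this
  refine ⟨i, ?_⟩
  rw [eq_bot_iff]
  intro x hx
  have h2 : x * 1 ∈ L := by rw [hL]; exact Submodule.mul_mem_mul hx Submodule.mem_top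
  rw [mul_one, hL0] at h2
  exact h2

section Grp

variable (J : Submodule K A)

/-- elements which raise the `J`-adic filtration by `k`. -/
def Fil (k : ℕ) : Submodule K A where
  carrier := {x | ∀ i, ∀ y ∈ J ^ i * (⊤ : Submodule K A), x * y ∈ J ^ (i + k) * (⊤ : Submodule K A)}
  add_mem' := by
    intro a b ha hb i y hy
    rw [add_mul]
    exact Submodule.add_mem _ (ha i y hy) (hb i y hy)
  zero_mem' := by
    intro i y _
    rw [zero_mul]
    exact Submodule.zero_mem _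
  smul_mem' := by
    intro c a ha i y hy
    rw [smul_mul_assoc]
    exact Submodule.smul_mem _ c (ha i y hy)

variable {J}

theorem mem_Fil_one {x : A} (hx : x ∈ J) : x ∈ Fil J 1 := by
  intro i y hy
  have e : J ^ (i + 1) * (⊤ : Submodule K A) = J * (J ^ i * ⊤) := by
    rw [pow_succ', mul_assoc]
  rw [e]
  exact Submodule.mul_mem_mul hx hy

theorem mul_mem_Fil {j k : ℕ} {x y : A} (hx : x ∈ Fil J j) (hy : y ∈ Fil J k) :
    x * y ∈ Fil J (j + k) := by
  intro i z hz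
  rw [mul_assoc]
  have := hx _ _ (hy i z hz)
  have e : i + k + j = i + (j + k) := by ring
  rwa [e] at this

theorem one_mem_Fil : (1 : A) ∈ Fil J 0 := by
  intro i y hy
  rw [one_mul]; exact hy

theorem pow_top_anti (i : ℕ) : J ^ (i + 1) * (⊤ : Submodule K A) ≤ J ^ i * ⊤ := by
  rw [pow_succ, mul_assoc]
  exact mul_le_mul' le_rfl le_top

theorem Fil_anti {j k : ℕ} (h : j ≤ k) : Fil J k ≤ Fil J j := by
  have h1 : Antitone fun i => J ^ i * (⊤ : Submodule K A) := antitone_nat_of_succ_le pow_top_anti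
  intro x hx i y hy
  exact h1 (by omega : i + j ≤ i + k) (hx i y hy)

theorem Fil_eq_bot {N : ℕ} (hN : J ^ N = ⊥) : Fil J N = ⊥ := by
  rw [eq_bot_iff]
  intro x hx
  have h1 := hx 0 1 (by rw [pow_zero, one_mul]; exact Submodule.mem_top)
  rw [mul_one, zero_add, hN, Submodule.bot_mul] at h1
  exact h1

/-- inverses -/
theorem inv_mem_Fil {N : ℕ} (hN : J ^ N = ⊥) {y : Aˣ} {k : ℕ} (hk : 1 ≤ k)
    (hy : (y : A) - 1 ∈ Fil J k) : ((y⁻¹ : Aˣ) : A) - 1 ∈ Fil J k := by
  set x := (y : A) - 1 with hx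
  set z := ((y⁻¹ : Aˣ) : A) - 1 with hz
  have hz1 : z = -x - x * z := by
    have h1 : (y : A) * ((y⁻¹ : Aˣ) : A) = 1 := Units.mul_inv y
    have h2 : (y : A) = x + 1 := by rw [hx]; abel
    have h3 : ((y⁻¹ : Aˣ) : A) = z + 1 := by rw [hz]; abel
    rw [h2, h3, add_mul, mul_add, one_mul, mul_one] at h1
    have h4 : x * z + x + z = 0 := by
      have := sub_eq_zero.2 h1
      rw [← this]; abel
    have h5 : z = (x * z + x + z) - x - x * z := by abel
    rw [h4, zero_sub] at h5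
    exact h5
  have key : ∀ j : ℕ, ∃ a ∈ Fil J k, ∃ b ∈ Fil J j, z = a + b * z := by
    intro j
    induction j with
    | zero => exact ⟨0, Submodule.zero_mem _, 1, one_mem_Fil, by simp⟩
    | succ j ih =>
      obtain ⟨a, ha, b, hb, e⟩ := ih
      refine ⟨a - b * x, Submodule.sub_mem _ ha ?_, -(b * x), Submodule.neg_mem _ ?_, ?_⟩
      · exact Fil_anti (Nat.le_add_left k j) (mul_mem_Fil hb hy)
      · exact Fil_anti (by omega) (mul_mem_Fil hb hy)
      · conv_lhs => rw [e, hz1]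
        noncomm_ring
  obtain ⟨a, ha, b, hb, e⟩ := key N
  rw [Fil_eq_bot hN, Submodule.mem_bot] at hb
  rw [hb, zero_mul, add_zero] at e
  rw [e]; exact ha

variable (J) in
/-- the congruence subgroups -/
def Cong (k : ℕ) : Subgroup Aˣ where
  carrier := {g | (g : A) - 1 ∈ Fil J (k + 1) ∧ ((g⁻¹ : Aˣ) : A) - 1 ∈ Fil J (k + 1)}
  one_mem' := by simp
  mul_mem' := by
    have key : ∀ a b : A, a - 1 ∈ Fil J (k + 1) → b - 1 ∈ Fil J (k + 1) →
        a * b - 1 ∈ Fil J (k + 1) := by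
      intro a b ha hb
      have e : a * b - 1 = (a - 1) * (b - 1) + (a - 1) + (b - 1) := by noncomm_ring
      rw [e]
      exact Submodule.add_mem _ (Submodule.add_mem _ (Fil_anti (by omega) (mul_mem_Fil ha hb)) ha) hb
    rintro g h ⟨hg, hg'⟩ ⟨hh, hh'⟩
    refine ⟨?_, ?_⟩
    · rw [Units.val_mul]; exact key _ _ hg hh
    · rw [mul_inv_rev, Units.val_mul]; exact key _ _ hh' hg'
  inv_mem' := by
    rintro g ⟨hg, hg'⟩
    exact ⟨hg', by rwa [inv_inv]⟩

theorem commutator_Cong (k : ℕ) : ⁅Cong J k, Cong J 0⁆ ≤ Cong J (k + 1) := by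
  rw [Subgroup.commutator_le]
  have key : ∀ g ∈ Cong J k, ∀ h ∈ Cong J 0, ((g * h * g⁻¹ * h⁻¹ : Aˣ) : A) - 1 ∈ Fil J (k + 2) := by
    rintro g ⟨hg, hg'⟩ h ⟨hh, hh'⟩
    have e : ((g * h * g⁻¹ * h⁻¹ : Aˣ) : A) - 1 =
        (((g : A) - 1) * ((h : A) - 1) - ((h : A) - 1) * ((g : A) - 1)) *
          (((g⁻¹ : Aˣ) : A) * ((h⁻¹ : Aˣ) : A)) := by
      have e1 : ((g : A) - 1) * ((h : A) - 1) - ((h : A) - 1) * ((g : A) - 1) =
          (g : A) * h - h * g := by noncomm_ring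
      have e2 : (h : A) * g * (((g⁻¹ : Aˣ) : A) * ((h⁻¹ : Aˣ) : A)) = 1 := by
        rw [mul_assoc, ← mul_assoc (g : A), Units.mul_inv, one_mul, Units.mul_inv]
      rw [e1, sub_mul, e2]
      simp only [Units.val_mul, mul_assoc]
    rw [e]
    have h1 : ((g : A) - 1) * ((h : A) - 1) - ((h : A) - 1) * ((g : A) - 1) ∈ Fil J (k + 2) := by
      refine Submodule.sub_mem _ ?_ ?_
      · exact mul_mem_Fil (j := k + 1) (k := 1) hg hh
      · have := mul_mem_Fil (j := 1) (k := k + 1) hh hg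
        have e3 : 1 + (k + 1) = k + 2 := by ring
        rwa [e3] at this
    have h2 : ∀ a : A, a - 1 ∈ Fil J 1 → a ∈ Fil J 0 := by
      intro a ha
      have : a = (a - 1) + 1 := by abel
      rw [this]
      exact Submodule.add_mem _ (Fil_anti (Nat.zero_le 1) ha) one_mem_Fil
    have h3 : ((g⁻¹ : Aˣ) : A) * ((h⁻¹ : Aˣ) : A) ∈ Fil J 0 :=
      mul_mem_Fil (j := 0) (k := 0) (h2 _ (Fil_anti (by omega) hg')) (h2 _ hh')
    exact mul_mem_Fil (j := k + 2) (k := 0) h1 h3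
  intro g hg h hh
  refine ⟨?_, ?_⟩
  · exact key g hg h hh
  · have e : (g * h * g⁻¹ * h⁻¹)⁻¹ = h * g * h⁻¹ * g⁻¹ := by group
    change (((g * h * g⁻¹ * h⁻¹)⁻¹ : Aˣ) : A) - 1 ∈ Fil J (k + 2)
    rw [e]
    have key' : ((h * g * h⁻¹ * g⁻¹ : Aˣ) : A) - 1 ∈ Fil J (k + 2) := by
      have hg1 := hg
      obtain ⟨hg, hg'⟩ := hg
      obtain ⟨hh, hh'⟩ := hh
      have e : ((h * g * h⁻¹ * g⁻¹ : Aˣ) : A) - 1 =
          (((h : A) - 1) * ((g : A) - 1) - ((g : A) - 1) * ((h : A) - 1)) *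
            (((h⁻¹ : Aˣ) : A) * ((g⁻¹ : Aˣ) : A)) := by
        have e1 : ((h : A) - 1) * ((g : A) - 1) - ((g : A) - 1) * ((h : A) - 1) =
            (h : A) * g - g * h := by noncomm_ring
        have e2 : (g : A) * h * (((h⁻¹ : Aˣ) : A) * ((g⁻¹ : Aˣ) : A)) = 1 := by
          rw [mul_assoc, ← mul_assoc (h : A), Units.mul_inv, one_mul, Units.mul_inv]
        rw [e1, sub_mul, e2]
        simp only [Units.val_mul, mul_assoc]
      rw [e]
      have h1 : ((h : A) - 1) * ((g : A) - 1) - ((g : A) - 1) * ((h : A) - 1) ∈ Fil J (k + 2) := by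
        refine Submodule.sub_mem _ ?_ ?_
        · have := mul_mem_Fil (j := 1) (k := k + 1) hh hg
          have e3 : 1 + (k + 1) = k + 2 := by ring
          rwa [e3] at this
        · exact mul_mem_Fil (j := k + 1) (k := 1) hg hh
      have h2 : ∀ a : A, a - 1 ∈ Fil J 1 → a ∈ Fil J 0 := by
        intro a ha
        have : a = (a - 1) + 1 := by abel
        rw [this]
        exact Submodule.add_mem _ (Fil_anti (Nat.zero_le 1) ha) one_mem_Fil
      have h3 : ((h⁻¹ : Aˣ) : A) * ((g⁻¹ : Aˣ) : A) ∈ Fil J 0 :=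
        mul_mem_Fil (j := 0) (k := 0) (h2 _ hh') (h2 _ (Fil_anti (by omega) hg'))
      exact mul_mem_Fil (j := k + 2) (k := 0) h1 h3
    exact key'

theorem lcs_Cong (c : ℕ) : (Cong J 0).lowerCentralSeries c ≤ Cong J c := by
  induction c with
  | zero => exact le_rfl
  | succ c ih =>
    rw [Subgroup.lowerCentralSeries_succ]
    exact (Subgroup.commutator_mono ih le_rfl).trans (commutator_Cong c)

theorem Cong_eq_bot {N : ℕ} (hN : J ^ N = ⊥) : Cong J N = ⊥ := by
  rw [eq_bot_iff]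
  rintro g ⟨hg, -⟩
  have h1 := Fil_anti (Nat.le_succ N) hg
  rw [Fil_eq_bot hN, Submodule.mem_bot, sub_eq_zero] at h1
  exact Subgroup.mem_bot.2 (Units.ext h1)

/-- **(N)** -/
theorem exists_nil [FiniteDimensional K A] (W : Submodule K A)
    (hbr : ∀ X ∈ W, ∀ Y ∈ W, X * Y - Y * X ∈ W)
    (hnil : ∀ X ∈ W, IsNilpotent X) (u : Aˣ) (hu : IsNilpotent ((u : A) - 1))
    (h1 : ∀ X ∈ W, (u : A) * X * ((u⁻¹ : Aˣ) : A) ∈ W) :
    ∃ (U : Subgroup Aˣ) (c : ℕ), u ∈ U ∧
      (∀ y : Aˣ, (y : A) - 1 ∈ NonUnitalAlgebra.adjoin K (W : Set A) → y ∈ U) ∧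
      U.lowerCentralSeries c = ⊥ := by
  obtain ⟨N, hN⟩ := nil_sup W hbr hnil u hu h1
  set J := W ⊔ Submodule.span K {(u : A) - 1} with hJ
  refine ⟨Cong J 0, N, ?_, fun y hy => ?_, ?_⟩
  · have h2 : (u : A) - 1 ∈ Fil J 1 :=
      mem_Fil_one (Submodule.mem_sup_right (Submodule.mem_span_singleton_self _))
    exact ⟨h2, inv_mem_Fil hN le_rfl h2⟩
  · have key : ∀ z ∈ NonUnitalAlgebra.adjoin K (W : Set A), z ∈ Fil J 1 := by
      intro z hz
      induction hz using NonUnitalAlgebra.adjoin_induction with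
      | mem x hx => exact mem_Fil_one (Submodule.mem_sup_left hx)
      | add x z _ _ hx hz => exact Submodule.add_mem _ hx hz
      | zero => exact Submodule.zero_mem _
      | mul x z _ _ hx hz => exact Fil_anti (by omega) (mul_mem_Fil hx hz)
      | smul r x _ hx => exact Submodule.smul_mem _ r hx
    have h2 := key _ hy
    exact ⟨h2, inv_mem_Fil hN le_rfl h2⟩
  · rw [eq_bot_iff, ← Cong_eq_bot hN]
    exact lcs_Cong N

end Grp

end Nil

end Crest.Agent.R182.Sub
end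

-- ▼ part R182/PolycPol
section

set_option autoImplicit false
set_option linter.unusedSectionVars false

namespace Crest.Agent.R182.PolycEmb

open Module Crest.Agent.R182.Polyc

variable {K : Type*} [Field K] {G : Type*} [Group G]

/-- right translation representation of `G` on functions. -/
def R : Representation K G (G → K) where
  toFun g :=
    { toFun := fun f x => f (x * g)
      map_add' := fun _ _ => rfl
      map_smul' := fun _ _ => rfl }
  map_one' := by ext f x; simp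
  map_mul' g h := by ext f x; simp [mul_assoc]

@[simp] theorem R_apply (g : G) (f : G → K) (x : G) : R g f x = f (x * g) := rfl

theorem R_mul (g h : G) (f : G → K) : R (g * h) f = R g (R h f) := by
  funext x; simp [mul_assoc]

theorem R_one (f : G → K) : R (1 : G) f = f := by
  funext x; simp

/-- difference operator -/
def D (g : G) : (G → K) →ₗ[K] (G → K) := R g - LinearMap.id

@[simp] theorem D_apply (g : G) (f : G → K) (x : G) : D g f x = f (x * g) - f x := rfl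

theorem D_def (g : G) (f : G → K) : D g f = R g f - f := rfl

theorem D_one (f : G → K) : D (1 : G) f = 0 := by funext x; simp

theorem D_mul (g h : G) (f : G → K) : D (g * h) f = R g (D h f) + D g f := by
  funext x; simp [mul_assoc]

/-- `Pol N d`: functions killed by all products of `d` differences in directions of `N`. -/
def Pol (N : Subgroup G) : ℕ → Submodule K (G → K)
  | 0 => ⊥
  | d + 1 =>
    { carrier := {f | ∀ n ∈ N, D n f ∈ Pol N d}
      zero_mem' := fun n _ => by rw [map_zero]; exact (Pol N d).zero_mem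
      add_mem' := fun {f g} hf hg n hn => by
        rw [map_add]; exact (Pol N d).add_mem (hf n hn) (hg n hn)
      smul_mem' := fun c f hf n hn => by
        rw [map_smul]; exact (Pol N d).smul_mem c (hf n hn) }

theorem mem_Pol_zero {N : Subgroup G} {f : G → K} : f ∈ Pol N 0 ↔ f = 0 := Iff.rfl


theorem Pol_le_succ (N : Subgroup G) (d : ℕ) : (Pol N d : Submodule K (G → K)) ≤ Pol N (d + 1) := by
  induction d with
  | zero =>
    intro f hf
    rw [mem_Pol_zero] at hf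
    rw [hf]; exact Submodule.zero_mem _
  | succ d ih =>
    intro f hf n hn
    exact ih (hf n hn)

theorem Pol_mono (N : Subgroup G) {d e : ℕ} (h : d ≤ e) :
    (Pol N d : Submodule K (G → K)) ≤ Pol N e :=
  monotone_nat_of_le_succ (Pol_le_succ N) h

theorem R_mem_Pol {N : Subgroup G} {g : G} (hg : ∀ n ∈ N, g⁻¹ * n * g ∈ N) {d : ℕ} :
    ∀ {f : G → K}, f ∈ Pol N d → R g f ∈ Pol N d := by
  induction d with
  | zero =>
    intro f hf
    rw [mem_Pol_zero] at hf
    rw [hf, map_zero]; exact Submodule.zero_mem _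
  | succ d ih =>
    intro f hf n hn
    have h1 : D n (R g f) = R g (D (g⁻¹ * n * g) f) := by
      funext x
      simp only [D_apply, R_apply]
      congr 2
      group
    rw [h1]
    exact ih (hf _ (hg n hn))


/-- functions supported on the subgroup `L`. -/
def Fs (L : Subgroup G) : Submodule K (G → K) where
  carrier := {f | ∀ x ∉ L, f x = 0}
  zero_mem' := fun _ _ => rfl
  add_mem' := fun {f g} hf hg x hx => by rw [Pi.add_apply, hf x hx, hg x hx, add_zero]
  smul_mem' := fun c f hf x hx => by rw [Pi.smul_apply, hf x hx, smul_zero]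


theorem R_mem_Fs {L : Subgroup G} {g : G} (hg : g ∈ L) {f : G → K} (hf : f ∈ Fs L) :
    R g f ∈ Fs L := by
  intro x hx
  rw [R_apply]
  exact hf _ (fun h => hx (by simpa using L.mul_mem h (L.inv_mem hg)))

theorem D_mem_Fs {L : Subgroup G} {g : G} (hg : g ∈ L) {f : G → K} (hf : f ∈ Fs L) :
    D g f ∈ Fs L := by
  rw [D_def]
  exact Submodule.sub_mem _ (R_mem_Fs hg hf) hf

/-- left `t`-invariant functions -/
def LT (t : G) : Submodule K (G → K) where
  carrier := {f | ∀ x, f (t * x) = f x}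
  zero_mem' := fun _ => rfl
  add_mem' := fun {f g} hf hg x => by rw [Pi.add_apply, Pi.add_apply, hf x, hg x]
  smul_mem' := fun c f hf x => by rw [Pi.smul_apply, Pi.smul_apply, hf x]


theorem LT_zpow {t : G} {f : G → K} (hf : f ∈ LT t) (k : ℤ) (x : G) : f (t ^ k * x) = f x := by
  let S : Subgroup G :=
    { carrier := {g | ∀ x, f (g * x) = f x}
      one_mem' := fun x => by rw [one_mul]
      mul_mem' := fun {a b} ha hb x => by rw [mul_assoc, ha, hb]
      inv_mem' := fun {a} ha x => by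
        have := ha (a⁻¹ * x)
        rw [mul_inv_cancel_left] at this
        exact this.symm }
  have h1 : t ∈ S := hf
  exact S.zpow_mem h1 k x

theorem R_mem_LT {t g : G} {f : G → K} (hf : f ∈ LT t) : R g f ∈ LT t := by
  intro x
  rw [R_apply, R_apply, mul_assoc]
  exact hf _

theorem D_mem_LT {t g : G} {f : G → K} (hf : f ∈ LT t) : D g f ∈ LT t := by
  rw [D_def]
  exact Submodule.sub_mem _ (R_mem_LT hf) hf

section step

variable {L M : Subgroup G} {t : G}

/-- standing hypotheses: `M = ⟨t⟩ L`, `L` normalised by `M`. -/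
structure Ext (L M : Subgroup G) (t : G) : Prop where
  le : L ≤ M
  mem : t ∈ M
  norm : ∀ h ∈ M, ∀ x ∈ L, h⁻¹ * x * h ∈ L
  gen : ∀ x ∈ M, ∃ k : ℤ, ∃ n ∈ L, x = t ^ k * n
  free : ∀ k : ℤ, t ^ k ∈ L → k = 0

/-- the functions on which everything happens -/
def VV (L M : Subgroup G) (t : G) (j : ℕ) : Submodule K (G → K) := Fs M ⊓ LT t ⊓ Pol L j


theorem R_mem_VV (E : Ext L M t) {g : G} (hg : g ∈ M) {j : ℕ} {f : G → K} (hf : f ∈ VV L M t j) :
    R g f ∈ VV L M t j :=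
  ⟨⟨R_mem_Fs hg hf.1.1, R_mem_LT hf.1.2⟩, R_mem_Pol (E.norm g hg) hf.2⟩

theorem D_mem_VV (E : Ext L M t) {g : G} (hg : g ∈ M) {j : ℕ} {f : G → K} (hf : f ∈ VV L M t j) :
    D g f ∈ VV L M t j := by
  rw [D_def]
  exact Submodule.sub_mem _ (R_mem_VV E hg hf) hf

theorem D_mem_VV_succ (E : Ext L M t) {n : G} (hn : n ∈ L) {j : ℕ} {f : G → K}
    (hf : f ∈ VV L M t (j + 1)) : D n f ∈ VV L M t j :=
  ⟨⟨D_mem_Fs (E.le hn) hf.1.1, D_mem_LT hf.1.2⟩, hf.2 n hn⟩

theorem iter_mem_VV (E : Ext L M t) {j : ℕ} {f : G → K} (hf : f ∈ VV L M t j) (m : ℕ) :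
    ((D t) ^ m) f ∈ VV L M t j := by
  induction m with
  | zero => simpa using hf
  | succ m ih =>
    rw [pow_succ', Module.End.mul_apply]
    exact D_mem_VV E E.mem ih

theorem eq_zero_of (E : Ext L M t) {f : G → K} (hf : f ∈ Fs M ⊓ LT t) (h1 : f 1 = 0)
    (h : ∀ n ∈ L, D n f = 0) : f = 0 := by
  funext x
  by_cases hx : x ∈ M
  · obtain ⟨k, n, hn, rfl⟩ := E.gen x hx
    rw [LT_zpow hf.2]
    have := congrFun (h n hn) 1
    rw [D_apply, one_mul, h1, sub_zero] at this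
    exact this
  · exact hf.1 x hx

theorem D_comm_aux (n t : G) (f : G → K) :
    D n (D t f) = R t (R n (D (n⁻¹ * t⁻¹ * n * t) f)) + D t (D n f) := by
  funext x
  simp only [D_apply, R_apply, Pi.add_apply]
  have : x * t * n * (n⁻¹ * t⁻¹ * n * t) = x * n * t := by group
  rw [this]
  ring

/-- `t` is unipotent on `VV j`. -/
theorem exists_pow_D_eq_zero [Group.IsNilpotent G] (E : Ext L M t) (j : ℕ) :
    ∃ m : ℕ, ∀ f ∈ (VV L M t j : Submodule K (G → K)), ((D t) ^ m) f = 0 := by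
  induction j with
  | zero =>
    refine ⟨0, fun f hf => ?_⟩
    have : f = 0 := hf.2
    rw [this, map_zero]
  | succ j ih =>
    obtain ⟨mj, hmj⟩ := ih
    have claim : ∀ i : ℕ, ∃ m : ℕ, ∀ n ∈ L, n ∈ Subgroup.upperCentralSeries G i →
        ∀ f ∈ (VV L M t (j + 1) : Submodule K (G → K)), D n (((D t) ^ m) f) = 0 := by
      intro i
      induction i with
      | zero =>
        refine ⟨0, fun n _ hn f _ => ?_⟩
        rw [Subgroup.upperCentralSeries_zero, Subgroup.mem_bot] at hn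
        rw [hn, D_one]
      | succ i ihi =>
        obtain ⟨m, hm⟩ := ihi
        refine ⟨mj + m, fun n hnL hn f hf => ?_⟩
        have hu : n⁻¹ * t⁻¹ * n * t ∈ Subgroup.upperCentralSeries G i := by
          have h1 := (Subgroup.mem_upperCentralSeries_succ_iff).1 (Subgroup.inv_mem _ hn) t⁻¹
          simpa [commutatorElement_def] using h1
        have huL : n⁻¹ * t⁻¹ * n * t ∈ L := by
          have h1 := E.norm t E.mem n hnL
          have h2 := L.mul_mem (L.inv_mem hnL) h1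
          simpa [mul_assoc] using h2
        have key : ∀ q : ℕ, D n (((D t) ^ q) (((D t) ^ m) f)) =
            ((D t) ^ q) (D n (((D t) ^ m) f)) := by
          intro q
          induction q with
          | zero => simp
          | succ q ihq =>
            rw [pow_succ', Module.End.mul_apply, Module.End.mul_apply, D_comm_aux, ihq]
            have h3 : D (n⁻¹ * t⁻¹ * n * t) (((D t) ^ q) (((D t) ^ m) f)) = 0 := by
              have h4 := hm _ huL hu _ (iter_mem_VV E hf q)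
              rwa [← Module.End.mul_apply (D t ^ m), ← pow_add, add_comm, pow_add,
                Module.End.mul_apply] at h4
            rw [h3, map_zero, map_zero, zero_add]
        rw [pow_add, Module.End.mul_apply, key]
        exact hmj _ (D_mem_VV_succ E hnL (iter_mem_VV E hf m))
    obtain ⟨c, hc⟩ := Group.IsNilpotent.nilpotent G
    obtain ⟨m, hm⟩ := claim c
    refine ⟨m + 1, fun f hf => ?_⟩
    have hmem := iter_mem_VV E hf (m + 1)
    refine eq_zero_of E hmem.1 ?_ ?_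
    · rw [pow_succ', Module.End.mul_apply, D_apply, one_mul]
      have h1 := (iter_mem_VV E hf m).1.2 1
      rw [mul_one] at h1
      rw [h1, sub_self]
    · intro n hn
      rw [pow_succ, Module.End.mul_apply]
      exact hm n hn (by rw [hc]; trivial) _ (D_mem_VV E E.mem hf)

theorem R_comm_D {a b : G} (h : a * b = b * a) (f : G → K) : R a (D b f) = D b (R a f) := by
  funext x
  simp only [D_apply, R_apply]
  rw [mul_assoc, mul_assoc, h]

theorem R_comm_D_pow {a b : G} (h : a * b = b * a) (l : ℕ) (f : G → K) :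
    R a (((D b) ^ l) f) = ((D b) ^ l) (R a f) := by
  induction l with
  | zero => simp
  | succ l ih => rw [pow_succ', Module.End.mul_apply, Module.End.mul_apply, R_comm_D h, ih]

theorem exists_VV_le_Pol [Group.IsNilpotent G] (E : Ext L M t) (j : ℕ) :
    ∃ d : ℕ, (VV L M t j : Submodule K (G → K)) ≤ Pol M d := by
  induction j with
  | zero =>
    refine ⟨0, fun f hf => ?_⟩
    have : f = 0 := hf.2
    exact this
  | succ j ih =>
    obtain ⟨d, hd⟩ := ih
    obtain ⟨m, hm⟩ := exists_pow_D_eq_zero (K := K) E (j + 1)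
    have claim : ∀ l : ℕ, ∀ f ∈ (VV L M t (j + 1) : Submodule K (G → K)),
        ((D t) ^ l) f ∈ VV L M t j → f ∈ Pol M (d + l) := by
      intro l
      induction l with
      | zero => intro f _ h; exact hd (by simpa using h)
      | succ l ihl =>
        intro f hf h g hg
        obtain ⟨k, n, hn, rfl⟩ := E.gen g hg
        have hk : t ^ k ∈ M := M.zpow_mem E.mem k
        rw [D_mul]
        refine Submodule.add_mem _ ?_ ?_
        · exact Pol_mono M (Nat.le_add_right d l) (hd (R_mem_VV E hk (D_mem_VV_succ E hn hf)))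
        · refine ihl _ (D_mem_VV E hk hf) ?_
          -- `D t ^ l (D (t^k) f) ∈ VV j`
          let S : Subgroup G :=
            { carrier := {g | g ∈ Subgroup.zpowers t ∧ ((D t) ^ l) (D g f) ∈ VV L M t j}
              one_mem' := ⟨Subgroup.one_mem _, by
                rw [D_one, map_zero]; exact Submodule.zero_mem _⟩
              mul_mem' := ?_
              inv_mem' := ?_ }
          · have h1 : t ∈ S := ⟨Subgroup.mem_zpowers t, by
              rw [← Module.End.mul_apply, ← pow_succ]; exact h⟩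
            exact (S.zpow_mem h1 k).2
          · rintro a b ⟨ha, ha'⟩ ⟨hb, hb'⟩
            refine ⟨Subgroup.mul_mem _ ha hb, ?_⟩
            rw [D_mul, map_add]
            refine Submodule.add_mem _ ?_ ha'
            obtain ⟨i, rfl⟩ := Subgroup.mem_zpowers_iff.1 ha
            have hcomm : t ^ i * t = t * t ^ i := by
              rw [← zpow_add_one, ← zpow_one_add, add_comm]
            rw [← R_comm_D_pow hcomm]
            exact R_mem_VV E (M.zpow_mem E.mem i) hb'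
          · rintro a ⟨ha, ha'⟩
            refine ⟨Subgroup.inv_mem _ ha, ?_⟩
            have h1 : D a⁻¹ f = - R a⁻¹ (D a f) := by
              funext x; simp [mul_assoc]
            obtain ⟨i, rfl⟩ := Subgroup.mem_zpowers_iff.1 ha
            have hcomm : (t ^ i)⁻¹ * t = t * (t ^ i)⁻¹ := by
              rw [← zpow_neg, ← zpow_add_one, ← zpow_one_add, add_comm]
            rw [h1, map_neg, ← R_comm_D_pow hcomm]
            exact Submodule.neg_mem _ (R_mem_VV E (M.inv_mem (M.zpow_mem E.mem i)) ha')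
    exact ⟨d + m, fun f hf => claim m f hf (by rw [hm f hf]; exact Submodule.zero_mem _)⟩

/-- uniqueness of the exponent -/
theorem Ext.unique (E : Ext L M t) {k l : ℤ} {m n : G} (hm : m ∈ L) (hn : n ∈ L)
    (h : t ^ k * m = t ^ l * n) : k = l ∧ m = n := by
  have h1 : t ^ (l - k) = m * n⁻¹ := by
    have : m * n⁻¹ = (t ^ k)⁻¹ * (t ^ k * m) * n⁻¹ := by group
    rw [this, h, sub_eq_neg_add, zpow_add, zpow_neg]; group
  have h2 := E.free (l - k) (by rw [h1]; exact L.mul_mem hm (L.inv_mem hn))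
  have h3 : k = l := by omega
  subst h3
  exact ⟨rfl, mul_left_cancel h⟩

open Classical in
/-- the left `t`-invariant extension of a function on `L` to `M` -/
noncomputable def ext (L : Subgroup G) (t : G) (f : G → K) (x : G) : K :=
  if h : ∃ k : ℤ, ∃ n ∈ L, x = t ^ k * n then f h.choose_spec.choose else 0

theorem ext_eq (E : Ext L M t) (f : G → K) (k : ℤ) {n : G} (hn : n ∈ L) :
    ext L t f (t ^ k * n) = f n := by
  have h : ∃ k' : ℤ, ∃ n' ∈ L, t ^ k * n = t ^ k' * n' := ⟨k, n, hn, rfl⟩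
  rw [ext, dif_pos h]
  have h1 := h.choose_spec.choose_spec
  rw [(E.unique hn h1.1 h1.2).2.symm]

theorem ext_eq' (E : Ext L M t) (f : G → K) {n : G} (hn : n ∈ L) : ext L t f n = f n := by
  have := ext_eq E f 0 hn
  simpa using this

theorem ext_of_not_mem (E : Ext L M t) (f : G → K) {x : G} (hx : x ∉ M) : ext L t f x = 0 := by
  rw [ext, dif_neg]
  rintro ⟨k, n, hn, rfl⟩
  exact hx (M.mul_mem (M.zpow_mem E.mem k) (E.le hn))

theorem ext_mem_Fs (E : Ext L M t) (f : G → K) : ext L t f ∈ Fs M :=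
  fun _ hx => ext_of_not_mem E f hx

theorem ext_mem_LT (E : Ext L M t) (f : G → K) : ext L t f ∈ LT t := by
  intro x
  by_cases hx : x ∈ M
  · obtain ⟨k, n, hn, rfl⟩ := E.gen x hx
    rw [← mul_assoc, ← zpow_one_add, ext_eq E f _ hn, ext_eq E f _ hn]
  · rw [ext_of_not_mem E f hx, ext_of_not_mem E f]
    intro h
    apply hx
    have := M.mul_mem (M.inv_mem E.mem) h
    simpa using this

theorem D_ext (E : Ext L M t) (f : G → K) {n : G} (hn : n ∈ L) :
    D n (ext L t f) = ext L t (D n f) := by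
  funext x
  by_cases hx : x ∈ M
  · obtain ⟨k, m, hm, rfl⟩ := E.gen x hx
    rw [D_apply, mul_assoc, ext_eq E f _ (L.mul_mem hm hn), ext_eq E f _ hm, ext_eq E _ _ hm,
      D_apply]
  · rw [ext_of_not_mem E _ hx]
    exact D_mem_Fs (E.le hn) (ext_mem_Fs E f) x hx

theorem ext_zero (E : Ext L M t) {f : G → K} (h : ∀ n ∈ L, f n = 0) : ext L t f = 0 := by
  funext x
  by_cases hx : x ∈ M
  · obtain ⟨k, m, hm, rfl⟩ := E.gen x hx
    rw [ext_eq E f _ hm, h m hm]; rfl
  · rw [ext_of_not_mem E _ hx]; rfl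

theorem ext_mem_Pol (E : Ext L M t) {d : ℕ} : ∀ {f : G → K}, f ∈ Pol L d →
    ext L t f ∈ Pol L d := by
  induction d with
  | zero =>
    intro f hf
    rw [mem_Pol_zero] at hf ⊢
    exact ext_zero E (by rw [hf]; intro _ _; rfl)
  | succ d ih =>
    intro f hf n hn
    rw [D_ext E f hn]
    exact ih (hf n hn)

/-- extension of polynomial functions through an infinite cyclic step -/
theorem exists_ext_mem_Pol [Group.IsNilpotent G] (E : Ext L M t) (d : ℕ) :
    ∃ e : ℕ, ∀ f ∈ (Pol L d : Submodule K (G → K)), ext L t f ∈ Pol M e := by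
  obtain ⟨e, he⟩ := exists_VV_le_Pol (K := K) E d
  exact ⟨e, fun f hf => he ⟨⟨ext_mem_Fs E f, ext_mem_LT E f⟩, ext_mem_Pol E hf⟩⟩

open Classical in
/-- the exponent of `t` -/
noncomputable def tc (L : Subgroup G) (t : G) (x : G) : K :=
  if h : ∃ k : ℤ, ∃ n ∈ L, x = t ^ k * n then ((h.choose : ℤ) : K) else 0

theorem tc_eq (E : Ext L M t) (k : ℤ) {n : G} (hn : n ∈ L) :
    (tc L t (t ^ k * n) : K) = k := by
  have h : ∃ k' : ℤ, ∃ n' ∈ L, t ^ k * n = t ^ k' * n' := ⟨k, n, hn, rfl⟩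
  rw [tc, dif_pos h]
  have h1 := h.choose_spec.choose_spec
  rw [← (E.unique hn h1.1 h1.2).1]

theorem tc_of_not_mem (E : Ext L M t) {x : G} (hx : x ∉ M) : (tc L t x : K) = 0 := by
  rw [tc, dif_neg]
  rintro ⟨k, n, hn, rfl⟩
  exact hx (M.mul_mem (M.zpow_mem E.mem k) (E.le hn))

theorem tc_mem_Fs (E : Ext L M t) : (tc L t : G → K) ∈ Fs M :=
  fun _ hx => tc_of_not_mem E hx

theorem Ext.conj_zpow (E : Ext L M t) (k : ℤ) {n : G} (hn : n ∈ L) :
    (t ^ k)⁻¹ * n * t ^ k ∈ L := E.norm _ (M.zpow_mem E.mem k) n hn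

theorem tc_mul (E : Ext L M t) {x y : G} (hx : x ∈ M) (hy : y ∈ M) :
    (tc L t (x * y) : K) = tc L t x + tc L t y := by
  obtain ⟨k, m, hm, rfl⟩ := E.gen x hx
  obtain ⟨l, n, hn, rfl⟩ := E.gen y hy
  have h1 : t ^ k * m * (t ^ l * n) = t ^ (k + l) * ((t ^ l)⁻¹ * m * t ^ l * n) := by
    rw [zpow_add]; group
  rw [h1, tc_eq E _ (L.mul_mem (E.conj_zpow l hm) hn), tc_eq E _ hm, tc_eq E _ hn]
  push_cast; ring

open Classical in
/-- indicator function of a subgroup -/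
noncomputable def ind (M : Subgroup G) (x : G) : K := if x ∈ M then 1 else 0

theorem ind_of_mem {M : Subgroup G} {x : G} (hx : x ∈ M) : (ind M x : K) = 1 := if_pos hx

theorem ind_of_not_mem {M : Subgroup G} {x : G} (hx : x ∉ M) : (ind M x : K) = 0 := if_neg hx

theorem mul_mem_iff {M : Subgroup G} {x g : G} (hg : g ∈ M) : x * g ∈ M ↔ x ∈ M :=
  ⟨fun h => by simpa using M.mul_mem h (M.inv_mem hg), fun h => M.mul_mem h hg⟩

theorem ind_mem_Pol (M : Subgroup G) : (ind M : G → K) ∈ Pol M 1 := by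
  intro g hg
  rw [mem_Pol_zero]
  funext x
  rw [D_apply]
  by_cases hx : x ∈ M
  · rw [ind_of_mem hx, ind_of_mem ((mul_mem_iff hg).2 hx), sub_self]; rfl
  · rw [ind_of_not_mem hx, ind_of_not_mem (fun h => hx ((mul_mem_iff hg).1 h)), sub_self]; rfl

theorem tc_mem_Pol (E : Ext L M t) : (tc L t : G → K) ∈ Pol M 2 := by
  intro g hg
  have h1 : D g (tc L t : G → K) = (tc L t g : K) • (ind M : G → K) := by
    funext x
    rw [D_apply, Pi.smul_apply]
    by_cases hx : x ∈ M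
    · rw [ind_of_mem hx, tc_mul E hx hg, smul_eq_mul]; ring
    · rw [ind_of_not_mem hx, tc_of_not_mem E hx,
        tc_of_not_mem E (fun h => hx ((mul_mem_iff hg).1 h)), smul_zero, sub_self]
  rw [h1]
  exact Submodule.smul_mem _ _ (ind_mem_Pol M)

end step

/-- from a step of the `PZ` series to `Ext` -/
theorem Ext.of_step {N M : Subgroup G} {g : G} (hle : N ≤ M)
    (hnorm : ∀ h ∈ M, ∀ x ∈ N, h * x * h⁻¹ ∈ N) (hg : g ∈ M)
    (hM : M = N ⊔ Subgroup.zpowers g) (hfree : ∀ k : ℤ, g ^ k ∈ N → k = 0) : Ext N M g where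
  le := hle
  mem := hg
  norm h hh x hx := by
    have := hnorm h⁻¹ (M.inv_mem hh) x hx
    simpa using this
  gen x hx := by
    obtain ⟨n, hn, i, rfl⟩ := (mem_of_step hnorm hg hM).1 hx
    refine ⟨i, (g ^ i)⁻¹ * n * g ^ i, ?_, by group⟩
    have := hnorm (g ^ i)⁻¹ (M.inv_mem (M.zpow_mem hg i)) n hn
    simpa using this
  free := hfree

/-- product of powers in order -/
def pw {s : ℕ} (a : Fin s → G) (x : Fin s → ℤ) : G := (List.ofFn fun i => a i ^ x i).prod

theorem pw_zero (a : Fin 0 → G) (x : Fin 0 → ℤ) : pw a x = 1 := by simp [pw]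

theorem pw_cons {s : ℕ} (t : G) (a : Fin s → G) (x : Fin (s + 1) → ℤ) :
    pw (Fin.cons t a) x = t ^ x 0 * pw a (fun i => x i.succ) := by
  simp [pw, List.ofFn_succ]


end Crest.Agent.R182.PolycEmb
end

-- ▼ part R182/PolycCZ
section

set_option autoImplicit false
set_option linter.unusedSectionVars false

namespace Crest.Agent.R182.PolycEmb

open Module Crest.Agent.R182.Polyc

variable {K : Type*} [Field K] {G : Type*} [Group G]

/-- central series with infinite cyclic factors -/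
inductive CZ {G : Type*} [Group G] : Subgroup G → Prop
  | bot : CZ ⊥
  | step {N M : Subgroup G} (hN : CZ N) (hle : N ≤ M) (g : G)
      (hM : M = N ⊔ Subgroup.zpowers g) (hcent : ∀ h : G, h * g * h⁻¹ * g⁻¹ ∈ N)
      (hfree : ∀ k : ℤ, g ^ k ∈ N → k = 0) : CZ M

theorem CZ.normal {N : Subgroup G} (h : CZ N) : N.Normal := by
  induction h with
  | bot => infer_instance
  | @step N M hN hle g hM hcent hfree ih =>
    refine ⟨fun x hx h => ?_⟩
    have hNn := ih
    have hgh : ∀ k : ℤ, h * g ^ k * h⁻¹ ∈ M := by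
      intro k
      have h1 : h * g * h⁻¹ ∈ M := by
        have : h * g * h⁻¹ = (h * g * h⁻¹ * g⁻¹) * g := by group
        rw [this, hM]
        exact Subgroup.mul_mem_sup (hcent h) (Subgroup.mem_zpowers g)
      rw [← conj_zpow]
      exact M.zpow_mem h1 k
    have hg1 : ∀ x ∈ N, g * x * g⁻¹ ∈ N := fun x hx => hNn.conj_mem x hx g
    have hg2 : ∀ x ∈ N, g⁻¹ * x * g ∈ N := fun x hx => by
      have := hNn.conj_mem x hx g⁻¹
      simpa using this
    rw [hM] at hx
    obtain ⟨n, hn, k, rfl⟩ := (mem_sup_zpowers hg1 hg2).1 hx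
    have h3 : h * (n * g ^ k) * h⁻¹ = (h * n * h⁻¹) * (h * g ^ k * h⁻¹) := by group
    rw [h3]
    exact M.mul_mem (hle (hNn.conj_mem n hn h)) (hgh k)

theorem CZ.ext {N M : Subgroup G} (hN : CZ N) (hle : N ≤ M) {g : G}
    (hM : M = N ⊔ Subgroup.zpowers g) (hfree : ∀ k : ℤ, g ^ k ∈ N → k = 0) : Ext N M g := by
  refine Ext.of_step hle (fun h _ x hx => hN.normal.conj_mem x hx h) ?_ hM hfree
  rw [hM]; exact Subgroup.mem_sup_right (Subgroup.mem_zpowers g)

/-- torsion-free abelian quotient, finitely generated: coordinates. -/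
theorem exists_hom_of_tf {M : Type*} [Group M] [Group.FG M] (N : Subgroup M) [hN : N.Normal]
    (hab : ∀ x y : M, x * y * x⁻¹ * y⁻¹ ∈ N) (htf : ∀ (x : M) (j : ℤ), j ≠ 0 → x ^ j ∈ N → x ∈ N) :
    ∃ (r : ℕ) (φ : M →* Multiplicative (Fin r → ℤ)), Function.Surjective φ ∧
      ∀ x, φ x = 1 ↔ x ∈ N := by
  let _ : CommGroup (M ⧸ N) :=
    { (inferInstance : Group (M ⧸ N)) with
      mul_comm := by
        intro a b
        induction a using QuotientGroup.induction_on with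
        | H x =>
          induction b using QuotientGroup.induction_on with
          | H y =>
            rw [← QuotientGroup.mk_mul, ← QuotientGroup.mk_mul]
            rw [← mul_inv_eq_one, ← QuotientGroup.mk_inv, ← QuotientGroup.mk_mul,
              QuotientGroup.eq_one_iff]
            have := hab x y
            rwa [show x * y * (y * x)⁻¹ = x * y * x⁻¹ * y⁻¹ by group] }
  have hfgQ : Group.FG (M ⧸ N) := inferInstance
  have hfgA : AddGroup.FG (Additive (M ⧸ N)) := inferInstance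
  have hfin : Module.Finite ℤ (Additive (M ⧸ N)) := Module.Finite.iff_addGroup_fg.2 hfgA
  have hmk : ∀ (x : M) (n : ℤ), n • (Additive.ofMul (QuotientGroup.mk x : M ⧸ N)) =
      Additive.ofMul (QuotientGroup.mk (x ^ n) : M ⧸ N) := by
    intro x n
    rw [← ofMul_zpow]; rfl
  have htf' : Module.IsTorsionFree ℤ (Additive (M ⧸ N)) := by
    rw [Module.isTorsionFree_iff_smul_eq_zero]
    intro n a h
    by_cases hn : n = 0
    · exact Or.inl hn
    · refine Or.inr ?_
      obtain ⟨x, hx⟩ := QuotientGroup.mk_surjective (Additive.toMul a)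
      have ha : a = Additive.ofMul (QuotientGroup.mk x : M ⧸ N) := by rw [hx]; rfl
      rw [ha, hmk, ofMul_eq_zero, QuotientGroup.eq_one_iff] at h
      rw [ha, ofMul_eq_zero, QuotientGroup.eq_one_iff]
      exact htf x n hn h
  have hfree : Module.Free ℤ (Additive (M ⧸ N)) := inferInstance
  let b := Module.finBasis ℤ (Additive (M ⧸ N))
  let ψ : Additive (M ⧸ N) ≃+ (Fin (Module.finrank ℤ (Additive (M ⧸ N))) → ℤ) :=
    b.equivFun.toAddEquiv
  let φ : M →* Multiplicative (Fin (Module.finrank ℤ (Additive (M ⧸ N))) → ℤ) :=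
    (AddMonoidHom.toMultiplicativeRight ψ.toAddMonoidHom).comp (QuotientGroup.mk' N)
  refine ⟨_, φ, ?_, ?_⟩
  · intro v
    obtain ⟨a, ha⟩ := ψ.surjective (Multiplicative.toAdd v)
    obtain ⟨x, hx⟩ := QuotientGroup.mk_surjective (Additive.toMul a)
    refine ⟨x, ?_⟩
    show Multiplicative.ofAdd (ψ (Additive.ofMul (QuotientGroup.mk x : M ⧸ N))) = v
    rw [hx]
    show Multiplicative.ofAdd (ψ a) = v
    rw [ha]; rfl
  · intro x
    show Multiplicative.ofAdd (ψ (Additive.ofMul (QuotientGroup.mk x : M ⧸ N))) = 1 ↔ _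
    rw [ofAdd_eq_one, EmbeddingLike.map_eq_zero_iff, ofMul_eq_zero, QuotientGroup.eq_one_iff]

/-- torsion-free central quotient: extend a `CZ` series. -/
theorem CZ.extend {N M : Subgroup G} (hN : CZ N) (hle : N ≤ M) (hM : M.FG)
    (hcent : ∀ x ∈ M, ∀ h : G, h * x * h⁻¹ * x⁻¹ ∈ N)
    (htf : ∀ x ∈ M, ∀ j : ℤ, j ≠ 0 → x ^ j ∈ N → x ∈ N) : CZ M := by
  have hNn := hN.normal
  have hfg : Group.FG M := (Group.fg_iff_subgroup_fg M).2 hM
  obtain ⟨r, φ, hφ, hker⟩ := exists_hom_of_tf (M := M) (N.subgroupOf M)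
    (fun x y => by
      rw [Subgroup.mem_subgroupOf]
      exact hcent y y.2 x)
    (fun x j hj h => by
      rw [Subgroup.mem_subgroupOf] at h ⊢
      exact htf x x.2 j hj h)
  let L : ℕ → Subgroup G := fun j =>
    { carrier := {x | ∃ hx : x ∈ M, ∀ i : Fin r, j ≤ (i : ℕ) →
        Multiplicative.toAdd (φ ⟨x, hx⟩) i = 0}
      one_mem' := ⟨M.one_mem, fun i _ => by
        rw [show (⟨1, M.one_mem⟩ : M) = 1 from rfl, map_one]; rfl⟩
      mul_mem' := by
        rintro x y ⟨hx, hx'⟩ ⟨hy, hy'⟩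
        refine ⟨M.mul_mem hx hy, fun i hi => ?_⟩
        rw [show (⟨x * y, M.mul_mem hx hy⟩ : M) = ⟨x, hx⟩ * ⟨y, hy⟩ from rfl, map_mul, toAdd_mul,
          Pi.add_apply, hx' i hi, hy' i hi, add_zero]
      inv_mem' := by
        rintro x ⟨hx, hx'⟩
        refine ⟨M.inv_mem hx, fun i hi => ?_⟩
        rw [show (⟨x⁻¹, M.inv_mem hx⟩ : M) = ⟨x, hx⟩⁻¹ from rfl, map_inv, toAdd_inv,
          Pi.neg_apply, hx' i hi, neg_zero] }
  have hL : ∀ j x, x ∈ L j ↔ ∃ hx : x ∈ M, ∀ i : Fin r, j ≤ (i : ℕ) →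
        Multiplicative.toAdd (φ ⟨x, hx⟩) i = 0 := fun j x => Iff.rfl
  have hNL : ∀ j, N ≤ L j := by
    intro j x hx
    refine ⟨hle hx, fun i _ => ?_⟩
    rw [(hker ⟨x, hle hx⟩).2 (Subgroup.mem_subgroupOf.2 hx)]; rfl
  have key : ∀ j : ℕ, j ≤ r → CZ (L j) := by
    intro j
    induction j with
    | zero =>
      intro _
      have : L 0 = N := by
        refine le_antisymm ?_ (hNL 0)
        rintro x ⟨hx, hx'⟩
        have h1 : φ ⟨x, hx⟩ = 1 := by
          apply Multiplicative.toAdd.injective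
          funext i
          exact hx' i (Nat.zero_le _)
        exact Subgroup.mem_subgroupOf.1 ((hker _).1 h1)
      rw [this]; exact hN
    | succ j ih =>
      intro hj
      have ih' := ih (by omega)
      obtain ⟨⟨g, hg⟩, hgφ⟩ := hφ (Multiplicative.ofAdd (Pi.single ⟨j, by omega⟩ 1))
      have hgz : ∀ (k : ℤ) (i : Fin r), Multiplicative.toAdd (φ (⟨g, hg⟩ ^ k)) i =
          k * (Pi.single (M := fun _ => ℤ) ⟨j, by omega⟩ 1 : Fin r → ℤ) i := by
        intro k i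
        rw [map_zpow, hgφ, toAdd_zpow, toAdd_ofAdd, Pi.smul_apply, smul_eq_mul]
      have hgL : g ∈ L (j + 1) := by
        refine ⟨hg, fun i hi => ?_⟩
        rw [hgφ, toAdd_ofAdd, Pi.single_eq_of_ne]
        intro h
        rw [h] at hi
        simp at hi
      have hLL : L j ≤ L (j + 1) := by
        rintro x ⟨hx, hx'⟩
        exact ⟨hx, fun i hi => hx' i (by omega)⟩
      refine CZ.step ih' hLL g ?_ (fun h => hNL j (hcent g hg h)) ?_
      · refine le_antisymm ?_ (sup_le hLL (by rw [Subgroup.zpowers_le]; exact hgL))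
        rintro x ⟨hx, hx'⟩
        let k : ℤ := Multiplicative.toAdd (φ ⟨x, hx⟩) ⟨j, by omega⟩
        have h1 : x * (g ^ k)⁻¹ ∈ L j := by
          refine ⟨M.mul_mem hx (M.inv_mem (M.zpow_mem hg k)), fun i hi => ?_⟩
          have h2 : (⟨x * (g ^ k)⁻¹, M.mul_mem hx (M.inv_mem (M.zpow_mem hg k))⟩ : M) =
              ⟨x, hx⟩ * (⟨g, hg⟩ ^ k)⁻¹ := by
            ext; simp
          rw [h2, map_mul, map_inv, toAdd_mul, toAdd_inv, Pi.add_apply, Pi.neg_apply, hgz]
          rcases Nat.eq_or_lt_of_le hi with h3 | h3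
          · have h4 : i = ⟨j, by omega⟩ := Fin.ext h3.symm
            rw [h4, Pi.single_eq_same, mul_one]
            exact add_neg_cancel k
          · rw [hx' i h3, Pi.single_eq_of_ne (by intro h; rw [h] at h3; simp at h3), mul_zero,
              neg_zero, add_zero]
        have h5 : x = x * (g ^ k)⁻¹ * g ^ k := by group
        rw [h5]
        exact Subgroup.mul_mem_sup h1 (Subgroup.mem_zpowers_iff.2 ⟨k, rfl⟩)
      · rintro k ⟨hk, hk'⟩
        have h1 := hk' ⟨j, by omega⟩ le_rfl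
        have h2 : (⟨g ^ k, hk⟩ : M) = ⟨g, hg⟩ ^ k := by ext; simp
        rwa [h2, hgz, Pi.single_eq_same, mul_one] at h1
  have hr : L r = M := by
    refine le_antisymm (fun x hx => hx.1) (fun x hx => ⟨hx, fun i hi => ?_⟩)
    exact absurd i.2 (by omega)
  rw [← hr]
  exact key r le_rfl

theorem ucs_torsionFree (htf : ∀ (x : G) (j : ℤ), j ≠ 0 → x ^ j = 1 → x = 1) (i : ℕ) :
    ∀ x ∈ Subgroup.upperCentralSeries G (i + 1), ∀ j : ℤ, j ≠ 0 →
      x ^ j ∈ Subgroup.upperCentralSeries G i → x ∈ Subgroup.upperCentralSeries G i := by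
  induction i with
  | zero =>
    intro x _ j hj h
    rw [Subgroup.upperCentralSeries_zero, Subgroup.mem_bot] at h ⊢
    exact htf x j hj h
  | succ i ih =>
    intro x hx j hj h
    rw [Subgroup.mem_upperCentralSeries_succ_iff]
    intro y
    have h1 : x * y * x⁻¹ * y⁻¹ ∈ Subgroup.upperCentralSeries G (i + 1) := by
      have := (Subgroup.mem_upperCentralSeries_succ_iff).1 hx y
      simpa [commutatorElement_def] using this
    have h2 : x ^ j * y * (x ^ j)⁻¹ * y⁻¹ ∈ Subgroup.upperCentralSeries G i := by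
      have := (Subgroup.mem_upperCentralSeries_succ_iff).1 h y
      simpa [commutatorElement_def] using this
    -- modulo `Z_i`, the commutator is central: `[x^j, y] = [x, y]^j`
    set Z := Subgroup.upperCentralSeries G i with hZ
    have hZn : Z.Normal := inferInstance
    let q : G →* G ⧸ Z := QuotientGroup.mk' Z
    have hc : ∀ g : G, q g * q (x * y * x⁻¹ * y⁻¹) = q (x * y * x⁻¹ * y⁻¹) * q g := by
      intro g
      rw [← map_mul, ← map_mul]
      refine (QuotientGroup.eq).2 ?_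
      have h3 := (Subgroup.mem_upperCentralSeries_succ_iff).1 (Subgroup.inv_mem _ h1) g⁻¹
      rw [commutatorElement_def] at h3
      have h4 := hZn.conj_mem _ h3 1
      have : (g * (x * y * x⁻¹ * y⁻¹))⁻¹ * (x * y * x⁻¹ * y⁻¹ * g) =
        (x * y * x⁻¹ * y⁻¹)⁻¹ * g⁻¹ * (x * y * x⁻¹ * y⁻¹)⁻¹⁻¹ * g⁻¹⁻¹ := by group
      rw [this]; simpa using h3
    set c := x * y * x⁻¹ * y⁻¹ with hcdef
    have hconj : q y * q x⁻¹ * q y⁻¹ = q x⁻¹ * q c := by
      rw [← map_mul, ← map_mul, ← map_mul, hcdef]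
      congr 1; group
    have hcomm : Commute (q x⁻¹) (q c) := hc x⁻¹
    have h5 : q (x ^ j * y * (x ^ j)⁻¹ * y⁻¹) = q c ^ j := by
      have h6 : x ^ j * y * (x ^ j)⁻¹ * y⁻¹ = x ^ j * (y * x⁻¹ * y⁻¹) ^ j := by
        rw [conj_zpow]; group
      rw [h6, map_mul, map_zpow q (y * x⁻¹ * y⁻¹), map_mul, map_mul, hconj, hcomm.mul_zpow,
        map_zpow, map_inv, inv_zpow, ← mul_assoc, mul_inv_cancel, one_mul]
    have h7 : c ^ j ∈ Z := by
      rw [← QuotientGroup.eq_one_iff]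
      have h8 : q (c ^ j) = 1 := by
        rw [map_zpow, ← h5]
        exact (QuotientGroup.eq_one_iff _).2 h2
      exact h8
    have h9 := ih c h1 j hj h7
    rw [commutatorElement_def]
    exact h9

theorem cz_top [Group.IsNilpotent G] (hG : PZ (⊤ : Subgroup G)) : CZ (⊤ : Subgroup G) := by
  have htf : ∀ (x : G) (j : ℤ), j ≠ 0 → x ^ j = 1 → x = 1 := fun x j hj h =>
    hG.torsionFree (Subgroup.mem_top x) hj h
  have key : ∀ i, CZ (Subgroup.upperCentralSeries G i) := by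
    intro i
    induction i with
    | zero => rw [Subgroup.upperCentralSeries_zero]; exact CZ.bot
    | succ i ih =>
      refine ih.extend (Subgroup.upperCentralSeries_mono G (Nat.le_succ i)) ?_ ?_
        (ucs_torsionFree htf i)
      · exact (hG.mono le_top).pc.fg
      · intro x hx h
        have h1 := (Subgroup.mem_upperCentralSeries_succ_iff).1 (Subgroup.inv_mem _ hx) h
        rw [commutatorElement_def] at h1
        have h2 := (inferInstance : (Subgroup.upperCentralSeries G i).Normal).conj_mem _ h1 x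
        have h3 : x * (x⁻¹ * h * x⁻¹⁻¹ * h⁻¹) * x⁻¹ = h * x * h⁻¹ * x⁻¹ := by group
        rwa [h3] at h2
  obtain ⟨c, hc⟩ := Group.IsNilpotent.nilpotent G
  rw [← hc]; exact key c

/-- **Mal'cev coordinates** adapted to a central series -/
theorem exists_coords_cz [Group.IsNilpotent G] {L : Subgroup G} (hL : CZ L) :
    ∃ (s : ℕ) (a : Fin s → G) (e : Fin s → G → K), (∀ i, a i ∈ L) ∧ (∀ x, pw a x ∈ L) ∧
      (∀ n ∈ L, ∃ x, n = pw a x) ∧ (∀ x i, e i (pw a x) = x i) ∧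
      (∀ i, e i ∈ Fs L) ∧ (∃ d, ∀ i, e i ∈ Pol L d) ∧
      (∀ (j : ℕ) (x : Fin s → ℤ), (∀ i : Fin s, (i : ℕ) < j → x i = 0) →
        ∀ h : G, ∀ i : Fin s, (i : ℕ) < j → e i (h * pw a x * h⁻¹) = 0) := by
  induction hL with
  | bot =>
    refine ⟨0, fun i => i.elim0, fun i => i.elim0, fun i => i.elim0, ?_, ?_,
      fun _ i => i.elim0, fun i => i.elim0, ⟨0, fun i => i.elim0⟩, fun _ _ _ _ i => i.elim0⟩
    · intro x; rw [pw_zero]; exact Subgroup.one_mem _
    · intro n hn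
      refine ⟨fun i => i.elim0, ?_⟩
      rw [pw_zero]; exact Subgroup.mem_bot.1 hn
  | @step N M hN hle g hM hcent hfree ih =>
    have E := hN.ext hle hM hfree
    have hNn := hN.normal
    obtain ⟨s, a, e, h0, h1, h2, h3, h4, ⟨d, h5⟩, h6⟩ := ih
    obtain ⟨d', hd'⟩ := exists_ext_mem_Pol (K := K) E d
    refine ⟨s + 1, Fin.cons g a, Fin.cons (tc N g) (fun i => PolycEmb.ext N g (e i)), ?_, ?_, ?_,
      ?_, ?_, ⟨max 2 d', ?_⟩, ?_⟩
    · intro i
      refine Fin.cases ?_ (fun i => ?_) i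
      · rw [Fin.cons_zero]; exact E.mem
      · rw [Fin.cons_succ]; exact hle (h0 i)
    · intro x
      rw [pw_cons]
      exact M.mul_mem (M.zpow_mem E.mem _) (hle (h1 _))
    · intro n hn
      obtain ⟨k, m, hm, rfl⟩ := E.gen n hn
      obtain ⟨x, rfl⟩ := h2 m hm
      exact ⟨Fin.cons k x, by rw [pw_cons]; simp⟩
    · intro x i
      rw [pw_cons]
      refine Fin.cases ?_ (fun i => ?_) i
      · rw [Fin.cons_zero, tc_eq E _ (h1 _)]
      · rw [Fin.cons_succ, ext_eq E _ _ (h1 _), h3]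
    · intro i
      refine Fin.cases ?_ (fun i => ?_) i
      · rw [Fin.cons_zero]; exact tc_mem_Fs E
      · rw [Fin.cons_succ]; exact ext_mem_Fs E _
    · intro i
      refine Fin.cases ?_ (fun i => ?_) i
      · rw [Fin.cons_zero]; exact Pol_mono M (le_max_left _ _) (tc_mem_Pol E)
      · rw [Fin.cons_succ]; exact Pol_mono M (le_max_right _ _) (hd' _ (h5 i))
    · intro j x hx h i hi
      have hx0 : x 0 = 0 := hx 0 (by have := hi; exact lt_of_le_of_lt (Nat.zero_le _) this)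
      have h7 : pw (Fin.cons g a) x = pw a (fun i => x i.succ) := by
        rw [pw_cons, hx0, zpow_zero, one_mul]
      have h8 : h * pw a (fun i => x i.succ) * h⁻¹ ∈ N := hNn.conj_mem _ (h1 _) h
      rw [h7]
      revert hi
      refine Fin.cases ?_ (fun i => ?_) i
      · intro _
        rw [Fin.cons_zero]
        have := tc_eq (K := K) E 0 h8
        simpa using this
      · intro hi
        rw [Fin.cons_succ, ext_eq' E _ h8]
        refine h6 (j - 1) _ ?_ h i ?_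
        · intro i' hi'
          refine hx i'.succ ?_
          rw [Fin.val_succ]; omega
        · rw [Fin.val_succ] at hi; omega

end Crest.Agent.R182.PolycEmb
end

-- ▼ part R182/PolycEmb
section

set_option autoImplicit false
set_option linter.unusedSectionVars false

namespace Crest.Agent.R182.PolycEmb

open Module Crest.Agent.R182.Polyc Polynomial

variable {K : Type*} [Field K] {G : Type*} [Group G]

/-- two-sided linear recurrences. -/
def Rec (p : G → K[X]) : Submodule K (G → K) where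
  carrier := {f | ∀ a y, aeval (R a : (G → K) →ₗ[K] (G → K)) (p a) (R y f) = 0}
  zero_mem' := fun a y => by rw [map_zero, map_zero]
  add_mem' := fun {f g} hf hg a y => by rw [map_add, map_add, hf, hg, add_zero]
  smul_mem' := fun c f hf a y => by rw [map_smul, map_smul, hf, smul_zero]


theorem R_mem_Rec {p : G → K[X]} {f : G → K} (hf : f ∈ Rec p) (g : G) : R g f ∈ Rec p := by
  intro a y
  rw [← R_mul]
  exact hf a (y * g)

theorem R_pow_apply (a : G) (j : ℕ) (f : G → K) (x : G) :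
    ((R a : (G → K) →ₗ[K] (G → K)) ^ j) f x = f (x * a ^ j) := by
  rw [← map_pow]; rfl

theorem aeval_R_apply (q : K[X]) (a : G) (f : G → K) (x : G) :
    aeval (R a : (G → K) →ₗ[K] (G → K)) q f x =
      ∑ j ∈ Finset.range (q.natDegree + 1), q.coeff j * f (x * a ^ j) := by
  rw [aeval_eq_sum_range, LinearMap.sum_apply, Finset.sum_apply]
  refine Finset.sum_congr rfl fun j _ => ?_
  rw [LinearMap.smul_apply, Pi.smul_apply, R_pow_apply, smul_eq_mul]

/-- a two-sided sequence satisfying a linear recurrence and vanishing on a window is zero -/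
theorem seq_eq_zero {q : K[X]} (hq : q.Monic) (hq0 : q.coeff 0 ≠ 0) (s : ℤ → K)
    (hrec : ∀ e : ℤ, ∑ j ∈ Finset.range (q.natDegree + 1), q.coeff j * s (e + j) = 0)
    (hwin : ∀ e : ℕ, e < q.natDegree → s e = 0) (e : ℤ) : s e = 0 := by
  rcases Nat.eq_zero_or_pos q.natDegree with hd | hd
  · have h3 := hrec e
    rw [hd, zero_add, Finset.sum_range_one] at h3
    simpa [hq0] using h3
  have key : ∀ m : ℕ, ∀ e : ℤ, -(m : ℤ) ≤ e → e < (q.natDegree : ℤ) + m → s e = 0 := by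
    intro m
    induction m with
    | zero =>
      intro e h1 h2
      obtain ⟨k, rfl⟩ := Int.eq_ofNat_of_zero_le (by simpa using h1 : (0 : ℤ) ≤ e)
      exact hwin k (by simp at h2; exact_mod_cast h2)
    | succ m ih =>
      intro e h1 h2
      rcases lt_trichotomy e (-(m : ℤ)) with h | h | h
      · -- e = -m-1
        have he : e = -(m : ℤ) - 1 := by push_cast at h1; omega
        have h3 := hrec e
        rw [Finset.sum_range_succ'] at h3
        have h4 : ∑ k ∈ Finset.range q.natDegree, q.coeff (k + 1) * s (e + ((k + 1 : ℕ) : ℤ)) = 0 := by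
          refine Finset.sum_eq_zero fun k hk => ?_
          rw [Finset.mem_range] at hk
          rw [ih _ (by push_cast; omega) (by push_cast; omega), mul_zero]
        rw [h4, zero_add] at h3
        simpa [hq0] using h3
      · exact ih e (by omega) (by have := h1; omega)
      · by_cases h5 : e < (q.natDegree : ℤ) + m
        · exact ih e (by omega) h5
        · have he : e = (q.natDegree : ℤ) + m := by push_cast at h2; omega
          have h3 := hrec m
          rw [Finset.sum_range_succ] at h3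
          have h4 : ∑ k ∈ Finset.range q.natDegree, q.coeff k * s ((m : ℤ) + (k : ℤ)) = 0 := by
            refine Finset.sum_eq_zero fun k hk => ?_
            rw [Finset.mem_range] at hk
            rw [ih _ (by omega) (by omega), mul_zero]
          rw [h4, zero_add, Polynomial.Monic.coeff_natDegree hq, one_mul] at h3
          rw [he, add_comm]; exact h3
  exact key (e.natAbs + 1) e (by omega) (by omega)

theorem exists_finset_of_pc {p : G → K[X]} (hp : ∀ a, (p a).Monic) (hp0 : ∀ a, (p a).coeff 0 ≠ 0)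
    {L : Subgroup G} (hL : PC L) :
    ∃ F : Finset G, ∀ f ∈ Rec p, (∀ x ∈ F, f x = 0) → ∀ x ∈ L, f x = 0 := by
  classical
  induction hL with
  | bot =>
    refine ⟨{1}, fun f _ h x hx => ?_⟩
    rw [Subgroup.mem_bot] at hx
    rw [hx]; exact h 1 (by simp)
  | @step N M hN hle hnorm g hg hM ih =>
    obtain ⟨F, hF⟩ := ih
    refine ⟨(F ×ˢ Finset.range (p g).natDegree).image (fun z => z.1 * g ^ z.2), ?_⟩
    intro f hf h x hx
    obtain ⟨n, hn, i, rfl⟩ := (mem_of_step hnorm hg hM).1 hx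
    have h1 : ∀ e : ℕ, e < (p g).natDegree → ∀ y ∈ N, f (y * g ^ e) = 0 := by
      intro e he y hy
      exact hF (R (g ^ e) f) (R_mem_Rec hf _)
        (fun z hz => h _ (Finset.mem_image.2 ⟨(z, e), by simp [hz, he], rfl⟩)) y hy
    have h2 := seq_eq_zero (hp g) (hp0 g) (fun e : ℤ => f (n * g ^ e)) ?_ ?_ i
    · exact h2
    · intro e
      have h3 := congrFun (hf g 1) (n * g ^ e)
      rw [aeval_R_apply] at h3
      simp only [R_apply, mul_one] at h3
      rw [← Pi.zero_apply (M := fun _ => K) (n * g ^ e), ← h3]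
      refine Finset.sum_congr rfl fun j _ => ?_
      rw [zpow_add, zpow_natCast, mul_assoc]
    · intro e he
      have := h1 e he n hn
      simpa using this

theorem finiteDimensional_Rec {p : G → K[X]} (hp : ∀ a, (p a).Monic)
    (hp0 : ∀ a, (p a).coeff 0 ≠ 0) (hG : PC (⊤ : Subgroup G)) :
    FiniteDimensional K (Rec p : Submodule K (G → K)) := by
  obtain ⟨F, hF⟩ := exists_finset_of_pc hp hp0 hG
  let φ : (Rec p : Submodule K (G → K)) →ₗ[K] (F → K) :=
    { toFun := fun f x => f.1 x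
      map_add' := fun _ _ => rfl
      map_smul' := fun _ _ => rfl }
  refine FiniteDimensional.of_injective φ ?_
  rw [← LinearMap.ker_eq_bot, LinearMap.ker_eq_bot']
  intro f hf
  ext x
  exact hF f.1 f.2 (fun y hy => congrFun hf ⟨y, hy⟩) x (Subgroup.mem_top x)

theorem D_pow_eq_zero {d : ℕ} (a : G) : ∀ {f : G → K}, f ∈ Pol (⊤ : Subgroup G) d →
    ((D a : (G → K) →ₗ[K] (G → K)) ^ d) f = 0 := by
  induction d with
  | zero => intro f hf; rw [mem_Pol_zero] at hf; rw [hf, map_zero]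
  | succ d ih =>
    intro f hf
    rw [pow_succ, Module.End.mul_apply]
    exact ih (hf a (Subgroup.mem_top a))

theorem finiteDimensional_Pol (hG : PC (⊤ : Subgroup G)) (d : ℕ) :
    FiniteDimensional K (Pol (⊤ : Subgroup G) d : Submodule K (G → K)) := by
  have h1 : ∀ a : G, ((X - C (1 : K)) ^ d).Monic := fun _ => (monic_X_sub_C 1).pow d
  have h2 : ∀ a : G, ((X - C (1 : K)) ^ d).coeff 0 ≠ 0 := by
    intro a
    rw [coeff_zero_eq_eval_zero]
    simp
  have h3 := finiteDimensional_Rec (K := K) (p := fun _ : G => (X - C (1 : K)) ^ d) h1 h2 hG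
  refine Submodule.finiteDimensional_of_le (S₂ := Rec (fun _ : G => (X - C (1 : K)) ^ d)) ?_
  intro f hf a y
  have h4 : R y f ∈ Pol (⊤ : Subgroup G) d := R_mem_Pol (fun n _ => Subgroup.mem_top _) hf
  have h5 := D_pow_eq_zero a h4
  rw [map_pow, map_sub, aeval_X, aeval_C, map_one]
  exact h5

theorem aeval_R_mem {W : Submodule K (G → K)} {a : G} (h : ∀ f ∈ W, R a f ∈ W) (q : K[X]) :
    ∀ f ∈ W, aeval (R a : (G → K) →ₗ[K] (G → K)) q f ∈ W := by
  intro f hf
  have hpow : ∀ j : ℕ, ((R a : (G → K) →ₗ[K] (G → K)) ^ j) f ∈ W := by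
    intro j
    induction j with
    | zero => simpa using hf
    | succ j ih => rw [pow_succ', Module.End.mul_apply]; exact h _ ih
  rw [aeval_eq_sum_range, LinearMap.sum_apply]
  exact Submodule.sum_mem _ fun j _ => Submodule.smul_mem _ _ (hpow j)

theorem aeval_sub_mem_Pol {N : Subgroup G} [hN : N.Normal] {a u : G} (hu : u ∈ N) (q : K[X])
    {j : ℕ} {f : G → K} (hf : f ∈ Pol N (j + 1)) :
    aeval (R (a * u) : (G → K) →ₗ[K] (G → K)) q f -
      aeval (R a : (G → K) →ₗ[K] (G → K)) q f ∈ Pol N j := by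
  have hinv : ∀ g : G, ∀ n ∈ N, g⁻¹ * n * g ∈ N := fun g n hn => by
    have := hN.conj_mem n hn g⁻¹
    simpa using this
  have hpow : ∀ k : ℕ, ∀ f ∈ (Pol N (j + 1) : Submodule K (G → K)),
      ((R a : (G → K) →ₗ[K] (G → K)) ^ k) f ∈ Pol N (j + 1) := by
    intro k f hf
    rw [← map_pow]
    exact R_mem_Pol (hinv _) hf
  have key : ∀ k : ℕ, ((R (a * u) : (G → K) →ₗ[K] (G → K)) ^ k) f -
      ((R a : (G → K) →ₗ[K] (G → K)) ^ k) f ∈ Pol N j := by
    intro k
    induction k with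
    | zero => simp
    | succ k ih =>
      have h1 : ((R (a * u) : (G → K) →ₗ[K] (G → K)) ^ (k + 1)) f -
          ((R a : (G → K) →ₗ[K] (G → K)) ^ (k + 1)) f =
          R (a * u) (((R (a * u) : (G → K) →ₗ[K] (G → K)) ^ k) f -
            ((R a : (G → K) →ₗ[K] (G → K)) ^ k) f) +
          R a (D u (((R a : (G → K) →ₗ[K] (G → K)) ^ k) f)) := by
        rw [pow_succ', pow_succ', Module.End.mul_apply, Module.End.mul_apply, D_def, map_sub,
          map_sub, R_mul a u (((R a : (G → K) →ₗ[K] (G → K)) ^ k) f)]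
        abel
      rw [h1]
      refine Submodule.add_mem _ (R_mem_Pol (hinv _) ih) (R_mem_Pol (hinv _) ?_)
      exact hpow k f hf u hu
  rw [aeval_eq_sum_range, aeval_eq_sum_range, LinearMap.sum_apply, LinearMap.sum_apply,
    ← Finset.sum_sub_distrib]
  refine Submodule.sum_mem _ fun k _ => ?_
  rw [LinearMap.smul_apply, LinearMap.smul_apply, ← smul_sub]
  exact Submodule.smul_mem _ _ (key k)

theorem aeval_pow_eq_zero {N : Subgroup G} [hN : N.Normal] {W : Submodule K (G → K)}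
    (hinv : ∀ g, ∀ f ∈ W, R g f ∈ W) {a u : G} (hu : u ∈ N) {q : K[X]}
    (hq : ∀ f ∈ W, aeval (R a : (G → K) →ₗ[K] (G → K)) q f = 0) (j : ℕ) :
    ∀ f ∈ W, f ∈ Pol N j → aeval (R (a * u) : (G → K) →ₗ[K] (G → K)) (q ^ j) f = 0 := by
  induction j with
  | zero => intro f _ hf; rw [mem_Pol_zero] at hf; rw [hf, map_zero]
  | succ j ih =>
    intro f hfW hf
    rw [pow_succ, map_mul, Module.End.mul_apply]
    refine ih _ (aeval_R_mem (hinv _) q f hfW) ?_
    have h1 := aeval_sub_mem_Pol (a := a) hu q hf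
    rwa [hq f hfW, sub_zero] at h1

/-- the annihilating polynomial of `R a` on `W` -/
theorem exists_poly (W : Submodule K (G → K)) [FiniteDimensional K W]
    (hinv : ∀ g, ∀ f ∈ W, R g f ∈ W) (a : G) :
    ∃ q : K[X], q.Monic ∧ q.coeff 0 ≠ 0 ∧
      ∀ f ∈ W, aeval (R a : (G → K) →ₗ[K] (G → K)) q f = 0 := by
  let T : W →ₗ[K] W := (R a : (G → K) →ₗ[K] (G → K)).restrict (hinv a)
  let T' : W →ₗ[K] W := (R a⁻¹ : (G → K) →ₗ[K] (G → K)).restrict (hinv a⁻¹)
  have hTT : T * T' = 1 := by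
    ext f x
    show f.1 (x * a * a⁻¹) = f.1 x
    simp
  refine ⟨T.charpoly, LinearMap.charpoly_monic T, ?_, ?_⟩
  · have h1 : IsUnit (LinearMap.det T) := by
      refine IsUnit.of_mul_eq_one (LinearMap.det T') ?_
      rw [← map_mul, hTT, map_one]
    rw [LinearMap.det_eq_sign_charpoly_coeff] at h1
    intro h0
    rw [h0, mul_zero] at h1
    exact not_isUnit_zero h1
  · intro f hf
    have h1 := LinearMap.aeval_self_charpoly T
    have h2 : ∀ (q : K[X]) (f : W), ((aeval T q f : W) : G → K) =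
        aeval (R a : (G → K) →ₗ[K] (G → K)) q (f : G → K) := by
      intro q f
      rw [aeval_eq_sum_range, aeval_eq_sum_range, LinearMap.sum_apply, LinearMap.sum_apply,
        Submodule.coe_sum]
      refine Finset.sum_congr rfl fun j _ => ?_
      rw [LinearMap.smul_apply, LinearMap.smul_apply, Submodule.coe_smul]
      congr 1
      have : ∀ j : ℕ, (((T ^ j) f : W) : G → K) = ((R a : (G → K) →ₗ[K] (G → K)) ^ j) f := by
        intro j
        induction j with
        | zero => rfl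
        | succ j ih =>
          rw [pow_succ', pow_succ', Module.End.mul_apply, Module.End.mul_apply, ← ih]
          rfl
      exact this j
    have h3 := h2 T.charpoly ⟨f, hf⟩
    rw [h1] at h3
    exact h3.symm

section step

variable {H : Subgroup G} {t : G}

open Classical in
/-- extension by zero -/
noncomputable def ez (H : Subgroup G) (f : H → K) (x : G) : K := if h : x ∈ H then f ⟨x, h⟩ else 0

theorem ez_eq (f : H → K) {x : G} (h : x ∈ H) : ez H f x = f ⟨x, h⟩ := dif_pos h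

/-- extension of a function on `H` to the whole group -/
noncomputable def eH (t : G) (f : H → K) : G → K := ext H t (ez H f)

theorem eH_eq (E : Ext H ⊤ t) (f : H → K) (k : ℤ) (x : H) : eH t f (t ^ k * x) = f x := by
  rw [eH, ext_eq E _ _ x.2, ez_eq f x.2]

theorem eH_eq' (E : Ext H ⊤ t) (f : H → K) (x : H) : eH t f (x : G) = f x := by
  have := eH_eq E f 0 x
  simpa using this

theorem eH_mem_LT (E : Ext H ⊤ t) (f : H → K) : eH t f ∈ LT t := ext_mem_LT E _

theorem D_eH (E : Ext H ⊤ t) (f : H → K) (n : H) : D (n : G) (eH t f) = eH t (D n f) := by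
  funext x
  obtain ⟨k, m, hm, rfl⟩ := E.gen x (Subgroup.mem_top x)
  have h1 : t ^ k * m * (n : G) = t ^ k * ((⟨m, hm⟩ * n : H) : G) := by
    rw [Subgroup.coe_mul, mul_assoc]
  have h2 : t ^ k * m = t ^ k * ((⟨m, hm⟩ : H) : G) := rfl
  rw [D_apply, h1, h2, eH_eq E, eH_eq E, eH_eq E, D_apply]

theorem eH_mem_Pol (E : Ext H ⊤ t) {N : Subgroup G} (hNH : N ≤ H) {d : ℕ} :
    ∀ {f : H → K}, f ∈ Pol (N.subgroupOf H) d → eH t f ∈ Pol N d := by
  induction d with
  | zero =>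
    intro f hf
    rw [mem_Pol_zero] at hf ⊢
    subst hf
    funext x
    obtain ⟨k, m, hm, rfl⟩ := E.gen x (Subgroup.mem_top x)
    exact eH_eq E 0 k ⟨m, hm⟩
  | succ d ih =>
    intro f hf n hn
    rw [show n = ((⟨n, hNH hn⟩ : H) : G) from rfl, D_eH E]
    exact ih (hf ⟨n, hNH hn⟩ (Subgroup.mem_subgroupOf.2 hn))

/-- conjugation by `t ^ k` on `H` -/
def cj (E : Ext H ⊤ t) (k : ℤ) : H →* H where
  toFun x := ⟨(t ^ k)⁻¹ * x * t ^ k, E.conj_zpow k x.2⟩
  map_one' := by ext; simp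
  map_mul' x y := by ext; simp [mul_assoc]

theorem R_eH (E : Ext H ⊤ t) (f : H → K) (k : ℤ) (h : H) (x : H) :
    R (t ^ k * h) (eH t f) (x : G) = (R h f) (cj E k x) := by
  have h1 : (x : G) * (t ^ k * h) = t ^ k * ((cj E k x * h : H) : G) := by
    show (x : G) * (t ^ k * h) = t ^ k * ((t ^ k)⁻¹ * x * t ^ k * h)
    group
  rw [R_apply, h1, eH_eq E, R_apply]

theorem R_comp_hom (φ : H →* H) (f : H → K) (y : H) : R y (f ∘ φ) = (R (φ y) f) ∘ φ := by
  funext x
  simp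

theorem aeval_comp_hom (φ : H →* H) (f : H → K) (a : H) (q : K[X]) :
    aeval (R a : (H → K) →ₗ[K] (H → K)) q (f ∘ φ) =
      (aeval (R (φ a) : (H → K) →ₗ[K] (H → K)) q f) ∘ φ := by
  funext x
  rw [aeval_R_apply, Function.comp_apply, aeval_R_apply]
  refine Finset.sum_congr rfl fun j _ => ?_
  rw [Function.comp_apply, map_mul, map_pow]

theorem exists_step (E : Ext H ⊤ t) (N : Subgroup G) [hN : N.Normal] (hNH : N ≤ H)
    (hcomm : ∀ k : ℤ, ∀ h ∈ H, h⁻¹ * ((t ^ k)⁻¹ * h * t ^ k) ∈ N)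
    (hPC : PC (⊤ : Subgroup H)) (W' : Submodule K (H → K)) [FiniteDimensional K W']
    (hinv : ∀ g, ∀ f ∈ W', R g f ∈ W') {d : ℕ} (hd : W' ≤ Pol (N.subgroupOf H) d) :
    ∃ W : Submodule K (G → K), FiniteDimensional K W ∧ (∀ g, ∀ f ∈ W, R g f ∈ W) ∧
      W ≤ Pol N d ∧ ∀ f ∈ W', eH t f ∈ W := by
  have hinvN : ∀ g : G, ∀ n ∈ N, g⁻¹ * n * g ∈ N := fun g n hn => by
    have := hN.conj_mem n hn g⁻¹
    simpa using this
  choose q hq hq0 hqW using exists_poly W' hinv
  have hRec : FiniteDimensional K (Rec (fun a => q a ^ d) : Submodule K (H → K)) := by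
    refine finiteDimensional_Rec (fun a => (hq a).pow d) (fun a => ?_) hPC
    rw [coeff_zero_eq_eval_zero, eval_pow, ← coeff_zero_eq_eval_zero]
    exact pow_ne_zero _ (hq0 a)
  let S : Set (G → K) := {F | ∃ g : G, ∃ f ∈ W', F = R g (eH t f)}
  let W : Submodule K (G → K) := Submodule.span K S
  have hW1 : W ≤ LT t := by
    refine Submodule.span_le.2 ?_
    rintro _ ⟨g, f, _, rfl⟩
    exact R_mem_LT (eH_mem_LT E f)
  let ψ : (G → K) →ₗ[K] (H → K) :=
    { toFun := fun F x => F x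
      map_add' := fun _ _ => rfl
      map_smul' := fun _ _ => rfl }
  have hW2 : W ≤ (Rec (fun a => q a ^ d)).comap ψ := by
    refine Submodule.span_le.2 ?_
    rintro _ ⟨g, f, hf, rfl⟩
    obtain ⟨k, h, hh, rfl⟩ := E.gen g (Subgroup.mem_top g)
    have h1 : ψ (R (t ^ k * h) (eH t f)) = (R ⟨h, hh⟩ f) ∘ (cj E k) := by
      funext x
      exact R_eH E f k ⟨h, hh⟩ x
    show ψ (R (t ^ k * h) (eH t f)) ∈ Rec (fun a => q a ^ d)
    rw [h1]
    intro a y
    rw [R_comp_hom, aeval_comp_hom]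
    have h2 : cj E k a = a * (a⁻¹ * cj E k a) := by group
    have h3 : a⁻¹ * cj E k a ∈ N.subgroupOf H := by
      rw [Subgroup.mem_subgroupOf]
      exact hcomm k a a.2
    have hmem : R (cj E k y) (R ⟨h, hh⟩ f) ∈ W' := hinv _ _ (hinv _ _ hf)
    rw [h2, aeval_pow_eq_zero hinv h3 (hqW a) d _ hmem (hd hmem)]
    rfl
  refine ⟨W, ?_, ?_, ?_, ?_⟩
  · let φ : W →ₗ[K] (Rec (fun a => q a ^ d) : Submodule K (H → K)) :=
      (ψ.comp W.subtype).codRestrict _ (fun F => hW2 F.2)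
    refine FiniteDimensional.of_injective φ ?_
    rw [← LinearMap.ker_eq_bot, LinearMap.ker_eq_bot']
    intro F hF
    ext x
    obtain ⟨k, h, hh, rfl⟩ := E.gen x (Subgroup.mem_top x)
    rw [LT_zpow (hW1 F.2)]
    have := congrFun (congrArg Subtype.val hF) ⟨h, hh⟩
    exact this
  · intro g F hF
    have : W ≤ W.comap (R g) := by
      refine Submodule.span_le.2 ?_
      rintro _ ⟨g', f, hf, rfl⟩
      refine Submodule.subset_span ⟨g * g', f, hf, ?_⟩
      rw [R_mul]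
    exact this hF
  · refine Submodule.span_le.2 ?_
    rintro _ ⟨g, f, hf, rfl⟩
    exact R_mem_Pol (hinvN g) (eH_mem_Pol E hNH (hd hf))
  · intro f hf
    refine Submodule.subset_span ⟨1, f, hf, ?_⟩
    rw [R_one]

end step

section final

theorem coe_pw {H : Subgroup G} {s : ℕ} (a : Fin s → H) (x : Fin s → ℤ) :
    ((pw a x : H) : G) = pw (fun i => (a i : G)) x := by
  induction s with
  | zero => rw [pw_zero, pw_zero]; rfl
  | succ s ih =>
    have h1 := pw_cons (a 0) (fun i => a i.succ) x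
    have h2 := pw_cons (a 0 : G) (fun i => (a i.succ : G)) x
    have h3 : (Fin.cons (a 0) (fun i => a i.succ) : Fin (s + 1) → H) = a := by
      funext i; refine Fin.cases ?_ (fun i => ?_) i <;> simp
    have h4 : (Fin.cons (a 0 : G) (fun i => (a i.succ : G)) : Fin (s + 1) → G) =
        fun i => (a i : G) := by
      funext i; refine Fin.cases ?_ (fun i => ?_) i <;> simp
    rw [h3] at h1
    rw [h4] at h2
    rw [h1, h2, Subgroup.coe_mul, Subgroup.coe_zpow, ih]

universe u v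

/-- **Auslander embedding, function form.** -/
theorem exists_repr {K : Type v} [Field K] (k : ℕ) : ∀ (G : Type u) [Group G] (N : Subgroup G)
    [N.Normal] [Group.IsNilpotent N], PZ (⊤ : Subgroup G) →
    ∀ π : G →* Multiplicative (Fin k → ℤ), Function.Surjective π → (∀ g, π g = 1 ↔ g ∈ N) →
    ∃ W : Submodule K (G → K), FiniteDimensional K W ∧ (∀ g, ∀ f ∈ W, R g f ∈ W) ∧
      (∃ d, W ≤ Pol N d) ∧ (fun _ => 1) ∈ W ∧
      (∀ j, (fun g => ((Multiplicative.toAdd (π g) j : ℤ) : K)) ∈ W) ∧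
      ∃ (s : ℕ) (a : Fin s → G) (e : Fin s → G → K), (∀ i, a i ∈ N) ∧
        (∀ n ∈ N, ∃ x, n = pw a x) ∧ (∀ x i, e i (pw a x) = x i) ∧ (∀ i, e i ∈ W) ∧
        (∀ (j : ℕ) (x : Fin s → ℤ), (∀ i : Fin s, (i : ℕ) < j → x i = 0) →
          ∀ h ∈ N, ∀ i : Fin s, (i : ℕ) < j → e i (h * pw a x * h⁻¹) = 0) ∧
        (∀ i, ∀ x, ∃ z : ℤ, e i x = z) := by
  induction k with
  | zero =>
    intro G _ N hN hnil hG π hπ hπN
    have htop : N = ⊤ := by
      rw [eq_top_iff]
      intro g _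
      exact (hπN g).1 (Subsingleton.elim _ _)
    subst htop
    have : Group.IsNilpotent G := Group.isNilpotent_top.1 hnil
    obtain ⟨s, a, e, h0, h1, h2, h3, h4, ⟨d, h5⟩, h6⟩ := exists_coords_cz (K := K) (cz_top hG)
    refine ⟨Pol ⊤ (max d 1), finiteDimensional_Pol hG.pc _, ?_, ⟨_, le_rfl⟩, ?_,
      fun j => j.elim0, s, a, e, h0, fun n hn => h2 n hn, h3, fun i => ?_,
      fun j x hx h _ i hi => h6 j x hx h i hi, fun i x => ?_⟩
    · intro g f hf
      exact R_mem_Pol (fun n _ => Subgroup.mem_top _) hf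
    · refine Pol_mono ⊤ (le_max_right d 1) ?_
      intro n _
      rw [mem_Pol_zero]
      funext x
      simp
    · exact Pol_mono ⊤ (le_max_left d 1) (h5 i)
    · obtain ⟨y, rfl⟩ := h2 x (Subgroup.mem_top x)
      exact ⟨y i, h3 y i⟩
  | succ k ih =>
    intro G _ N hN hnil hG π hπ hπN
    let π₀ : G →* Multiplicative ℤ :=
      { toFun := fun g => Multiplicative.ofAdd (Multiplicative.toAdd (π g) 0)
        map_one' := by rw [map_one]; rfl
        map_mul' := fun g h => by rw [map_mul]; rfl }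
    let H : Subgroup G := π₀.ker
    have hmemH : ∀ g, g ∈ H ↔ Multiplicative.toAdd (π g) 0 = 0 := fun g => by
      rw [MonoidHom.mem_ker]; exact Iff.rfl
    obtain ⟨t, ht⟩ := hπ (Multiplicative.ofAdd (Pi.single 0 1))
    have hπt : ∀ (n : ℤ) (j : Fin (k + 1)), Multiplicative.toAdd (π (t ^ n)) j =
        n * (Pi.single (M := fun _ => ℤ) 0 1 : Fin (k + 1) → ℤ) j := by
      intro n j
      rw [map_zpow, ht, toAdd_zpow, toAdd_ofAdd, Pi.smul_apply, smul_eq_mul]
    have hNH : N ≤ H := by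
      intro n hn
      rw [hmemH, (hπN n).2 hn]; rfl
    have E : Ext H ⊤ t :=
      { le := le_top
        mem := Subgroup.mem_top _
        norm := fun h _ x hx => by
          have := (inferInstance : H.Normal).conj_mem x hx h⁻¹
          simpa using this
        gen := by
          intro x _
          refine ⟨Multiplicative.toAdd (π x) 0,
            (t ^ (Multiplicative.toAdd (π x) 0))⁻¹ * x, ?_, by group⟩
          rw [hmemH, map_mul, map_inv, toAdd_mul, toAdd_inv, Pi.add_apply, Pi.neg_apply, hπt,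
            Pi.single_eq_same]
          ring
        free := by
          intro n hn
          rw [hmemH, hπt, Pi.single_eq_same, mul_one] at hn
          exact hn }
    let π' : H →* Multiplicative (Fin k → ℤ) :=
      { toFun := fun h => Multiplicative.ofAdd fun j => Multiplicative.toAdd (π h) j.succ
        map_one' := by rw [Subgroup.coe_one, map_one]; rfl
        map_mul' := fun g h => by rw [Subgroup.coe_mul, map_mul]; rfl }
    have hπ' : Function.Surjective π' := by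
      intro v
      obtain ⟨g, hg⟩ := hπ (Multiplicative.ofAdd (Fin.cons 0 (Multiplicative.toAdd v)))
      refine ⟨⟨g, ?_⟩, ?_⟩
      · rw [hmemH, hg, toAdd_ofAdd, Fin.cons_zero]
      · apply Multiplicative.toAdd.injective
        funext j
        show Multiplicative.toAdd (π g) j.succ = _
        rw [hg, toAdd_ofAdd, Fin.cons_succ]
    have hπN' : ∀ h : H, π' h = 1 ↔ h ∈ N.subgroupOf H := by
      intro h
      rw [Subgroup.mem_subgroupOf, ← hπN]
      constructor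
      · intro h1
        apply Multiplicative.toAdd.injective
        funext j
        refine Fin.cases ?_ (fun j => ?_) j
        · exact (hmemH h).1 h.2
        · exact congrFun (congrArg Multiplicative.toAdd h1) j
      · intro h1
        apply Multiplicative.toAdd.injective
        funext j
        show Multiplicative.toAdd (π h) j.succ = _
        rw [h1]; rfl
    have hnil' : Group.IsNilpotent (N.subgroupOf H) :=
      Group.nilpotent_of_mulEquiv (Subgroup.subgroupOfEquivOfLe hNH).symm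
    have hPZH : PZ (⊤ : Subgroup H) := by
      have := hG.comap_injective H.subtype_injective
      rwa [Subgroup.comap_top] at this
    obtain ⟨W', hfin, hinv, ⟨d, hd⟩, hone, hπW, s, a, e, h0, h2, h3, h4, h7, h8⟩ :=
      ih H (N.subgroupOf H) hPZH π' hπ' hπN'
    have hcomm : ∀ n : ℤ, ∀ h ∈ H, h⁻¹ * ((t ^ n)⁻¹ * h * t ^ n) ∈ N := by
      intro n h _
      rw [← hπN]
      simp only [map_mul, map_inv, map_zpow]
      rw [mul_comm ((π t ^ n)⁻¹ * π h) (π t ^ n), mul_inv_cancel_left, inv_mul_cancel]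
    obtain ⟨W₁, hfin₁, hinv₁, hd₁, hW₁⟩ := exists_step E N hNH hcomm hPZH.pc W' hinv hd
    let c₀ : G → K := fun g => ((Multiplicative.toAdd (π g) 0 : ℤ) : K)
    have hone₁ : (fun _ => 1 : G → K) ∈ W₁ := by
      have h5 := hW₁ _ hone
      have h6 : eH t (fun _ : H => (1 : K)) = fun _ => 1 := by
        funext x
        obtain ⟨n, h, hh, rfl⟩ := E.gen x (Subgroup.mem_top x)
        exact eH_eq E _ n ⟨h, hh⟩
      rwa [h6] at h5
    have hRc : ∀ g, R g c₀ = c₀ + c₀ g • (fun _ => 1 : G → K) := by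
      intro g
      funext x
      show ((Multiplicative.toAdd (π (x * g)) 0 : ℤ) : K) =
        ((Multiplicative.toAdd (π x) 0 : ℤ) : K) +
          ((Multiplicative.toAdd (π g) 0 : ℤ) : K) * 1
      rw [map_mul, toAdd_mul, Pi.add_apply]
      push_cast; ring
    refine ⟨W₁ ⊔ (K ∙ c₀), inferInstance, ?_, ⟨max d 1, ?_⟩, ?_, ?_, s, fun i => (a i : G),
      fun i => eH t (e i), ?_, ?_, ?_, ?_, ?_, ?_⟩
    · intro g
      have : W₁ ⊔ (K ∙ c₀) ≤ (W₁ ⊔ (K ∙ c₀)).comap (R g) := by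
        refine sup_le ?_ ?_
        · intro f hf
          exact Submodule.mem_sup_left (hinv₁ g f hf)
        · rw [Submodule.span_singleton_le_iff_mem, Submodule.mem_comap, hRc]
          refine Submodule.add_mem _
            (Submodule.mem_sup_right (Submodule.mem_span_singleton_self _)) ?_
          exact Submodule.mem_sup_left (Submodule.smul_mem _ _ hone₁)
      exact fun f hf => this hf
    · refine sup_le (hd₁.trans (Pol_mono N (le_max_left _ _))) ?_
      rw [Submodule.span_singleton_le_iff_mem]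
      refine Pol_mono N (le_max_right d 1) ?_
      intro n hn
      rw [mem_Pol_zero, D_def, hRc, add_sub_cancel_left]
      have : c₀ n = 0 := by
        show ((Multiplicative.toAdd (π n) 0 : ℤ) : K) = 0
        rw [(hπN n).2 hn]; simp
      rw [this, zero_smul]
    · exact Submodule.mem_sup_left hone₁
    · intro j
      refine Fin.cases ?_ (fun j => ?_) j
      · exact Submodule.mem_sup_right (Submodule.mem_span_singleton_self _)
      · refine Submodule.mem_sup_left ?_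
        have h5 := hW₁ _ (hπW j)
        have h6 : eH t (fun g : H => ((Multiplicative.toAdd (π' g) j : ℤ) : K)) =
            fun g => ((Multiplicative.toAdd (π g) j.succ : ℤ) : K) := by
          funext x
          obtain ⟨n, h, hh, rfl⟩ := E.gen x (Subgroup.mem_top x)
          rw [show t ^ n * h = t ^ n * ((⟨h, hh⟩ : H) : G) from rfl, eH_eq E _ n ⟨h, hh⟩]
          show ((Multiplicative.toAdd (π h) j.succ : ℤ) : K) = _
          rw [map_mul, toAdd_mul, Pi.add_apply, hπt,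
            Pi.single_eq_of_ne (Fin.succ_ne_zero j), mul_zero, zero_add]
        rwa [h6] at h5
    · intro i
      exact Subgroup.mem_subgroupOf.1 (h0 i)
    · intro n hn
      obtain ⟨x, hx⟩ := h2 ⟨n, hNH hn⟩ (Subgroup.mem_subgroupOf.2 hn)
      refine ⟨x, ?_⟩
      rw [← coe_pw, ← hx]
    · intro x i
      show eH t (e i) (pw (fun i => (a i : G)) x) = _
      rw [← coe_pw, eH_eq' E, h3]
    · intro i
      exact Submodule.mem_sup_left (hW₁ _ (h4 i))
    · intro j x hx h hh i hi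
      have h9 : h * pw (fun i => (a i : G)) x * h⁻¹ =
          ((⟨h, hNH hh⟩ * pw a x * ⟨h, hNH hh⟩⁻¹ : H) : G) := by
        rw [← coe_pw]; rfl
      show eH t (e i) (h * pw (fun i => (a i : G)) x * h⁻¹) = 0
      rw [h9, eH_eq' E]
      exact h7 j x hx _ (Subgroup.mem_subgroupOf.2 hh) i hi
    · intro i x
      obtain ⟨n, h, hh, rfl⟩ := E.gen x (Subgroup.mem_top x)
      obtain ⟨z, hz⟩ := h8 i ⟨h, hh⟩
      exact ⟨z, (eH_eq E (e i) n ⟨h, hh⟩).trans hz⟩

end final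

end Crest.Agent.R182.PolycEmb
end

-- ▼ part R182/PolycEmbInt
section

set_option autoImplicit false
set_option linter.unusedSectionVars false

namespace Crest.Agent.R182.PolycEmb

open Module Crest.Agent.R182.Polyc Polynomial

variable {G : Type*} [Group G]

theorem matrix_pow_eq_zero {n : ℕ} {A : Matrix (Fin n) (Fin n) ℤ} {d : ℕ} (h : A ^ d = 0) :
    A ^ n = 0 := by
  have h1 : IsNilpotent A := ⟨d, h⟩
  have h2 := Matrix.isNilpotent_charpoly_sub_pow_of_isNilpotent h1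
  have h3 : A.charpoly = X ^ n := by
    have := h2.eq_zero
    rw [sub_eq_zero, Fintype.card_fin] at this
    exact this
  have h4 := Matrix.aeval_self_charpoly A
  rwa [h3, map_pow, aeval_X] at h4

/-- the inverse of an ordered product of powers -/
theorem inv_pw {s : ℕ} (a : Fin s → G) (x : Fin s → ℤ) :
    (pw a x)⁻¹ = prodE (fun i => a (Fin.rev i)) (fun i => - x (Fin.rev i)) := by
  rw [pw, prodE, List.prod_inv_reverse, List.map_ofFn]
  congr 1
  refine List.ext_getElem (by simp) ?_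
  intro n h1 h2
  rw [List.getElem_reverse, List.getElem_ofFn, List.getElem_ofFn, Function.comp_apply, zpow_neg]
  have h3 : n < s := by simpa using h2
  have h4 : (⟨(List.ofFn (Inv.inv ∘ fun i => a i ^ x i)).length - 1 - n, by
      simp; omega⟩ : Fin s) = Fin.rev ⟨n, h3⟩ := by
    ext
    simp [Fin.rev]
    omega
  rw [h4]

theorem inv_prodE {s : ℕ} (a : Fin s → G) (x : Fin s → ℤ) :
    (prodE (fun i => a (Fin.rev i)) x)⁻¹ = pw a (fun i => - x (Fin.rev i)) := by
  rw [← inv_inv (pw a _), inv_pw]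
  congr 2
  funext i
  rw [Fin.rev_rev, neg_neg]

theorem exists_finset_of_fd (n : ℕ) : ∀ (W : Submodule ℚ (G → ℚ)) [FiniteDimensional ℚ W],
    finrank ℚ W = n → ∃ F : Finset G, ∀ f ∈ W, (∀ x ∈ F, f x = 0) → f = 0 := by
  classical
  induction n using Nat.strong_induction_on with
  | _ n ih =>
    intro W _ hW
    by_cases h : W = ⊥
    · exact ⟨∅, fun f hf _ => by rw [h, Submodule.mem_bot] at hf; exact hf⟩
    · obtain ⟨f, hf, hf0⟩ := Submodule.exists_mem_ne_zero_of_ne_bot h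
      obtain ⟨x, hx⟩ : ∃ x, f x ≠ 0 := by
        by_contra hcon
        push Not at hcon
        exact hf0 (funext hcon)
      let ev : (G → ℚ) →ₗ[ℚ] ℚ := LinearMap.proj x
      have hlt : W ⊓ LinearMap.ker ev < W := by
        refine lt_of_le_of_ne inf_le_left ?_
        intro h1
        have h2 : f ∈ W ⊓ LinearMap.ker ev := by rw [h1]; exact hf
        exact hx h2.2
      have hfd : FiniteDimensional ℚ (W ⊓ LinearMap.ker ev : Submodule ℚ (G → ℚ)) :=
        Submodule.finiteDimensional_of_le inf_le_left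
      obtain ⟨F, hF⟩ := ih _ (by rw [← hW]; exact Submodule.finrank_lt_finrank_of_lt hlt)
        (W ⊓ LinearMap.ker ev) rfl
      refine ⟨insert x F, fun g hg hgF => hF g ⟨hg, ?_⟩ fun y hy => ?_⟩
      · exact hgF x (Finset.mem_insert_self _ _)
      · exact hgF y (Finset.mem_insert_of_mem hy)

/-- the lattice of integer valued functions -/
def MZ (W : Submodule ℚ (G → ℚ)) : Submodule ℤ (G → ℤ) where
  carrier := {f | (fun x => (f x : ℚ)) ∈ W}
  zero_mem' := by
    have h : (fun x => (((0 : G → ℤ) x : ℤ) : ℚ)) = (0 : G → ℚ) := by funext x; simp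
    show (fun x => (((0 : G → ℤ) x : ℤ) : ℚ)) ∈ W
    rw [h]; exact W.zero_mem
  add_mem' := by
    intro f g hf hg
    have := W.add_mem hf hg
    show (fun x => ((f x + g x : ℤ) : ℚ)) ∈ W
    convert this using 1
    funext x; simp
  smul_mem' := by
    intro c f hf
    have := W.smul_mem (c : ℚ) hf
    show (fun x => ((c • f x : ℤ) : ℚ)) ∈ W
    convert this using 1
    funext x; simp

theorem mem_MZ {W : Submodule ℚ (G → ℚ)} {f : G → ℤ} : f ∈ MZ W ↔ (fun x => (f x : ℚ)) ∈ W :=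
  Iff.rfl

theorem finite_MZ (W : Submodule ℚ (G → ℚ)) [FiniteDimensional ℚ W] :
    Module.Finite ℤ (MZ W) := by
  obtain ⟨F, hF⟩ := exists_finset_of_fd _ W rfl
  let φ : MZ W →ₗ[ℤ] (F → ℤ) :=
    { toFun := fun f x => f.1 x
      map_add' := fun _ _ => rfl
      map_smul' := fun _ _ => rfl }
  refine Module.Finite.of_injective φ ?_
  rw [← LinearMap.ker_eq_bot, LinearMap.ker_eq_bot']
  intro f hf
  ext x
  have h1 := hF _ f.2 (fun y hy => by
    have := congrFun hf ⟨y, hy⟩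
    show ((f.1 y : ℤ) : ℚ) = 0
    rw [show f.1 y = 0 from this]; simp)
  have h2 : ((f.1 x : ℤ) : ℚ) = 0 := congrFun h1 x
  show f.1 x = 0
  exact_mod_cast h2

/-- the right translation on the lattice -/
def TZ (W : Submodule ℚ (G → ℚ)) (hW : ∀ g, ∀ f ∈ W, R g f ∈ W) (g : G) : MZ W →ₗ[ℤ] MZ W where
  toFun f := ⟨fun x => f.1 (x * g), hW g _ f.2⟩
  map_add' _ _ := rfl
  map_smul' _ _ := rfl

theorem TZ_apply (W : Submodule ℚ (G → ℚ)) (hW : ∀ g, ∀ f ∈ W, R g f ∈ W) (g : G) (f : MZ W)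
    (x : G) : (TZ W hW g f).1 x = f.1 (x * g) := rfl

theorem TZ_mul (W : Submodule ℚ (G → ℚ)) (hW : ∀ g, ∀ f ∈ W, R g f ∈ W) (g h : G) :
    TZ W hW (g * h) = TZ W hW g * TZ W hW h := by
  ext f x
  rw [Module.End.mul_apply, TZ_apply, TZ_apply, TZ_apply, mul_assoc]

theorem TZ_one (W : Submodule ℚ (G → ℚ)) (hW : ∀ g, ∀ f ∈ W, R g f ∈ W) :
    TZ W hW 1 = 1 := by
  ext f x
  rw [TZ_apply, mul_one]; rfl

theorem TZ_unip (W : Submodule ℚ (G → ℚ)) (hW : ∀ g, ∀ f ∈ W, R g f ∈ W) {N : Subgroup G}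
    {d : ℕ} (hd : W ≤ Pol N d) {n : G} (hn : n ∈ N) : (TZ W hW n - 1) ^ d = 0 := by
  have key : ∀ j : ℕ, ∀ f : MZ W, (fun x => (f.1 x : ℚ)) ∈ Pol N j →
      ((TZ W hW n - 1) ^ j) f = 0 := by
    intro j
    induction j with
    | zero =>
      intro f hf
      rw [mem_Pol_zero] at hf
      have : f = 0 := by
        ext x
        have h : ((f.1 x : ℤ) : ℚ) = 0 := congrFun hf x
        show f.1 x = 0
        exact_mod_cast h
      rw [this, map_zero]
    | succ j ih =>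
      intro f hf
      rw [pow_succ, Module.End.mul_apply]
      refine ih _ ?_
      have h1 := hf n hn
      convert h1 using 1
      funext x
      show (((TZ W hW n f - f : MZ W).1 x : ℤ) : ℚ) = _
      rw [D_apply]
      show ((f.1 (x * n) - f.1 x : ℤ) : ℚ) = _
      push_cast; rfl
  ext f x
  rw [key d f (hd f.2)]; rfl

/-- **Auslander embedding, integral matrix form.** -/
theorem exists_embData {k : ℕ} {N : Subgroup G} (hN : N.Normal) (hnil : Group.IsNilpotent N)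
    (hG : PZ (⊤ : Subgroup G)) (π : G →* Multiplicative (Fin k → ℤ))
    (hπ : Function.Surjective π) (hπN : ∀ g, π g = 1 ↔ g ∈ N) : Nonempty (EmbData G N) := by
  obtain ⟨W, hfin, hinv, ⟨d, hd⟩, hone, hπW, s, a, e, h0, h2, h3, h4, h7, h8⟩ :=
    exists_repr (K := ℚ) k G N hG π hπ hπN
  have hfinM := finite_MZ W
  choose ez hez using h8
  have hezW : ∀ i, ez i ∈ MZ W := by
    intro i
    rw [mem_MZ]
    have : (fun x => ((ez i x : ℤ) : ℚ)) = e i := by funext x; exact (hez i x).symm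
    rw [this]; exact h4 i
  have hez3 : ∀ x i, ez i (pw a x) = x i := by
    intro x i
    have := hez i (pw a x)
    rw [h3] at this
    exact_mod_cast this.symm
  let b := Module.finBasis ℤ (MZ W)
  let A : G → Matrix (Fin (finrank ℤ (MZ W))) (Fin (finrank ℤ (MZ W))) ℤ := fun g =>
    LinearMap.toMatrix b b (TZ W hinv g)
  have hA : ∀ g h, A (g * h) = A g * A h := by
    intro g h
    show LinearMap.toMatrix b b _ = LinearMap.toMatrix b b _ * LinearMap.toMatrix b b _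
    rw [TZ_mul, LinearMap.toMatrix_mul]
  have hA1 : A 1 = 1 := by
    show LinearMap.toMatrix b b _ = 1
    rw [TZ_one, LinearMap.toMatrix_one]
  let ρ : G →* Matrix (Fin (finrank ℤ (MZ W))) (Fin (finrank ℤ (MZ W))) ℤ :=
    { toFun := fun g => (A g⁻¹).transpose
      map_one' := by rw [inv_one, hA1, Matrix.transpose_one]
      map_mul' := fun g h => by rw [mul_inv_rev, hA, Matrix.transpose_mul] }
  -- the coordinates of a function
  let c : Fin s → Fin (finrank ℤ (MZ W)) → ℤ := fun i => b.repr ⟨ez i, hezW i⟩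
  let L : Fin s → (Matrix (Fin (finrank ℤ (MZ W))) (Fin (finrank ℤ (MZ W))) ℤ →ₗ[ℤ] ℤ) :=
    fun i =>
      { toFun := fun B => ∑ q, (∑ p, B p q * c i p) * (b q).1 1
        map_add' := by
          intro B C
          rw [← Finset.sum_add_distrib]
          refine Finset.sum_congr rfl fun q _ => ?_
          rw [← add_mul, ← Finset.sum_add_distrib]
          congr 1
          refine Finset.sum_congr rfl fun p _ => ?_
          rw [Matrix.add_apply, add_mul]
        map_smul' := by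
          intro z B
          rw [RingHom.id_apply, Finset.smul_sum]
          refine Finset.sum_congr rfl fun q _ => ?_
          rw [smul_eq_mul, ← mul_assoc, Finset.mul_sum]
          congr 1
          refine Finset.sum_congr rfl fun p _ => ?_
          rw [Matrix.smul_apply, smul_eq_mul, mul_assoc] }
  have hL : ∀ i g, L i (ρ g) = ez i g⁻¹ := by
    intro i g
    have h5 : TZ W hinv g⁻¹ ⟨ez i, hezW i⟩ =
        ∑ q, (∑ p, A g⁻¹ q p * c i p) • b q := by
      have h6 := b.sum_repr (TZ W hinv g⁻¹ ⟨ez i, hezW i⟩)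
      rw [← h6]
      refine Finset.sum_congr rfl fun q _ => ?_
      congr 1
      have h9 := LinearMap.toMatrix_mulVec_repr b b (TZ W hinv g⁻¹) ⟨ez i, hezW i⟩
      rw [← h9]; rfl
    have h6 : ez i g⁻¹ = (TZ W hinv g⁻¹ ⟨ez i, hezW i⟩).1 1 := by
      rw [TZ_apply, one_mul]
    rw [h6, h5]
    have h9 : ((∑ q, (∑ p, A g⁻¹ q p * c i p) • b q : MZ W) : G → ℤ) 1 =
        ∑ q, (∑ p, A g⁻¹ q p * c i p) * (b q).1 1 := by
      rw [Submodule.coe_sum, Finset.sum_apply]
      rfl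
    rw [h9]
    rfl
  have hsep : ∀ g h : G, ρ g = ρ h → ∀ f : MZ W, f.1 g⁻¹ = f.1 h⁻¹ ∧
      (TZ W hinv g⁻¹ = TZ W hinv h⁻¹) := by
    intro g h hgh f
    have h1 : A g⁻¹ = A h⁻¹ := Matrix.transpose_injective hgh
    have h5 : TZ W hinv g⁻¹ = TZ W hinv h⁻¹ := (LinearMap.toMatrix b b).injective h1
    refine ⟨?_, h5⟩
    have h6 := congrArg (fun T : MZ W →ₗ[ℤ] MZ W => (T f).1 1) h5
    simpa [TZ_apply] using h6
  refine ⟨{
    n := finrank ℤ (MZ W)
    ρ := ρ
    inj := ?_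
    unip := ?_
    r := s
    a := fun i => (a (Fin.rev i))
    mem := fun i => h0 _
    surj := ?_
    coord := fun i => - L (Fin.rev i)
    coord_spec := ?_
    normal := ?_ }⟩
  · rw [injective_iff_map_eq_one]
    intro g hg
    rw [← map_one ρ] at hg
    have hgN : g ∈ N := by
      rw [← hπN]
      apply Multiplicative.toAdd.injective
      funext j
      have hmem : (fun g => (Multiplicative.toAdd (π g) j : ℤ)) ∈ MZ W := hπW j
      have h5 := (hsep g 1 hg ⟨_, hmem⟩).1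
      simp only [inv_one, map_one, map_inv, toAdd_inv, Pi.neg_apply, toAdd_one,
        Pi.zero_apply] at h5
      rw [toAdd_one, Pi.zero_apply]
      omega
    obtain ⟨x, hx⟩ := h2 g⁻¹ (N.inv_mem hgN)
    have hx0 : x = 0 := by
      funext i
      have h5 := (hsep g 1 hg ⟨ez i, hezW i⟩).1
      simp only [inv_one] at h5
      rw [hx, hez3] at h5
      have h6 := hez3 0 i
      rw [show pw a 0 = 1 by simp [pw]] at h6
      rw [h5, h6]
    rw [hx0, show pw a 0 = 1 by simp [pw]] at hx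
    exact inv_eq_one.1 hx
  · intro x hx
    have h5 : (A x⁻¹ - 1) ^ d = 0 := by
      have h6 := TZ_unip W hinv hd (N.inv_mem hx)
      have h9 := congrArg (LinearMap.toMatrixAlgEquiv b) h6
      rw [map_pow, map_sub, map_one, map_zero] at h9
      exact h9
    have h6 : (A x⁻¹ - 1) ^ finrank ℤ (MZ W) = 0 := matrix_pow_eq_zero h5
    show ((A x⁻¹).transpose - 1) ^ finrank ℤ (MZ W) = 0
    rw [← Matrix.transpose_one, ← Matrix.transpose_sub, ← Matrix.transpose_pow, h6,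
      Matrix.transpose_zero]
  · intro x hx
    obtain ⟨y, hy⟩ := h2 x⁻¹ (N.inv_mem hx)
    refine ⟨fun i => - y (Fin.rev i), ?_⟩
    rw [← inv_pw, ← hy, inv_inv]
  · intro x i
    show - (L (Fin.rev i)) (ρ _) = _
    rw [hL, inv_prodE, hez3, Fin.rev_rev, neg_neg]
  · intro j x y hx i hi
    show - (L (Fin.rev i)) (ρ _) = _
    rw [hL, neg_eq_zero]
    have h5 : (prodE (fun i => a (Fin.rev i)) y * prodE (fun i => a (Fin.rev i)) x *
        (prodE (fun i => a (Fin.rev i)) y)⁻¹)⁻¹ =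
        (pw a (fun i => - y (Fin.rev i)))⁻¹ * pw a (fun i => - x (Fin.rev i)) *
          ((pw a (fun i => - y (Fin.rev i)))⁻¹)⁻¹ := by
      rw [← inv_prodE, ← inv_prodE]; group
    rw [h5]
    have h6 := h7 (s - j) (fun i => - x (Fin.rev i)) (fun i' hi' => by
      rw [hx, neg_zero]
      rw [Fin.val_rev]; omega) ((pw a (fun i => - y (Fin.rev i)))⁻¹) (by
      refine N.inv_mem ?_
      rw [pw]
      refine Subgroup.list_prod_mem _ ?_
      intro z hz
      rw [List.mem_ofFn] at hz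
      obtain ⟨i', rfl⟩ := hz
      exact N.zpow_mem (h0 i') _) (Fin.rev i) (by rw [Fin.val_rev]; omega)
    rw [hez] at h6
    exact_mod_cast h6

theorem exists_embData_of_rootData (D : RootData G) : Nonempty (EmbData G D.N) :=
  exists_embData D.normal D.nilp D.pz D.π D.surj D.mem_N

end Crest.Agent.R182.PolycEmb
end

-- ▼ part R182/ModelAsm

set_option autoImplicit false
set_option linter.unusedSectionVars false

open MeasureTheory

namespace Crest.Agent.R182.ModelAsm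

open Crest.GroupTheory Crest.Geometry Crest.Agent.R182.QI Crest.Agent.R182.FinPath
  Crest.Agent.R182.FinRed Crest.Agent.R182.Bnd Crest.Agent.R182.Polyc Crest.Agent.R182.Model
  Crest.Agent.R182.ModelWt Crest.Agent.R182.ModelCt Crest.Agent.R182.Core

attribute [local instance] Matrix.linftyOpNormedRing Matrix.linftyOpNormedAlgebra
attribute [local instance 100] LieRing.ofAssociativeRing

variable {Γ : Type*} [Group Γ] (R : RootData Γ) (S : Set Γ)

/-- the data from which the model is assembled -/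
structure Pre where
  D : EmbData Γ R.N
  C₀ : ℝ
  big : Big D S C₀
  𝒞 : Cartan D (π1 R D)
  ht : ∃ γ : Γ, 𝒞.t = inΓ D γ
  hχ : ∀ j, 𝒞.W.χ j 𝒞.t = 1 → 𝒞.W.χ j = 1
  𝒷 : AdBas 𝒞

variable {R S}

/-- length -/
noncomputable def Pre.ln (P : Pre R S) (g : G1 P.D) : ℝ := (Model.len P.D P.C₀ g : ℝ)

/-- the fact `XModel.sub_conj` -/
def SubConj (P : Pre R S) : Prop :=
  ∃ R₀ : ℝ, ∀ b ∈ Cf P.D P.𝒞.t, ∀ Rr δ : ℝ, 0 < δ → ∃ N₀ : ℕ, ∀ N : ℕ, N₀ ≤ N →
    ∀ j : ℕ, j ≤ N → ∀ y ∈ P.𝒞.C, (Model.len P.D P.C₀ y : ℝ) ≤ Rr →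
      ∃ l : List (G1 P.D), b ^ j * y * (b ^ j)⁻¹ = l.prod ∧ (l.length : ℝ) ≤ δ * N ∧
        ∀ s ∈ l, s ∈ P.𝒞.C ∧ (Model.len P.D P.C₀ s : ℝ) ≤ R₀

theorem mul_mono {a a' x : ℝ} (h : a ≤ a') (hx : 0 ≤ x) : a * x ≤ a' * x :=
  mul_le_mul_of_nonneg_right h hx

/-- the constants and choices -/
theorem exists_choices (P : Pre R S) : ∃ (a : ℝ) (t : (Fin R.k → ℤ) → G1 P.D),
    1 ≤ a ∧
    (∀ γ, (Model.len P.D P.C₀ (inΓ P.D γ) : ℝ) ≤ a * wordLength S γ) ∧
    (∀ γ : Γ, (wordLength S γ : ℝ) ≤ a * Model.len P.D P.C₀ (inΓ P.D γ) + a) ∧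
    (∀ g i, |hgt R P.D g i| ≤ a * Model.len P.D P.C₀ g) ∧
    (∀ Rr : ℝ, ∃ A : ℕ, ∀ n : ℕ, ∃ F : Finset (G1 P.D), F.card ≤ A * (1 + n) ^ A ∧
      ∀ l : List (G1 P.D), l.length ≤ n →
        (∀ s ∈ l, s ∈ P.𝒞.C ∧ (Model.len P.D P.C₀ s : ℝ) ≤ Rr) →
        ∃ f ∈ F, f ∈ P.𝒞.C ∧ (Model.len P.D P.C₀ (f⁻¹ * l.prod) : ℝ) ≤ a) ∧
    (∀ v i, hgt R P.D (t v) i = v i) ∧
    (∀ v, ∃ l : List (G1 P.D), t v = l.prod ∧ l.length ≤ n1 v ∧
        ∀ s ∈ l, s ∈ Cf P.D P.𝒞.t ∧ (Model.len P.D P.C₀ s : ℝ) ≤ a) ∧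
    (∀ (n : ℝ) (u : G1 P.D), hgt R P.D u = 0 → ∃ l : List (G1 P.D), u = l.prod ∧
      ∀ r ∈ l, hgt R P.D r = 0 ∧ ∀ g, (Model.len P.D P.C₀ g : ℝ) ≤ n →
        (Model.len P.D P.C₀ (g⁻¹ * r * g) : ℝ) ≤ a) ∧
    (∀ g i j, |P.𝒷.bas.repr (P.𝒞.AdE g (P.𝒷.bas j)) i| ≤
      Real.exp (a * Model.len P.D P.C₀ g + a)) ∧
    (∀ x, ‖P.𝒷.bas.equivFun x‖ ≤ Real.exp (a * Model.len P.D P.C₀ (P.𝒞.exE x) + a)) ∧
    (∀ x, (Model.len P.D P.C₀ (P.𝒞.exE x) : ℝ) ≤
      a * Real.log (2 + ‖P.𝒷.bas.equivFun x‖)) := by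
  obtain ⟨a₁, ha₁⟩ := P.big.wordLength_le
  obtain ⟨a₂, ha₂0, ha₂⟩ := P.big.hgt_le (R := R)
  obtain ⟨a₃, ha₃⟩ := ModelWt.C_growth P.big P.𝒞 (ModelX.hgr P.big P.𝒞)
  obtain ⟨t, a₄, ht, ha₄⟩ := exists_vert R P.D P.big (Cf P.D P.𝒞.t)
    (exists_mul_Cf (abQ (D := P.D)) P.𝒞.t)
  obtain ⟨a₅, ha₅⟩ := P.big.exists_tiny
  obtain ⟨a₆, ha₆0, ha₆⟩ := P.𝒷.Ad_le P.big
  obtain ⟨a₇, ha₇0, ha₇⟩ := P.𝒷.le_len_ex P.big
  obtain ⟨a₈, ha₈0, ha₈⟩ := ModelX.len_exE_le P.big P.𝒷 (hs_π1 R P.D)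
  set a : ℝ := 1 + a₁ + a₂ + a₃ + |a₄| + a₅ + a₆ + a₇ + a₈ with ha
  have p1 : (0 : ℝ) ≤ a₁ := Nat.cast_nonneg _
  have p3 : (0 : ℝ) ≤ a₃ := Nat.cast_nonneg _
  have p4 : (0 : ℝ) ≤ |a₄| := abs_nonneg _
  have p5 : (0 : ℝ) ≤ a₅ := Nat.cast_nonneg _
  have q1 : (a₁ : ℝ) ≤ a := by linarith
  have q2 : a₂ ≤ a := by linarith
  have q3 : (a₃ : ℝ) ≤ a := by linarith
  have q4 : a₄ ≤ a := by have := le_abs_self a₄; linarith
  have q5 : (a₅ : ℝ) ≤ a := by linarith
  have q6 : a₆ ≤ a := by linarith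
  have q7 : a₇ ≤ a := by linarith
  have q8 : a₈ ≤ a := by linarith
  have q0 : 1 ≤ a := by linarith
  refine ⟨a, t, q0, fun γ => ?_, fun γ => ?_, fun g i => ?_, fun Rr => ?_, ht, fun v => ?_,
    fun n u hu => ?_, fun g i j => ?_, fun x => ?_, fun x => ?_⟩
  · have h1 : (Model.len P.D P.C₀ (inΓ P.D γ) : ℝ) ≤ wordLength S γ := by
      exact_mod_cast P.big.len_inΓ_le γ
    refine h1.trans ?_
    exact le_mul_of_one_le_left (Nat.cast_nonneg _) q0
  · have h1 : (wordLength S γ : ℝ) ≤ a₁ * Model.len P.D P.C₀ (inΓ P.D γ) := by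
      exact_mod_cast ha₁ γ
    have h2 := mul_mono q1 (Nat.cast_nonneg (α := ℝ) (Model.len P.D P.C₀ (inΓ P.D γ)))
    linarith
  · exact (ha₂ g i).trans (mul_mono q2 (Nat.cast_nonneg _))
  · obtain ⟨A, hA⟩ := ha₃ Rr
    refine ⟨A, fun n => ?_⟩
    obtain ⟨F, hF1, hF2⟩ := hA n
    refine ⟨F, hF1, fun l hl hls => ?_⟩
    obtain ⟨f, hf, hfC, hfl⟩ := hF2 l hl hls
    exact ⟨f, hf, hfC, hfl.trans q3⟩
  · obtain ⟨l, hl1, hl2, hl3⟩ := ha₄ v
    exact ⟨l, hl1, hl2.le, fun s hs => ⟨(hl3 s hs).1, (hl3 s hs).2.trans q4⟩⟩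
  · obtain ⟨l, hl1, hl2⟩ := ha₅ n u ((hgt_eq_zero_iff R P.D u).1 hu)
    refine ⟨l, hl1, fun r hr => ⟨(hgt_eq_zero_iff R P.D r).2 (hl2 r hr).1, fun g hg => ?_⟩⟩
    have h1 : (Model.len P.D P.C₀ (g⁻¹ * r * g) : ℝ) ≤ a₅ := by
      exact_mod_cast (hl2 r hr).2 g hg
    exact h1.trans q5
  · refine (ha₆ g i j).trans (Real.exp_le_exp.2 ?_)
    have := mul_mono q6 (Nat.cast_nonneg (α := ℝ) (Model.len P.D P.C₀ g))
    linarith
  · refine (ha₇ x).trans (Real.exp_le_exp.2 ?_)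
    have := mul_mono q7 (Nat.cast_nonneg (α := ℝ) (Model.len P.D P.C₀ (P.𝒞.exE x)))
    linarith
  · refine (ha₈ x).trans (mul_mono q8 (Real.log_nonneg ?_))
    have := norm_nonneg (P.𝒷.bas.equivFun x)
    linarith

theorem Pre.Λ_surj (P : Pre R S) (i : Fin P.𝒷.r) (hi : i ∈ P.𝒷.gen) :
    ∃ j, Λ1 R j = P.𝒷.wt i := by
  obtain ⟨j, hj⟩ := P.𝒷.Λ_surj P.ht i hi
  rw [← hj]
  refine exists_Λ1 R ?_
  rw [hj]
  exact P.𝒷.wt_gen_ne i hi

theorem Pre.rnd_meas (P : Pre R S) (g g' : G1 P.D) (γ : Γ) :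
    MeasurableSet {y : Fin P.𝒷.r → ℝ |
      Model.rnd P.D P.C₀ (g * P.𝒞.exE (P.𝒷.bas.equivFun.symm y) * g') = γ} := by
  have hf : Continuous (fun y : Fin P.𝒷.r → ℝ =>
      ((P.𝒷.bas.equivFun.symm y : P.𝒞.eA) : Matrix (Fin P.D.n) (Fin P.D.n) ℝ)) :=
    LinearMap.continuous_of_finiteDimensional
      (P.𝒞.ξ ∘ₗ (P.𝒷.bas.equivFun.symm : (Fin P.𝒷.r → ℝ) →ₗ[ℝ] P.𝒞.eA))
  exact P.big.measurableSet_rnd_exG _ hf (fun y => P.𝒞.eA_mem_lie _) g g' γ

theorem Pre.h_int (P : Pre R S) (g : G1 P.D) : ∃ v : Fin R.k → ℤ, ∀ i, hgt R P.D g i = v i :=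
  ⟨Multiplicative.toAdd (π1 R P.D g), fun _ => rfl⟩

/-- **THE MODEL** -/
noncomputable def model (P : Pre R S) (H : SubConj P) : BModel S R.π where
  G := G1 P.D
  L := P.𝒞.eA
  ι := inΓ P.D
  len := fun g => (Model.len P.D P.C₀ g : ℝ)
  isLen := P.big.isLen
  a := (exists_choices P).choose
  one_le_a := (exists_choices P).choose_spec.choose_spec.1
  len_ι := (exists_choices P).choose_spec.choose_spec.2.1
  ι_len := (exists_choices P).choose_spec.choose_spec.2.2.1
  rnd := Model.rnd P.D P.C₀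
  len_rnd := fun g => by
    have h1 : (Model.len P.D P.C₀ ((inΓ P.D (Model.rnd P.D P.C₀ g))⁻¹ * g) : ℝ) ≤ 1 := by
      exact_mod_cast P.big.len_letter (P.big.rnd_mem g)
    exact h1.trans (exists_choices P).choose_spec.choose_spec.1
  letters := fun g => by
    obtain ⟨l, h1, h2, h3⟩ := P.big.letters g
    refine ⟨l, h1, by rw [h2]; exact le_add_of_nonneg_right zero_le_one, fun s hs => ?_⟩
    have h4 : (Model.len P.D P.C₀ s : ℝ) ≤ 1 := by exact_mod_cast h3 s hs
    exact h4.trans (exists_choices P).choose_spec.choose_spec.1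
  h := hgt R P.D
  h_mul := hgt_mul R P.D
  h_ι := hgt_inΓ R P.D
  h_int := P.h_int
  h_le := (exists_choices P).choose_spec.choose_spec.2.2.2.1
  c := P.𝒞.exists_nilCE.choose
  nilC := P.𝒞.exists_nilCE.choose_spec.2
  star := P.𝒞.starE
  ex := P.𝒞.exE
  ex_op := P.𝒞.exE_op
  ex_inj := P.𝒞.exE_injective
  h_ex := P.𝒞.hv_exE
  Ad := P.𝒞.AdE
  Ad_lie := P.𝒞.AdE_lie
  star_cj := P.𝒞.starE_bch P.𝒞.exists_nilCE.choose_spec.2
  conj_ex := P.𝒞.conj_exE
  r := P.𝒷.r
  bas := P.𝒷.bas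
  wt := P.𝒷.wt
  lie_wt := P.𝒷.lie_wt
  gen := P.𝒷.gen
  lie_gen := P.𝒷.lie_gen
  gen_span := P.𝒷.gen_span
  wt_gen_ne := P.𝒷.wt_gen_ne
  tr := P.𝒷.tr (hs_π1 R P.D)
  sep := P.𝒷.sep
  C := P.𝒞.C
  C_solv := by
    have : Group.IsSolvable (G1 P.D) := isSolvable_G1 P.D (π1 R P.D) (ker_π1 R P.D)
    infer_instance
  C_growth := (exists_choices P).choose_spec.choose_spec.2.2.2.2.1
  CN := Cf P.D P.𝒞.t
  CN_le := Cf_le P.𝒞
  CN_nil := isNilpotent_Cf P.𝒞 P.hχ
  sub_conj := by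
    obtain ⟨R₀, hR₀⟩ := H
    intro b hb Rr δ hδ
    obtain ⟨N₁, hN₁⟩ := hR₀ b hb Rr δ hδ
    obtain ⟨N₂, hN₂⟩ := hR₀ b⁻¹ ((Cf P.D P.𝒞.t).inv_mem hb) Rr δ hδ
    refine ⟨R₀, max N₁ N₂, fun N hN j hj y hy hyl =>
      ⟨hN₁ N ((le_max_left _ _).trans hN) j hj y hy hyl, ?_⟩⟩
    obtain ⟨l, h1, h2⟩ := hN₂ N ((le_max_right _ _).trans hN) j hj y hy hyl
    refine ⟨l, ?_, h2⟩
    rw [← h1, inv_pow, inv_inv]
  ex_mem_C := P.𝒷.ex_mem_C
  t := (exists_choices P).choose_spec.choose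
  h_t := (exists_choices P).choose_spec.choose_spec.2.2.2.2.2.1
  t_list := (exists_choices P).choose_spec.choose_spec.2.2.2.2.2.2.1
  Ad_C := P.𝒷.Ad_C
  d := (P.𝒷.Ad_C_le P.big).choose
  Ad_C_le := (P.𝒷.Ad_C_le P.big).choose_spec
  dec := P.𝒷.dec P.big
  tiny := (exists_choices P).choose_spec.choose_spec.2.2.2.2.2.2.2.1
  Ad_le := (exists_choices P).choose_spec.choose_spec.2.2.2.2.2.2.2.2.1
  le_len_ex := (exists_choices P).choose_spec.choose_spec.2.2.2.2.2.2.2.2.2.1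
  len_ex_le := (exists_choices P).choose_spec.choose_spec.2.2.2.2.2.2.2.2.2.2
  vol_left := ModelVol.vol_left P.𝒷
  vol_right := ModelVol.vol_right P.𝒷
  vol_Ad := ModelVol.vol_Ad P.𝒷 (hs_π1 R P.D)
  rnd_meas := P.rnd_meas
  m := m1 R
  Λ := Λ1 R
  Λ_ne := Λ1_ne R
  Λ_surj := P.Λ_surj
  χ := fun j g => ((χ1 R P.D (e1 R j) g : ℂˣ) : ℂ)
  δ := P.big.exists_crossed1.choose
  crossed := P.big.exists_crossed1.choose_spec.1
  χ_one := fun j g hg => by
    have := χ1_one R P.D (e1 R j) hg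
    simpa using this
  lδ := fun j => P.𝒷.lδ (e1 R j)
  δ_ex := fun j x => P.big.exists_crossed1.choose_spec.2.2 j _ (P.𝒞.eA_mem_lie x)
  lδ_supp := fun j => P.𝒷.lδ_supp (e1 R j)
  lδ_ne := fun j => P.𝒷.lδ_ne (e1 R j) (e1 R j).2

theorem exists_pre (R : RootData Γ) {S : Set Γ} (hf : S.Finite)
    (hS : Subgroup.closure S = ⊤) : Nonempty (Pre R S) := by
  obtain ⟨D⟩ := PolycEmb.exists_embData_of_rootData R
  obtain ⟨C₀, hC₀⟩ := exists_big D hf hS
  obtain ⟨𝒞, ht, hχ⟩ := exists_cartan_full D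
  obtain ⟨𝒷⟩ := 𝒞.exists_adBas
  exact ⟨⟨D, C₀, hC₀, 𝒞, ht, hχ, 𝒷⟩⟩

theorem xModel (P : Pre R S) (H : SubConj P) : XModel (model P H) where
  sub_conj := H
  C_dist := ModelX.cdist P.big P.𝒷

theorem fineAll (P : Pre R S) (H : SubConj P) : FineAll (model P H) :=
  fun _ hb _ hv h0 => ModelX.fine P.big P.𝒞 hb hv h0

/-- **the model exists**, from `sub_conj` -/
theorem hasModel_of (R : RootData Γ)
    (hH : ∀ (S : Finset Γ) (P : Pre R (S : Set Γ)), SubConj P) : Asm3.HasModel Γ R := by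
  intro S hS A hA hAf hcl
  obtain ⟨P⟩ := exists_pre R S.finite_toSet hS
  have hx : ∀ i : Fin R.k, ∃ γ : Γ, FinPath.hgt R.π γ = Pi.single i 1 := by
    intro i
    obtain ⟨γ, hγ⟩ := R.surj (Multiplicative.ofAdd (Pi.single i 1))
    exact ⟨γ, by rw [FinPath.hgt, hγ]; rfl⟩
  choose x hx using hx
  refine ⟨x, hx, model P (hH S P), ?_, xModel P (hH S P)⟩
  refine exists_bExt (fineAll P (hH S P)) (xModel P (hH S P)).C_dist hAf fun a ha => ?_
  have h1 : a ∈ R.π.ker := by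
    rw [← hcl]; exact Subgroup.subset_closure ha
  rw [MonoidHom.mem_ker] at h1
  funext i
  simp [hgtR, FinPath.hgt, h1]

theorem subConj (hN : ModelSub.ExistsNil) (P : Pre R S) : SubConj P :=
  ModelSub.sub_conj_of P.big P.hχ fun _ hb => ModelSub.jn hN P.𝒞 hb

theorem hasModel_of_nil (hN : ModelSub.ExistsNil) (R : RootData Γ) : Asm3.HasModel Γ R :=
  hasModel_of R fun _ P => subConj hN P

theorem existsNil : ModelSub.ExistsNil := fun _ W hbr hnil u hu h1 _ =>
  Sub.exists_nil W hbr hnil u hu h1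

/-- **THE REAL MODEL EXISTS** -/
theorem hasModel (R : RootData Γ) : Asm3.HasModel Γ R := hasModel_of_nil existsNil R

end Crest.Agent.R182.ModelAsm
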